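import Crest.Agent.R185.Tor1

-- ▼ part R185/Hot1
section

/-!
# R185 / HOTEL (1): the colimit set `Y_∞` and the action of the mapping torus

`H` acts on `Y`, `φ : H →* H`, `θ : Y → Y` injective with `θ (h • y) = φ h • θ y`.  The mapping torus
`Γ = H *_φ` acts on `Y_∞ = colim (Y, θ)`, `t` acting as `θ`.
-/

set_option autoImplicit false

namespace Crest.Agent.R185.Hot

/-! ### the torus for arbitrary groups -/

section torus

variable {H : Type} [Group H] (φ : H →* H)

/-- the mapping torus `H *_φ` -/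
abbrev GT : Type := Tor.TG φ Set.univ

/-- the base of the torus -/
abbrev gi : H →* GT φ := Tor.ib φ Set.univ

/-- the stable letter -/
abbrev gt : GT φ := Tor.tt φ Set.univ

theorem gt_conj (h : H) : gt φ * gi φ h * (gt φ)⁻¹ = gi φ (φ h) :=
  Tor.rel_all φ Set.univ Subgroup.closure_univ h

theorem closure_gt : Subgroup.closure (Set.range (gi φ) ∪ {gt φ}) = ⊤ := by
  rw [eq_top_iff]
  intro γ hγ
  clear hγ
  obtain ⟨x, rfl⟩ := Tor.pr_surj φ Set.univ γ
  induction x using Monoid.Coprod.induction_on with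
  | inl u => exact Subgroup.subset_closure (Or.inl ⟨u, rfl⟩)
  | inr n =>
    have h3 : Tor.pr φ Set.univ (Monoid.Coprod.inr n) = gt φ ^ (Multiplicative.toAdd n) := by
      have h4 : n = (Multiplicative.ofAdd (1 : ℤ)) ^ (Multiplicative.toAdd n) := by
        rw [← ofAdd_zsmul]; simp
      have h5 : (Monoid.Coprod.inr n : Monoid.Coprod H (Multiplicative ℤ)) =
          (Monoid.Coprod.inr (Multiplicative.ofAdd (1 : ℤ))) ^ (Multiplicative.toAdd n) := by
        rw [← map_zpow, ← h4]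
      rw [h5, map_zpow]
      rfl
    have h6 : gt φ ∈ Subgroup.closure (Set.range (gi φ) ∪ {gt φ}) :=
      Subgroup.subset_closure (Or.inr rfl)
    rw [h3]
    exact Subgroup.zpow_mem _ h6 _
  | mul x y hx hy => rw [map_mul]; exact Subgroup.mul_mem _ hx hy

theorem gt_form (γ : GT φ) : ∃ (a b : ℕ) (h : H), γ = (gt φ)⁻¹ ^ a * gi φ h * gt φ ^ b :=
  Tor.form_all (gt_conj φ) (closure_gt φ) γ

theorem gt_lift {K : Type} [Group K] (f : H →* K) (x : K) (h : ∀ a, x * f a * x⁻¹ = f (φ a)) :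
    ∃ F : GT φ →* K, (∀ a, F (gi φ a) = f a) ∧ F (gt φ) = x :=
  Tor.exists_lift φ Set.univ f x h

theorem gt_ext {K : Type} [Group K] {F F' : GT φ →* K} (h1 : ∀ a, F (gi φ a) = F' (gi φ a))
    (h2 : F (gt φ) = F' (gt φ)) : F = F' := by
  apply MonoidHom.ext
  intro γ
  obtain ⟨a, b, h, rfl⟩ := gt_form φ γ
  simp only [map_mul, map_pow, map_inv, h1, h2]

variable {φ}

theorem exists_isTorus (hφ : Function.Injective φ) :
    ∃ ht : GT φ →* Multiplicative ℤ, Tor.IsTorus φ (gi φ) (gt φ) ht := by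
  obtain ⟨ht, h1, h2⟩ := gt_lift φ (1 : H →* Multiplicative ℤ) (Multiplicative.ofAdd (1 : ℤ))
    (by intro a; simp)
  exact ⟨ht, Tor.ib_inj Set.univ hφ, gt_conj φ, h2, h1, gt_form φ⟩

/-- shift equivalence: if `φ = q ∘ i` through a finitely presented group, the torus is finitely
presented -/
theorem gt_fp {E : Type} [Group E] (hE : Group.IsFinitelyPresented E) (i : H →* E) (q : E →* H)
    (hqi : ∀ h, q (i h) = φ h) : Group.IsFinitelyPresented (GT φ) := by
  obtain ⟨S, hSf, hS⟩ := Tor.exists_gen E hE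
  let χ : E →* E := i.comp q
  have hT : Group.IsFinitelyPresented (Tor.TG χ S) := by
    have : Group.IsFinitelyPresented (Monoid.Coprod E (Multiplicative ℤ)) := inferInstance
    exact Group.IsFinitelyPresented.quotient (Subgroup.normalClosure (Tor.rel χ S))
      ⟨Tor.rel χ S, hSf.image _, rfl⟩
  have hrel : ∀ u, Tor.tt χ S * Tor.ib χ S u * (Tor.tt χ S)⁻¹ = Tor.ib χ S (χ u) :=
    Tor.rel_all χ S hS
  obtain ⟨A, hA1, hA2⟩ := Tor.exists_lift χ S ((gi φ).comp q) (gt φ) (by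
    intro a
    change gt φ * gi φ (q a) * (gt φ)⁻¹ = gi φ (q (i (q a)))
    rw [hqi, gt_conj])
  obtain ⟨B, hB1, hB2⟩ := gt_lift φ
    ((MulAut.conj (Tor.tt χ S)⁻¹).toMonoidHom.comp ((Tor.ib χ S).comp i)) (Tor.tt χ S) (by
    intro a
    change Tor.tt χ S * ((Tor.tt χ S)⁻¹ * Tor.ib χ S (i a) * (Tor.tt χ S)⁻¹⁻¹) * (Tor.tt χ S)⁻¹ =
      (Tor.tt χ S)⁻¹ * Tor.ib χ S (i (φ a)) * (Tor.tt χ S)⁻¹⁻¹
    have h1 := hrel (i a)
    change _ = Tor.ib χ S (i (q (i a))) at h1
    rw [hqi] at h1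
    rw [← h1]
    group)
  have hB1' : ∀ a, B (gi φ a) = (Tor.tt χ S)⁻¹ * Tor.ib χ S (i a) * Tor.tt χ S := by
    intro a
    rw [hB1]
    change (Tor.tt χ S)⁻¹ * Tor.ib χ S (i a) * (Tor.tt χ S)⁻¹⁻¹ = _
    rw [inv_inv]
  have hAB : ∀ γ, A (B γ) = γ := by
    intro γ
    have : A.comp B = MonoidHom.id _ := by
      apply gt_ext
      · intro a
        change A (B (gi φ a)) = gi φ a
        rw [hB1', map_mul, map_mul, map_inv, hA2, hA1]
        change (gt φ)⁻¹ * gi φ (q (i a)) * gt φ = _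
        rw [hqi, ← gt_conj]
        group
      · change A (B (gt φ)) = gt φ
        rw [hB2, hA2]
    exact DFunLike.congr_fun this γ
  have hgen : Subgroup.closure (Set.range (Tor.ib χ S) ∪ {Tor.tt χ S}) = ⊤ := by
    rw [eq_top_iff]
    intro γ hγ
    clear hγ
    obtain ⟨x, rfl⟩ := Tor.pr_surj χ S γ
    induction x using Monoid.Coprod.induction_on with
    | inl u => exact Subgroup.subset_closure (Or.inl ⟨u, rfl⟩)
    | inr n =>
      have h3 : Tor.pr χ S (Monoid.Coprod.inr n) = Tor.tt χ S ^ (Multiplicative.toAdd n) := by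
        have h4 : n = (Multiplicative.ofAdd (1 : ℤ)) ^ (Multiplicative.toAdd n) := by
          rw [← ofAdd_zsmul]; simp
        have h5 : (Monoid.Coprod.inr n : Monoid.Coprod E (Multiplicative ℤ)) =
            (Monoid.Coprod.inr (Multiplicative.ofAdd (1 : ℤ))) ^ (Multiplicative.toAdd n) := by
          rw [← map_zpow, ← h4]
        rw [h5, map_zpow]
        rfl
      have h6 : Tor.tt χ S ∈ Subgroup.closure (Set.range (Tor.ib χ S) ∪ {Tor.tt χ S}) :=
        Subgroup.subset_closure (Or.inr rfl)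
      rw [h3]
      exact Subgroup.zpow_mem _ h6 _
    | mul x y hx hy => rw [map_mul]; exact Subgroup.mul_mem _ hx hy
  have hBA : ∀ γ, B (A γ) = γ := by
    intro γ
    obtain ⟨a, b, u, rfl⟩ := Tor.form_all hrel hgen γ
    have h1 : B (A (Tor.ib χ S u)) = Tor.ib χ S u := by
      rw [hA1]
      change B (gi φ (q u)) = _
      rw [hB1']
      have h2 := hrel u
      change _ = Tor.ib χ S (i (q u)) at h2
      rw [← h2]
      group
    have h2 : B (A (Tor.tt χ S)) = Tor.tt χ S := by rw [hA2, hB2]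
    simp only [map_mul, map_pow, map_inv, h1, h2]
  exact Group.IsFinitelyPresented.equiv
    ({ toFun := A, invFun := B, left_inv := hBA, right_inv := hAB, map_mul' := A.map_mul } :
      Tor.TG χ S ≃* GT φ)

end torus

/-! ### the colimit -/

section colim

variable {H Y : Type} [Group H] [MulAction H Y] {φ : H →* H} {θ : Y → Y}

/-- the relation `(n, y) ~ (m, y')` iff `θᵐ y = θⁿ y'` -/
def ySetoid (hθ : Function.Injective θ) : Setoid (ℕ × Y) where
  r p q := θ^[q.1] p.2 = θ^[p.1] q.2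
  iseqv := by
    refine ⟨fun _ => rfl, fun h => h.symm, ?_⟩
    rintro ⟨n, y⟩ ⟨m, y'⟩ ⟨k, y''⟩ h1 h2
    simp only at h1 h2 ⊢
    apply hθ.iterate m
    rw [← Function.iterate_add_apply, ← Function.iterate_add_apply, add_comm m k,
      Function.iterate_add_apply, h1, ← Function.iterate_add_apply, add_comm k n,
      Function.iterate_add_apply, h2, ← Function.iterate_add_apply, add_comm n m]

/-- the colimit set -/
def YY (hθ : Function.Injective θ) : Type := Quotient (ySetoid hθ)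

variable (hθ : Function.Injective θ)

/-- the point `t⁻ⁿ y` -/
def pt (n : ℕ) (y : Y) : YY hθ := Quotient.mk (ySetoid hθ) (n, y)

theorem pt_eq {n m : ℕ} {y y' : Y} : pt hθ n y = pt hθ m y' ↔ θ^[m] y = θ^[n] y' :=
  ⟨fun h => Quotient.exact (s := ySetoid hθ) h, fun h => Quotient.sound (s := ySetoid hθ) h⟩

theorem pt_surj (x : YY hθ) : ∃ n y, x = pt hθ n y := by
  obtain ⟨⟨n, y⟩, rfl⟩ := Quotient.exists_rep x
  exact ⟨n, y, rfl⟩

theorem pt_succ (n : ℕ) (y : Y) : pt hθ (n + 1) (θ y) = pt hθ n y := by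
  rw [pt_eq, Function.iterate_succ_apply]


theorem pt_zero_inj {y y' : Y} (h : pt hθ 0 y = pt hθ 0 y') : y = y' := (pt_eq hθ).1 h

/-- the action of `t` -/
def tP : Equiv.Perm (YY hθ) where
  toFun := Quotient.map' (s₁ := ySetoid hθ) (s₂ := ySetoid hθ) (fun p => (p.1, θ p.2)) (by
    rintro ⟨n, y⟩ ⟨m, y'⟩ h
    change θ^[m] (θ y) = θ^[n] (θ y')
    change θ^[m] y = θ^[n] y' at h
    rw [← Function.iterate_succ_apply, ← Function.iterate_succ_apply,
      Function.iterate_succ_apply', Function.iterate_succ_apply', h])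
  invFun := Quotient.map' (s₁ := ySetoid hθ) (s₂ := ySetoid hθ) (fun p => (p.1 + 1, p.2)) (by
    rintro ⟨n, y⟩ ⟨m, y'⟩ h
    change θ^[m + 1] y = θ^[n + 1] y'
    change θ^[m] y = θ^[n] y' at h
    rw [Function.iterate_succ_apply', Function.iterate_succ_apply', h])
  left_inv := by
    intro x
    obtain ⟨n, y, rfl⟩ := pt_surj hθ x
    exact pt_succ hθ n y
  right_inv := by
    intro x
    obtain ⟨n, y, rfl⟩ := pt_surj hθ x
    exact pt_succ hθ n y

theorem tP_pt (n : ℕ) (y : Y) : tP hθ (pt hθ n y) = pt hθ n (θ y) := rfl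


theorem tP_pow_pt (k n : ℕ) (y : Y) : (tP hθ ^ k) (pt hθ n y) = pt hθ n (θ^[k] y) := by
  induction k with
  | zero => rfl
  | succ k ih =>
    rw [pow_succ', Equiv.Perm.mul_apply, ih, tP_pt, Function.iterate_succ_apply']


theorem iter_smul (he : ∀ (h : H) (y : Y), θ (h • y) = φ h • θ y) (n : ℕ) (h : H) (y : Y) :
    θ^[n] (h • y) = (φ^[n]) h • θ^[n] y := by
  induction n generalizing h y with
  | zero => rfl
  | succ n ih => rw [Function.iterate_succ_apply, he, ih, Function.iterate_succ_apply,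
      Function.iterate_succ_apply]

variable (he : ∀ (h : H) (y : Y), θ (h • y) = φ h • θ y)

/-- the action of `h` as a map -/
def hf (h : H) : YY hθ → YY hθ :=
  Quotient.map' (s₁ := ySetoid hθ) (s₂ := ySetoid hθ) (fun p => (p.1, (φ^[p.1]) h • p.2)) (by
    rintro ⟨n, y⟩ ⟨m, y'⟩ hh
    change θ^[m] ((φ^[n]) h • y) = θ^[n] ((φ^[m]) h • y')
    change θ^[m] y = θ^[n] y' at hh
    rw [iter_smul he, iter_smul he, hh, ← Function.iterate_add_apply,
      ← Function.iterate_add_apply, add_comm])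

theorem hf_pt (h : H) (n : ℕ) (y : Y) : hf hθ he h (pt hθ n y) = pt hθ n ((φ^[n]) h • y) := rfl

/-- the action of `H` -/
def hP : H →* Equiv.Perm (YY hθ) where
  toFun h :=
    { toFun := hf hθ he h
      invFun := hf hθ he h⁻¹
      left_inv := by
        intro x
        obtain ⟨n, y, rfl⟩ := pt_surj hθ x
        rw [hf_pt, hf_pt, ← mul_smul]
        have : (φ^[n]) h⁻¹ * (φ^[n]) h = 1 := by
          rw [← iterate_map_mul, inv_mul_cancel, iterate_map_one]
        rw [this, one_smul]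
      right_inv := by
        intro x
        obtain ⟨n, y, rfl⟩ := pt_surj hθ x
        rw [hf_pt, hf_pt, ← mul_smul]
        have : (φ^[n]) h * (φ^[n]) h⁻¹ = 1 := by
          rw [← iterate_map_mul, mul_inv_cancel, iterate_map_one]
        rw [this, one_smul] }
  map_one' := by
    ext1 x
    obtain ⟨n, y, rfl⟩ := pt_surj hθ x
    change hf hθ he 1 (pt hθ n y) = pt hθ n y
    rw [hf_pt, iterate_map_one, one_smul]
  map_mul' a b := by
    ext1 x
    obtain ⟨n, y, rfl⟩ := pt_surj hθ x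
    change hf hθ he (a * b) (pt hθ n y) = hf hθ he a (hf hθ he b (pt hθ n y))
    rw [hf_pt, hf_pt, hf_pt, iterate_map_mul, mul_smul]

theorem hP_pt (h : H) (n : ℕ) (y : Y) : hP hθ he h (pt hθ n y) = pt hθ n ((φ^[n]) h • y) := rfl

theorem exists_act : ∃ F : GT φ →* Equiv.Perm (YY hθ), (∀ a, F (gi φ a) = hP hθ he a) ∧
    F (gt φ) = tP hθ := by
  apply gt_lift
  intro a
  rw [mul_inv_eq_iff_eq_mul]
  ext1 x
  obtain ⟨n, y, rfl⟩ := pt_surj hθ x
  simp only [Equiv.Perm.mul_apply]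
  rw [hP_pt, tP_pt, tP_pt, hP_pt, he, ← Function.iterate_succ_apply,
    Function.iterate_succ_apply']

end colim

end Crest.Agent.R185.Hot
end

-- ▼ part R185/Hot2

/-!
# R185 / HOTEL (2): faithful, highly transitive, and every tuple stabiliser is isomorphic to `Γ`
(helper175 6380, helper660 6852)
-/

set_option autoImplicit false

namespace Crest.Agent.R185.Hot

/-- The data of the hotel trick. -/
structure Hotel (H Y : Type) [Group H] [MulAction H Y] where
  φ : H →* H
  θ : Y → Y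
  θ_inj : Function.Injective θ
  θ_smul : ∀ (h : H) (y : Y), θ (h • y) = φ h • θ y
  e : ℕ → Y
  e_inj : Function.Injective e
  e_ne : ∀ i y, e i ≠ θ y
  fix : ∀ (h : H) i, φ h • e i = e i
  move : ∀ (n : ℕ) (y : Fin n → Y), Function.Injective y →
    ∃ d : H, (∀ i : Fin n, d • e i = θ (y i)) ∧
      ∀ h : H, (∀ i, h • y i = y i) → Commute d (φ h)
  faithful : ∀ h h' : H, (∀ y : Y, h • y = h' • y) → h = h'

/-- the pointwise stabiliser of a tuple -/
def tupStab {Γ X : Type} [Group Γ] [MulAction Γ X] {n : ℕ} (x : Fin n → X) : Subgroup Γ where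
  carrier := {γ | ∀ i, γ • x i = x i}
  mul_mem' := by
    intro a b ha hb i
    rw [mul_smul, hb i, ha i]
  one_mem' := fun i => one_smul _ _
  inv_mem' := by
    intro a ha i
    rw [inv_smul_eq_iff, ha i]

theorem mem_tupStab {Γ X : Type} [Group Γ] [MulAction Γ X] {n : ℕ} {x : Fin n → X} {γ : Γ} :
    γ ∈ tupStab x ↔ ∀ i, γ • x i = x i := Iff.rfl

/-- the conclusion of the hotel trick -/
structure IsHT (Γ X : Type) [Group Γ] [MulAction Γ X] : Prop where
  faithful : ∀ γ : Γ, (∀ x : X, γ • x = x) → γ = 1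
  inf : Infinite X
  trans : ∀ (n : ℕ) (x y : Fin n → X), Function.Injective x → Function.Injective y →
    ∃ γ : Γ, ∀ i, γ • x i = y i
  stab : ∀ (n : ℕ) (x : Fin n → X), Function.Injective x →
    Nonempty (Γ ≃* (tupStab x : Subgroup Γ))

namespace Hotel

variable {H Y : Type} [Group H] [MulAction H Y] (D : Hotel H Y)

/-- the colimit -/
abbrev X : Type := YY D.θ_inj

/-- the torus -/
abbrev Γ : Type := GT D.φ

/-- the base -/
abbrev g (h : H) : D.Γ := gi D.φ h

/-- the stable letter -/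
abbrev t : D.Γ := gt D.φ

/-- points -/
abbrev p (n : ℕ) (y : Y) : D.X := pt D.θ_inj n y

noncomputable def act : D.Γ →* Equiv.Perm D.X := (exists_act D.θ_inj D.θ_smul).choose

noncomputable instance : MulAction D.Γ D.X := MulAction.compHom D.X D.act

theorem smul_def (γ : D.Γ) (x : D.X) : γ • x = D.act γ x := rfl

theorem act_g (h : H) : D.act (D.g h) = hP D.θ_inj D.θ_smul h :=
  (exists_act D.θ_inj D.θ_smul).choose_spec.1 h

theorem act_t : D.act D.t = tP D.θ_inj := (exists_act D.θ_inj D.θ_smul).choose_spec.2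

theorem g_smul (h : H) (n : ℕ) (y : Y) : D.g h • D.p n y = D.p n ((D.φ^[n]) h • y) := by
  rw [smul_def, act_g]; rfl

theorem g_smul_zero (h : H) (y : Y) : D.g h • D.p 0 y = D.p 0 (h • y) := D.g_smul h 0 y

theorem t_smul (n : ℕ) (y : Y) : D.t • D.p n y = D.p n (D.θ y) := by
  rw [smul_def, act_t]; rfl

theorem tpow_smul (k n : ℕ) (y : Y) : D.t ^ k • D.p n y = D.p n (D.θ^[k] y) := by
  rw [smul_def, map_pow, act_t]; exact tP_pow_pt _ _ _ _


theorem t_conj (h : H) : D.t * D.g h * D.t⁻¹ = D.g (D.φ h) := gt_conj D.φ h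

theorem φ_inj : Function.Injective D.φ := by
  intro a b hab
  apply D.faithful
  intro y
  apply D.θ_inj
  rw [D.θ_smul, D.θ_smul, hab]

theorem iter_ne (j : ℕ) (i : ℕ) (y : Y) : D.e i ≠ D.θ^[j + 1] y := by
  rw [Function.iterate_succ_apply']
  exact D.e_ne i _

/-- `h tʲ` with `j > 0` acts nontrivially -/
theorem not_triv (h : H) (j : ℕ) (hh : ∀ x : D.X, (D.g h * D.t ^ (j + 1)) • x = x) : False := by
  have h1 := hh (D.p 0 (h • D.e 0))
  -- surjectivity of `θ^(j+1)` on `Y`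
  have h2 : ∀ y : Y, h • D.θ^[j + 1] y = y := by
    intro y
    have := hh (D.p 0 y)
    rw [mul_smul, D.tpow_smul, D.g_smul_zero] at this
    exact pt_zero_inj D.θ_inj this
  have h3 := h2 (h • D.e 0)
  have h4 : D.θ^[j + 1] (h • D.e 0) = D.e 0 := by
    have := congrArg (fun z => h⁻¹ • z) h3
    simpa using this
  exact D.iter_ne j 0 _ h4.symm

theorem faithful' (γ : D.Γ) (hγ : ∀ x : D.X, γ • x = x) : γ = 1 := by
  obtain ⟨a, b, h, rfl⟩ := gt_form D.φ γ
  rcases lt_trichotomy a b with hab | hab | hab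
  · exfalso
    obtain ⟨j, rfl⟩ := Nat.exists_eq_add_of_lt hab
    apply D.not_triv h j
    intro x
    have := hγ (D.t⁻¹ ^ a • x)
    have e : D.t⁻¹ ^ a • x = D.t⁻¹ ^ a • (D.g h * D.t ^ (j + 1)) • x := by
      conv_lhs => rw [← this]
      simp only [← mul_smul]
      congr 1
      change D.t⁻¹ ^ a * D.g h * D.t ^ (a + j + 1) * D.t⁻¹ ^ a = _
      rw [show a + j + 1 = (j + 1) + a by ring, pow_add]
      simp only [mul_assoc]
      rw [inv_pow, mul_inv_cancel, mul_one]
    exact (smul_left_cancel _ e).symm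
  · subst hab
    have h1 : h = 1 := by
      apply D.faithful
      intro y
      have := hγ (D.t⁻¹ ^ a • D.p 0 y)
      change (D.t⁻¹ ^ a * D.g h * D.t ^ a) • _ = _ at this
      have e : (D.t⁻¹ ^ a * D.g h * D.t ^ a) • D.t⁻¹ ^ a • D.p 0 y =
          D.t⁻¹ ^ a • D.g h • D.p 0 y := by
        simp only [← mul_smul]
        congr 1
        simp only [mul_assoc]
        rw [inv_pow, mul_inv_cancel, mul_one]
      rw [e] at this
      have h2 := smul_left_cancel _ this
      rw [D.g_smul_zero] at h2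
      rw [pt_zero_inj D.θ_inj h2, one_smul]
    subst h1
    change D.t⁻¹ ^ a * gi D.φ 1 * D.t ^ a = 1
    rw [map_one, mul_one, inv_pow, inv_mul_cancel]
  · exfalso
    obtain ⟨j, rfl⟩ := Nat.exists_eq_add_of_lt hab
    apply D.not_triv h⁻¹ j
    intro x
    have := hγ (D.t⁻¹ ^ b • x)
    have e : D.t⁻¹ ^ (b + j + 1) • D.g h • x = D.t⁻¹ ^ b • x := by
      rw [← this]
      simp only [← mul_smul]
      congr 1
      change _ = D.t⁻¹ ^ (b + j + 1) * D.g h * D.t ^ b * D.t⁻¹ ^ b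
      simp only [mul_assoc]
      rw [inv_pow D.t b, mul_inv_cancel, mul_one]
    have e2 : D.g h • x = D.t ^ (j + 1) • x := by
      have e3 : D.t⁻¹ ^ (b + j + 1) • D.t ^ (j + 1) • x = D.t⁻¹ ^ b • x := by
        simp only [← mul_smul]
        congr 1
        rw [add_assoc, pow_add, mul_assoc, inv_pow D.t (j + 1), inv_mul_cancel, mul_one]
      exact smul_left_cancel _ (e.trans e3.symm)
    rw [mul_smul, ← e2, ← mul_smul]
    change (gi D.φ h⁻¹ * gi D.φ h) • x = x
    rw [← map_mul, inv_mul_cancel, map_one, one_smul]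

theorem e_inj' : Function.Injective fun i => D.p 0 (D.e i) := by
  intro i j h
  exact D.e_inj (pt_zero_inj D.θ_inj h)

/-- every tuple of distinct points is equivalent to the standard one -/
theorem exists_to_e (n : ℕ) (x : Fin n → D.X) (hx : Function.Injective x) :
    ∃ γ : D.Γ, ∀ i, γ • x i = D.p 0 (D.e i) := by
  choose m y hy using fun i => pt_surj D.θ_inj (x i)
  obtain ⟨N, hN⟩ : ∃ N, ∀ i, m i ≤ N := by
    refine ⟨∑ i, m i, fun i => ?_⟩
    exact Finset.single_le_sum (f := m) (fun _ _ => Nat.zero_le _) (Finset.mem_univ i)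
  have h1 : ∀ i, D.t ^ N • x i = D.p 0 (D.θ^[N - m i] (y i)) := by
    intro i
    rw [hy i]
    change D.t ^ N • D.p (m i) (y i) = _
    rw [D.tpow_smul]
    change pt D.θ_inj (m i) _ = pt D.θ_inj 0 _
    rw [pt_eq]
    change D.θ^[N] (y i) = D.θ^[m i] (D.θ^[N - m i] (y i))
    rw [← Function.iterate_add_apply, Nat.add_sub_cancel' (hN i)]
  obtain ⟨d, hd, -⟩ := D.move n (fun i => D.θ^[N - m i] (y i)) (by
    intro i j hij
    apply hx
    apply smul_left_cancel (D.t ^ N)
    rw [h1, h1]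
    exact congrArg _ hij)
  refine ⟨D.g d⁻¹ * D.t ^ (N + 1), fun i => ?_⟩
  rw [pow_succ', mul_smul, mul_smul, h1, D.t_smul, D.g_smul_zero, ← hd i, inv_smul_smul]

theorem trans' (n : ℕ) (x y : Fin n → D.X) (hx : Function.Injective x)
    (hy : Function.Injective y) : ∃ γ : D.Γ, ∀ i, γ • x i = y i := by
  obtain ⟨a, ha⟩ := D.exists_to_e n x hx
  obtain ⟨b, hb⟩ := D.exists_to_e n y hy
  refine ⟨b⁻¹ * a, fun i => ?_⟩
  rw [mul_smul, ha, ← hb, inv_smul_smul]

/-- the stabiliser of the standard tuple is isomorphic to `Γ` -/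
theorem stab_e (n : ℕ) :
    Nonempty (D.Γ ≃* (tupStab (fun i : Fin n => D.p 0 (D.e i)) : Subgroup D.Γ)) := by
  obtain ⟨d, hd1, hd2⟩ := D.move n (fun i => D.e i) (fun i j h => Fin.ext (D.e_inj h))
  set τ : D.Γ := D.g d⁻¹ * D.t with hτ
  have hτH : ∀ h : H, τ * D.g h * τ⁻¹ = D.g (d⁻¹ * D.φ h * d) := by
    intro h
    have : τ * D.g h * τ⁻¹ = D.g d⁻¹ * (D.t * D.g h * D.t⁻¹) * (D.g d⁻¹)⁻¹ := by
      rw [hτ]; group
    rw [this, D.t_conj]
    change gi D.φ d⁻¹ * gi D.φ (D.φ h) * (gi D.φ d⁻¹)⁻¹ = gi D.φ _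
    rw [← map_inv, ← map_mul, ← map_mul, inv_inv]
  have hφfix : ∀ h : H, ∀ i : Fin n, D.φ h • D.e i = D.e i := fun h i => D.fix h i
  have hfixconj : ∀ h : H, (∀ i : Fin n, h • D.e i = D.e i) →
      d⁻¹ * D.φ h * d = D.φ h := by
    intro h hh
    have := hd2 h hh
    rw [mul_assoc, ← this.eq, inv_mul_cancel_left]
  -- the homomorphism
  obtain ⟨F, hF1, hF2⟩ := gt_lift D.φ ((gi D.φ).comp D.φ) τ (by
    intro h
    change τ * D.g (D.φ h) * τ⁻¹ = D.g (D.φ (D.φ h))
    rw [hτH, hfixconj _ (hφfix h)])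
  have hF1' : ∀ h, F (D.g h) = D.g (D.φ h) := hF1
  have hFt : F D.t = τ := hF2
  have hgstab : ∀ h : H, (∀ i : Fin n, h • D.e i = D.e i) →
      D.g h ∈ (tupStab (fun i : Fin n => D.p 0 (D.e i)) : Subgroup D.Γ) := by
    intro h hh i
    rw [D.g_smul_zero, hh]
  have hτstab : τ ∈ (tupStab (fun i : Fin n => D.p 0 (D.e i)) : Subgroup D.Γ) := by
    intro i
    rw [hτ, mul_smul, D.t_smul, D.g_smul_zero, ← hd1 i, inv_smul_smul]
  have hFmem : ∀ γ, F γ ∈ (tupStab (fun i : Fin n => D.p 0 (D.e i)) : Subgroup D.Γ) := by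
    intro γ
    obtain ⟨a, b, h, rfl⟩ := gt_form D.φ γ
    simp only [map_mul, map_pow, map_inv]
    rw [hF1, hF2]
    refine Subgroup.mul_mem _ (Subgroup.mul_mem _ (Subgroup.pow_mem _ (Subgroup.inv_mem _ hτstab) _)
      (hgstab _ (hφfix h))) (Subgroup.pow_mem _ hτstab _)
  -- `t` in terms of `τ`
  have ht1 : ∀ b : ℕ, ∃ h : H, D.t ^ b = D.g h * τ ^ b := by
    intro b
    induction b with
    | zero => exact ⟨1, by simp⟩
    | succ b ih =>
      obtain ⟨h, hh⟩ := ih
      refine ⟨h * (fun k => d⁻¹ * D.φ k * d)^[b] d, ?_⟩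
      have h3 : ∀ (b : ℕ) (k : H), τ ^ b * D.g k = D.g ((fun k => d⁻¹ * D.φ k * d)^[b] k) * τ ^ b := by
        intro b
        induction b with
        | zero => intro k; simp
        | succ b ih =>
          intro k
          rw [pow_succ, mul_assoc]
          have : τ * D.g k = D.g (d⁻¹ * D.φ k * d) * τ := by rw [← hτH]; group
          rw [this, ← mul_assoc, ih, mul_assoc, Function.iterate_succ_apply]
      have h4 : D.t = D.g d * τ := by
        rw [hτ, ← mul_assoc]
        change _ = gi D.φ d * gi D.φ d⁻¹ * D.t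
        rw [← map_mul, mul_inv_cancel, map_one, one_mul]
      calc D.t ^ (b + 1) = D.t ^ b * D.t := pow_succ _ _
        _ = D.g h * τ ^ b * (D.g d * τ) := by rw [hh, ← h4]
        _ = D.g h * (τ ^ b * D.g d) * τ := by simp only [mul_assoc]
        _ = D.g h * D.g ((fun k => d⁻¹ * D.φ k * d)^[b] d) * τ ^ (b + 1) := by
            rw [h3, pow_succ]; simp only [mul_assoc]
        _ = _ := by
            change gi D.φ h * gi D.φ _ * _ = gi D.φ (h * _) * _
            rw [← map_mul]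
  have hform : ∀ γ : D.Γ, ∃ (a b : ℕ) (h : H), γ = τ⁻¹ ^ a * D.g h * τ ^ b := by
    intro γ
    obtain ⟨a, b, h, rfl⟩ := gt_form D.φ γ
    obtain ⟨ha, hha⟩ := ht1 a
    obtain ⟨hb, hhb⟩ := ht1 b
    refine ⟨a, b, ha⁻¹ * h * hb, ?_⟩
    change D.t⁻¹ ^ a * D.g h * D.t ^ b = _
    rw [inv_pow, hha, hhb, mul_inv_rev, inv_pow]
    change (τ ^ a)⁻¹ * (gi D.φ ha)⁻¹ * gi D.φ h * (gi D.φ hb * τ ^ b) =
      (τ ^ a)⁻¹ * gi D.φ (ha⁻¹ * h * hb) * τ ^ b
    rw [map_mul, map_mul, map_inv]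
    simp only [mul_assoc]
  have hFsurj : ∀ γ : D.Γ, γ ∈ (tupStab (fun i : Fin n => D.p 0 (D.e i)) : Subgroup D.Γ) →
      ∃ γ', F γ' = γ := by
    intro γ hγ
    obtain ⟨a, b, h, rfl⟩ := hform γ
    have h1 : D.g h ∈ (tupStab (fun i : Fin n => D.p 0 (D.e i)) : Subgroup D.Γ) := by
      have e : D.g h = τ ^ a * (τ⁻¹ ^ a * D.g h * τ ^ b) * (τ ^ b)⁻¹ := by
        rw [inv_pow]; group
      rw [e]
      exact Subgroup.mul_mem _ (Subgroup.mul_mem _ (Subgroup.pow_mem _ hτstab _) hγ)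
        (Subgroup.inv_mem _ (Subgroup.pow_mem _ hτstab _))
    have h2 : ∀ i : Fin n, h • D.e i = D.e i := by
      intro i
      have := h1 i
      rw [D.g_smul_zero] at this
      exact pt_zero_inj D.θ_inj this
    refine ⟨D.t⁻¹ ^ a * (D.t⁻¹ * D.g h * D.t) * D.t ^ b, ?_⟩
    have h3 : τ⁻¹ * D.g (D.φ h) * τ = D.g h := by
      have := hτH h
      rw [hfixconj h h2] at this
      rw [← this]; group
    simp only [map_mul, map_pow, map_inv]
    rw [hF1', hFt, h3]
  have hFinj : Function.Injective F := by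
    rw [injective_iff_map_eq_one]
    intro γ hγ
    obtain ⟨ht, hT⟩ := exists_isTorus D.φ_inj
    obtain ⟨a, b, h, rfl⟩ := gt_form D.φ γ
    simp only [map_mul, map_pow, map_inv] at hγ
    rw [hF1, hF2] at hγ
    have hh := congrArg ht hγ
    have e1 : ht τ = Multiplicative.ofAdd 1 := by
      rw [hτ, map_mul, hT.height_ι, one_mul, hT.height_t]
    change ht (τ⁻¹ ^ a * gi D.φ (D.φ h) * τ ^ b) = ht 1 at hh
    simp only [map_mul, map_pow, map_inv, map_one] at hh
    rw [e1, hT.height_ι, mul_one, ← ofAdd_neg, ← ofAdd_nsmul, ← ofAdd_nsmul, ← ofAdd_add] at hh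
    have hab : a = b := by
      have := congrArg Multiplicative.toAdd hh
      simp at this
      omega
    subst hab
    change τ⁻¹ ^ a * gi D.φ (D.φ h) * τ ^ a = 1 at hγ
    have h5 : gi D.φ (D.φ h) = 1 := by
      have : gi D.φ (D.φ h) = τ ^ a * (τ⁻¹ ^ a * gi D.φ (D.φ h) * τ ^ a) * (τ ^ a)⁻¹ := by
        rw [inv_pow]; group
      rw [this, hγ, mul_one, mul_inv_cancel]
    have h6 : h = 1 := by
      apply D.φ_inj
      apply hT.inj
      rw [h5, map_one, map_one]
    subst h6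
    rw [map_one, mul_one, inv_pow, inv_mul_cancel]
  refine ⟨MulEquiv.ofBijective (F.codRestrict _ hFmem) ⟨?_, ?_⟩⟩
  · intro a b hab
    exact hFinj (congrArg Subtype.val hab)
  · rintro ⟨γ, hγ⟩
    obtain ⟨γ', h⟩ := hFsurj γ hγ
    exact ⟨γ', Subtype.ext h⟩

theorem stab' (n : ℕ) (x : Fin n → D.X) (hx : Function.Injective x) :
    Nonempty (D.Γ ≃* (tupStab x : Subgroup D.Γ)) := by
  obtain ⟨γ, hγ⟩ := D.exists_to_e n x hx
  obtain ⟨E⟩ := D.stab_e n
  have e1 : ∀ i, x i = γ⁻¹ • D.p 0 (D.e i) := fun i => by rw [← hγ i, inv_smul_smul]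
  let C : (tupStab (fun i : Fin n => D.p 0 (D.e i)) : Subgroup D.Γ) ≃*
      (tupStab x : Subgroup D.Γ) :=
    { toFun := fun a => ⟨γ⁻¹ * a.1 * γ, fun i => by
        rw [mul_smul, mul_smul, hγ i, a.2 i, ← e1]⟩
      invFun := fun a => ⟨γ * a.1 * γ⁻¹, fun i => by
        rw [mul_smul, mul_smul, ← e1, a.2 i, hγ i]⟩
      left_inv := by intro a; apply Subtype.ext; simp only; group
      right_inv := by intro a; apply Subtype.ext; simp only; group
      map_mul' := by intro a b; apply Subtype.ext; simp only [Subgroup.coe_mul]; group }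
  exact ⟨E.trans C⟩

/-- **HOTEL.** -/
theorem isHT : IsHT D.Γ D.X where
  faithful := D.faithful'
  inf := Infinite.of_injective _ D.e_inj'
  trans := D.trans'
  stab := D.stab'

end Hotel

end Crest.Agent.R185.Hot
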