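import Crest.Agent.R185.Wu2
import Crest.Agent.R185.Hot2

-- ▼ part R185/Hot3
section

/-!
# R185 / HOTEL (3): helper660's set `Z(Y)` and its letters

`ZZ G Y = (ℕ × Mat Y) ⊕ (ℕ × Y) ⊕ ℕ ⊕ G` with the letters `zb h` (block copy of `h` on
`{0} × Y`), `zv i j h` (rook letters), `zs` (shift), `zg g` (left multiplication on `G`), and the
transpositions.
-/

set_option autoImplicit false

namespace Crest.Agent.R185.Hot

open Crest.Agent.R185.Wu

section gadget

variable {H Y : Type} [Group H] [MulAction H Y]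

/-- the action at `(i, j)` on matrices -/
noncomputable def vY (i : Fin 3) (j : Fin 4) : H →* Equiv.Perm (Mat Y) where
  toFun u :=
    { toFun := act i j (fun y => u • y)
      invFun := act i j (fun y => u⁻¹ • y)
      left_inv := by
        intro M
        rw [act_comp three3 three4]
        have : ((fun y : Y => u⁻¹ • y) ∘ fun y => u • y) = id := by funext y; simp
        rw [this, act_id three3 three4]
      right_inv := by
        intro M
        rw [act_comp three3 three4]
        have : ((fun y : Y => u • y) ∘ fun y => u⁻¹ • y) = id := by funext y; simp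
        rw [this, act_id three3 three4] }
  map_one' := by
    apply Equiv.ext
    intro M
    have : (fun y : Y => (1 : H) • y) = id := by funext y; simp
    change act i j (fun y : Y => (1 : H) • y) M = M
    rw [this, act_id three3 three4]
  map_mul' a b := by
    apply Equiv.ext
    intro M
    change act i j (fun y : Y => (a * b) • y) M =
      act i j (fun y : Y => a • y) (act i j (fun y : Y => b • y) M)
    rw [act_comp three3 three4]
    congr 1
    funext y
    simp [mul_smul]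

theorem vY_apply (i : Fin 3) (j : Fin 4) (u : H) (M : Mat Y) :
    vY i j u M = act i j (fun y => u • y) M := rfl

theorem vY_row (i : Fin 3) (j : Fin 4) (u : H) (w : Fin 4 → Y) :
    vY i j u (rowM i w) = rowM i (Function.update w j (u • w j)) := by
  rw [vY_apply, act_row]

theorem vY_col (i : Fin 3) (j : Fin 4) (u : H) (z : Fin 3 → Y) :
    vY i j u (colM j z) = colM j (Function.update z i (u • z i)) := by
  rw [vY_apply, act_col three3 three4]

theorem vY_comm_row (i : Fin 3) (j l : Fin 4) (h : j ≠ l) (a b : H) :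
    Commute (vY (Y := Y) i j a) (vY i l b) := by
  apply Equiv.ext
  intro M
  exact act_comm_row three3 three4 i h _ _ M

theorem vY_comm_col (i k : Fin 3) (j : Fin 4) (h : i ≠ k) (a b : H) :
    Commute (vY (Y := Y) i j a) (vY k j b) := by
  apply Equiv.ext
  intro M
  exact act_comm_col three3 three4 j h _ _ M

/-- constant matrices -/
abbrev cY (y : Y) : Mat Y := con (Fin 3) (Fin 4) y

theorem rY_cY (i : Fin 3) (u : H) (y : Y) :
    (vY i 0 u * vY i 1 u * vY i 2 u * vY i 3 u : Equiv.Perm (Mat Y)) (cY y) = cY (u • y) := by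
  unfold cY
  rw [← rowM_const three4 0 i y, ← rowM_const three4 0 i (u • y)]
  simp only [Equiv.Perm.mul_apply, vY_row]
  congr 1
  funext l
  fin_cases l <;> simp [Function.update]

theorem colY_cY (j : Fin 4) (u : H) (y : Y) :
    (vY 0 j u * vY 1 j u * vY 2 j u : Equiv.Perm (Mat Y)) (cY y) = cY (u • y) := by
  unfold cY
  rw [← colM_const three3 0 j y, ← colM_const three3 0 j (u • y)]
  simp only [Equiv.Perm.mul_apply, vY_col]
  congr 1
  funext l
  fin_cases l <;> simp [Function.update]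

theorem cY_inj {Y : Type} {y y' : Y} (h : cY y = cY y') : y = y' :=
  Option.some.inj (congrFun (congrFun h 0) 0)

end gadget

/-- the rook part -/
abbrev RX (Y : Type) : Type := (ℕ × Mat Y) ⊕ (ℕ × Y)

section shift

variable {Y : Type}

open Classical in
/-- the shift -/
noncomputable def shf : RX Y → RX Y
  | Sum.inl (0, M) => if h : ∃ y, cY y = M then Sum.inr (0, h.choose) else Sum.inl (0, M)
  | Sum.inl (n + 1, M) => if ∃ y, cY y = M then Sum.inl (n, M) else Sum.inl (n + 1, M)
  | Sum.inr (n, y) => Sum.inr (n + 1, y)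

open Classical in
/-- the inverse shift -/
noncomputable def shg : RX Y → RX Y
  | Sum.inl (n, M) => if ∃ y, cY y = M then Sum.inl (n + 1, M) else Sum.inl (n, M)
  | Sum.inr (0, y) => Sum.inl (0, cY y)
  | Sum.inr (n + 1, y) => Sum.inr (n, y)

theorem shf_zero (y : Y) : shf (Sum.inl (0, cY y)) = Sum.inr (0, y) := by
  have h : ∃ y', cY y' = cY y := ⟨y, rfl⟩
  unfold shf
  simp only
  rw [dif_pos h, cY_inj h.choose_spec]

theorem shf_succ (n : ℕ) (y : Y) : shf (Sum.inl (n + 1, cY y)) = Sum.inl (n, cY y) := by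
  have h : ∃ y', cY y' = cY y := ⟨y, rfl⟩
  unfold shf
  simp only
  rw [if_pos h]

theorem shf_else (n : ℕ) (M : Mat Y) (h : ∀ y, cY y ≠ M) :
    shf (Sum.inl (n, M)) = Sum.inl (n, M) := by
  have h' : ¬ ∃ y, cY y = M := by rintro ⟨y, hy⟩; exact h y hy
  rcases n with _ | n
  · unfold shf; simp only; rw [dif_neg h']
  · unfold shf; simp only; rw [if_neg h']

theorem shf_inr (n : ℕ) (y : Y) : shf (Sum.inr (n, y)) = Sum.inr (n + 1, y) := rfl

theorem shg_con (n : ℕ) (y : Y) : shg (Sum.inl (n, cY y)) = Sum.inl (n + 1, cY y) := by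
  have h : ∃ y', cY y' = cY y := ⟨y, rfl⟩
  unfold shg
  simp only
  rw [if_pos h]

theorem shg_else (n : ℕ) (M : Mat Y) (h : ∀ y, cY y ≠ M) :
    shg (Sum.inl (n, M)) = Sum.inl (n, M) := by
  have h' : ¬ ∃ y, cY y = M := by rintro ⟨y, hy⟩; exact h y hy
  unfold shg; simp only; rw [if_neg h']

theorem shg_zero (y : Y) : shg (Sum.inr (0, y)) = Sum.inl (0, cY y) := rfl

theorem shg_succ (n : ℕ) (y : Y) : shg (Sum.inr (n + 1, y)) = Sum.inr (n, y) := rfl

theorem RX_cases (x : RX Y) :
    (∃ y, x = Sum.inl (0, cY y)) ∨ (∃ n y, x = Sum.inl (n + 1, cY y)) ∨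
    (∃ n M, (∀ y, cY y ≠ M) ∧ x = Sum.inl (n, M)) ∨ (∃ y, x = Sum.inr (0, y)) ∨
    (∃ n y, x = Sum.inr (n + 1, y)) := by
  rcases x with ⟨n, M⟩ | ⟨n | n, y⟩
  · by_cases h : ∃ y, cY y = M
    · obtain ⟨y, rfl⟩ := h
      rcases n with _ | n
      · exact Or.inl ⟨y, rfl⟩
      · exact Or.inr (Or.inl ⟨n, y, rfl⟩)
    · push Not at h
      exact Or.inr (Or.inr (Or.inl ⟨n, M, h, rfl⟩))
  · exact Or.inr (Or.inr (Or.inr (Or.inl ⟨y, rfl⟩)))
  · exact Or.inr (Or.inr (Or.inr (Or.inr ⟨n, y, rfl⟩)))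

/-- the shift permutation -/
noncomputable def shP : Equiv.Perm (RX Y) where
  toFun := shf
  invFun := shg
  left_inv := by
    intro x
    rcases RX_cases x with ⟨y, rfl⟩ | ⟨n, y, rfl⟩ | ⟨n, M, h, rfl⟩ | ⟨y, rfl⟩ | ⟨n, y, rfl⟩
    · rw [shf_zero, shg_zero]
    · rw [shf_succ, shg_con]
    · rw [shf_else n M h, shg_else n M h]
    · rw [shf_inr, shg_succ]
    · rw [shf_inr, shg_succ]
  right_inv := by
    intro x
    rcases RX_cases x with ⟨y, rfl⟩ | ⟨n, y, rfl⟩ | ⟨n, M, h, rfl⟩ | ⟨y, rfl⟩ | ⟨n, y, rfl⟩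
    · rw [shg_con, shf_succ]
    · rw [shg_con, shf_succ]
    · rw [shg_else n M h, shf_else n M h]
    · rw [shg_zero, shf_zero]
    · rw [shg_succ, shf_inr]

theorem shP_apply (x : RX Y) : shP x = shf x := rfl

end shift

/-! ### the set `Z(Y)` -/

/-- helper660's set -/
abbrev ZZ (G Y : Type) : Type := RX Y ⊕ (ℕ ⊕ G)

section letters

variable {G Y H : Type} [Group H] [MulAction H Y]

/-- extension of a permutation of the rook part -/
def ext1 (G : Type) : Equiv.Perm (RX Y) →* Equiv.Perm (ZZ G Y) where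
  toFun e := Equiv.sumCongr e (Equiv.refl _)
  map_one' := by ext x; rcases x with x | x <;> rfl
  map_mul' a b := by ext x; rcases x with x | x <;> rfl

@[simp] theorem ext1_inl (e : Equiv.Perm (RX Y)) (x : RX Y) :
    ext1 G e (Sum.inl x) = Sum.inl (e x) := rfl

@[simp] theorem ext1_inr (e : Equiv.Perm (RX Y)) (x : ℕ ⊕ G) :
    ext1 G e (Sum.inr x) = Sum.inr x := rfl


/-- extension of a permutation of the matrices -/
def upY : Equiv.Perm (Mat Y) →* Equiv.Perm (RX Y) where
  toFun e := Equiv.sumCongr (Equiv.prodCongr (Equiv.refl ℕ) e) (Equiv.refl _)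
  map_one' := by
    apply Equiv.ext; intro x; rcases x with ⟨n, M⟩ | ⟨n, y⟩ <;> rfl
  map_mul' a b := by
    apply Equiv.ext; intro x; rcases x with ⟨n, M⟩ | ⟨n, y⟩ <;> rfl

theorem upY_inl (e : Equiv.Perm (Mat Y)) (n : ℕ) (M : Mat Y) :
    upY e (Sum.inl (n, M)) = Sum.inl (n, e M) := rfl

theorem upY_inr (e : Equiv.Perm (Mat Y)) (n : ℕ) (y : Y) :
    upY e (Sum.inr (n, y)) = Sum.inr (n, y) := rfl

/-- the block copy on points -/
def bfY (u : H) : RX Y → RX Y
  | Sum.inl x => Sum.inl x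
  | Sum.inr (0, y) => Sum.inr (0, u • y)
  | Sum.inr (n + 1, y) => Sum.inr (n + 1, y)

/-- the block copy -/
def bY : H →* Equiv.Perm (RX Y) where
  toFun u :=
    { toFun := bfY u
      invFun := bfY u⁻¹
      left_inv := by rintro (⟨n, M⟩ | ⟨n | n, y⟩) <;> simp [bfY]
      right_inv := by rintro (⟨n, M⟩ | ⟨n | n, y⟩) <;> simp [bfY] }
  map_one' := by
    apply Equiv.ext; intro x; rcases x with ⟨n, M⟩ | ⟨n | n, y⟩ <;> simp [bfY]
  map_mul' a b := by
    apply Equiv.ext; intro x; rcases x with ⟨n, M⟩ | ⟨n | n, y⟩ <;> simp [bfY, mul_smul]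

theorem bY_inl (u : H) (x : ℕ × Mat Y) : bY u (Sum.inl x) = Sum.inl x := rfl

theorem bY_zero (u : H) (y : Y) : bY u (Sum.inr (0, y)) = Sum.inr (0, u • y) := rfl

theorem bY_succ (u : H) (y : Y) (n : ℕ) : bY u (Sum.inr (n + 1, y)) = Sum.inr (n + 1, y) := rfl

theorem upY_comm_bY (e : Equiv.Perm (Mat Y)) (u : H) : Commute (upY e) (bY u) := by
  apply Equiv.ext
  intro x
  rcases x with ⟨n, M⟩ | ⟨n | n, y⟩ <;> rfl

/-- the key relation -/
theorem shP_conj (e : Equiv.Perm (Mat Y)) (u : H) (he : ∀ y, e (cY y) = cY (u • y)) :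
    shP * upY e * shP⁻¹ = upY e * bY u := by
  rw [mul_inv_eq_iff_eq_mul]
  apply Equiv.ext
  intro x
  simp only [Equiv.Perm.mul_apply, shP_apply]
  rcases RX_cases x with ⟨y, rfl⟩ | ⟨n, y, rfl⟩ | ⟨n, M, h, rfl⟩ | ⟨y, rfl⟩ | ⟨n, y, rfl⟩
  · rw [upY_inl, he, shf_zero, shf_zero, bY_zero, upY_inr]
  · rw [upY_inl, he, shf_succ, shf_succ, bY_inl, upY_inl, he]
  · have h2 : ∀ y, cY y ≠ e M := by
      intro y hy
      apply h (u⁻¹ • y)
      apply e.injective
      rw [he, smul_inv_smul, hy]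
    rw [upY_inl, shf_else n _ h2, shf_else n M h, bY_inl, upY_inl]
  · rw [upY_inr, shf_inr, bY_succ, upY_inr]
  · rw [upY_inr, shf_inr, bY_succ, upY_inr]

/-- block copy letter -/
def zb (G : Type) : H →* Equiv.Perm (ZZ G Y) := (ext1 G).comp bY

/-- rook letter -/
noncomputable def zv (G : Type) (i : Fin 3) (j : Fin 4) : H →* Equiv.Perm (ZZ G Y) :=
  ((ext1 G).comp upY).comp (vY i j)

/-- shift letter -/
noncomputable def zs (G Y : Type) : Equiv.Perm (ZZ G Y) := ext1 G shP

/-- left multiplication letters -/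
def zg (Y : Type) [Group G] : G →* Equiv.Perm (ZZ G Y) where
  toFun g := Equiv.sumCongr (Equiv.refl _) (Equiv.sumCongr (Equiv.refl _) (Equiv.mulLeft g))
  map_one' := by
    apply Equiv.ext; intro x; rcases x with x | x | x
    · rfl
    · rfl
    · change Sum.inr (Sum.inr (1 * x)) = _; rw [one_mul]; rfl
  map_mul' a b := by
    apply Equiv.ext; intro x; rcases x with x | x | x
    · rfl
    · rfl
    · change Sum.inr (Sum.inr (a * b * x)) = Sum.inr (Sum.inr (a * (b * x))); rw [mul_assoc]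



theorem zb_inr (u : H) (x : ℕ ⊕ G) : zb G u (Sum.inr x : ZZ G Y) = Sum.inr x := rfl

theorem zb_zero (u : H) (y : Y) :
    zb G u (Sum.inl (Sum.inr (0, y))) = Sum.inl (Sum.inr (0, u • y)) := rfl

theorem conj_ext (S A B : Equiv.Perm (RX Y)) (h : S * A * S⁻¹ = A * B) :
    ext1 G S * ext1 G A * (ext1 G S)⁻¹ = ext1 G A * ext1 G B := by
  rw [← map_inv, ← map_mul, ← map_mul, ← map_mul, h]

/-- the rook certificate in permutations of `Z(Y)` -/
noncomputable def zRook (G H Y : Type) [Group H] [MulAction H Y] :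
    Rook H (Equiv.Perm (ZZ G Y)) where
  v i j := zv G i j
  β := zb G
  s := zs G Y
  row i j l h a b := ((vY_comm_row i j l h a b).map upY).map (ext1 G)
  col i k j h a b := ((vY_comm_col i k j h a b).map upY).map (ext1 G)
  rβ i a b := by
    have : zv (Y := Y) G i 0 a * zv G i 1 a * zv G i 2 a * zv G i 3 a =
        ext1 G (upY (vY i 0 a * vY i 1 a * vY i 2 a * vY i 3 a)) := by
      simp only [map_mul]; rfl
    rw [this]
    exact (upY_comm_bY _ _).map (ext1 G)
  cβ j a b := by
    have : zv (Y := Y) G 0 j a * zv G 1 j a * zv G 2 j a =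
        ext1 G (upY (vY 0 j a * vY 1 j a * vY 2 j a)) := by
      simp only [map_mul]; rfl
    rw [this]
    exact (upY_comm_bY _ _).map (ext1 G)
  sr i a := by
    have : zv (Y := Y) G i 0 a * zv G i 1 a * zv G i 2 a * zv G i 3 a =
        ext1 G (upY (vY i 0 a * vY i 1 a * vY i 2 a * vY i 3 a)) := by
      simp only [map_mul]; rfl
    rw [this]
    exact conj_ext _ _ _ (shP_conj _ a (rY_cY (Y := Y) i a))
  sc j a := by
    have : zv (Y := Y) G 0 j a * zv G 1 j a * zv G 2 j a =
        ext1 G (upY (vY 0 j a * vY 1 j a * vY 2 j a)) := by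
      simp only [map_mul]; rfl
    rw [this]
    exact conj_ext _ _ _ (shP_conj _ a (colY_cY (Y := Y) j a))

end letters


end Crest.Agent.R185.Hot
private theorem rz_662663ea7b : type_of% @_root_.Crest.Agent.R185.Hot.bfY.eq_1 := @_root_.Crest.Agent.R185.Hot.bfY.eq_1 -- L242
end

-- ▼ part R185/Hot4

/-!
# R185 / HOTEL (4): the core data and the passage to the hotel
-/

set_option autoImplicit false

namespace Crest.Agent.R185.Hot

open Crest.Agent.R185.Wu

/-- the point `y` of the block copy -/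
abbrev ptb (G : Type) {Y : Type} (y : Y) : ZZ G Y := Sum.inl (Sum.inr (0, y))

/-- the spare points -/
abbrev pts (G Y : Type) (n : ℕ) : ZZ G Y := Sum.inr (Sum.inl n)

/-- the points of the regular `G`-orbit -/
abbrev ptg {G : Type} (Y : Type) (g : G) : ZZ G Y := Sum.inr (Sum.inr g)

open Classical in
/-- **The core** (helper660 6852): a finitely presented group `E`, a group `H` acting faithfully on
a set `Y`, `pr : E →* H`, and a compatible embedding `(κ, θ₁)` of `(K, X)` into `(E, Y)`, where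
`K` is a group of permutations of `Z(Y)` containing the block copy of `H`, the rook letters, the
shift, the left multiplications of `G` and the transpositions (spare point, block point), and `X`
is any subset of `Z(Y)` containing the spare points, the block points and `G`. -/
structure Core (G : Type) [Group G] where
  Y : Type
  H : Type
  [gH : Group H]
  [aH : MulAction H Y]
  faithful : ∀ h h' : H, (∀ y : Y, h • y = h' • y) → h = h'
  E : Type
  [gE : Group E]
  fpE : Group.IsFinitelyPresented E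
  pr : E →* H
  K : Subgroup (Equiv.Perm (ZZ G Y))
  mem_b : ∀ h : H, zb G h ∈ K
  mem_v : ∀ (i : Fin 3) (j : Fin 4) (h : H), zv G i j h ∈ K
  mem_s : zs G Y ∈ K
  mem_g : ∀ g : G, zg Y g ∈ K
  mem_swap : ∀ (n : ℕ) (y : Y), Equiv.swap (pts G Y n) (ptb G y) ∈ K
  κ : K →* E
  X₀ : Set (ZZ G Y)
  mem_sp : ∀ n : ℕ, pts G Y n ∈ X₀
  mem_yb : ∀ y : Y, ptb G y ∈ X₀
  mem_gp : ∀ g : G, ptg Y g ∈ X₀
  θ₁ : ZZ G Y → Y
  θ₁_inj : Set.InjOn θ₁ X₀
  θ₁_smul : ∀ (k : K), ∀ z ∈ X₀, θ₁ (k.1 z) = pr (κ k) • θ₁ z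

attribute [instance] Core.gH Core.aH Core.gE

/-- the finitary permutation exchanging two tuples -/
theorem exists_exch {Z : Type} (K : Subgroup (Equiv.Perm Z)) :
    ∀ (n : ℕ) (a b : Fin n → Z), Function.Injective a → Function.Injective b →
      (∀ i j, a i ≠ b j) →
      (∀ i, (∃ e : Equiv.Perm Z, e ∈ K ∧ e (a i) = b i ∧ e (b i) = a i ∧
        ∀ x, x ≠ a i → x ≠ b i → e x = x)) →
      ∃ e : Equiv.Perm Z, e ∈ K ∧ (∀ i, e (a i) = b i) ∧ (∀ i, e (b i) = a i) ∧
        ∀ x, (∀ i, x ≠ a i) → (∀ i, x ≠ b i) → e x = x := by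
  intro n
  induction n with
  | zero =>
    intro a b _ _ _ _
    exact ⟨1, K.one_mem, fun i => i.elim0, fun i => i.elim0, fun x _ _ => rfl⟩
  | succ n ih =>
    intro a b ha hb hab hK
    obtain ⟨e, he, h1, h2, h3⟩ := ih (fun i => a i.castSucc) (fun i => b i.castSucc)
      (fun i j h => Fin.castSucc_injective n (ha h)) (fun i j h => Fin.castSucc_injective n (hb h))
      (fun i j => hab _ _) (fun i => hK _)
    obtain ⟨f, hf, g1, g2, g3⟩ := hK (Fin.last n)
    have hal : ∀ i : Fin n, a (Fin.last n) ≠ a i.castSucc := by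
      intro i h
      exact (Fin.castSucc_lt_last i).ne (ha h).symm
    have hbl : ∀ i : Fin n, b (Fin.last n) ≠ b i.castSucc := by
      intro i h
      exact (Fin.castSucc_lt_last i).ne (hb h).symm
    refine ⟨e * f, K.mul_mem he hf, ?_, ?_, ?_⟩
    · intro i
      rw [Equiv.Perm.mul_apply]
      refine Fin.lastCases ?_ (fun i => ?_) i
      · rw [g1]
        exact h3 _ (fun i => (hab _ _).symm) hbl
      · rw [g3 _ (hal i).symm (hab _ _)]
        exact h1 i
    · intro i
      rw [Equiv.Perm.mul_apply]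
      refine Fin.lastCases ?_ (fun i => ?_) i
      · rw [g2]
        exact h3 _ hal (fun i => hab _ _)
      · rw [g3 _ (hab _ _).symm (hbl i).symm]
        exact h2 i
    · intro x hx1 hx2
      rw [Equiv.Perm.mul_apply, g3 x (hx1 _) (hx2 _)]
      exact h3 x (fun i => hx1 _) (fun i => hx2 _)

namespace Core

variable {G : Type} [Group G] (C : Core G)

/-- block copy into `K` -/
def kb : C.H →* C.K := (zb G).codRestrict C.K C.mem_b

/-- the core endomorphism, first half -/
def i₁ : C.H →* C.E := C.κ.comp C.kb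

/-- the core endomorphism -/
def φ : C.H →* C.H := C.pr.comp C.i₁

/-- the point `y` of the block copy -/
abbrev yb (y : C.Y) : ZZ G C.Y := ptb G y

/-- the spare points -/
abbrev sp (n : ℕ) : ZZ G C.Y := pts G C.Y n

/-- the injection `Y → Y` -/
def θ (y : C.Y) : C.Y := C.θ₁ (C.yb y)

theorem yb_inj {y y' : C.Y} (h : C.yb y = C.yb y') : y = y' := by
  have := Sum.inr.inj (Sum.inl.inj h)
  exact (Prod.mk.inj this).2

theorem sp_inj {n m : ℕ} (h : C.sp n = C.sp m) : n = m := Sum.inl.inj (Sum.inr.inj h)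

theorem φ_apply (h : C.H) : C.φ h = C.pr (C.κ (C.kb h)) := rfl

/-- the hotel of a core -/
noncomputable def hotel : Hotel C.H C.Y where
  φ := C.φ
  θ := C.θ
  θ_inj := fun y y' h => C.yb_inj (C.θ₁_inj (C.mem_yb y) (C.mem_yb y') h)
  θ_smul h y := by
    have := C.θ₁_smul (C.kb h) (C.yb y) (C.mem_yb y)
    rw [C.φ_apply]
    exact this
  e n := C.θ₁ (C.sp n)
  e_inj := fun n m h => C.sp_inj (C.θ₁_inj (C.mem_sp n) (C.mem_sp m) h)
  e_ne n y h := by
    have := C.θ₁_inj (C.mem_sp n) (C.mem_yb y) h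
    exact absurd this (by simp)
  fix h n := by
    have := C.θ₁_smul (C.kb h) (C.sp n) (C.mem_sp n)
    rw [C.φ_apply]
    exact this.symm
  move n y hy := by
    classical
    obtain ⟨e, he, h1, h2, h3⟩ := exists_exch C.K n
      (fun i => C.sp i) (fun i => C.yb (y i)) (fun i j h => Fin.ext (C.sp_inj h))
      (fun i j h => hy (C.yb_inj h)) (fun i j => by simp)
      (fun i => ⟨Equiv.swap (C.sp i) (C.yb (y i)), by
        convert C.mem_swap i (y i), Equiv.swap_apply_left _ _, Equiv.swap_apply_right _ _,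
        fun x hx hx' => Equiv.swap_apply_of_ne_of_ne hx hx'⟩)
    refine ⟨C.pr (C.κ ⟨e, he⟩), ?_, ?_⟩
    · intro i
      rw [← C.θ₁_smul _ _ (C.mem_sp _)]
      change C.θ₁ (e _) = _
      rw [h1]
      rfl
    · intro h hh
      have hc : Commute (⟨e, he⟩ : C.K) (C.kb h) := by
        apply Subtype.ext
        apply Equiv.ext
        intro x
        change e (zb G h x) = zb G h (e x)
        by_cases hx1 : ∃ i, x = C.sp (i : Fin n)
        · obtain ⟨i, rfl⟩ := hx1
          rw [zb_inr, h1, zb_zero, hh i]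
        by_cases hx2 : ∃ i, x = C.yb (y i)
        · obtain ⟨i, rfl⟩ := hx2
          rw [zb_zero, hh i, h2, zb_inr]
        push Not at hx1 hx2
        rw [h3 x hx1 hx2]
        apply h3
        · intro i hi
          apply hx1 i
          apply (zb G h).injective
          rw [hi, zb_inr]
        · intro i hi
          apply hx2 i
          apply (zb G h).injective
          rw [hi, zb_zero, hh i]
      exact (hc.map C.κ).map C.pr
  faithful := C.faithful

/-- the torus of a core -/
abbrev Γ : Type := C.hotel.Γ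

/-- the colimit set of a core -/
abbrev X : Type := C.hotel.X

theorem isHT : IsHT C.Γ C.X := C.hotel.isHT

theorem fp : Group.IsFinitelyPresented C.Γ := gt_fp C.fpE C.i₁ C.pr (fun _ => rfl)

/-- the rook certificate for `φ` -/
noncomputable def rook : Rook C.H C.H where
  v i j := (C.pr.comp C.κ).comp ((zv G i j).codRestrict C.K (C.mem_v i j))
  β := C.φ
  s := C.pr (C.κ ⟨zs G C.Y, C.mem_s⟩)
  row i j l h a b := by
    have h1 : Commute ((zv G i j).codRestrict C.K (C.mem_v i j) a)
        ((zv G i l).codRestrict C.K (C.mem_v i l) b) :=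
      Subtype.ext ((zRook G C.H C.Y).row i j l h a b)
    exact h1.map (C.pr.comp C.κ)
  col i k j h a b := by
    have h1 : Commute ((zv G i j).codRestrict C.K (C.mem_v i j) a)
        ((zv G k j).codRestrict C.K (C.mem_v k j) b) :=
      Subtype.ext ((zRook G C.H C.Y).col i k j h a b)
    exact h1.map (C.pr.comp C.κ)
  rβ i a b := by
    have h1 : Commute ((zv G i 0).codRestrict C.K (C.mem_v i 0) a *
        (zv G i 1).codRestrict C.K (C.mem_v i 1) a *
        (zv G i 2).codRestrict C.K (C.mem_v i 2) a *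
        (zv G i 3).codRestrict C.K (C.mem_v i 3) a) (C.kb b) :=
      Subtype.ext ((zRook G C.H C.Y).rβ i a b)
    have h2 := h1.map (C.pr.comp C.κ)
    simp only [map_mul] at h2
    exact h2
  cβ j a b := by
    have h1 : Commute ((zv G 0 j).codRestrict C.K (C.mem_v 0 j) a *
        (zv G 1 j).codRestrict C.K (C.mem_v 1 j) a *
        (zv G 2 j).codRestrict C.K (C.mem_v 2 j) a) (C.kb b) :=
      Subtype.ext ((zRook G C.H C.Y).cβ j a b)
    have h2 := h1.map (C.pr.comp C.κ)
    simp only [map_mul] at h2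
    exact h2
  sr i a := by
    have h1 : (⟨zs G C.Y, C.mem_s⟩ : C.K) * ((zv G i 0).codRestrict C.K (C.mem_v i 0) a *
        (zv G i 1).codRestrict C.K (C.mem_v i 1) a *
        (zv G i 2).codRestrict C.K (C.mem_v i 2) a *
        (zv G i 3).codRestrict C.K (C.mem_v i 3) a) * (⟨zs G C.Y, C.mem_s⟩ : C.K)⁻¹ =
        (zv G i 0).codRestrict C.K (C.mem_v i 0) a *
        (zv G i 1).codRestrict C.K (C.mem_v i 1) a *
        (zv G i 2).codRestrict C.K (C.mem_v i 2) a *
        (zv G i 3).codRestrict C.K (C.mem_v i 3) a * C.kb a :=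
      Subtype.ext ((zRook G C.H C.Y).sr i a)
    have h2 := congrArg (C.pr.comp C.κ) h1
    simp only [map_mul, map_inv] at h2
    exact h2
  sc j a := by
    have h1 : (⟨zs G C.Y, C.mem_s⟩ : C.K) * ((zv G 0 j).codRestrict C.K (C.mem_v 0 j) a *
        (zv G 1 j).codRestrict C.K (C.mem_v 1 j) a *
        (zv G 2 j).codRestrict C.K (C.mem_v 2 j) a) * (⟨zs G C.Y, C.mem_s⟩ : C.K)⁻¹ =
        (zv G 0 j).codRestrict C.K (C.mem_v 0 j) a *
        (zv G 1 j).codRestrict C.K (C.mem_v 1 j) a *
        (zv G 2 j).codRestrict C.K (C.mem_v 2 j) a * C.kb a :=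
      Subtype.ext ((zRook G C.H C.Y).sc j a)
    have h2 := congrArg (C.pr.comp C.κ) h1
    simp only [map_mul, map_inv] at h2
    exact h2


/-- `G` embeds in `H` -/
def gH' : G →* C.H := (C.pr.comp C.κ).comp ((zg C.Y).codRestrict C.K C.mem_g)

theorem gH'_inj : Function.Injective C.gH' := by
  intro a b h
  have h0 : ∀ (g : G), C.θ₁ (ptg C.Y (g * 1)) = C.gH' g • C.θ₁ (ptg C.Y 1) := fun g =>
    C.θ₁_smul ((zg C.Y).codRestrict C.K C.mem_g g) (ptg C.Y 1) (C.mem_gp 1)
  have h1 : C.θ₁ (ptg C.Y (a * 1)) = C.θ₁ (ptg C.Y (b * 1)) := by rw [h0, h0, h]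
  have h2 := C.θ₁_inj (C.mem_gp _) (C.mem_gp _) h1
  have h3 := Sum.inr.inj (Sum.inr.inj h2)
  simpa using h3

/-- `G` embeds in `Γ` -/
noncomputable def gΓ : G →* C.Γ := (gi C.hotel.φ).comp C.gH'

theorem gΓ_inj : Function.Injective C.gΓ := by
  obtain ⟨ht, hT⟩ := exists_isTorus C.hotel.φ_inj
  exact hT.inj.comp C.gH'_inj

end Core

end Crest.Agent.R185.Hot
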