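import Crest.Agent.R185.Md191C

-- ▼ part R185/Md191D
section

/-!
# R185 / MOD (D): the letters acting on `Y(X)`, the finitely presented group, `α w = 1`

* `UL ι A` : letters `h i | k | s | b a | g a | d`.
* `YY X = YQ (SG L ε) (starQ X)` over `Q = D × P(X)`; `actY X κ : F(UL ι A) →* Perm (YY X)`.
* `RelOK f` : the (finitely many) relations, `EP = ` the group presented by them.
* `RelOK.alpha_one` : `α w = 1` for accepted `w`;  `relOK_actY` : the honest case.
-/

set_option autoImplicit false

namespace Crest.Agent.R185.Md191D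

open Equiv Crest.Agent.R185.Md191A Crest.Agent.R185.Md191B Crest.Agent.R185.Md191C

/-! ### words in an abstract group -/

section abs

variable {K B : Type} [Group K]

theorem commute_word {c : K} {χ : FreeGroup B →* K} (h : ∀ b, Commute c (χ (FreeGroup.of b)))
    (x : FreeGroup B) : Commute c (χ x) := by
  induction x using FreeGroup.induction_on with
  | C1 => rw [map_one]; exact Commute.one_right c
  | of b => exact h b
  | inv_of b ih => rw [map_inv]; exact ih.inv_right
  | mul u v ihu ihv => rw [map_mul]; exact ihu.mul_right ihv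

theorem commute_word' {c : K} {χ : FreeGroup B →* K} (h : ∀ b, Commute (χ (FreeGroup.of b)) c)
    (x : FreeGroup B) : Commute (χ x) c := (commute_word (fun b => (h b).symm) x).symm

theorem conj_word {s : K} {e χ : FreeGroup B →* K} (hc : ∀ x y, Commute (e x) (χ y))
    (h : ∀ b, s * e (FreeGroup.of b) * s⁻¹ = e (FreeGroup.of b) * χ (FreeGroup.of b))
    (x : FreeGroup B) : s * e x * s⁻¹ = e x * χ x := by
  induction x using FreeGroup.induction_on with
  | C1 => simp
  | of b => exact h b
  | inv_of b ih =>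
    have : s * e (FreeGroup.of b)⁻¹ * s⁻¹ = (s * e (FreeGroup.of b) * s⁻¹)⁻¹ := by
      rw [map_inv]; group
    rw [this, ih, mul_inv_rev, map_inv, map_inv, ((hc (FreeGroup.of b) (FreeGroup.of b)).inv_inv).eq]
  | mul u v ihu ihv =>
    have : s * e (u * v) * s⁻¹ = (s * e u * s⁻¹) * (s * e v * s⁻¹) := by
      rw [map_mul]; group
    rw [this, ihu, ihv, map_mul, map_mul, mul_assoc, ← mul_assoc (χ u), ← (hc v u).eq]
    simp only [mul_assoc]

variable {A : Type}

/-- the heart of `α w = 1` -/
theorem commute_d_gamma (e : FreeGroup (Option A) →* K) (b g : FreeGroup A →* K) (d s k : K)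
    (heb : ∀ o a, Commute (e (FreeGroup.of o)) (b (FreeGroup.of a)))
    (heg : ∀ o a, Commute (e (FreeGroup.of o)) (g (FreeGroup.of a)))
    (hed : ∀ o, Commute (e (FreeGroup.of o)) d)
    (hkb : ∀ a, Commute k (b (FreeGroup.of a))) (hkd : Commute k d)
    (hbg : ∀ a a', Commute (b (FreeGroup.of a)) (g (FreeGroup.of a')))
    (h6 : ∀ a, s * e (FreeGroup.of (some a)) * s⁻¹ =
      e (FreeGroup.of (some a)) * (b (FreeGroup.of a) * g (FreeGroup.of a)))
    (h7 : s * e (FreeGroup.of none) * s⁻¹ = e (FreeGroup.of none) * d)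
    (h8 : ∀ a, s * (k * e (FreeGroup.of (some a)) * k⁻¹) * s⁻¹ =
      (k * e (FreeGroup.of (some a)) * k⁻¹) * b (FreeGroup.of a))
    (h9 : s * (k * e (FreeGroup.of none) * k⁻¹) * s⁻¹ = (k * e (FreeGroup.of none) * k⁻¹) * d)
    (w : FreeGroup A) (hw : Commute k (e (tw w))) : Commute d (g w) := by
  -- the two representations
  let χ1 : FreeGroup (Option A) →* K := FreeGroup.lift (fun o => o.elim d
    (fun a => b (FreeGroup.of a) * g (FreeGroup.of a)))
  let χ2 : FreeGroup (Option A) →* K := FreeGroup.lift (fun o => o.elim d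
    (fun a => b (FreeGroup.of a)))
  let ek : FreeGroup (Option A) →* K := (MulAut.conj k).toMonoidHom.comp e
  have hek : ∀ x, ek x = k * e x * k⁻¹ := fun x => rfl
  have c1 : ∀ x y, Commute (e x) (χ1 y) := by
    intro x y
    refine commute_word' (fun o => ?_) x
    refine commute_word (fun o' => ?_) y
    rcases o' with _ | a
    · simp only [χ1, FreeGroup.lift_apply_of, Option.elim]
      exact hed o
    · simp only [χ1, FreeGroup.lift_apply_of, Option.elim]
      exact (heb o a).mul_right (heg o a)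
  have c2 : ∀ x y, Commute (ek x) (χ2 y) := by
    intro x y
    refine commute_word' (fun o => ?_) x
    refine commute_word (fun o' => ?_) y
    rw [hek]
    rcases o' with _ | a
    · simp only [χ2, FreeGroup.lift_apply_of, Option.elim]
      exact (hkd.mul_left (hed o)).mul_left hkd.inv_left
    · simp only [χ2, FreeGroup.lift_apply_of, Option.elim]
      exact ((hkb a).mul_left (heb o a)).mul_left (hkb a).inv_left
  have s1 : ∀ x, s * e x * s⁻¹ = e x * χ1 x := by
    refine conj_word c1 ?_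
    rintro (_ | a)
    · simp only [χ1, FreeGroup.lift_apply_of, Option.elim]; exact h7
    · simp only [χ1, FreeGroup.lift_apply_of, Option.elim]; exact h6 a
  have s2 : ∀ x, s * ek x * s⁻¹ = ek x * χ2 x := by
    refine conj_word c2 ?_
    rintro (_ | a)
    · simp only [χ2, FreeGroup.lift_apply_of, Option.elim]; exact h9
    · simp only [χ2, FreeGroup.lift_apply_of, Option.elim]; exact h8 a
  have cbg : ∀ x y, Commute (b x) (g y) := by
    intro x y
    refine commute_word' (fun o => ?_) x
    exact commute_word (fun o' => hbg o o') y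
  have p1 : ∀ x : FreeGroup A, χ1 (piw x) = b x * g x := by
    intro x
    induction x using FreeGroup.induction_on with
    | C1 => simp
    | of a => simp [χ1, piw]
    | inv_of a ih => rw [map_inv, map_inv, ih, mul_inv_rev, map_inv, map_inv,
        (cbg (FreeGroup.of a) (FreeGroup.of a)).inv_inv.eq]
    | mul u v ihu ihv =>
      rw [map_mul, map_mul, ihu, ihv, map_mul, map_mul, mul_assoc, ← mul_assoc (g u),
        ← (cbg v u).eq]
      simp only [mul_assoc]
  have p2 : ∀ x : FreeGroup A, χ2 (piw x) = b x := by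
    intro x
    have : χ2.comp piw = b := by
      ext a : 1
      simp [χ2, piw]
    exact congrArg (fun f : FreeGroup A →* _ => f x) this
  have t1 : χ1 tt = d := by simp [χ1, tt]
  have t2 : χ2 tt = d := by simp [χ2, tt]
  have hw' : ek (tw w) = e (tw w) := by rw [hek, hw.eq]; group
  have h1 := s1 (tw w)
  have h2 := s2 (tw w)
  rw [hw', h1, mul_left_cancel_iff] at h2
  rw [tw, map_mul, map_mul, map_mul, map_mul, map_inv, map_inv, p1, p2, t1, t2, (cbg w w).eq] at h2
  -- g b d b⁻¹ g⁻¹ = b d b⁻¹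
  have h3 : b w * (g w * d * (g w)⁻¹) * (b w)⁻¹ = b w * d * (b w)⁻¹ := by
    rw [← h2, ← (cbg w w).eq]; group
  have h4 : g w * d * (g w)⁻¹ = d := by
    have := mul_right_cancel h3
    exact mul_left_cancel this
  have h5 : g w * d = d * g w := by
    rw [mul_inv_eq_iff_eq_mul] at h4; exact h4
  exact h5.symm

/-- `α(a) = [d, γ(a)]` is a homomorphism -/
theorem alpha_word (g : FreeGroup A →* K) (d : K) (al : FreeGroup A →* K)
    (hal : ∀ a, al (FreeGroup.of a) = d * g (FreeGroup.of a) * d⁻¹ * (g (FreeGroup.of a))⁻¹)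
    (h5 : ∀ a a', Commute (al (FreeGroup.of a)) (g (FreeGroup.of a')))
    (w : FreeGroup A) : al w = d * g w * d⁻¹ * (g w)⁻¹ := by
  have hc : ∀ x y, Commute (g x) (al y) := fun x y =>
    commute_word' (fun o => commute_word (fun o' => (h5 o' o).symm) y) x
  have := conj_word (s := d) (e := g) (χ := al) hc (fun a => by
    rw [← (hc _ _).symm.eq, hal]; group) w
  rw [this, (hc w w).eq]; group

end abs

/-! ### the letters and the relations -/

/-- the letters -/
inductive UL (ι A : Type)
  | h (i : ι)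
  | k
  | s
  | b (a : A)
  | g (a : A)
  | d

instance {ι A : Type} [Finite ι] [Finite A] : Finite (UL ι A) := by
  have : Function.Surjective (fun x : (Option ι) ⊕ (Option (A ⊕ Option A)) =>
      (match x with
        | Sum.inl (some i) => UL.h i
        | Sum.inl none => UL.k
        | Sum.inr none => UL.s
        | Sum.inr (some (Sum.inl a)) => UL.b a
        | Sum.inr (some (Sum.inr (some a))) => UL.g a
        | Sum.inr (some (Sum.inr none)) => UL.d : UL ι A)) := by
    rintro (i | _ | _ | a | a | _)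
    · exact ⟨Sum.inl (some i), rfl⟩
    · exact ⟨Sum.inl none, rfl⟩
    · exact ⟨Sum.inr none, rfl⟩
    · exact ⟨Sum.inr (some (Sum.inl a)), rfl⟩
    · exact ⟨Sum.inr (some (Sum.inr (some a))), rfl⟩
    · exact ⟨Sum.inr (some (Sum.inr none)), rfl⟩
  exact Finite.of_surjective _ this

/-- the presentation data of the syntactic witness -/
structure WitFP {A H : Type} [Group H] (L : Subgroup H) (ε : FreeGroup (Option A) →* H)
    (Acc : Set (FreeGroup A)) (ι : Type) where
  gen : FreeGroup ι →* H
  rels : Set (FreeGroup ι)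
  rels_fin : rels.Finite
  rels_true : ∀ r ∈ rels, gen r = 1
  θ : FreeGroup (Option A) →* FreeGroup ι
  hθ : ∀ e, gen (θ e) = ε e
  Lw : Set (FreeGroup ι)
  Lw_fin : Lw.Finite
  Lw_mem : ∀ w ∈ Lw, gen w ∈ L
  deriv : ∀ (K : Type) [Group K] (f : FreeGroup ι →* K), (∀ r ∈ rels, f r = 1) →
    ∀ w ∈ Acc, f (θ (tw w)) ∈ Subgroup.closure (f '' Lw)

section rels

variable {ι A : Type}

/-- `H`-words -/
def hw : FreeGroup ι →* FreeGroup (UL ι A) := FreeGroup.map UL.h

/-- `b`-words -/
def bw : FreeGroup A →* FreeGroup (UL ι A) := FreeGroup.map UL.b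

/-- `g`-words -/
def gw : FreeGroup A →* FreeGroup (UL ι A) := FreeGroup.map UL.g

/-- `k` -/
abbrev kw : FreeGroup (UL ι A) := FreeGroup.of UL.k

/-- `s` -/
abbrev sw : FreeGroup (UL ι A) := FreeGroup.of UL.s

/-- `d` -/
abbrev dw : FreeGroup (UL ι A) := FreeGroup.of UL.d

/-- `α` as a word -/
def aw : FreeGroup A →* FreeGroup (UL ι A) :=
  FreeGroup.lift (fun a => dw * gw (FreeGroup.of a) * dw⁻¹ * (gw (FreeGroup.of a))⁻¹)

@[simp] theorem hw_of (i : ι) : (hw (FreeGroup.of i) : FreeGroup (UL ι A)) =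
    FreeGroup.of (UL.h i) := by simp [hw]
@[simp] theorem bw_of (a : A) : (bw (FreeGroup.of a) : FreeGroup (UL ι A)) =
    FreeGroup.of (UL.b a) := by simp [bw]
@[simp] theorem gw_of (a : A) : (gw (FreeGroup.of a) : FreeGroup (UL ι A)) =
    FreeGroup.of (UL.g a) := by simp [gw]
theorem aw_of (a : A) : (aw (FreeGroup.of a) : FreeGroup (UL ι A)) =
    dw * gw (FreeGroup.of a) * dw⁻¹ * (gw (FreeGroup.of a))⁻¹ := by simp [aw]

variable {H : Type} [Group H] {L : Subgroup H} {ε : FreeGroup (Option A) →* H}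
  {Acc : Set (FreeGroup A)} (W : WitFP L ε Acc ι)

/-- the `D`-letters as words -/
def dl : Option ι → FreeGroup (UL ι A)
  | none => FreeGroup.of UL.k
  | some i => FreeGroup.of (UL.h i)

/-- the `J`-letters as words -/
def jl : Option (A ⊕ A) → FreeGroup (UL ι A)
  | none => FreeGroup.of UL.d
  | some (Sum.inl a) => FreeGroup.of (UL.b a)
  | some (Sum.inr a) => FreeGroup.of (UL.g a)

/-- the relators -/
def RU : Set (FreeGroup (UL ι A)) :=
  ((hw '' W.rels) ∪ ((fun w => kw * hw w * kw⁻¹ * (hw w)⁻¹) '' W.Lw)) ∪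
  (Set.range (fun p : Option ι × Option (A ⊕ A) =>
    (dl p.1 * jl p.2 * (dl p.1)⁻¹ * (jl p.2)⁻¹ : FreeGroup (UL ι A)))) ∪
  (Set.range (fun p : A × A => (bw (FreeGroup.of p.1) * gw (FreeGroup.of p.2) *
    (bw (FreeGroup.of p.1))⁻¹ * (gw (FreeGroup.of p.2))⁻¹ : FreeGroup (UL ι A)))) ∪
  (Set.range (fun p : A × A => (aw (FreeGroup.of p.1) * gw (FreeGroup.of p.2) *
    (aw (FreeGroup.of p.1))⁻¹ * (gw (FreeGroup.of p.2))⁻¹ : FreeGroup (UL ι A)))) ∪
  (Set.range (fun a : A => (sw * hw (W.θ (FreeGroup.of (some a))) * sw⁻¹ *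
    (hw (W.θ (FreeGroup.of (some a))) * (bw (FreeGroup.of a) * gw (FreeGroup.of a)))⁻¹ :
    FreeGroup (UL ι A)))) ∪
  (Set.range (fun a : A => (sw * (kw * hw (W.θ (FreeGroup.of (some a))) * kw⁻¹) * sw⁻¹ *
    ((kw * hw (W.θ (FreeGroup.of (some a))) * kw⁻¹) * bw (FreeGroup.of a))⁻¹ :
    FreeGroup (UL ι A)))) ∪
  {sw * hw (W.θ tt) * sw⁻¹ * (hw (W.θ tt) * dw)⁻¹,
    sw * (kw * hw (W.θ tt) * kw⁻¹) * sw⁻¹ * ((kw * hw (W.θ tt) * kw⁻¹) * dw)⁻¹}

theorem RU_finite [Finite ι] [Finite A] : (RU W).Finite := by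
  unfold RU
  refine Set.Finite.union (Set.Finite.union (Set.Finite.union (Set.Finite.union (Set.Finite.union
    (Set.Finite.union (Set.Finite.union (W.rels_fin.image _) (W.Lw_fin.image _))
      (Set.finite_range _)) (Set.finite_range _)) (Set.finite_range _)) (Set.finite_range _))
      (Set.finite_range _)) (Set.toFinite _)

/-- the relations -/
structure RelOK {K : Type} [Group K] (f : FreeGroup (UL ι A) →* K) : Prop where
  rel : ∀ r ∈ W.rels, f (hw r) = 1
  kL : ∀ w ∈ W.Lw, Commute (f kw) (f (hw w))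
  dj : ∀ x y, Commute (f (dl x)) (f (jl y))
  bg : ∀ a a', Commute (f (bw (FreeGroup.of a))) (f (gw (FreeGroup.of a')))
  ag : ∀ a a', Commute (f (aw (FreeGroup.of a))) (f (gw (FreeGroup.of a')))
  s1 : ∀ a, f sw * f (hw (W.θ (FreeGroup.of (some a)))) * (f sw)⁻¹ =
    f (hw (W.θ (FreeGroup.of (some a)))) * (f (bw (FreeGroup.of a)) * f (gw (FreeGroup.of a)))
  s2 : ∀ a, f sw * (f kw * f (hw (W.θ (FreeGroup.of (some a)))) * (f kw)⁻¹) * (f sw)⁻¹ =
    (f kw * f (hw (W.θ (FreeGroup.of (some a)))) * (f kw)⁻¹) * f (bw (FreeGroup.of a))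
  s3 : f sw * f (hw (W.θ tt)) * (f sw)⁻¹ = f (hw (W.θ tt)) * f dw
  s4 : f sw * (f kw * f (hw (W.θ tt)) * (f kw)⁻¹) * (f sw)⁻¹ =
    (f kw * f (hw (W.θ tt)) * (f kw)⁻¹) * f dw

theorem comm_iff {K : Type} [Group K] (x y : K) : x * y * x⁻¹ * y⁻¹ = 1 ↔ Commute x y := by
  rw [mul_inv_eq_one, mul_inv_eq_iff_eq_mul]; rfl

theorem relOK_iff {K : Type} [Group K] (f : FreeGroup (UL ι A) →* K) :
    RelOK W f ↔ ∀ r ∈ RU W, f r = 1 := by
  constructor
  · intro h r hr
    rcases hr with (((((((⟨r, hr, rfl⟩ | ⟨w, hw', rfl⟩) | ⟨⟨x, y⟩, rfl⟩) | ⟨⟨a, a'⟩, rfl⟩) |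
      ⟨⟨a, a'⟩, rfl⟩) | ⟨a, rfl⟩) | ⟨a, rfl⟩) | hr)
    · exact h.rel r hr
    · simp only [map_mul, map_inv]
      exact (comm_iff _ _).2 (h.kL w hw')
    · simp only [map_mul, map_inv]
      exact (comm_iff _ _).2 (h.dj x y)
    · simp only [map_mul, map_inv]
      exact (comm_iff _ _).2 (h.bg a a')
    · rw [map_mul, map_mul, map_mul, map_inv, map_inv]
      exact (comm_iff _ _).2 (h.ag a a')
    · rw [map_mul, map_inv, mul_inv_eq_one]
      simp only [map_mul, map_inv]
      exact h.s1 a
    · rw [map_mul, map_inv, mul_inv_eq_one]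
      simp only [map_mul, map_inv]
      exact h.s2 a
    · rcases hr with rfl | rfl
      · rw [map_mul, map_inv, mul_inv_eq_one]
        simp only [map_mul, map_inv]
        exact h.s3
      · rw [map_mul, map_inv, mul_inv_eq_one]
        simp only [map_mul, map_inv]
        exact h.s4
  · intro h
    constructor
    · intro r hr
      exact h _ (Or.inl (Or.inl (Or.inl (Or.inl (Or.inl (Or.inl (Or.inl ⟨r, hr, rfl⟩)))))))
    · intro w hw'
      have := h _ (Or.inl (Or.inl (Or.inl (Or.inl (Or.inl (Or.inl (Or.inr ⟨w, hw', rfl⟩)))))))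
      simp only [map_mul, map_inv] at this
      exact (comm_iff _ _).1 this
    · intro x y
      have := h _ (Or.inl (Or.inl (Or.inl (Or.inl (Or.inl (Or.inr ⟨(x, y), rfl⟩))))))
      simp only [map_mul, map_inv] at this
      exact (comm_iff _ _).1 this
    · intro a a'
      have := h _ (Or.inl (Or.inl (Or.inl (Or.inl (Or.inr ⟨(a, a'), rfl⟩)))))
      simp only [map_mul, map_inv] at this
      exact (comm_iff _ _).1 this
    · intro a a'
      have := h _ (Or.inl (Or.inl (Or.inl (Or.inr ⟨(a, a'), rfl⟩))))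
      rw [map_mul, map_mul, map_mul, map_inv, map_inv] at this
      exact (comm_iff _ _).1 this
    · intro a
      have := h _ (Or.inl (Or.inl (Or.inr ⟨a, rfl⟩)))
      rw [map_mul, map_inv, mul_inv_eq_one] at this
      simpa only [map_mul, map_inv] using this
    · intro a
      have := h _ (Or.inl (Or.inr ⟨a, rfl⟩))
      rw [map_mul, map_inv, mul_inv_eq_one] at this
      simpa only [map_mul, map_inv] using this
    · have := h _ (Or.inr (Or.inl rfl))
      rw [map_mul, map_inv, mul_inv_eq_one] at this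
      simpa only [map_mul, map_inv] using this
    · have := h _ (Or.inr (Or.inr rfl))
      rw [map_mul, map_inv, mul_inv_eq_one] at this
      simpa only [map_mul, map_inv] using this

/-! ### `α w = 1` for accepted words -/

variable {W}

theorem RelOK.comm_hj {K : Type} [Group K] {f : FreeGroup (UL ι A) →* K} (h : RelOK W f)
    (x : FreeGroup ι) (y : Option (A ⊕ A)) : Commute (f (hw x)) (f (jl y)) := by
  refine commute_word' (χ := f.comp hw) (fun i => ?_) x
  have := h.dj (some i) y
  simpa [dl] using this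

theorem RelOK.aw_eq {K : Type} [Group K] {f : FreeGroup (UL ι A) →* K} (h : RelOK W f)
    (w : FreeGroup A) : f (aw w) = f dw * f (gw w) * (f dw)⁻¹ * (f (gw w))⁻¹ := by
  refine alpha_word (f.comp gw) (f dw) (f.comp aw) ?_ ?_ w
  · intro a
    simp only [MonoidHom.comp_apply, aw_of, map_mul, map_inv]
  · intro a a'
    exact h.ag a a'

theorem RelOK.comm_kw_tw {K : Type} [Group K] {f : FreeGroup (UL ι A) →* K} (h : RelOK W f)
    {w : FreeGroup A} (hw' : w ∈ Acc) : Commute (f kw) (f (hw (W.θ (tw w)))) := by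
  have h1 := W.deriv K (f.comp hw) (fun r hr => h.rel r hr) w hw'
  have h2 : Subgroup.closure ((f.comp hw) '' W.Lw) ≤ Subgroup.centralizer {f kw} := by
    rw [Subgroup.closure_le]
    rintro _ ⟨x, hx, rfl⟩
    rw [SetLike.mem_coe, Subgroup.mem_centralizer_singleton_iff]
    exact (h.kL x hx).symm.eq
  have h3 := h2 h1
  rw [Subgroup.mem_centralizer_singleton_iff] at h3
  exact (show Commute (f (hw (W.θ (tw w)))) (f kw) from h3).symm

/-- **`α w = 1` for accepted words** -/
theorem RelOK.alpha_one {K : Type} [Group K] {f : FreeGroup (UL ι A) →* K} (h : RelOK W f)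
    {w : FreeGroup A} (hw' : w ∈ Acc) : f (aw w) = 1 := by
  have hd : ∀ y : Option (A ⊕ A), Commute (f kw) (f (jl y)) := fun y => h.dj none y
  have key := commute_d_gamma ((f.comp hw).comp W.θ) (f.comp bw) (f.comp gw) (f dw) (f sw) (f kw)
    (fun o a => by
      have := h.comm_hj (W.θ (FreeGroup.of o)) (some (Sum.inl a))
      simpa [jl] using this)
    (fun o a => by
      have := h.comm_hj (W.θ (FreeGroup.of o)) (some (Sum.inr a))
      simpa [jl] using this)
    (fun o => by
      have := h.comm_hj (W.θ (FreeGroup.of o)) none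
      simpa [jl] using this)
    (fun a => by
      have := hd (some (Sum.inl a))
      simpa [jl] using this)
    (by
      have := hd none
      simpa [jl] using this)
    h.bg h.s1 h.s3 h.s2 h.s4 w (h.comm_kw_tw hw')
  rw [h.aw_eq, comm_iff]
  exact key

variable (W)

/-- the finitely presented group -/
abbrev EP : Type := PresentedGroup (RU W)

instance [Finite ι] [Finite A] : Finite (RU W) := (RU_finite W).to_subtype

theorem EP_fp [Finite ι] [Finite A] : Group.IsFinitelyPresented (EP W) := by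
  infer_instance

/-- the projection -/
def prE : FreeGroup (UL ι A) →* EP W := PresentedGroup.mk (RU W)

theorem relOK_prE : RelOK W (prE W) := by
  rw [relOK_iff]
  intro r hr
  exact PresentedGroup.one_of_mem hr

/-- `α` in `EP` -/
def alE : FreeGroup A →* EP W := (prE W).comp aw

theorem alE_one {w : FreeGroup A} (hw' : w ∈ Acc) : alE W w = 1 := (relOK_prE W).alpha_one hw'

theorem liftE_aux {K : Type} [Group K] (f : FreeGroup (UL ι A) →* K) (h : RelOK W f) :
    ∀ r ∈ RU W, FreeGroup.lift (fun x => f (FreeGroup.of x)) r = 1 := by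
  intro r hr
  have : FreeGroup.lift (fun x => f (FreeGroup.of x)) = f := by
    ext x; simp
  rw [this]
  exact (relOK_iff W f).1 h r hr

/-- the universal property -/
def liftE {K : Type} [Group K] (f : FreeGroup (UL ι A) →* K) (h : RelOK W f) : EP W →* K :=
  PresentedGroup.toGroup (liftE_aux W f h)

theorem liftE_prE {K : Type} [Group K] (f : FreeGroup (UL ι A) →* K) (h : RelOK W f)
    (x : FreeGroup (UL ι A)) : liftE W f h (prE W x) = f x := by
  have : (liftE W f h).comp (prE W) = f := by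
    ext x
    exact PresentedGroup.toGroup.of (liftE_aux W f h)
  exact congrArg (fun f : FreeGroup (UL ι A) →* _ => f x) this

end rels

end Crest.Agent.R185.Md191D
private theorem rz_0c5b9a776f : type_of% @_root_.Crest.Agent.R185.Md191D.dl.eq_1 := @_root_.Crest.Agent.R185.Md191D.dl.eq_1 -- L237
private theorem rz_702c026606 : type_of% @_root_.Crest.Agent.R185.Md191D.jl.eq_1 := @_root_.Crest.Agent.R185.Md191D.jl.eq_1 -- L242
end

-- ▼ part R185/Md191E

/-!
# R185 / MOD (E): the action of the letters on `Y(X)`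

`YY hW hκ X = YQ (SG L ε) (starQ (chiS X hW hκ))` over `Q = D × P(X)`;
`actY : F(UL ι A) →* Perm (YY X)`; evaluation of words; the relations; the honest case;
functoriality in `X`; the base points `th x = inr (0, (1, (1, 0, x)))`.
-/

set_option autoImplicit false
set_option linter.unusedSectionVars false

namespace Crest.Agent.R185.Md191E

open Equiv Crest.Agent.R185.Md191A Crest.Agent.R185.Md191B Crest.Agent.R185.Md191C
  Crest.Agent.R185.Md191D

/-! ### the regular coordinate -/

section regular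

variable (D Pp : Type) [Group D]

/-- `D` acts on the first coordinate -/
def dQ : D →* Perm (D × Pp) where
  toFun d :=
    { toFun := fun q => (d * q.1, q.2)
      invFun := fun q => (d⁻¹ * q.1, q.2)
      left_inv := by rintro ⟨z, p⟩; simp
      right_inv := by rintro ⟨z, p⟩; simp }
  map_one' := by apply Equiv.ext; rintro ⟨z, p⟩; simp
  map_mul' a b := by apply Equiv.ext; rintro ⟨z, p⟩; simp [mul_assoc]

@[simp] theorem dQ_apply (d z : D) (p : Pp) : dQ D Pp d (z, p) = (d * z, p) := rfl

variable {Pp}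

/-- permutations of the second coordinate -/
def jQ : Perm Pp →* Perm (D × Pp) where
  toFun j :=
    { toFun := fun q => (q.1, j q.2)
      invFun := fun q => (q.1, j⁻¹ q.2)
      left_inv := by rintro ⟨z, p⟩; simp
      right_inv := by rintro ⟨z, p⟩; simp }
  map_one' := by apply Equiv.ext; rintro ⟨z, p⟩; simp
  map_mul' a b := by apply Equiv.ext; rintro ⟨z, p⟩; simp

@[simp] theorem jQ_apply (j : Perm Pp) (z : D) (p : Pp) : jQ D j (z, p) = (z, j p) := rfl

theorem comm_dQ_jQ (d : D) (j : Perm Pp) : Commute (dQ D Pp d) (jQ D j) := by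
  apply Equiv.ext; rintro ⟨z, p⟩; rfl

variable {D} {S : Subgroup D}

/-- `star e (z, p) = (e z, χ e p)` -/
def starQ (χ : S →* Perm Pp) : S →* Perm (D × Pp) where
  toFun e := dQ D Pp e * jQ D (χ e)
  map_one' := by simp
  map_mul' a b := by
    rw [Subgroup.coe_mul, map_mul, map_mul, map_mul, mul_assoc, mul_assoc,
      ← mul_assoc (dQ D Pp b), ← mul_assoc (jQ D (χ a)), (comm_dQ_jQ D (b : D) (χ a)).eq]

@[simp] theorem starQ_apply (χ : S →* Perm Pp) (e : S) (z : D) (p : Pp) :
    starQ χ e (z, p) = ((e : D) * z, χ e p) := rfl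

theorem starQ_twist (χ : S →* Perm Pp) (e : S) :
    (dQ D Pp e)⁻¹ * starQ χ e = jQ D (χ e) := by
  change (dQ D Pp e)⁻¹ * (dQ D Pp e * jQ D (χ e)) = jQ D (χ e)
  rw [inv_mul_cancel_left]

end regular

/-! ### the set `Y(X)` and the letters -/

section act

variable {A H ι : Type} [Group H] {L : Subgroup H} {ε : FreeGroup (Option A) →* H}
  {Acc : Set (FreeGroup A)} {κ : FreeGroup A → FreeGroup A}
  (hW : WitOK L ε Acc) (hκ : ∀ w ∈ Acc, κ w = 1) (gen : FreeGroup ι →* H)
  (X : Type) [MulAction (FreeGroup A) X]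

/-- the action of `S` on `Q = D × P(X)` -/
noncomputable abbrev sQ : SG L ε →* Perm (DG L × P A X) := starQ (chiS X hW hκ)

/-- **`Y(X)`** -/
abbrev YY : Type := YQ (SG L ε) (sQ hW hκ X)

/-- the action of `D` on `Y(X)` -/
noncomputable abbrev dYY : DG L →* Perm (YY hW hκ X) :=
  dY (SG L ε) (dQ (DG L) (P A X)) (sQ hW hκ X)

/-- payload permutations on the sheet `inr 0` of `Y(X)` -/
noncomputable abbrev jYY : Perm (P A X) →* Perm (YY hW hκ X) :=
  (jY (SG L ε) (sQ hW hκ X)).comp (jQ (DG L))

/-- the shift of `Y(X)` -/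
noncomputable abbrev sYY : Perm (YY hW hκ X) := sh (SG L ε) (sQ hW hκ X)

theorem comm_dj (d : DG L) (j : Perm (P A X)) :
    Commute (dYY hW hκ X d) (jYY hW hκ X j) :=
  jY_comm _ _ _ _ _ (comm_dQ_jQ _ _ _)

theorem s_conj (e : SG L ε) :
    sYY hW hκ X * dYY hW hκ X e * (sYY hW hκ X)⁻¹ = dYY hW hκ X e * jYY hW hκ X (chiS X hW hκ e) := by
  have := sh_conj (SG L ε) (dQ (DG L) (P A X)) (sQ hW hκ X) e
  rw [starQ_twist] at this
  exact this

/-- the letters -/
noncomputable def lY : UL ι A → Perm (YY hW hκ X)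
  | UL.h i => dYY hW hκ X (hD L (gen (FreeGroup.of i)))
  | UL.k => dYY hW hκ X (kD L)
  | UL.s => sYY hW hκ X
  | UL.b a => jYY hW hκ X (bp A X (FreeGroup.of a))
  | UL.g a => jYY hW hκ X (ga A X (FreeGroup.of a))
  | UL.d => jYY hW hκ X (dd A X)

/-- **the action of `F(UL ι A)` on `Y(X)`** -/
noncomputable def actY : FreeGroup (UL ι A) →* Perm (YY hW hκ X) := FreeGroup.lift (lY hW hκ gen X)

@[simp] theorem actY_of (x : UL ι A) :
    actY hW hκ gen X (FreeGroup.of x) = lY hW hκ gen X x := by simp [actY]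

theorem actY_k : actY hW hκ gen X (FreeGroup.of UL.k) = dYY hW hκ X (kD L) := by simp [lY]

theorem actY_s : actY hW hκ gen X (FreeGroup.of UL.s) = sYY hW hκ X := by simp [lY]

theorem actY_d : actY hW hκ gen X (FreeGroup.of UL.d) = jYY hW hκ X (dd A X) := by simp [lY]

theorem actY_hw (w : FreeGroup ι) : actY hW hκ gen X (hw w) = dYY hW hκ X (hD L (gen w)) := by
  have : (actY hW hκ gen X).comp hw = ((dYY hW hκ X).comp (hD L)).comp gen := by
    ext1 i
    rw [MonoidHom.comp_apply, hw_of, actY_of]; rfl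
  exact congrArg (fun f : FreeGroup ι →* _ => f w) this

theorem actY_bw (w : FreeGroup A) : actY hW hκ gen X (bw w) = jYY hW hκ X (bp A X w) := by
  have : (actY hW hκ gen X).comp bw = (jYY hW hκ X).comp (bp A X) := by
    ext1 i
    rw [MonoidHom.comp_apply, bw_of, actY_of]; rfl
  exact congrArg (fun f : FreeGroup A →* _ => f w) this

theorem actY_gw (w : FreeGroup A) : actY hW hκ gen X (gw w) = jYY hW hκ X (ga A X w) := by
  have : (actY hW hκ gen X).comp gw = (jYY hW hκ X).comp (ga A X) := by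
    ext1 i
    rw [MonoidHom.comp_apply, gw_of, actY_of]; rfl
  exact congrArg (fun f : FreeGroup A →* _ => f w) this

theorem actY_aw (w : FreeGroup A) : actY hW hκ gen X (aw w) = jYY hW hκ X (al A X w) := by
  have : (actY hW hκ gen X).comp aw = (jYY hW hκ X).comp (al A X) := by
    ext1 i
    rw [MonoidHom.comp_apply, aw_of, map_mul, map_mul, map_mul, map_inv, map_inv, actY_gw,
      actY_d, ← map_inv, ← map_inv, ← map_mul, ← map_mul, ← map_mul, dd_ga, mul_inv_cancel_right]
    rfl
  exact congrArg (fun f : FreeGroup A →* _ => f w) this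

/-! ### the relations -/

variable {X} in
/-- the relations of `J` and the commutation of `D` with `J` hold for every `X` -/
theorem actY_dj (x : Option ι) (y : Option (A ⊕ A)) :
    Commute (actY hW hκ gen X (dl x)) (actY hW hκ gen X (jl y)) := by
  rcases x with _ | i
  · rcases y with _ | a | a
    · rw [dl, jl, actY_of, actY_of]; exact comm_dj hW hκ X _ _
    · rw [dl, jl, actY_of, actY_of]; exact comm_dj hW hκ X _ _
    · rw [dl, jl, actY_of, actY_of]; exact comm_dj hW hκ X _ _
  · rcases y with _ | a | a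
    · rw [dl, jl, actY_of, actY_of]; exact comm_dj hW hκ X _ _
    · rw [dl, jl, actY_of, actY_of]; exact comm_dj hW hκ X _ _
    · rw [dl, jl, actY_of, actY_of]; exact comm_dj hW hκ X _ _

theorem actY_s_e (e : FreeGroup (Option A)) (w : FreeGroup ι) (hw' : gen w = ε e) :
    actY hW hκ gen X sw * actY hW hκ gen X (hw w) * (actY hW hκ gen X sw)⁻¹ =
      actY hW hκ gen X (hw w) * jYY hW hκ X (chiK A X κ e) := by
  rw [actY_s, actY_hw, hw']
  have := s_conj hW hκ X (eS L ε e)
  rw [chiS_e] at this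
  exact this

theorem actY_s_e' (e : FreeGroup (Option A)) (w : FreeGroup ι) (hw' : gen w = ε e) :
    actY hW hκ gen X sw * (actY hW hκ gen X kw * actY hW hκ gen X (hw w) *
      (actY hW hκ gen X kw)⁻¹) * (actY hW hκ gen X sw)⁻¹ =
      (actY hW hκ gen X kw * actY hW hκ gen X (hw w) * (actY hW hκ gen X kw)⁻¹) *
        jYY hW hκ X (chi' A X e) := by
  rw [actY_s, actY_hw, hw', actY_k, ← map_inv, ← map_mul, ← map_mul]
  have := s_conj hW hκ X (eS' L ε e)
  rw [chiS_e'] at this
  exact this

/-- **the honest case** -/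
theorem relOK_actY (W : WitFP L ε Acc ι) (hX : ∀ (g : FreeGroup A) (x : X), κ g • x = g • x) :
    RelOK W (actY hW hκ W.gen X) where
  rel r hr := by
    rw [actY_hw, W.rels_true r hr, map_one, map_one]
  kL w hw' := by
    rw [actY_k, actY_hw]
    exact (comm_kD L (W.Lw_mem w hw')).map (dYY hW hκ X)
  dj x y := actY_dj hW hκ W.gen x y
  bg a a' := by
    rw [actY_bw, actY_gw]
    exact (comm_bp_ga A X _ _).map (jYY hW hκ X)
  ag a a' := by
    rw [actY_aw, actY_gw]
    exact (comm_al_ga A X _ _).map (jYY hW hκ X)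
  s1 a := by
    rw [actY_s_e hW hκ W.gen X (FreeGroup.of (some a)) _ (W.hθ _), chiK_eq_chi A X hX,
      actY_bw, actY_gw, ← map_mul]
    have := chi_pi A X (FreeGroup.of a)
    rw [piw, FreeGroup.map.of] at this
    rw [this]
  s2 a := by
    rw [actY_s_e' hW hκ W.gen X (FreeGroup.of (some a)) _ (W.hθ _), actY_bw]
    have := chi'_pi A X (FreeGroup.of a)
    rw [piw, FreeGroup.map.of] at this
    rw [this]
  s3 := by
    rw [actY_s_e hW hκ W.gen X tt _ (W.hθ _), chiK_eq_chi A X hX, chi_t, actY_d]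
  s4 := by
    rw [actY_s_e' hW hκ W.gen X tt _ (W.hθ _), chi'_t, actY_d]

/-! ### the base points -/

/-- the base point over `x` -/
def th (x : X) : YY hW hκ X := Sum.inr (0, (1, (1, 0, x)))

theorem th_inj : Function.Injective (th hW hκ X) := by
  intro x y h
  have h1 := Sum.inr.inj h
  simpa using h1

theorem actY_aw_th (w : FreeGroup A) (x : X) :
    actY hW hκ gen X (aw w) (th hW hκ X x) = th hW hκ X (w • x) := by
  rw [actY_aw]
  change jY (SG L ε) (sQ hW hκ X) (jQ (DG L) (al A X w)) (Sum.inr (0, (1, (1, 0, x)))) =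
    Sum.inr (0, (1, (1, 0, w • x)))
  rw [jY_zero, jQ_apply, al_apply_one]

end act

/-! ### functoriality -/

section functor

variable {A H ι : Type} [Group H] {L : Subgroup H} {ε : FreeGroup (Option A) →* H}
  {Acc : Set (FreeGroup A)} {κ : FreeGroup A → FreeGroup A}
  (hW : WitOK L ε Acc) (hκ : ∀ w ∈ Acc, κ w = 1) (gen : FreeGroup ι →* H)
  {X X' : Type} [MulAction (FreeGroup A) X] [MulAction (FreeGroup A) X']
  {f : X → X'} (hf : ∀ (w : FreeGroup A) x, f (w • x) = w • f x)











end functor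

end Crest.Agent.R185.Md191E
private theorem rz_30ee0db4e7 : type_of% @_root_.Crest.Agent.R185.Md191E.lY.eq_1 := @_root_.Crest.Agent.R185.Md191E.lY.eq_1 -- L111
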