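import Crest.Agent.R185.Smp4
import Crest.Agent.R185.Hot4
import Crest.Agent.R185.Smp6
import Crest.Agent.R185.Md191E

-- ▼ part R185/Asm1
section

/-!
# R185 / ASSEMBLY (1): from a homomorphism `ψ : FreeGroup (KLet UL B) →* E` to a core (helper958)

`E` is finitely presented, generated by the letters `ul a`, and acts transitively on `Y` with base
point `y₀`; `G` is generated by the `e c`.  `ψ` kills the words acting trivially on `Z(Y)`, and
`w pts₀ = pts₀ ↔ ψ w y₀ = y₀`.  Then `Core G` is inhabited.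
-/

set_option autoImplicit false
set_option linter.unusedSectionVars false

namespace Crest.Agent.R185.Asm

open Crest.Agent.R185.Wu Crest.Agent.R185.Hot Crest.Agent.R185.Smp

section core

variable {G B UL E Y : Type} [Group G] [Group E] [MulAction E Y]

/-- the letters of `E` as permutations of `Y` -/
def pE (ul : UL → E) (a : UL) : Equiv.Perm Y := MulAction.toPermHom E Y (ul a)


/-- the words of `K` as permutations of `Z(Y)` -/
noncomputable def kf (e : B → G) (y₀ : Y) (ul : UL → E) :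
    FreeGroup (KLet UL B) →* Equiv.Perm (ZZ G Y) :=
  FreeGroup.lift (kact e y₀ (pE ul))

variable {e : B → G} {y₀ : Y} {ul : UL → E}

theorem kf_of (a : KLet UL B) : kf e y₀ ul (FreeGroup.of a) = kact e y₀ (pE ul) a := by
  simp [kf]

/-- the image of `E` in the permutations of `Y` -/
abbrev HE (E Y : Type) [Group E] [MulAction E Y] : Type := (MulAction.toPermHom E Y).range

theorem zb_HE (h : HE E Y) : (zb G h : Equiv.Perm (ZZ G Y)) = zb G (h.1 : Equiv.Perm Y) := by
  apply Equiv.ext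
  rintro ((x | ⟨n | n, y⟩) | x) <;> rfl

theorem zv_HE (i : Fin 3) (j : Fin 4) (h : HE E Y) :
    (zv G i j h : Equiv.Perm (ZZ G Y)) = zv G i j (h.1 : Equiv.Perm Y) := by
  apply Equiv.ext
  rintro ((x | ⟨n | n, y⟩) | x) <;> rfl

/-- letters of `K` -/
theorem mem_letter (a : KLet UL B) : kact e y₀ (pE ul) a ∈ (kf e y₀ ul).range :=
  ⟨FreeGroup.of a, kf_of a⟩

/-- a subgroup of `E`, pulled back along a homomorphism into permutations of `Z(Y)` -/
theorem mem_of_gen (hul : Subgroup.closure (Set.range ul) = ⊤)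
    (f : Equiv.Perm Y →* Equiv.Perm (ZZ G Y)) (hf : ∀ a, f (pE ul a) ∈ (kf e y₀ ul).range)
    (h : HE E Y) : f h.1 ∈ (kf e y₀ ul).range := by
  obtain ⟨_, u, rfl⟩ := h
  change f (MulAction.toPermHom E Y u) ∈ _
  have hu : u ∈ Subgroup.closure (Set.range ul) := by rw [hul]; trivial
  induction hu using Subgroup.closure_induction with
  | mem x hx => obtain ⟨a, rfl⟩ := hx; exact hf a
  | one => rw [map_one, map_one]; exact one_mem _
  | mul x y _ _ hx hy => rw [map_mul, map_mul]; exact mul_mem hx hy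
  | inv x _ hx => rw [map_inv, map_inv]; exact inv_mem hx

theorem mem_zb (hul : Subgroup.closure (Set.range ul) = ⊤) (h : HE E Y) :
    (zb G h : Equiv.Perm (ZZ G Y)) ∈ (kf e y₀ ul).range := by
  rw [zb_HE]
  exact mem_of_gen hul (zb G) (fun a => mem_letter (.b a)) h

theorem mem_zv (hul : Subgroup.closure (Set.range ul) = ⊤) (i : Fin 3) (j : Fin 4) (h : HE E Y) :
    (zv G i j h : Equiv.Perm (ZZ G Y)) ∈ (kf e y₀ ul).range := by
  rw [zv_HE]
  exact mem_of_gen hul (zv G i j) (fun a => mem_letter (.v i j a)) h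

theorem mem_zg (he : Subgroup.closure (Set.range e) = ⊤) (g : G) :
    (zg Y g : Equiv.Perm (ZZ G Y)) ∈ (kf e y₀ ul).range := by
  have hg : g ∈ Subgroup.closure (Set.range e) := by rw [he]; trivial
  induction hg using Subgroup.closure_induction with
  | mem x hx => obtain ⟨c, rfl⟩ := hx; exact mem_letter (.g c)
  | one => rw [map_one]; exact one_mem _
  | mul x y _ _ hx hy => rw [map_mul]; exact mul_mem hx hy
  | inv x _ hx => rw [map_inv]; exact inv_mem hx

/-- the shift of the spare points -/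
theorem zsp_pts (f : Equiv.Perm ℕ) (n : ℕ) : zsp G Y f (pts G Y n) = pts G Y (f n) := rfl


theorem zsp_pow (f : Equiv.Perm ℕ) (k : ℤ) : (zsp G Y f) ^ k = zsp G Y (f ^ k) := by
  let F : Equiv.Perm ℕ →* Equiv.Perm (ZZ G Y) :=
    { toFun := zsp G Y
      map_one' := by apply Equiv.ext; rintro (x | x | x) <;> rfl
      map_mul' := fun a b => by apply Equiv.ext; rintro (x | x | x) <;> rfl }
  exact (map_zpow F f k).symm

theorem spP_pow (k : ℤ) (n : ℕ) :
    (spP ^ k) n = Equiv.intEquivNat (Equiv.intEquivNat.symm n + k) := by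
  induction k using Int.induction_on generalizing n with
  | zero => simp
  | succ k ih =>
    rw [zpow_add_one, Equiv.Perm.mul_apply, ih, spP_apply, Equiv.symm_apply_apply]
    congr 1; ring
  | pred k ih =>
    rw [zpow_sub_one, Equiv.Perm.mul_apply, ih, spP_symm_apply, Equiv.symm_apply_apply]
    congr 1; ring

/-- all spare points are in one orbit -/
theorem exists_sp (n : ℕ) : ∃ k : ℤ, (spP ^ k) 0 = n := by
  refine ⟨Equiv.intEquivNat.symm n - Equiv.intEquivNat.symm 0, ?_⟩
  rw [spP_pow]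
  have : Equiv.intEquivNat.symm 0 + (Equiv.intEquivNat.symm n - Equiv.intEquivNat.symm 0) =
      Equiv.intEquivNat.symm n := by ring
  rw [this, Equiv.apply_symm_apply]

theorem mem_zsp (k : ℤ) : zsp G Y (spP ^ k) ∈ (kf e y₀ ul).range := by
  rw [← zsp_pow]
  exact Subgroup.zpow_mem _ (mem_letter .sp) k

open Classical in
theorem swap_conj {Z : Type} (k : Equiv.Perm Z) (a b : Z) :
    k * Equiv.swap a b * k⁻¹ = Equiv.swap (k a) (k b) := by
  rw [Equiv.mul_swap_eq_swap_mul, mul_inv_cancel_right]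

open Classical in
/-- all transpositions (spare point, block point) -/
theorem mem_swap (hul : Subgroup.closure (Set.range ul) = ⊤) (htr : ∀ y : Y, ∃ u : E, u • y₀ = y)
    (n : ℕ) (y : Y) : Equiv.swap (pts G Y n) (ptb G y) ∈ (kf e y₀ ul).range := by
  have h0 : Equiv.swap (pts G Y 0) (ptb G y₀) ∈ (kf e y₀ ul).range := by
    convert mem_letter (e := e) (y₀ := y₀) (ul := ul) .sw
    change _ = Equiv.swap _ _
    congr
  obtain ⟨u, rfl⟩ := htr y
  obtain ⟨k, hk⟩ := exists_sp n
  have h1 : (zb G (⟨MulAction.toPermHom E Y u, u, rfl⟩ : HE E Y) : Equiv.Perm (ZZ G Y)) ∈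
      (kf e y₀ ul).range := mem_zb hul _
  have h2 : zsp G Y (spP ^ k) ∈ (kf e y₀ ul).range := mem_zsp k
  set a := (zb G (⟨MulAction.toPermHom E Y u, u, rfl⟩ : HE E Y) : Equiv.Perm (ZZ G Y)) with ha
  have h3 := mul_mem (mul_mem (mul_mem h2 h1) h0) (inv_mem (mul_mem h2 h1))
  rw [swap_conj] at h3
  have e1 : (zsp G Y (spP ^ k) * a) (pts G Y 0) = pts G Y n := by
    rw [Equiv.Perm.mul_apply, ha]
    change zsp G Y (spP ^ k) (pts G Y 0) = _
    rw [zsp_pts, hk]
  have e2 : (zsp G Y (spP ^ k) * a) (ptb G y₀) = ptb G (u • y₀) := by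
    rw [Equiv.Perm.mul_apply, ha]
    rfl
  rwa [e1, e2] at h3

section kappa

variable (ψ : FreeGroup (KLet UL B) →* E) (h1 : ∀ w, kf e y₀ ul w = 1 → ψ w = 1)

/-- the homomorphism `κ` -/
noncomputable def kap : (kf e y₀ ul).range →* E :=
  MonoidHom.liftOfSurjective (kf e y₀ ul).rangeRestrict (MonoidHom.rangeRestrict_surjective _)
    ⟨ψ, fun w hw => h1 w (by
      have := congrArg Subtype.val (MonoidHom.mem_ker.1 hw)
      exact this)⟩

theorem kap_apply (w : FreeGroup (KLet UL B)) :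
    kap ψ h1 ⟨kf e y₀ ul w, w, rfl⟩ = ψ w :=
  MonoidHom.liftOfRightInverse_comp_apply (kf e y₀ ul).rangeRestrict _ _ _ w

end kappa

section theta

variable (ψ : FreeGroup (KLet UL B) →* E)
  (h2 : ∀ w, kf e y₀ ul w (pts G Y 0) = pts G Y 0 ↔ ψ w • y₀ = y₀)

/-- the `K`-orbit of `pts 0` -/
def X0 (e : B → G) (y₀ : Y) (ul : UL → E) : Set (ZZ G Y) :=
  {z | ∃ w, kf e y₀ ul w (pts G Y 0) = z}

open Classical in
/-- the map `θ₁` -/
noncomputable def th (e : B → G) (ul : UL → E) (ψ : FreeGroup (KLet UL B) →* E) (y₀ : Y)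
    (z : ZZ G Y) : Y :=
  if h : ∃ w, kf e y₀ ul w (pts G Y 0) = z then ψ h.choose • y₀ else y₀

include h2 in
theorem th_apply (w : FreeGroup (KLet UL B)) :
    th e ul ψ y₀ (kf e y₀ ul w (pts G Y 0)) = ψ w • y₀ := by
  have h : ∃ w', kf e y₀ ul w' (pts G Y 0) = kf e y₀ ul w (pts G Y 0) := ⟨w, rfl⟩
  unfold th
  rw [dif_pos h]
  have h3 := h.choose_spec
  have h4 : kf e y₀ ul (w⁻¹ * h.choose) (pts G Y 0) = pts G Y 0 := by
    rw [map_mul, Equiv.Perm.mul_apply, h3, map_inv]
    exact Equiv.symm_apply_apply _ _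
  rw [h2, map_mul, mul_smul, map_inv, inv_smul_eq_iff] at h4
  exact h4

include h2 in
theorem th_inj : Set.InjOn (th e ul ψ y₀) (X0 (G := G) e y₀ ul) := by
  rintro _ ⟨w, rfl⟩ _ ⟨w', rfl⟩ h
  rw [th_apply ψ h2, th_apply ψ h2] at h
  have h4 : ψ (w'⁻¹ * w) • y₀ = y₀ := by
    rw [map_mul, mul_smul, map_inv, inv_smul_eq_iff, h]
  rw [← h2, map_mul, Equiv.Perm.mul_apply, map_inv, Equiv.Perm.inv_eq_iff_eq] at h4
  exact h4

end theta

/-- **from `ψ` to a core** -/
theorem core_of (hfp : Group.IsFinitelyPresented E) (hul : Subgroup.closure (Set.range ul) = ⊤)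
    (he : Subgroup.closure (Set.range e) = ⊤) (htr : ∀ y : Y, ∃ u : E, u • y₀ = y)
    (ψ : FreeGroup (KLet UL B) →* E) (h1 : ∀ w, kf e y₀ ul w = 1 → ψ w = 1)
    (h2 : ∀ w, kf e y₀ ul w (pts G Y 0) = pts G Y 0 ↔ ψ w • y₀ = y₀) :
    Nonempty (Core G) := by
  classical
  have hsp : ∀ n, pts G Y n ∈ X0 e y₀ ul := by
    intro n
    obtain ⟨k, hk⟩ := exists_sp n
    obtain ⟨w, hw⟩ := mem_zsp (G := G) (Y := Y) (e := e) (y₀ := y₀) (ul := ul) k
    exact ⟨w, by rw [hw, zsp_pts, hk]⟩
  have hyb : ∀ y, ptb G y ∈ X0 e y₀ ul := by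
    intro y
    obtain ⟨w, hw⟩ := mem_swap (G := G) (e := e) hul htr 0 y
    exact ⟨w, by rw [hw, Equiv.swap_apply_left]⟩
  have hgp : ∀ g, ptg Y g ∈ X0 e y₀ ul := by
    intro g
    obtain ⟨w, hw⟩ := mem_zg (Y := Y) (y₀ := y₀) (ul := ul) he g
    refine ⟨w * FreeGroup.of .sw', ?_⟩
    rw [map_mul, Equiv.Perm.mul_apply, kf_of]
    change kf e y₀ ul w (Equiv.swap (ptg Y 1) (pts G Y 0) (pts G Y 0)) = _
    rw [Equiv.swap_apply_right, hw]
    change Sum.inr (Sum.inr (g * 1)) = _
    rw [mul_one]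
  refine ⟨{
    Y := Y
    H := HE E Y
    faithful := fun h h' hh => Subtype.ext (Equiv.ext hh)
    E := E
    fpE := hfp
    pr := (MulAction.toPermHom E Y).rangeRestrict
    K := (kf e y₀ ul).range
    mem_b := mem_zb hul
    mem_v := mem_zv hul
    mem_s := mem_letter .s
    mem_g := mem_zg he
    mem_swap := fun n y => by convert mem_swap (G := G) (e := e) hul htr n y
    κ := kap ψ h1
    X₀ := X0 e y₀ ul
    mem_sp := hsp
    mem_yb := hyb
    mem_gp := hgp
    θ₁ := th e ul ψ y₀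
    θ₁_inj := th_inj ψ h2
    θ₁_smul := ?_ }⟩
  rintro ⟨_, w, rfl⟩ _ ⟨w', rfl⟩
  rw [kap_apply ψ h1, th_apply ψ h2]
  change th e ul ψ y₀ (kf e y₀ ul w (kf e y₀ ul w' (pts G Y 0))) = ψ w • (ψ w' • y₀)
  rw [← Equiv.Perm.mul_apply, ← map_mul, th_apply ψ h2, map_mul, mul_smul]

end core

end Crest.Agent.R185.Asm
end

-- ▼ part R185/Asm2
section

/-!
# R185 / ASSEMBLY (2): passage to the orbit of the base point, and the guard words (helper958)
-/

set_option autoImplicit false
set_option linter.unusedSectionVars false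

namespace Crest.Agent.R185.Asm

open Crest.Agent.R185.Wu Crest.Agent.R185.Hot Crest.Agent.R185.Smp

section orbit

variable {G B UL E Y : Type} [Group G] [Group E] [MulAction E Y]
variable {e : B → G} {ul : UL → E}

/-- words in the letters of `K` -/
noncomputable abbrev kw0 (e : B → G) (y₀ : Y) (pa : UL → Equiv.Perm Y) :
    FreeGroup (KLet UL B) →* Equiv.Perm (ZZ G Y) :=
  FreeGroup.lift (kact e y₀ pa)

theorem kf_eq (y₀ : Y) : kf e y₀ ul = kw0 e y₀ (pE (Y := Y) ul) := rfl

/-- the stabiliser of `pts 0` only depends on the stabiliser of `y₀` -/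
theorem kw0_transfer {Y' : Type} {y₀ : Y} {y₀' : Y'} {pa : UL → Equiv.Perm Y}
    {pa' : UL → Equiv.Perm Y'}
    (h : ∀ u : FreeGroup UL, FreeGroup.lift pa u y₀ = y₀ ↔ FreeGroup.lift pa' u y₀' = y₀')
    (w : FreeGroup (KLet UL B)) :
    kw0 e y₀ pa w (pts G Y 0) = pts G Y 0 ↔ kw0 e y₀' pa' w (pts G Y' 0) = pts G Y' 0 := by
  classical
  have h1 : TyEq (sg pa) (sg pa') (2 * w.toWord.length) (fun _ : Fin 1 => y₀) (fun _ => y₀') := by
    intro i j u _
    rw [ev_sg, ev_sg]
    exact h _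
  have h2 := zz_type_base (G := G) (e := e) h1 0 0 w.toWord (by omega)
  rw [ev_sg, ev_sg, FreeGroup.mk_toWord] at h2
  exact h2

theorem lift_orbit (y₀ : Y) (u : FreeGroup UL) (y : MulAction.orbit E y₀) :
    ((FreeGroup.lift (pE (Y := MulAction.orbit E y₀) ul) u y : MulAction.orbit E y₀) : Y) =
      FreeGroup.lift (pE (Y := Y) ul) u y := by
  have h1 : ∀ (Z : Type) [MulAction E Z] (z : Z), FreeGroup.lift (pE (Y := Z) ul) u z =
      (FreeGroup.lift ul u) • z := by
    intro Z _ z
    have : FreeGroup.lift (pE (Y := Z) ul) = (MulAction.toPermHom E Z).comp (FreeGroup.lift ul) := by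
      ext1 a
      simp only [FreeGroup.lift_apply_of, MonoidHom.comp_apply]
      rfl
    rw [this]; rfl
  rw [h1, h1]
  rfl

/-- **reduction to an arbitrary (not transitive) `E`-set** -/
theorem core_of_big (hfp : Group.IsFinitelyPresented E) (hul : Subgroup.closure (Set.range ul) = ⊤)
    (he : Subgroup.closure (Set.range e) = ⊤) (y₀ : Y) (ψ : FreeGroup (KLet UL B) →* E)
    (h1 : ∀ w, (∀ v, kf e y₀ ul (v⁻¹ * w * v) (pts G Y 0) = pts G Y 0) → ψ w = 1)
    (h2 : ∀ w, kf e y₀ ul w (pts G Y 0) = pts G Y 0 ↔ ψ w • y₀ = y₀) :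
    Nonempty (Core G) := by
  let Y₁ : Type := MulAction.orbit E y₀
  let y₁ : Y₁ := ⟨y₀, MulAction.mem_orbit_self y₀⟩
  have ht : ∀ w, kf e y₁ ul w (pts G Y₁ 0) = pts G Y₁ 0 ↔ kf e y₀ ul w (pts G Y 0) = pts G Y 0 := by
    intro w
    apply kw0_transfer
    intro u
    have h := lift_orbit (ul := ul) y₀ u y₁
    constructor
    · intro h3
      rw [h3] at h
      exact h.symm
    · intro h3
      apply Subtype.ext
      exact h.trans h3
  refine core_of (e := e) (y₀ := y₁) hfp hul he ?_ ψ ?_ ?_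
  · rintro ⟨y, u, rfl⟩
    exact ⟨u, rfl⟩
  · intro w hw
    apply h1
    intro v
    rw [← ht, map_mul, map_mul, hw, mul_one, ← map_mul, inv_mul_cancel, map_one]
    rfl
  · intro w
    rw [ht, h2]
    constructor
    · intro h; exact Subtype.ext h
    · intro h; exact congrArg Subtype.val h

end orbit

section guard

variable {G B UL E Y A : Type} [Group G] [Group E] [MulAction E Y]
variable {e : B → G} {ul : UL → E}

/-- **assembly from a fixed point `S`, guard words `kw` and `α`** -/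
theorem core_of_guard (hfp : Group.IsFinitelyPresented E)
    (hul : Subgroup.closure (Set.range ul) = ⊤) (he : Subgroup.closure (Set.range e) = ⊤) (y₀ : Y)
    (S : Subgroup (FreeGroup A)) (kw : FreeGroup (KLet UL B) →* FreeGroup A)
    (α : FreeGroup A →* E)
    (c1 : ∀ w, kf e y₀ ul w (pts G Y 0) = pts G Y 0 ↔ kw w ∈ S)
    (c2 : ∀ w, (∀ v, kf e y₀ ul (v⁻¹ * w * v) (pts G Y 0) = pts G Y 0) →
      ∀ v : FreeGroup A, v⁻¹ * kw w * v ∈ S)
    (c3 : ∀ w : FreeGroup A, (∀ v : FreeGroup A, v⁻¹ * w * v ∈ S) → α w = 1)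
    (c4 : ∀ w, α w • y₀ = y₀ ↔ w ∈ S) : Nonempty (Core G) := by
  refine core_of_big hfp hul he y₀ (α.comp kw) (fun w hw => c3 _ (c2 w hw)) (fun w => ?_)
  rw [c1]
  exact (c4 _).symm

end guard

end Crest.Agent.R185.Asm
end

-- ▼ part R185/Asm3

/-!
# R185 / ASSEMBLY (3): from the model `YY` over `X = FreeGroup A ⧸ S` to a core (helper958)

The machine alphabet is `A' = Option (A × Bool)`; `strip : FreeGroup A' →* FreeGroup A`.
-/

set_option autoImplicit false
set_option linter.unusedSectionVars false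
set_option linter.style.haveILetI false

namespace Crest.Agent.R185.Asm

open Crest.Agent.R185.Wu Crest.Agent.R185.Hot Crest.Agent.R185.Smp
open Crest.Agent.R185.Md191A Crest.Agent.R185.Md191B Crest.Agent.R185.Md191C
  Crest.Agent.R185.Md191D Crest.Agent.R185.Md191E

/-! ### the alphabets -/

/-- `none ↦ 1`, `some (a, true) ↦ a`, `some (a, false) ↦ a⁻¹` -/
def strip (A : Type) : FreeGroup (Option (A × Bool)) →* FreeGroup A :=
  FreeGroup.lift fun o => o.elim 1 (fun p => FreeGroup.mk [p])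

@[simp] theorem strip_none (A : Type) : strip A (FreeGroup.of none) = 1 := by simp [strip]

@[simp] theorem strip_some {A : Type} (p : A × Bool) :
    strip A (FreeGroup.of (some p)) = FreeGroup.mk [p] := by simp [strip]

/-- the positive lift -/
def posl (A : Type) : FreeGroup A →* FreeGroup (Option (A × Bool)) :=
  FreeGroup.map fun a => some (a, true)

@[simp] theorem posl_of {A : Type} (a : A) :
    posl A (FreeGroup.of a) = FreeGroup.of (some (a, true)) := by simp [posl]

@[simp] theorem strip_posl {A : Type} (w : FreeGroup A) : strip A (posl A w) = w := by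
  have : (strip A).comp (posl A) = MonoidHom.id _ := by
    ext1 a
    rw [MonoidHom.comp_apply, posl_of, strip_some]; rfl
  exact congrArg (fun f : FreeGroup A →* _ => f w) this

/-- stripping a positive word -/
theorem strip_mk {A : Type} (w : List (Option (A × Bool))) :
    strip A (FreeGroup.mk (w.map fun a => (a, true))) = FreeGroup.mk (w.filterMap id) := by
  induction w with
  | nil => simp [← FreeGroup.one_eq_mk]
  | cons o w ih =>
    have h1 : (FreeGroup.mk ((o :: w).map fun a => (a, true)) : FreeGroup (Option (A × Bool))) =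
        FreeGroup.of o * FreeGroup.mk (w.map fun a => (a, true)) := by
      rw [FreeGroup.of, FreeGroup.mul_mk]; rfl
    rw [h1, map_mul, ih]
    rcases o with _ | p
    · simp
    · rw [strip_some, FreeGroup.mul_mk]
      simp

section model

variable {A ι H : Type} [Group H] {L : Subgroup H}
  {ε : FreeGroup (Option (Option (A × Bool))) →* H}
  {Acc' : Set (FreeGroup (Option (A × Bool)))}
  {κ : FreeGroup (Option (A × Bool)) → FreeGroup (Option (A × Bool))}

/-- the machine alphabet acts on an `F(A)`-set -/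
abbrev actS (A X : Type) [MulAction (FreeGroup A) X] :
    MulAction (FreeGroup (Option (A × Bool))) X := MulAction.compHom X (strip A)

/-! ### the finitely presented group with the additional relators -/

/-- the additional relators -/
def RX (W : WitFP L ε Acc' ι) : Set (EP W) :=
  {alE W (FreeGroup.of none)} ∪
    Set.range (fun a : A => alE W (FreeGroup.of (some (a, true))) *
      alE W (FreeGroup.of (some (a, false))))

/-- the finitely presented group -/
abbrev EX (W : WitFP L ε Acc' ι) : Type := EP W ⧸ Subgroup.normalClosure (RX W)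

theorem RX_finite [Finite A] (W : WitFP L ε Acc' ι) : (RX W).Finite :=
  (Set.finite_singleton _).union (Set.finite_range _)

theorem EX_fp [Finite ι] [Finite A] (W : WitFP L ε Acc' ι) :
    Group.IsFinitelyPresented (EX W) := by
  have := EP_fp W
  exact Group.IsFinitelyPresented.quotient (Subgroup.normalClosure (RX W))
    ⟨RX W, RX_finite W, rfl⟩

/-- the projection -/
def prX (W : WitFP L ε Acc' ι) : FreeGroup (UL ι (Option (A × Bool))) →* EX W :=
  (QuotientGroup.mk' _).comp (prE W)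

theorem prX_surj (W : WitFP L ε Acc' ι) : Function.Surjective (prX W) := by
  intro x
  obtain ⟨y, rfl⟩ := QuotientGroup.mk_surjective x
  obtain ⟨z, rfl⟩ := PresentedGroup.mk_surjective _ y
  exact ⟨z, rfl⟩

/-- the letters of `EX` -/
def ulX (W : WitFP L ε Acc' ι) (a : UL ι (Option (A × Bool))) : EX W := prX W (FreeGroup.of a)

theorem closure_ulX (W : WitFP L ε Acc' ι) : Subgroup.closure (Set.range (ulX W)) = ⊤ := by
  rw [eq_top_iff]
  intro x hx
  clear hx
  obtain ⟨y, rfl⟩ := prX_surj W x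
  induction y using FreeGroup.induction_on with
  | C1 => rw [map_one]; exact one_mem _
  | of a => exact Subgroup.subset_closure ⟨a, rfl⟩
  | inv_of a ih => rw [map_inv]; exact inv_mem ih
  | mul u v hu hv => rw [map_mul]; exact mul_mem hu hv

/-- `α` on the machine alphabet -/
def alX' (W : WitFP L ε Acc' ι) : FreeGroup (Option (A × Bool)) →* EX W :=
  (QuotientGroup.mk' _).comp (alE W)

/-- `α` -/
def alX (W : WitFP L ε Acc' ι) : FreeGroup A →* EX W := (alX' W).comp (posl A)

theorem alX_strip (W : WitFP L ε Acc' ι) (w : FreeGroup (Option (A × Bool))) :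
    alX W (strip A w) = alX' W w := by
  have : (alX W).comp (strip A) = alX' W := by
    ext1 o
    rw [MonoidHom.comp_apply]
    rcases o with _ | ⟨a, _ | _⟩
    · rw [strip_none, map_one]
      symm
      change ((alE W (FreeGroup.of none) : EP W) : EX W) = 1
      rw [QuotientGroup.eq_one_iff]
      exact Subgroup.subset_normalClosure (Or.inl rfl)
    · rw [strip_some]
      have h1 : (FreeGroup.mk [(a, false)] : FreeGroup A) = (FreeGroup.of a)⁻¹ := rfl
      rw [h1, map_inv]
      change (((alE W (posl A (FreeGroup.of a)) : EP W) : EX W))⁻¹ = _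
      rw [posl_of, inv_eq_iff_mul_eq_one]
      change ((alE W (FreeGroup.of (some (a, true))) : EP W) : EX W) *
        ((alE W (FreeGroup.of (some (a, false))) : EP W) : EX W) = 1
      rw [← QuotientGroup.mk_mul, QuotientGroup.eq_one_iff]
      exact Subgroup.subset_normalClosure (Or.inr ⟨a, rfl⟩)
    · rw [strip_some]
      change ((alE W (posl A (FreeGroup.of a)) : EP W) : EX W) = _
      rw [posl_of]; rfl
  exact congrArg (fun f : FreeGroup (Option (A × Bool)) →* _ => f w) this

theorem alX_one (W : WitFP L ε Acc' ι) {w : FreeGroup (Option (A × Bool))} (hw : w ∈ Acc') :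
    alX W (strip A w) = 1 := by
  rw [alX_strip]
  change ((alE W w : EP W) : EX W) = 1
  rw [alE_one W hw]; rfl

/-! ### the action on the model -/

section act

variable (W : WitFP L ε Acc' ι) (hW : WitOK L ε Acc') (hκ : ∀ w ∈ Acc', κ w = 1)
  (S : Subgroup (FreeGroup A))

/-- the set `X = F(A) ⧸ S` with the action of the machine alphabet -/
abbrev XS (S : Subgroup (FreeGroup A)) : Type := FreeGroup A ⧸ S

/-- the base point of `XS` -/
abbrev xS (S : Subgroup (FreeGroup A)) : XS S := ((1 : FreeGroup A) : FreeGroup A ⧸ S)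

theorem smul_xS {w : FreeGroup A} : w • xS S = xS S ↔ w ∈ S := by
  change ((w * 1 : FreeGroup A) : FreeGroup A ⧸ S) = ((1 : FreeGroup A) : FreeGroup A ⧸ S) ↔ _
  rw [mul_one, eq_comm, QuotientGroup.eq]
  simp

/-- the set `Y(X)` -/
abbrev YS : Type := @YY (Option (A × Bool)) H _ L ε Acc' κ hW hκ (XS S) (actS A (XS S))

/-- the letters on `Y(X)` -/
noncomputable def lYS : UL ι (Option (A × Bool)) → Equiv.Perm (YS hW hκ S) :=
  letI := actS A (XS S)
  lY hW hκ W.gen (XS S)

/-- the action on `Y(X)` -/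
noncomputable def aYS : FreeGroup (UL ι (Option (A × Bool))) →* Equiv.Perm (YS hW hκ S) :=
  letI := actS A (XS S)
  actY hW hκ W.gen (XS S)

theorem aYS_eq : aYS W hW hκ S = FreeGroup.lift (lYS W hW hκ S) := rfl

/-- the base point of `Y(X)` -/
def yS : YS hW hκ S :=
  letI := actS A (XS S)
  Md191E.th hW hκ (XS S) (xS S)

theorem aYS_aw (w : FreeGroup (Option (A × Bool))) :
    aYS W hW hκ S (aw w) (yS hW hκ S) = yS hW hκ S ↔ strip A w ∈ S := by
  letI := actS A (XS S)
  have h1 : aYS W hW hκ S (aw w) (yS hW hκ S) = Md191E.th hW hκ (XS S) (w • xS S) :=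
    actY_aw_th hW hκ W.gen (XS S) w (xS S)
  rw [h1]
  change Md191E.th hW hκ (XS S) (w • xS S) = Md191E.th hW hκ (XS S) (xS S) ↔ _
  rw [(Md191E.th_inj hW hκ (XS S)).eq_iff]
  exact smul_xS S

/-- the honest case: the relations hold -/
theorem relOK_S (hκ' : ∀ g, κ g = g ∨ (g ∈ Acc' ∧ κ g = 1))
    (hS : ∀ w ∈ Acc', ∀ v : FreeGroup A, v⁻¹ * strip A w * v ∈ S) :
    RelOK W (aYS W hW hκ S) := by
  letI := actS A (XS S)
  refine relOK_actY hW hκ (XS S) W ?_
  intro g x
  rcases hκ' g with h | ⟨h, h'⟩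
  · rw [h]
  · rw [h', one_smul]
    obtain ⟨v, rfl⟩ := QuotientGroup.mk_surjective x
    change ((v : FreeGroup A) : FreeGroup A ⧸ S) = ((strip A g * v : FreeGroup A) : FreeGroup A ⧸ S)
    rw [QuotientGroup.eq, ← mul_assoc]
    exact hS g h v

section hom

variable (hκ' : ∀ g, κ g = g ∨ (g ∈ Acc' ∧ κ g = 1))
  (hS : ∀ w ∈ Acc', ∀ v : FreeGroup A, v⁻¹ * strip A w * v ∈ S)

/-- `EP` acts on `Y(X)` -/
noncomputable def hE : EP W →* Equiv.Perm (YS hW hκ S) :=
  liftE W (aYS W hW hκ S) (relOK_S W hW hκ S hκ' hS)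

theorem hE_prE (x : FreeGroup (UL ι (Option (A × Bool)))) :
    hE W hW hκ S hκ' hS (prE W x) = aYS W hW hκ S x := liftE_prE _ _ _ _

theorem hE_al (w : FreeGroup (Option (A × Bool))) :
    letI := actS A (XS S)
    hE W hW hκ S hκ' hS (alE W w) = jYY hW hκ (XS S) (al (Option (A × Bool)) (XS S) w) := by
  letI := actS A (XS S)
  exact (hE_prE W hW hκ S hκ' hS (aw w)).trans (actY_aw hW hκ W.gen (XS S) w)

theorem al_strip {w : FreeGroup (Option (A × Bool))} (hw : strip A w = 1) :
    letI := actS A (XS S)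
    al (Option (A × Bool)) (XS S) w = 1 := by
  letI := actS A (XS S)
  classical
  apply Equiv.ext
  rintro ⟨g, n, x⟩
  rw [al_eq, lab_apply]
  have h1 : ∀ y : XS S, w • y = y := by
    intro y
    change strip A w • y = y
    rw [hw, one_smul]
  by_cases h : g = 1 ∧ n = 0
  · rw [if_pos h, h1]; rfl
  · rw [if_neg h, one_smul]; rfl

theorem hE_RX (x : EP W) (hx : x ∈ Subgroup.normalClosure (RX W)) :
    hE W hW hκ S hκ' hS x = 1 := by
  letI := actS A (XS S)
  have h : Subgroup.normalClosure (RX W) ≤ (hE W hW hκ S hκ' hS).ker := by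
    apply Subgroup.normalClosure_le_normal
    rintro x (rfl | ⟨a, rfl⟩)
    · rw [SetLike.mem_coe, MonoidHom.mem_ker, hE_al, al_strip S (by simp), map_one]
    · rw [SetLike.mem_coe, MonoidHom.mem_ker]
      change hE W hW hκ S hκ' hS (alE W (FreeGroup.of (some (a, true))) *
        alE W (FreeGroup.of (some (a, false)))) = 1
      rw [← map_mul (alE W), hE_al, al_strip S (by
        rw [map_mul, strip_some, strip_some, FreeGroup.mul_mk]
        have : (FreeGroup.mk ([(a, true)] ++ [(a, false)]) : FreeGroup A) =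
          FreeGroup.of a * (FreeGroup.of a)⁻¹ := rfl
        rw [this, mul_inv_cancel]), map_one]
  exact MonoidHom.mem_ker.1 (h hx)

/-- `EX` acts on `Y(X)` -/
noncomputable def hX : EX W →* Equiv.Perm (YS hW hκ S) :=
  QuotientGroup.lift _ (hE W hW hκ S hκ' hS) (hE_RX W hW hκ S hκ' hS)

theorem hX_prX (x : FreeGroup (UL ι (Option (A × Bool)))) :
    hX W hW hκ S hκ' hS (prX W x) = aYS W hW hκ S x := hE_prE W hW hκ S hκ' hS x

end hom

/-- **from the model to a core** -/
theorem core_of_model {G B : Type} [Group G] [Finite A] [Finite ι] {e : B → G}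
    (he : Subgroup.closure (Set.range e) = ⊤)
    (hκ' : ∀ g, κ g = g ∨ (g ∈ Acc' ∧ κ g = 1))
    (hS : ∀ w ∈ Acc', ∀ v : FreeGroup A, v⁻¹ * strip A w * v ∈ S)
    (hS' : ∀ w : FreeGroup A, (∀ v, v⁻¹ * w * v ∈ S) → ∃ w' ∈ Acc', strip A w' = w)
    (kw : FreeGroup (KLet (UL ι (Option (A × Bool))) B) →* FreeGroup A)
    (c1 : ∀ w, kw0 e (yS hW hκ S) (lYS W hW hκ S) w (pts G _ 0) = pts G _ 0 ↔ kw w ∈ S)
    (c2 : ∀ w, (∀ v, kw0 e (yS hW hκ S) (lYS W hW hκ S) (v⁻¹ * w * v) (pts G _ 0) = pts G _ 0) →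
      ∀ v : FreeGroup A, v⁻¹ * kw w * v ∈ S) : Nonempty (Core G) := by
  letI : MulAction (EX W) (YS hW hκ S) :=
    MulAction.compHom (YS hW hκ S) (hX W hW hκ S hκ' hS)
  have hpE : pE (Y := YS hW hκ S) (ulX W) = lYS W hW hκ S := by
    funext a
    apply Equiv.ext
    intro y
    change hX W hW hκ S hκ' hS (prX W (FreeGroup.of a)) y = _
    rw [hX_prX, aYS_eq, FreeGroup.lift_apply_of]
  have hkf : ∀ w, kf e (yS hW hκ S) (ulX W) w = kw0 e (yS hW hκ S) (lYS W hW hκ S) w := by
    intro w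
    rw [kf_eq, hpE]
  refine core_of_guard (e := e) (EX_fp W) (closure_ulX W) he (yS hW hκ S) S kw (alX W) ?_ ?_ ?_ ?_
  · intro w
    rw [hkf]
    exact c1 w
  · intro w hw
    apply c2
    intro v
    rw [← hkf]
    exact hw v
  · intro w hw
    obtain ⟨w', h1, rfl⟩ := hS' w hw
    exact alX_one W h1
  · intro w
    have h1 : alX W w = prX W (aw (posl A w)) := rfl
    change hX W hW hκ S hκ' hS (alX W w) (yS hW hκ S) = yS hW hκ S ↔ _
    rw [h1, hX_prX, aYS_aw, strip_posl]

end act

end model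

end Crest.Agent.R185.Asm
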