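import Crest.Agent.R185.Re2
import Mathlib.Logic.Relation
import Crest.Agent.R185.Wit4

-- ▼ part R185/Clk1
section

/-!
# R185, block WIT (a): clocked stack machines as systems of partial affine letters

A *letter* (`Rl Q K`) acts partially on configurations `Q × (K → ℤ)`: it pops prescribed digits
(base `b`) from some stacks and pushes digits on some stacks.
-/

set_option autoImplicit false

namespace Crest.Agent.R185.Clk

open Relation

/-- A letter of a stack system: from state `src` to state `tgt`; on the stack `k` it pops the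
digit `d` if `pop k = some d`, and pushes the digit `d` if `push k = some d`. -/
@[ext] structure Rl (Q K : Type) where
  src : Q
  tgt : Q
  pop : K → Option ℕ
  push : K → Option ℕ

/-- configurations -/
abbrev Cf (Q K : Type) := Q × (K → ℤ)

variable {Q K R : Type}



/-- applicability -/
def Rl.Ok (b : ℕ) (y : Rl Q K) (c : Cf Q K) : Prop :=
  c.1 = y.src ∧ ∀ k d, y.pop k = some d → c.2 k % b = d

/-- new content of one stack -/
def Rl.upd (b : ℕ) (y : Rl Q K) (k : K) (n : ℤ) : ℤ :=
  let m := if (y.pop k).isSome then n / b else n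
  match y.push k with
  | none => m
  | some d => d + b * m

/-- the result (meaningful if the letter is applicable) -/
def Rl.res (b : ℕ) (y : Rl Q K) (c : Cf Q K) : Cf Q K :=
  (y.tgt, fun k => y.upd b k (c.2 k))

/-- reverse letter -/
def Rl.inv (y : Rl Q K) : Rl Q K := ⟨y.tgt, y.src, y.push, y.pop⟩

@[simp] theorem Rl.inv_inv (y : Rl Q K) : y.inv.inv = y := rfl

/-- A well formed letter: no stack is both popped and pushed and all digits are `< b - 1`. -/
structure Rl.WF (b : ℕ) (y : Rl Q K) : Prop where
  disj : ∀ k, y.pop k = none ∨ y.push k = none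
  pop_lt : ∀ k d, y.pop k = some d → d + 1 < b
  push_lt : ∀ k d, y.push k = some d → d + 1 < b

theorem Rl.WF.inv {b : ℕ} {y : Rl Q K} (h : y.WF b) : y.inv.WF b :=
  ⟨fun k => (h.disj k).symm, h.push_lt, h.pop_lt⟩

theorem Rl.upd_none {b : ℕ} {y : Rl Q K} {k : K} (h1 : y.pop k = none) (h2 : y.push k = none)
    (n : ℤ) : y.upd b k n = n := by
  simp [Rl.upd, h1, h2]

theorem Rl.upd_pop {b : ℕ} {y : Rl Q K} {k : K} {d : ℕ} (h1 : y.pop k = some d)
    (h2 : y.push k = none) (n : ℤ) : y.upd b k n = n / b := by
  simp [Rl.upd, h1, h2]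

theorem Rl.upd_push {b : ℕ} {y : Rl Q K} {k : K} {d : ℕ} (h1 : y.pop k = none)
    (h2 : y.push k = some d) (n : ℤ) : y.upd b k n = d + b * n := by
  simp [Rl.upd, h1, h2]



/-! ### systems -/

/-- one step of a system of letters -/
def Stp (b : ℕ) (rule : R → Rl Q K) (c c' : Cf Q K) : Prop :=
  ∃ r, (rule r).Ok b c ∧ (rule r).res b c = c'

/-- determinism: at most one letter is applicable -/
def Det (b : ℕ) (rule : R → Rl Q K) : Prop :=
  ∀ r r' c, (rule r).Ok b c → (rule r').Ok b c → r = r'

section det
variable {b : ℕ} {rule : R → Rl Q K}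

theorem Stp.det (hd : Det b rule) {c c₁ c₂ : Cf Q K} (h₁ : Stp b rule c c₁)
    (h₂ : Stp b rule c c₂) : c₁ = c₂ := by
  obtain ⟨r, h1, rfl⟩ := h₁
  obtain ⟨r', h2, rfl⟩ := h₂
  rw [hd r r' c h1 h2]

/-- connectedness by letters and inverse letters -/
def Conn (b : ℕ) (rule : R → Rl Q K) : Cf Q K → Cf Q K → Prop := EqvGen (Stp b rule)

/-- Church--Rosser: connected configurations have a common successor. -/
theorem Conn.join (hd : Det b rule) {c c' : Cf Q K} (h : Conn b rule c c') :
    ∃ d, ReflTransGen (Stp b rule) c d ∧ ReflTransGen (Stp b rule) c' d := by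
  have h1 : Join (ReflTransGen (Stp b rule)) c c' := by
    induction h with
    | rel x y h => exact ⟨y, ReflTransGen.single h, ReflTransGen.refl⟩
    | refl x => exact ⟨x, ReflTransGen.refl, ReflTransGen.refl⟩
    | symm x y _ ih =>
      obtain ⟨u, h1, h2⟩ := ih
      exact ⟨u, h2, h1⟩
    | trans x y z _ _ ih1 ih2 =>
      obtain ⟨u, hxu, hyu⟩ := ih1
      obtain ⟨v, hyv, hzv⟩ := ih2
      rcases ReflTransGen.total_of_right_unique
        (r := Stp b rule) (fun _ _ _ h1 h2 => Stp.det hd h1 h2) hyu hyv with h | h
      · exact ⟨v, hxu.trans h, hzv⟩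
      · exact ⟨u, hxu, hzv.trans h⟩
  exact h1

theorem Conn.of_reach {c c' : Cf Q K} (h : ReflTransGen (Stp b rule) c c') :
    Conn b rule c c' := by
  induction h with
  | refl => exact EqvGen.refl _
  | tail _ h ih => exact EqvGen.trans _ _ _ ih (EqvGen.rel _ _ h)

/-- a configuration connected to a stuck one reaches it -/
theorem Conn.reach_of_stuck (hd : Det b rule) {c h : Cf Q K} (hc : Conn b rule c h)
    (hs : ∀ d, ¬ Stp b rule h d) : ReflTransGen (Stp b rule) c h := by
  obtain ⟨d, h1, h2⟩ := hc.join hd
  rcases ReflTransGen.cases_head h2 with h3 | ⟨e, h3, _⟩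
  · rwa [h3]
  · exact absurd h3 (hs e)

end det

end Crest.Agent.R185.Clk
end

-- ▼ part R185/Clk2
section

/-!
# R185, block WIT (a), part 2: the clocked and erasing version of a micro-step stack machine
-/

set_option autoImplicit false

namespace Crest.Agent.R185.Clk

open Relation StateTransition Turing Function Crest.Agent.R185.Comp

/-! ### digit encodings of lists -/

/-- encoding of a list of digits, top of the stack = head = least significant digit -/
def enc (b : ℕ) : List ℕ → ℤ
  | [] => 0
  | d :: l => d + b * enc b l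

@[simp] theorem enc_nil (b : ℕ) : enc b [] = 0 := rfl
@[simp] theorem enc_cons (b d : ℕ) (l : List ℕ) : enc b (d :: l) = d + b * enc b l := rfl


theorem enc_cons_emod {b d : ℕ} (h : d < b) (l : List ℕ) : enc b (d :: l) % b = d := by
  rw [enc_cons, Int.add_mul_emod_self_left, Int.emod_eq_of_lt (by positivity) (by omega)]

theorem enc_cons_ediv {b d : ℕ} (h : d < b) (l : List ℕ) : enc b (d :: l) / b = enc b l := by
  rw [enc_cons, Int.add_mul_ediv_left _ _ (by omega), Int.ediv_eq_zero_of_lt (by positivity)
    (by omega), zero_add]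


/-! ### the compiled machine -/

variable {Q K A : Type}

/-- the stacks of the compiled machine: `none` is the archive, `some none` the clock -/
abbrev K1 (K : Type) := Option (Option K)

/-- digits for a finite alphabet -/
noncomputable def dig (A : Type) [Finite A] (a : A) : ℕ := (Finite.equivFin A a).val + 1

theorem dig_pos [Finite A] (a : A) : 0 < dig A a := Nat.succ_pos _

theorem dig_le [Finite A] (a : A) : dig A a ≤ Nat.card A := (Finite.equivFin A a).2

theorem dig_inj [Finite A] {a a' : A} (h : dig A a = dig A a') : a = a' := by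
  have : (Finite.equivFin A a).val = (Finite.equivFin A a').val := by
    unfold dig at h; omega
  exact (Finite.equivFin A).injective (Fin.ext this)

/-- digit of an optional letter, `0` for `none` -/
noncomputable def digo [Finite A] : Option A → ℕ
  | none => 0
  | some a => dig A a

theorem digo_le [Finite A] (o : Option A) : digo o ≤ Nat.card A := by
  cases o with
  | none => simp [digo]
  | some a => exact dig_le a

theorem digo_inj [Finite A] {o o' : Option A} (h : digo o = digo o') : o = o' := by
  cases o <;> cases o' <;> simp only [digo] at h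
  · rfl
  · have := dig_pos (A := A) ‹_›; omega
  · have := dig_pos (A := A) ‹_›; omega
  · rw [dig_inj h]

/-- which pairs `(q, o)` carry a letter -/
def Val (ins : Q → Ins Q K A) (qa : Q) (x : Q × Option A) : Prop :=
  match ins x.1 with
  | .goto _ => x.2 = none
  | .push _ _ _ => x.2 = none
  | .pop _ _ => True
  | .halt => x.1 = qa ∧ x.2 = none

/-- the type of letters of the compiled machine; `n` is the number of stacks, `m` the number of
erasable digits (including `0`) -/
abbrev Let (ins : Q → Ins Q K A) (qa : Q) (n m : ℕ) := {x : Q × Option A // Val ins qa x} ⊕ (Fin n × Fin m)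

section compile
variable [DecidableEq K] [Finite A]

/-- the letter of `(q, o)` -/
noncomputable def let0 (ins : Q → Ins Q K A) (n : ℕ) (x : Q × Option A) :
    Rl (Q ⊕ Fin (n + 1)) (K1 K) :=
  match ins x.1 with
  | .goto q' => ⟨.inl x.1, .inl q', update (fun _ => none) (some none) (some 1), fun _ => none⟩
  | .push k a q' => ⟨.inl x.1, .inl q', update (fun _ => none) (some none) (some 1),
      update (fun _ => none) (some (some k)) (some (dig A a))⟩
  | .pop k f => ⟨.inl x.1, .inl (f x.2),
      update (update (fun _ => none) (some none) (some 1)) (some (some k)) (some (digo x.2)),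
      fun _ => none⟩
  | .halt => ⟨.inl x.1, .inr 0, fun _ => none, fun _ => none⟩

/-- the erasing letters -/
def let1 {n : ℕ} (e : K1 K ≃ Fin n) (m : ℕ) (x : Fin n × Fin m) : Rl (Q ⊕ Fin (n + 1)) (K1 K) :=
  ⟨.inr x.1.castSucc, if x.2.val = 0 then .inr x.1.succ else .inr x.1.castSucc,
    update (fun _ => none) (e.symm x.1) (some x.2.val), fun _ => none⟩

/-- all letters -/
noncomputable def lets (ins : Q → Ins Q K A) (qa : Q) {n : ℕ} (e : K1 K ≃ Fin n) (m : ℕ) :
    Let ins qa n m → Rl (Q ⊕ Fin (n + 1)) (K1 K)
  | .inl x => let0 ins n x.1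
  | .inr x => let1 e m x

variable (ins : Q → Ins Q K A) (qa : Q) {n : ℕ} (e : K1 K ≃ Fin n)

theorem let0_src (x : Q × Option A) : (let0 ins n x).src = .inl x.1 := by
  unfold let0; cases ins x.1 <;> rfl

theorem lets_wf {b : ℕ} (hb : Nat.card A + 3 ≤ b) (r : Let ins qa n (b - 1)) :
    (lets ins qa e (b - 1) r).WF b := by
  have h1b : 1 + 1 < b := by omega
  rcases r with ⟨x, hx⟩ | ⟨i, d⟩
  · show (let0 ins n x).WF b
    unfold let0
    cases ins x.1 with
    | goto q' =>
      refine ⟨fun k => .inr rfl, fun k d h => ?_, fun k d h => by cases h⟩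
      by_cases hk : k = some none
      · subst hk; simp at h; omega
      · simp [update_of_ne hk] at h
    | push k0 a q' =>
      refine ⟨fun k => ?_, fun k d h => ?_, fun k d h => ?_⟩
      · by_cases hk : k = some none
        · subst hk; right; simp
        · left; simp [update_of_ne hk]
      · by_cases hk : k = some none
        · subst hk; simp at h; omega
        · simp [update_of_ne hk] at h
      · by_cases hk : k = some (some k0)
        · subst hk; simp at h; have := dig_le (A := A) a; omega
        · simp [update_of_ne hk] at h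
    | pop k0 f =>
      refine ⟨fun k => .inr rfl, fun k d h => ?_, fun k d h => by cases h⟩
      by_cases hk : k = some (some k0)
      · subst hk; simp at h; have := digo_le x.2; omega
      · by_cases hk2 : k = some none
        · subst hk2; simp [update_of_ne hk] at h; omega
        · simp [update_of_ne hk, update_of_ne hk2] at h
    | halt => exact ⟨fun k => .inr rfl, fun k d h => (by cases h), fun k d h => (by cases h)⟩
  · refine ⟨fun k => .inr rfl, fun k d' h => ?_, fun k d h => by cases h⟩
    by_cases hk : k = e.symm i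
    · subst hk
      simp [lets, let1] at h
      have := d.2
      omega
    · simp [lets, let1, update_of_ne hk] at h

theorem lets_det (b : ℕ) : Det b (lets ins qa e (b - 1)) := by
  rintro (⟨x, hx⟩ | ⟨i, d⟩) (⟨x', hx'⟩ | ⟨i', d'⟩) c h h'
  · have h1 : c.1 = .inl x.1 := h.1.trans (let0_src ins x)
    have h2 : c.1 = .inl x'.1 := h'.1.trans (let0_src ins x')
    have h3 : x.1 = x'.1 := by rw [h1] at h2; exact Sum.inl.inj h2
    have h4 : x.2 = x'.2 := by
      cases hi : ins x.1 with
      | goto q => 
        have a1 : x.2 = none := by simpa [Val, hi] using hx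
        have a2 : x'.2 = none := by simpa [Val, ← h3, hi] using hx'
        rw [a1, a2]
      | push k a q => 
        have a1 : x.2 = none := by simpa [Val, hi] using hx
        have a2 : x'.2 = none := by simpa [Val, ← h3, hi] using hx'
        rw [a1, a2]
      | halt => 
        have a1 : x.1 = qa ∧ x.2 = none := by simpa [Val, hi] using hx
        have a2 : x'.1 = qa ∧ x'.2 = none := by
          have := hx'
          simp only [Val, ← h3, hi] at this
          exact ⟨h3 ▸ this.1, this.2⟩
        rw [a1.2, a2.2]
      | pop k f => 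
        have b1 := h.2 (some (some k)) (digo x.2) (by simp [lets, let0, hi])
        have b2 := h'.2 (some (some k)) (digo x'.2) (by simp [lets, let0, ← h3, hi])
        rw [b1] at b2
        exact digo_inj (by exact_mod_cast b2)
    have : x = x' := Prod.ext h3 h4
    subst this
    rfl
  · have h1 : c.1 = .inl x.1 := h.1.trans (let0_src ins x)
    have h2 : c.1 = .inr i'.castSucc := h'.1
    rw [h1] at h2; cases h2
  · have h1 : c.1 = .inl x'.1 := h'.1.trans (let0_src ins x')
    have h2 : c.1 = .inr i.castSucc := h.1
    rw [h1] at h2; cases h2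
  · have h1 : c.1 = .inr i.castSucc := h.1
    have h2 : c.1 = .inr i'.castSucc := h'.1
    have h3 : i = i' := by
      rw [h1] at h2
      exact Fin.castSucc_injective _ (Sum.inr.inj h2)
    subst h3
    have b1 := h.2 (e.symm i) d.val (by simp [lets, let1])
    have b2 := h'.2 (e.symm i) d'.val (by simp [lets, let1])
    rw [b1] at b2
    have : d = d' := Fin.ext (by exact_mod_cast b2)
    rw [this]

end compile

end Crest.Agent.R185.Clk
private theorem rz_4e1c02539f : type_of% @_root_.Crest.Agent.R185.Clk.digo.eq_1 := @_root_.Crest.Agent.R185.Clk.digo.eq_1 -- L83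
private theorem rz_b5d27b3707 : type_of% @_root_.Crest.Agent.R185.Clk.lets.eq_1 := @_root_.Crest.Agent.R185.Clk.lets.eq_1 -- L132
end

-- ▼ part R185/Clk3
section

/-!
# R185, block WIT (a), part 3: simulation, acceptance, archive
-/

set_option autoImplicit false

namespace Crest.Agent.R185.Clk

open Relation StateTransition Turing Function Crest.Agent.R185.Comp

variable {Q K A : Type} [DecidableEq K] [Finite A]
variable (ins : Q → Ins Q K A) (qa : Q) {n : ℕ} (e : K1 K ≃ Fin n) (b : ℕ)

/-- the configuration of the compiled machine in the simulation phase: archive `x`, clock `t` -/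
noncomputable def cfg (n : ℕ) (q : Q) (S : K → List A) (x : ℤ) (t : ℕ) :
    Cf (Q ⊕ Fin (n + 1)) (K1 K) :=
  (.inl q, fun k => match k with
    | none => x
    | some none => enc b (List.replicate t 1)
    | some (some k) => enc b ((S k).map (dig A)))

/-- the steps of the compiled machine -/
abbrev St : Cf (Q ⊕ Fin (n + 1)) (K1 K) → Cf (Q ⊕ Fin (n + 1)) (K1 K) → Prop :=
  Stp b (lets ins qa e (b - 1))

theorem enc_tick_emod (hb : 3 ≤ b) (t : ℕ) : enc b (List.replicate (t + 1) 1) % b = 1 := by
  rw [List.replicate_succ]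
  exact_mod_cast enc_cons_emod (b := b) (d := 1) (by omega) _

theorem enc_tick_ediv (hb : 3 ≤ b) (t : ℕ) :
    enc b (List.replicate (t + 1) 1) / b = enc b (List.replicate t 1) := by
  rw [List.replicate_succ]
  exact enc_cons_ediv (b := b) (d := 1) (by omega) _

theorem enc_map_emod (hb : Nat.card A + 3 ≤ b) (l : List A) :
    enc b (l.map (dig A)) % b = digo l.head? := by
  cases l with
  | nil => simp [digo]
  | cons a l =>
    simp only [List.map_cons, List.head?_cons, digo]
    exact enc_cons_emod (by have := dig_le (A := A) a; omega) _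

theorem enc_map_ediv (hb : Nat.card A + 3 ≤ b) (l : List A) :
    enc b (l.map (dig A)) / b = enc b (l.tail.map (dig A)) := by
  cases l with
  | nil => simp
  | cons a l =>
    simp only [List.map_cons, List.tail_cons]
    exact enc_cons_ediv (by have := dig_le (A := A) a; omega) _

/-- One step of the machine is one step of the compiled machine, for one tick. -/
theorem sim_step (hb : Nat.card A + 3 ≤ b) {q q' : Q} {S S' : K → List A}
    (h : step ins (q, S) = some (q', S')) (x : ℤ) (t : ℕ) :
    St ins qa e b (cfg b n q S x (t + 1)) (cfg b n q' S' x t) := by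
  have h3 : 3 ≤ b := by omega
  cases hi : ins q with
  | goto q1 =>
    rw [step_goto ins hi] at h
    cases h
    refine ⟨.inl ⟨(q, none), by simp [Val, hi]⟩, ⟨?_, ?_⟩, ?_⟩
    · simp [lets, let0, hi, cfg]
    · intro k d hk
      simp only [lets, let0, hi] at hk
      by_cases hk1 : k = some none
      · subst hk1
        simp at hk
        subst hk
        exact_mod_cast enc_tick_emod b h3 t
      · simp [update_of_ne hk1] at hk
    · refine Prod.ext (by simp [Rl.res, lets, let0, hi, cfg]) ?_
      funext k
      simp only [Rl.res, lets, let0, hi, cfg]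
      rcases k with _ | _ | k
      · rw [Rl.upd_none]
        · simp
        · rfl
      · rw [Rl.upd_pop (d := 1)]
        · exact enc_tick_ediv b h3 t
        · simp
        · rfl
      · rw [Rl.upd_none]
        · simp
        · rfl
  | push k0 a q1 =>
    rw [step_push ins hi] at h
    cases h
    refine ⟨.inl ⟨(q, none), by simp [Val, hi]⟩, ⟨?_, ?_⟩, ?_⟩
    · simp [lets, let0, hi, cfg]
    · intro k d hk
      simp only [lets, let0, hi] at hk
      by_cases hk1 : k = some none
      · subst hk1
        simp at hk
        subst hk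
        exact_mod_cast enc_tick_emod b h3 t
      · simp [update_of_ne hk1] at hk
    · refine Prod.ext (by simp [Rl.res, lets, let0, hi, cfg]) ?_
      funext k
      simp only [Rl.res, lets, let0, hi, cfg]
      rcases k with _ | _ | k
      · rw [Rl.upd_none]
        · simp
        · simp
      · rw [Rl.upd_pop (d := 1)]
        · exact enc_tick_ediv b h3 t
        · simp
        · simp
      · by_cases hk : k = k0
        · subst hk
          rw [Rl.upd_push (d := dig A a)]
          · simp
          · simp
          · simp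
        · rw [Rl.upd_none]
          · simp [update_of_ne hk]
          · simp
          · simp [hk]
  | pop k0 f =>
    rw [step_pop ins hi] at h
    cases h
    refine ⟨.inl ⟨(q, (S k0).head?), by simp [Val, hi]⟩, ⟨?_, ?_⟩, ?_⟩
    · simp [lets, let0, hi, cfg]
    · intro k d hk
      simp only [lets, let0, hi] at hk
      by_cases hk0 : k = some (some k0)
      · subst hk0
        simp at hk
        subst hk
        exact enc_map_emod b hb _
      · rw [update_of_ne hk0] at hk
        by_cases hk1 : k = some none
        · subst hk1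
          simp at hk
          subst hk
          exact_mod_cast enc_tick_emod b h3 t
        · simp [update_of_ne hk1] at hk
    · refine Prod.ext (by simp [Rl.res, lets, let0, hi, cfg]) ?_
      funext k
      simp only [Rl.res, lets, let0, hi, cfg]
      rcases k with _ | _ | k
      · rw [Rl.upd_none]
        · simp
        · simp
      · rw [Rl.upd_pop (d := 1)]
        · exact enc_tick_ediv b h3 t
        · simp
        · simp
      · by_cases hk : k = k0
        · subst hk
          rw [Rl.upd_pop (d := digo (S k).head?)]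
          · simp [enc_map_ediv b hb]
          · simp
          · simp
        · rw [Rl.upd_none]
          · simp [update_of_ne hk]
          · simp [update_of_ne (show (some (some k) : K1 K) ≠ some (some k0) by simpa using hk)]
          · simp
  | halt => rw [step_halt ins hi] at h; cases h

/-- entering the erasing phase -/
theorem acc_step (hqa : ins qa = .halt) (S : K → List A) (x : ℤ) (t : ℕ) :
    St ins qa e b (cfg b n qa S x t) (.inr 0, (cfg b n qa S x t).2) := by
  refine ⟨.inl ⟨(qa, none), by simp [Val, hqa]⟩, ⟨?_, ?_⟩, ?_⟩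
  · simp [lets, let0, hqa, cfg]
  · intro k d hk
    simp [lets, let0, hqa] at hk
  · refine Prod.ext (by simp [Rl.res, lets, let0, hqa]) ?_
    funext k
    simp only [Rl.res, lets, let0, hqa]
    exact Rl.upd_none rfl rfl _

/-- all steps out of a simulation configuration -/
theorem step_cases (hb : Nat.card A + 3 ≤ b) {q : Q} {S : K → List A} {x : ℤ} {t : ℕ}
    {d : Cf (Q ⊕ Fin (n + 1)) (K1 K)} (h : St ins qa e b (cfg b n q S x t) d) :
    (∃ t' q' S', t = t' + 1 ∧ step ins (q, S) = some (q', S') ∧ d = cfg b n q' S' x t') ∨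
      (q = qa ∧ ins q = .halt ∧ d = (.inr 0, (cfg b n q S x t).2)) := by
  have h3 : 3 ≤ b := by omega
  by_cases hh : ins q = .halt
  · right
    obtain ⟨r, hr, rfl⟩ := h
    rcases r with ⟨y, hy⟩ | ⟨i, j⟩
    · have h1 : (.inl q : Q ⊕ Fin (n + 1)) = .inl y.1 := hr.1.trans (let0_src ins y)
      have h2 := Sum.inl.inj h1
      have h3 : y.1 = qa ∧ y.2 = none := by simpa [Val, ← h2, hh] using hy
      refine ⟨h2.trans h3.1, hh, ?_⟩
      refine Prod.ext (by simp [Rl.res, lets, let0, ← h2, hh]) ?_
      funext k
      simp only [Rl.res, lets, let0, ← h2, hh]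
      exact Rl.upd_none rfl rfl _
    · have h1 : (.inl q : Q ⊕ Fin (n + 1)) = .inr i.castSucc := hr.1
      cases h1
  · left
    -- the clock is not empty
    have ht : t ≠ 0 := by
      rintro rfl
      obtain ⟨r, hr, rfl⟩ := h
      rcases r with ⟨y, hy⟩ | ⟨i, j⟩
      · have h1 : (.inl q : Q ⊕ Fin (n + 1)) = .inl y.1 := hr.1.trans (let0_src ins y)
        have h2 := Sum.inl.inj h1
        have h4 : (let0 ins n y).pop (some none) = some 1 := by
          unfold let0
          rw [← h2]
          cases hi : ins q with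
          | goto q' => simp
          | push k a q' => simp
          | pop k f => simp
          | halt => exact absurd hi hh
        have h5 := hr.2 (some none) 1 h4
        simp [cfg] at h5
      · have h1 : (.inl q : Q ⊕ Fin (n + 1)) = .inr i.castSucc := hr.1
        cases h1
    obtain ⟨t', rfl⟩ := Nat.exists_eq_succ_of_ne_zero ht
    cases hs : step ins (q, S) with
    | none => exact absurd ((step_eq_none ins).1 hs) hh
    | some c =>
      obtain ⟨q', S'⟩ := c
      refine ⟨t', q', S', rfl, rfl, ?_⟩
      exact Stp.det (lets_det ins qa e b) h (sim_step ins qa e b hb hs x t')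

/-- the final configuration -/
def hlt (n : ℕ) : Cf (Q ⊕ Fin (n + 1)) (K1 K) := (.inr (Fin.last n), fun _ => 0)

theorem hlt_stuck (d : Cf (Q ⊕ Fin (n + 1)) (K1 K)) : ¬ St ins qa e b (hlt n) d := by
  rintro ⟨r, hr, _⟩
  rcases r with ⟨y, hy⟩ | ⟨i, j⟩
  · have h1 : (.inr (Fin.last n) : Q ⊕ Fin (n + 1)) = .inl y.1 := hr.1.trans (let0_src ins y)
    cases h1
  · have h1 : (.inr (Fin.last n) : Q ⊕ Fin (n + 1)) = .inr i.castSucc := hr.1
    have := Sum.inr.inj h1
    have h2 := congrArg Fin.val this
    simp at h2
    have := i.2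
    omega

/-- one erasing step -/
theorem er_step (i : Fin n) (s : K1 K → ℤ) (d : ℕ) (hd : d < b - 1)
    (h : s (e.symm i) % b = d) :
    St ins qa e b (.inr i.castSucc, s)
      ((if d = 0 then .inr i.succ else .inr i.castSucc), update s (e.symm i) (s (e.symm i) / b)) := by
  refine ⟨.inr (i, ⟨d, hd⟩), ⟨rfl, ?_⟩, ?_⟩
  · intro k d' hk
    by_cases hk1 : k = e.symm i
    · subst hk1
      simp [lets, let1] at hk
      subst hk
      exact h
    · simp [lets, let1, update_of_ne hk1] at hk
  · refine Prod.ext (by simp [Rl.res, lets, let1]) ?_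
    funext k
    simp only [Rl.res, lets, let1]
    by_cases hk1 : k = e.symm i
    · subst hk1
      rw [Rl.upd_pop (d := d)]
      · simp
      · simp
      · rfl
    · rw [Rl.upd_none, update_of_ne hk1]
      · simp [update_of_ne hk1]
      · rfl

/-- erasing one stack containing a list of positive digits -/
theorem er_list (i : Fin n) (hb : 3 ≤ b) (l : List ℕ) (hl : ∀ d ∈ l, 0 < d ∧ d < b - 1)
    (s : K1 K → ℤ) (h : s (e.symm i) = enc b l) :
    ReflTransGen (St ins qa e b) (.inr i.castSucc, s) (.inr i.succ, update s (e.symm i) 0) := by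
  induction l generalizing s with
  | nil =>
    have h1 := er_step ins qa e b i s 0 (by omega) (by rw [h]; simp)
    rw [h] at h1
    simpa using ReflTransGen.single h1
  | cons d l ih =>
    have hd := hl d (by simp)
    have h1 := er_step ins qa e b i s d hd.2 (by rw [h]; exact enc_cons_emod (by omega) _)
    rw [if_neg (by omega), h, enc_cons_ediv (by omega)] at h1
    have h2 := ih (fun x hx => hl x (by simp [hx])) (update s (e.symm i) (enc b l)) (by simp)
    rw [update_idem] at h2
    exact ReflTransGen.head h1 h2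

/-- contents which are lists of positive digits -/
def Lst (b : ℕ) (s : K1 K → ℤ) : Prop :=
  ∀ k, ∃ l : List ℕ, (∀ d ∈ l, 0 < d ∧ d < b - 1) ∧ s k = enc b l

/-- erasing everything -/
theorem er_all (hb : 3 ≤ b) (j : ℕ) (hj : j ≤ n) (s : K1 K → ℤ) (hs : Lst b s) :
    ∃ s', ReflTransGen (St ins qa e b) (.inr 0, s) (.inr ⟨j, by omega⟩, s') ∧ Lst b s' ∧
      ∀ i : Fin n, i.val < j → s' (e.symm i) = 0 := by
  induction j with
  | zero => exact ⟨s, ReflTransGen.refl, hs, fun i hi => absurd hi (Nat.not_lt_zero _)⟩
  | succ j ih =>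
    obtain ⟨s', h1, h2, h3⟩ := ih (by omega)
    obtain ⟨l, hl, hl2⟩ := h2 (e.symm ⟨j, by omega⟩)
    have h4 := er_list ins qa e b ⟨j, by omega⟩ hb l hl s' hl2
    refine ⟨_, h1.trans h4, ?_, ?_⟩
    · intro k
      by_cases hk : k = e.symm ⟨j, by omega⟩
      · subst hk
        exact ⟨[], by simp, by simp⟩
      · obtain ⟨l', h5, h6⟩ := h2 k
        exact ⟨l', h5, by rw [update_of_ne hk]; exact h6⟩
    · intro i hi
      by_cases hij : i.val = j
      · have : i = ⟨j, by omega⟩ := Fin.ext hij
        rw [this, update_self]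
      · rw [update_of_ne]
        · exact h3 i (by omega)
        · intro h
          have := e.symm.injective h
          exact hij (congrArg Fin.val this)

theorem er_halt (hb : 3 ≤ b) (s : K1 K → ℤ) (hs : Lst b s) :
    ReflTransGen (St ins qa e b) (.inr 0, s) (hlt n) := by
  obtain ⟨s', h1, -, h3⟩ := er_all ins qa e b hb n le_rfl s hs
  have : s' = fun _ => 0 := by
    funext k
    have := h3 (e k) (e k).2
    simpa using this
  rw [this] at h1
  exact h1

omit [DecidableEq K] in
theorem cfg_lst (hb : Nat.card A + 3 ≤ b) (q : Q) (S : K → List A) (x : ℤ) (t : ℕ)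
    (hx : ∃ l : List ℕ, (∀ d ∈ l, 0 < d ∧ d < b - 1) ∧ x = enc b l) :
    Lst b (cfg b n q S x t).2 := by
  intro k
  rcases k with _ | _ | k
  · exact hx
  · refine ⟨List.replicate t 1, fun d hd => ?_, rfl⟩
    have := (List.mem_replicate.1 hd).2
    omega
  · refine ⟨(S k).map (dig A), fun d hd => ?_, rfl⟩
    obtain ⟨a, -, rfl⟩ := List.mem_map.1 hd
    have h1 := dig_pos (A := A) a
    have h2 := dig_le (A := A) a
    omega

/-- **Forward orbits of simulation configurations.** -/
theorem orbit (hb : Nat.card A + 3 ≤ b) {q : Q} {S : K → List A} {x : ℤ} {t : ℕ}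
    (hx : ∃ l : List ℕ, (∀ d ∈ l, 0 < d ∧ d < b - 1) ∧ x = enc b l)
    {d : Cf (Q ⊕ Fin (n + 1)) (K1 K)} (h : ReflTransGen (St ins qa e b) (cfg b n q S x t) d) :
    (∃ q' S' t', d = cfg b n q' S' x t' ∧ Reaches (step ins) (q, S) (q', S')) ∨
      ((∃ S', Reaches (step ins) (q, S) (qa, S')) ∧
        ReflTransGen (St ins qa e b) (cfg b n q S x t) (hlt n)) := by
  induction h with
  | refl => exact .inl ⟨q, S, t, rfl, ReflTransGen.refl⟩
  | tail h1 h2 ih =>
    rcases ih with ⟨q', S', t', rfl, h3⟩ | h3
    · rcases step_cases ins qa e b hb h2 with ⟨t'', q'', S'', rfl, h4, rfl⟩ | ⟨rfl, h4, rfl⟩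
      · exact .inl ⟨q'', S'', t'', rfl, h3.tail h4⟩
      · refine .inr ⟨⟨S', h3⟩, ?_⟩
        exact (h1.tail h2).trans (er_halt ins q' e b (by omega) _ (cfg_lst b hb _ _ _ _ hx))
    · exact .inr h3

/-- **Acceptance.** -/
theorem halts_of_reaches (hb : Nat.card A + 3 ≤ b) (hqa : ins qa = .halt) {q : Q} {S S' : K → List A}
    (h : Reaches (step ins) (q, S) (qa, S')) :
    ∃ t, ∀ (x : ℤ), (∃ l : List ℕ, (∀ d ∈ l, 0 < d ∧ d < b - 1) ∧ x = enc b l) →
      ReflTransGen (St ins qa e b) (cfg b n q S x t) (hlt n) := by
  have key : ∀ c : Q × (K → List A), Reaches (step ins) c (qa, S') →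
      ∃ t, ∀ x : ℤ, ReflTransGen (St ins qa e b) (cfg b n c.1 c.2 x t) (cfg b n qa S' x 0) := by
    intro c hc
    induction hc using ReflTransGen.head_induction_on with
    | refl => exact ⟨0, fun x => ReflTransGen.refl⟩
    | head h1 _ ih =>
      obtain ⟨t, ht⟩ := ih
      exact ⟨t + 1, fun x => ReflTransGen.head (sim_step ins qa e b hb h1 x t) (ht x)⟩
  obtain ⟨t, ht⟩ := key _ h
  refine ⟨t, fun x hx => ?_⟩
  refine (ht x).trans (ReflTransGen.head (acc_step ins qa e b hqa S' x 0) ?_)
  exact er_halt ins qa e b (by omega) _ (cfg_lst b hb _ _ _ _ hx)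

/-- the simulation phase -/
def Pre (c : Cf (Q ⊕ Fin (n + 1)) (K1 K)) : Prop := ∃ q, c.1 = .inl q

theorem pre_of_step {c d : Cf (Q ⊕ Fin (n + 1)) (K1 K)} (h : St ins qa e b c d) (hd : Pre d) :
    Pre c ∧ c.2 none = d.2 none := by
  obtain ⟨r, hr, rfl⟩ := h
  rcases r with ⟨y, hy⟩ | ⟨i, j⟩
  · refine ⟨⟨y.1, hr.1.trans (let0_src ins y)⟩, ?_⟩
    show _ = (let0 ins n y).upd b none (c.2 none)
    rw [Rl.upd_none]
    · unfold let0
      cases ins y.1 <;> simp
    · unfold let0
      cases ins y.1 <;> simp
  · obtain ⟨q, hq⟩ := hd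
    simp only [Rl.res, lets, let1] at hq
    split_ifs at hq

theorem pre_of_reach {c d : Cf (Q ⊕ Fin (n + 1)) (K1 K)} (h : ReflTransGen (St ins qa e b) c d)
    (hd : Pre d) : Pre c ∧ c.2 none = d.2 none := by
  induction h using ReflTransGen.head_induction_on with
  | refl => exact ⟨hd, rfl⟩
  | head h1 _ ih =>
    obtain ⟨h2, h3⟩ := pre_of_step ins qa e b h1 ih.1
    exact ⟨h2, h3.trans ih.2⟩

/-- **The archive**: if the start configuration does not halt, then every configuration connected
to it has the same archive. -/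
theorem archive (hb : Nat.card A + 3 ≤ b) {q : Q} {S : K → List A} {x : ℤ} {t : ℕ}
    (hx : ∃ l : List ℕ, (∀ d ∈ l, 0 < d ∧ d < b - 1) ∧ x = enc b l)
    (hn : ¬ ReflTransGen (St ins qa e b) (cfg b n q S x t) (hlt n))
    {c : Cf (Q ⊕ Fin (n + 1)) (K1 K)}
    (hc : Conn b (lets ins qa e (b - 1)) c (cfg b n q S x t)) : Pre c ∧ c.2 none = x := by
  obtain ⟨d, h1, h2⟩ := hc.join (lets_det ins qa e b)
  rcases orbit ins qa e b hb hx h2 with ⟨q', S', t', rfl, -⟩ | h3
  · exact pre_of_reach ins qa e b h1 ⟨q', rfl⟩
  · exact absurd h3.2 hn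

/-! ### termination of every configuration -/

theorem natAbs_div_lt {b : ℕ} (hb : 3 ≤ b) {m : ℤ} {d : ℕ} (h : m % b = d) (hd : 0 < d)
    (hd2 : d < b - 1) : (m / b).natAbs < m.natAbs := by
  have h1 := Int.emod_add_mul_ediv m b
  rw [h] at h1
  set k := m / b
  have hb' : (3 : ℤ) ≤ b := by exact_mod_cast hb
  have hd' : (0 : ℤ) < d := by exact_mod_cast hd
  have hd2' : (d : ℤ) + 2 ≤ b := by omega
  rcases le_or_gt 0 k with hk | hk
  · have h2 : k ≤ b * k := by nlinarith
    omega
  · have h2 : (b : ℤ) * (k + 1) ≤ 3 * (k + 1) := by nlinarith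
    have h3 : m = d + b * k := h1.symm
    have h4 : m ≤ k - 1 := by nlinarith
    omega


/-- a configuration whose orbit ends -/
def Fine (c : Cf (Q ⊕ Fin (n + 1)) (K1 K)) : Prop :=
  ∃ d, ReflTransGen (St ins qa e b) c d ∧ ∀ d', ¬ St ins qa e b d d'

theorem fine_of_steps {c : Cf (Q ⊕ Fin (n + 1)) (K1 K)}
    (h : ∀ d, St ins qa e b c d → Fine ins qa e b d) : Fine ins qa e b c := by
  by_cases h1 : ∃ d, St ins qa e b c d
  · obtain ⟨d, hd⟩ := h1
    obtain ⟨f, h2, h3⟩ := h d hd
    exact ⟨f, ReflTransGen.head hd h2, h3⟩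
  · push Not at h1
    exact ⟨c, ReflTransGen.refl, h1⟩

theorem fine_er (hb : 3 ≤ b) : ∀ (j : ℕ) (i : Fin (n + 1)), n = i.val + j → ∀ s,
    Fine ins qa e b (.inr i, s) := by
  intro j
  induction j with
  | zero =>
    intro i hi s
    refine fine_of_steps ins qa e b fun d hd => ?_
    exfalso
    obtain ⟨r, hr, _⟩ := hd
    rcases r with ⟨y, hy⟩ | ⟨i', j⟩
    · have h1 : (.inr i : Q ⊕ Fin (n + 1)) = .inl y.1 := hr.1.trans (let0_src ins y)
      cases h1
    · have h1 : (.inr i : Q ⊕ Fin (n + 1)) = .inr i'.castSucc := hr.1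
      have := Sum.inr.inj h1
      subst this
      have := i'.2
      simp at hi
      omega
  | succ j ih =>
    intro i hi
    have key : ∀ (N : ℕ) (s : K1 K → ℤ), (s (e.symm ⟨i.val, by omega⟩)).natAbs = N →
        Fine ins qa e b (.inr i, s) := by
      intro N
      induction N using Nat.strong_induction_on with
      | _ N ihN =>
        intro s hs
        refine fine_of_steps ins qa e b fun d hd => ?_
        obtain ⟨r, hr, rfl⟩ := hd
        rcases r with ⟨y, hy⟩ | ⟨i', m⟩
        · have h1 : (.inr i : Q ⊕ Fin (n + 1)) = .inl y.1 := hr.1.trans (let0_src ins y)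
          cases h1
        · have h1 : (.inr i : Q ⊕ Fin (n + 1)) = .inr i'.castSucc := hr.1
          have h1' := Sum.inr.inj h1
          subst h1'
          have hi' : (⟨(i'.castSucc).val, by omega⟩ : Fin n) = i' := Fin.ext rfl
          rw [hi'] at hs
          by_cases hm : m.val = 0
          · have : ((lets ins qa e (b - 1) (.inr (i', m))).res b (.inr i'.castSucc, s)).1 =
                .inr i'.succ := by
              simp [Rl.res, lets, let1, hm]
            rw [show (lets ins qa e (b - 1) (.inr (i', m))).res b (.inr i'.castSucc, s) =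
              (.inr i'.succ, ((lets ins qa e (b - 1) (.inr (i', m))).res b
                (.inr i'.castSucc, s)).2) from Prod.ext this rfl]
            exact ih i'.succ (by simp at hi ⊢; omega) _
          · have h3 : ((lets ins qa e (b - 1) (.inr (i', m))).res b (.inr i'.castSucc, s)).1 =
                .inr i'.castSucc := by
              simp [Rl.res, lets, let1, hm]
            rw [show (lets ins qa e (b - 1) (.inr (i', m))).res b (.inr i'.castSucc, s) =
              (.inr i'.castSucc, ((lets ins qa e (b - 1) (.inr (i', m))).res b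
                (.inr i'.castSucc, s)).2) from Prod.ext h3 rfl]
            have h4 := hr.2 (e.symm i') m.val (by simp [lets, let1])
            have h5 : ((lets ins qa e (b - 1) (.inr (i', m))).res b (.inr i'.castSucc, s)).2
                (e.symm i') = s (e.symm i') / b := by
              simp only [Rl.res]
              rw [Rl.upd_pop (d := m.val)]
              · simp [lets, let1]
              · rfl
            refine ihN _ ?_ _ rfl
            rw [hi', h5, ← hs]
            exact natAbs_div_lt hb h4 (Nat.pos_of_ne_zero hm) m.2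
    exact fun s => key _ s rfl

/-- **Every configuration has a finite orbit.** -/
theorem fine (hb : 3 ≤ b) (c : Cf (Q ⊕ Fin (n + 1)) (K1 K)) : Fine ins qa e b c := by
  obtain ⟨q | i, s⟩ := c
  · have key : ∀ (N : ℕ) (q : Q) (s : K1 K → ℤ), (s (some none)).natAbs = N →
        Fine ins qa e b (.inl q, s) := by
      intro N
      induction N using Nat.strong_induction_on with
      | _ N ihN =>
        intro q s hs
        refine fine_of_steps ins qa e b fun d hd => ?_
        obtain ⟨r, hr, rfl⟩ := hd
        rcases r with ⟨y, hy⟩ | ⟨i', m⟩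
        · have h1 : (.inl q : Q ⊕ Fin (n + 1)) = .inl y.1 := hr.1.trans (let0_src ins y)
          have h2 := Sum.inl.inj h1
          subst h2
          by_cases hh : ins y.1 = .halt
          · have : ((lets ins qa e (b - 1) (.inl ⟨y, hy⟩)).res b (.inl y.1, s)).1 = .inr 0 := by
              simp [Rl.res, lets, let0, hh]
            rw [show (lets ins qa e (b - 1) (.inl ⟨y, hy⟩)).res b (.inl y.1, s) = (.inr 0,
              ((lets ins qa e (b - 1) (.inl ⟨y, hy⟩)).res b (.inl y.1, s)).2) from
              Prod.ext this rfl]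
            exact fine_er ins qa e b hb n 0 (by simp) _
          · have h4 : (let0 ins n y).pop (some none) = some 1 ∧ (let0 ins n y).push (some none) =
                none ∧ ∃ q', (let0 ins n y).tgt = .inl q' := by
              unfold let0
              cases hi : ins y.1 with
              | goto q' => simp
              | push k a q' => simp
              | pop k f => simp
              | halt => exact absurd hi hh
            obtain ⟨h4, h5, q', h6⟩ := h4
            rw [show (lets ins qa e (b - 1) (.inl ⟨y, hy⟩)).res b (.inl y.1, s) = (.inl q',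
              ((lets ins qa e (b - 1) (.inl ⟨y, hy⟩)).res b (.inl y.1, s)).2) from
              Prod.ext h6 rfl]
            refine ihN _ ?_ _ _ rfl
            have h7 := hr.2 (some none) 1 h4
            have h8 : ((lets ins qa e (b - 1) (.inl ⟨y, hy⟩)).res b (.inl y.1, s)).2 (some none) =
                s (some none) / b := by
              show (let0 ins n y).upd b (some none) (s (some none)) = _
              rw [Rl.upd_pop h4 h5]
            rw [h8, ← hs]
            exact natAbs_div_lt hb h7 one_pos (by omega)
        · have h1 : (.inl q : Q ⊕ Fin (n + 1)) = .inr i'.castSucc := hr.1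
          cases h1
    exact key _ q s rfl
  · exact fine_er ins qa e b hb (n - i.val) i (by have := i.2; omega) s

end Crest.Agent.R185.Clk
end

-- ▼ part R185/Clk4
section

/-!
# R185, block WIT (a), part 4: systems of pure pop letters

* `Pop`: a letter which only pops digits (the pushes are the inverses of such letters);
* `split`: every system of letters `Rl` becomes a system of pop letters, with one more state for
  every letter, and connectedness is the same;
* `PConn.map_iff`: transport along equivalences.
-/

set_option autoImplicit false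

namespace Crest.Agent.R185.Clk

open Relation Function

variable {Q K R Q' K' R' : Type}

/-- A pure pop letter: it leads from the state `src` to the state `tgt` and pops the digit `a` from
the stack `k` if `dg k = some a`; the other stacks are untouched. -/
@[ext] structure Pop (Q K : Type) where
  src : Q
  tgt : Q
  dg : K → Option ℕ

/-- the content of a stack before popping the digit `o`, if `z` is the content after popping -/
def aff (b : ℕ) (o : Option ℕ) (z : ℤ) : ℤ :=
  match o with
  | none => z
  | some a => a + b * z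

@[simp] theorem aff_none (b : ℕ) (z : ℤ) : aff b none z = z := rfl
@[simp] theorem aff_some (b a : ℕ) (z : ℤ) : aff b (some a) z = a + b * z := rfl

/-- the partial injection of a pop letter -/
def Pop.Stp (b : ℕ) (p : Pop Q K) (c c' : Cf Q K) : Prop :=
  c.1 = p.src ∧ c'.1 = p.tgt ∧ ∀ k, c.2 k = aff b (p.dg k) (c'.2 k)

/-- one step of a system of pop letters -/
def PStp (b : ℕ) (rule : R → Pop Q K) (c c' : Cf Q K) : Prop := ∃ r, (rule r).Stp b c c'

/-- connectedness in a system of pop letters -/
def PConn (b : ℕ) (rule : R → Pop Q K) : Cf Q K → Cf Q K → Prop := EqvGen (PStp b rule)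

/-! ### splitting -/

/-- the pop letters of a system: `inl r` are the pops of the letter `r`, `inr r` the inverses of
the pushes of the letter `r` -/
def split (rule : R → Rl Q K) : R ⊕ R → Pop (Q ⊕ R) K
  | .inl r => ⟨.inl (rule r).src, .inr r, (rule r).pop⟩
  | .inr r => ⟨.inl (rule r).tgt, .inr r, (rule r).push⟩

/-- old configurations as new configurations -/
def lft (c : Cf Q K) : Cf (Q ⊕ R) K := (.inl c.1, c.2)

/-- the retraction onto the old configurations -/
def ret (b : ℕ) (rule : R → Rl Q K) (c : Cf (Q ⊕ R) K) : Cf Q K :=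
  match c.1 with
  | .inl q => (q, c.2)
  | .inr r => ((rule r).src, fun k => aff b ((rule r).pop k) (c.2 k))

@[simp] theorem ret_lft (b : ℕ) (rule : R → Rl Q K) (c : Cf Q K) : ret b rule (lft c) = c := rfl

theorem emod_aff {b d : ℕ} (h : d < b) (z : ℤ) : ((d : ℤ) + b * z) % b = d := by
  rw [Int.add_mul_emod_self_left, Int.emod_eq_of_lt (by positivity) (by omega)]

theorem ediv_aff {b d : ℕ} (h : d < b) (z : ℤ) : ((d : ℤ) + b * z) / b = z := by
  rw [Int.add_mul_ediv_left _ _ (by omega), Int.ediv_eq_zero_of_lt (by positivity)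
    (by omega), zero_add]

theorem ret_step {b : ℕ} {rule : R → Rl Q K} (hw : ∀ r, (rule r).WF b) {c c' : Cf (Q ⊕ R) K}
    (h : PStp b (split rule) c c') : Conn b rule (ret b rule c) (ret b rule c') := by
  obtain ⟨r | r, h1, h2, h3⟩ := h
  · obtain ⟨q, s⟩ := c
    obtain ⟨q', s'⟩ := c'
    simp only [split] at h1 h2 h3
    subst h1 h2
    have : ret b rule (Sum.inl (rule r).src, s) = ret b rule (Sum.inr r, s') := by
      simp only [ret]
      refine Prod.ext rfl ?_
      funext k
      exact h3 k
    rw [this]
    exact EqvGen.refl _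
  · obtain ⟨q, s⟩ := c
    obtain ⟨q', s'⟩ := c'
    simp only [split] at h1 h2 h3
    subst h1 h2
    refine EqvGen.symm _ _ (EqvGen.rel _ _ ⟨r, ⟨rfl, ?_⟩, ?_⟩)
    · intro k d hd
      simp only [ret, hd, aff_some]
      exact emod_aff (by have := (hw r).pop_lt k d hd; omega) _
    · simp only [ret, Rl.res]
      refine Prod.ext rfl ?_
      funext k
      simp only
      rw [h3 k]
      rcases hp : (rule r).pop k with _ | d
      · rcases hq : (rule r).push k with _ | d'
        · rw [Rl.upd_none hp hq]
        · rw [Rl.upd_push hp hq]; rfl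
      · have hq : (rule r).push k = none := by
          rcases (hw r).disj k with h4 | h4
          · rw [hp] at h4; cases h4
          · exact h4
        rw [Rl.upd_pop hp hq, hq, aff_some, aff_none]
        exact ediv_aff (by have := (hw r).pop_lt k d hp; omega) _

theorem ret_conn {b : ℕ} {rule : R → Rl Q K} (hw : ∀ r, (rule r).WF b) {c c' : Cf (Q ⊕ R) K}
    (h : PConn b (split rule) c c') : Conn b rule (ret b rule c) (ret b rule c') := by
  induction h with
  | rel x y h => exact ret_step hw h
  | refl x => exact EqvGen.refl _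
  | symm x y _ ih => exact EqvGen.symm _ _ ih
  | trans x y z _ _ ih1 ih2 => exact EqvGen.trans _ _ _ ih1 ih2

theorem lft_step {b : ℕ} {rule : R → Rl Q K} (hw : ∀ r, (rule r).WF b) {c c' : Cf Q K}
    (h : Stp b rule c c') : PConn b (split rule) (lft c) (lft c') := by
  obtain ⟨r, h1, rfl⟩ := h
  obtain ⟨q, s⟩ := c
  have hq : q = (rule r).src := h1.1
  subst hq
  -- the middle configuration
  have key : ∀ k, ∃ z, s k = aff b ((rule r).pop k) z ∧
      (rule r).upd b k (s k) = aff b ((rule r).push k) z := by
    intro k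
    rcases hp : (rule r).pop k with _ | d
    · refine ⟨s k, rfl, ?_⟩
      rcases hq : (rule r).push k with _ | d'
      · rw [Rl.upd_none hp hq]; rfl
      · rw [Rl.upd_push hp hq]; rfl
    · have hq : (rule r).push k = none := by
        rcases (hw r).disj k with h4 | h4
        · rw [hp] at h4; cases h4
        · exact h4
      refine ⟨s k / b, ?_, ?_⟩
      · have h5 := h1.2 k d hp
        have h6 := Int.emod_add_mul_ediv (s k) b
        simp only at h5
        rw [h5] at h6
        exact h6.symm
      · rw [Rl.upd_pop hp hq, hq, aff_none]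
  choose z hz1 hz2 using key
  refine EqvGen.trans _ ((.inr r, z) : Cf (Q ⊕ R) K) _ (EqvGen.rel _ _ ⟨.inl r, rfl, rfl, hz1⟩)
    (EqvGen.symm _ _ (EqvGen.rel _ _ ⟨.inr r, rfl, rfl, fun k => ?_⟩))
  exact hz2 k

theorem lft_conn {b : ℕ} {rule : R → Rl Q K} (hw : ∀ r, (rule r).WF b) {c c' : Cf Q K}
    (h : Conn b rule c c') : PConn b (split rule) (lft c) (lft c') := by
  induction h with
  | rel x y h => exact lft_step hw h
  | refl x => exact EqvGen.refl _
  | symm x y _ ih => exact EqvGen.symm _ _ ih
  | trans x y z _ _ ih1 ih2 => exact EqvGen.trans _ _ _ ih1 ih2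

theorem conn_iff {b : ℕ} {rule : R → Rl Q K} (hw : ∀ r, (rule r).WF b) {c c' : Cf Q K} :
    PConn b (split rule) (lft c) (lft c') ↔ Conn b rule c c' :=
  ⟨fun h => ret_conn hw h, lft_conn hw⟩

/-- a new configuration is connected to its retraction -/
theorem conn_ret {b : ℕ} {rule : R → Rl Q K} (c : Cf (Q ⊕ R) K) :
    PConn b (split rule) (lft (ret b rule c)) c := by
  obtain ⟨q | r, s⟩ := c
  · exact EqvGen.refl _
  · exact EqvGen.rel _ _ ⟨.inl r, rfl, rfl, fun k => rfl⟩

theorem conn_iff' {b : ℕ} {rule : R → Rl Q K} (hw : ∀ r, (rule r).WF b) {c : Cf (Q ⊕ R) K}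
    {c' : Cf Q K} : PConn b (split rule) c (lft c') ↔ Conn b rule (ret b rule c) c' := by
  constructor
  · intro h
    have := ret_conn hw h
    rwa [ret_lft] at this
  · intro h
    exact EqvGen.trans _ _ _ (EqvGen.symm _ _ (conn_ret c)) (lft_conn hw h)

/-! ### transport -/

/-- transport of a pop letter along equivalences -/
def Pop.map (f : Q ≃ Q') (g : K ≃ K') (p : Pop Q K) : Pop Q' K' :=
  ⟨f p.src, f p.tgt, fun k => p.dg (g.symm k)⟩

/-- transport of a configuration -/
def cmap (f : Q ≃ Q') (g : K ≃ K') : Cf Q K ≃ Cf Q' K' :=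
  f.prodCongr (g.arrowCongr (Equiv.refl ℤ))

@[simp] theorem cmap_fst (f : Q ≃ Q') (g : K ≃ K') (c : Cf Q K) : (cmap f g c).1 = f c.1 := rfl
@[simp] theorem cmap_snd (f : Q ≃ Q') (g : K ≃ K') (c : Cf Q K) (k : K') :
    (cmap f g c).2 k = c.2 (g.symm k) := rfl

theorem Pop.map_stp {f : Q ≃ Q'} {g : K ≃ K'} {b : ℕ} {p : Pop Q K} {c c' : Cf Q K} :
    (p.map f g).Stp b (cmap f g c) (cmap f g c') ↔ p.Stp b c c' := by
  unfold Pop.Stp Pop.map
  simp only [cmap_fst, cmap_snd, EmbeddingLike.apply_eq_iff_eq]
  refine and_congr_right fun _ => and_congr_right fun _ => ⟨fun h k => ?_, fun h k => h _⟩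
  simpa using h (g k)

theorem PStp.map_iff {f : Q ≃ Q'} {g : K ≃ K'} {h : R' ≃ R} {b : ℕ} {rule : R → Pop Q K}
    {c c' : Cf Q K} : PStp b (fun r => (rule (h r)).map f g) (cmap f g c) (cmap f g c') ↔
      PStp b rule c c' := by
  constructor
  · rintro ⟨r, hr⟩
    exact ⟨h r, Pop.map_stp.1 hr⟩
  · rintro ⟨r, hr⟩
    refine ⟨h.symm r, Pop.map_stp.2 ?_⟩
    rwa [Equiv.apply_symm_apply]

theorem PConn.map_iff {f : Q ≃ Q'} {g : K ≃ K'} {h : R' ≃ R} {b : ℕ} {rule : R → Pop Q K}
    {c c' : Cf Q K} : PConn b (fun r => (rule (h r)).map f g) (cmap f g c) (cmap f g c') ↔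
      PConn b rule c c' := by
  constructor
  · intro hc
    have key : ∀ x y, PConn b (fun r => (rule (h r)).map f g) x y →
        PConn b rule ((cmap f g).symm x) ((cmap f g).symm y) := by
      intro x y hxy
      induction hxy with
      | rel x y hxy =>
        refine EqvGen.rel _ _ ((PStp.map_iff (f := f) (g := g) (h := h)).1 ?_)
        rwa [Equiv.apply_symm_apply, Equiv.apply_symm_apply]
      | refl x => exact EqvGen.refl _
      | symm x y _ ih => exact EqvGen.symm _ _ ih
      | trans x y z _ _ ih1 ih2 => exact EqvGen.trans _ _ _ ih1 ih2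
    simpa using key _ _ hc
  · intro hc
    induction hc with
    | rel x y hxy => exact EqvGen.rel _ _ (PStp.map_iff.2 hxy)
    | refl x => exact EqvGen.refl _
    | symm x y _ ih => exact EqvGen.symm _ _ ih
    | trans x y z _ _ ih1 ih2 => exact EqvGen.trans _ _ _ ih1 ih2

end Crest.Agent.R185.Clk
private theorem rz_232ab107f3 : type_of% @_root_.Crest.Agent.R185.Clk.split.eq_1 := @_root_.Crest.Agent.R185.Clk.split.eq_1 -- L50
end

-- ▼ part R185/Clk5
section

/-!
# R185, block WIT (a), part 5: computability of the affine letters and decidability tools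
-/

set_option autoImplicit false

namespace Crest.Agent.R185.Clk

open Relation Function Crest.Agent.R292 Crest.Agent.R185.Re

/-! ### integers -/

theorem primrec_toSum : Primrec Equiv.intEquivNatSumNat := by
  rw [← Primrec.encode_iff]
  refine (Primrec.encode (α := ℤ)).of_eq fun z => ?_
  cases z with
  | ofNat n => rfl
  | negSucc n => rfl

theorem primrec_ofSum : Primrec Equiv.intEquivNatSumNat.symm := by
  rw [← Primrec.encode_iff]
  refine (Primrec.encode (α := ℕ ⊕ ℕ)).of_eq fun z => ?_
  cases z with
  | inl n => rfl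
  | inr n => rfl

theorem primrec_intOfNat : Primrec Int.ofNat :=
  (primrec_ofSum.comp Primrec.sumInl).of_eq fun _ => rfl


theorem primrec_negSucc : Primrec Int.negSucc :=
  (primrec_ofSum.comp Primrec.sumInr).of_eq fun _ => rfl

theorem primrec_subNatNat : Primrec₂ Int.subNatNat := by
  have h : Primrec₂ fun (m n : ℕ) => if m < n then Int.negSucc (n - m - 1) else Int.ofNat (m - n) := by
    refine Primrec.ite (PrimrecRel.comp Primrec.nat_lt Primrec.fst Primrec.snd) ?_ ?_
    · refine primrec_negSucc.comp ?_
      exact Primrec.nat_sub.comp (Primrec.nat_sub.comp Primrec.snd Primrec.fst) (Primrec.const 1)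
    · refine primrec_intOfNat.comp ?_
      exact Primrec.nat_sub.comp Primrec.fst Primrec.snd
  refine h.of_eq fun m n => ?_
  rw [Int.subNatNat_eq_coe]
  split_ifs with h1
  · rw [Int.negSucc_eq]
    omega
  · simp only [Int.ofNat_eq_natCast]
    omega

theorem primrec_affine (b : ℕ) : Primrec₂ fun (a : ℕ) (z : ℤ) => (a : ℤ) + b * z := by
  have h : Primrec₂ fun (a : ℕ) (z : ℤ) => (Equiv.intEquivNatSumNat z).casesOn (motive := fun _ => ℤ)
      (fun n => Int.ofNat (a + b * n)) (fun n => Int.subNatNat a (b * (n + 1))) := by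
    refine Primrec.sumCasesOn (primrec_toSum.comp Primrec.snd) ?_ ?_
    · have h1 : Primrec fun x : (ℕ × ℤ) × ℕ => x.1.1 + b * x.2 :=
        Primrec.nat_add.comp (Primrec.fst.comp Primrec.fst)
          (Primrec.nat_mul.comp (Primrec.const b) Primrec.snd)
      exact (primrec_intOfNat.comp h1).to₂
    · have h1 : Primrec fun x : (ℕ × ℤ) × ℕ => b * (x.2 + 1) :=
        Primrec.nat_mul.comp (Primrec.const b) (Primrec.succ.comp Primrec.snd)
      have h2 : Primrec fun x : (ℕ × ℤ) × ℕ => x.1.1 := Primrec.fst.comp Primrec.fst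
      exact (primrec_subNatNat.comp h2 h1).to₂
  refine h.of_eq fun a z => ?_
  cases z with
  | ofNat n =>
    show Int.ofNat (a + b * n) = _
    simp
  | negSucc n =>
    show Int.subNatNat a (b * (n + 1)) = _
    rw [Int.subNatNat_eq_coe, Int.negSucc_eq]
    push_cast
    ring

theorem primrec_aff (b : ℕ) : Primrec₂ (aff b) := by
  have h : Primrec₂ fun (o : Option ℕ) (z : ℤ) => (o.casesOn (motive := fun _ => ℤ) z
      (fun a => (a : ℤ) + b * z)) := by
    refine Primrec.option_casesOn Primrec.fst Primrec.snd ?_
    exact ((primrec_affine b).comp Primrec.snd (Primrec.snd.comp Primrec.fst)).to₂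
  refine h.of_eq fun o z => ?_
  cases o <;> rfl

theorem primrec_enc (b : ℕ) : Primrec (enc b) := by
  have h := Primrec.list_foldr (f := fun l : List ℕ => l) (g := fun _ : List ℕ => (0 : ℤ))
    (h := fun _ (x : ℕ × ℤ) => (x.1 : ℤ) + b * x.2) Primrec.id (Primrec.const 0)
    (((primrec_affine b).comp (Primrec.fst.comp Primrec.snd) (Primrec.snd.comp Primrec.snd)).to₂)
  refine h.of_eq fun l => ?_
  induction l with
  | nil => rfl
  | cons d l ih =>
    simp only [List.foldr_cons, enc_cons]
    rw [ih]

/-! ### equivalence closures -/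

/-- The equivalence closure of an r.e. relation is r.e. -/
theorem re_eqvGen {α : Type} [Primcodable α] {S : α → α → Prop}
    (hS : REPred fun x : α × α => S x.1 x.2) : REPred fun x : α × α => EqvGen S x.1 x.2 := by
  have h1 : REPred fun x : α × List α × α => x.2.2 = x.1 ∨
      ∃ c ∈ x.2.1, S c x.2.2 ∨ S x.2.2 c := by
    refine re_or ?_ ?_
    · exact re_eq (Computable.snd.comp Computable.snd) Computable.fst
    · refine re_ex_mem (p := fun (x : α × List α × α) (c : α) => S c x.2.2 ∨ S x.2.2 c) ?_
        (Computable.fst.comp Computable.snd)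
      refine re_or ?_ ?_
      · exact re_comp (f := fun x : (α × List α × α) × α => (x.2, x.1.2.2)) hS
          (Computable.snd.pair (Computable.snd.comp (Computable.snd.comp Computable.fst)))
      · exact re_comp (f := fun x : (α × List α × α) × α => (x.1.2.2, x.2)) hS
          ((Computable.snd.comp (Computable.snd.comp Computable.fst)).pair Computable.snd)
  have h2 := re_der (R := fun (x : α) (l : List α) (a : α) => a = x ∨
      ∃ c ∈ l, S c a ∨ S a c) h1
  refine h2.of_eq fun x => ?_
  obtain ⟨x, a⟩ := x
  simp only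
  constructor
  · intro h
    induction h with
    | mk l a h hl ih =>
      rcases h with rfl | ⟨c, hc, h⟩
      · exact EqvGen.refl _
      · refine EqvGen.trans _ _ _ (ih c hc) ?_
        rcases h with h | h
        · exact EqvGen.rel _ _ h
        · exact EqvGen.symm _ _ (EqvGen.rel _ _ h)
  · intro h
    -- both directions at once
    have key : ∀ u v, EqvGen S u v → ∀ w, (Der (fun (l : List α) (a : α) => a = w ∨
        ∃ c ∈ l, S c a ∨ S a c) u ↔ Der (fun (l : List α) (a : α) => a = w ∨
        ∃ c ∈ l, S c a ∨ S a c) v) := by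
      intro u v huv
      induction huv with
      | rel u v h =>
        intro w
        constructor
        · intro hu
          exact Der.mk [u] v (.inr ⟨u, by simp, .inl h⟩) (by simpa using hu)
        · intro hv
          exact Der.mk [v] u (.inr ⟨v, by simp, .inr h⟩) (by simpa using hv)
      | refl u => exact fun w => Iff.rfl
      | symm u v _ ih => exact fun w => (ih w).symm
      | trans u v z _ _ ih1 ih2 => exact fun w => (ih1 w).trans (ih2 w)
    exact (key x a h x).1 (Der.mk [] x (.inl rfl) (by simp))

/-! ### decidability for pop systems on finite types -/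

section
variable {nQ nK nR : ℕ}

/-- the configuration before a pop -/
def back (b : ℕ) (rule : Fin nR → Pop (Fin nQ) (Fin nK)) (x : Fin nR × (Fin nK → ℤ)) :
    Fin nK → ℤ := fun k => aff b ((rule x.1).dg k) (x.2 k)

theorem primrec_back (b : ℕ) (rule : Fin nR → Pop (Fin nQ) (Fin nK)) :
    Primrec (back b rule) := by
  have h0 : Primrec₂ fun (x : Fin nR × (Fin nK → ℤ)) (k : Fin nK) =>
      aff b ((rule x.1).dg k) (x.2 k) := by
    have h1 : Primrec fun y : Fin nR × Fin nK => (rule y.1).dg y.2 := Primrec.dom_finite _
    have h2 : Primrec fun y : (Fin nR × (Fin nK → ℤ)) × Fin nK => (rule y.1.1).dg y.2 :=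
      h1.comp ((Primrec.fst.comp Primrec.fst).pair Primrec.snd)
    have h3 : Primrec fun y : (Fin nR × (Fin nK → ℤ)) × Fin nK => y.1.2 y.2 :=
      Primrec.fin_app.comp (Primrec.snd.comp Primrec.fst) Primrec.snd
    exact ((primrec_aff b).comp h2 h3).to₂
  exact Primrec.fin_curry.2 h0

/-- a configuration before a pop, with its state -/
def backc (b : ℕ) (rule : Fin nR → Pop (Fin nQ) (Fin nK)) (x : Cf (Fin nQ) (Fin nK) × Fin nR) :
    Cf (Fin nQ) (Fin nK) := ((rule x.2).src, back b rule (x.2, x.1.2))

theorem primrec_backc (b : ℕ) (rule : Fin nR → Pop (Fin nQ) (Fin nK)) :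
    Primrec (backc b rule) := by
  refine Primrec.pair ?_ ?_
  · exact (Primrec.dom_finite fun r : Fin nR => (rule r).src).comp Primrec.snd
  · exact (primrec_back b rule).comp (Primrec.snd.pair (Primrec.snd.comp Primrec.fst))

/-- the step relation of a pop system is r.e. (even decidable) -/
theorem re_pstp (b : ℕ) (rule : Fin nR → Pop (Fin nQ) (Fin nK)) :
    REPred fun x : Cf (Fin nQ) (Fin nK) × Cf (Fin nQ) (Fin nK) => PStp b rule x.1 x.2 := by
  have e1 : Computable fun y : (Cf (Fin nQ) (Fin nK) × Cf (Fin nQ) (Fin nK)) × Fin nR => y.1.1 :=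
    Computable.fst.comp Computable.fst
  have e2 : Computable fun y : (Cf (Fin nQ) (Fin nK) × Cf (Fin nQ) (Fin nK)) × Fin nR =>
      backc b rule (y.1.2, y.2) :=
    (primrec_backc b rule).to_comp.comp ((Computable.snd.comp Computable.fst).pair Computable.snd)
  have e3 : Computable fun y : (Cf (Fin nQ) (Fin nK) × Cf (Fin nQ) (Fin nK)) × Fin nR =>
      y.1.2.1 := Computable.fst.comp (Computable.snd.comp Computable.fst)
  have e4 : Computable fun y : (Cf (Fin nQ) (Fin nK) × Cf (Fin nQ) (Fin nK)) × Fin nR =>
      (rule y.2).tgt := (Primrec.dom_finite fun r : Fin nR => (rule r).tgt).to_comp.comp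
        Computable.snd
  have h1 : REPred fun y : (Cf (Fin nQ) (Fin nK) × Cf (Fin nQ) (Fin nK)) × Fin nR =>
      y.1.1 = backc b rule (y.1.2, y.2) ∧ y.1.2.1 = (rule y.2).tgt :=
    re_and (re_eq e1 e2) (re_eq e3 e4)
  refine (re_ex h1).of_eq fun x => ?_
  unfold PStp
  refine exists_congr fun r => ?_
  unfold Pop.Stp
  constructor
  · rintro ⟨h2, h3⟩
    simp only at h2 h3
    refine ⟨by rw [h2]; rfl, h3, fun k => by rw [h2]; rfl⟩
  · rintro ⟨h2, h3, h4⟩
    exact ⟨Prod.ext h2 (funext h4), h3⟩

theorem re_pconn (b : ℕ) (rule : Fin nR → Pop (Fin nQ) (Fin nK)) :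
    REPred fun x : Cf (Fin nQ) (Fin nK) × Cf (Fin nQ) (Fin nK) => PConn b rule x.1 x.2 :=
  re_eqvGen (re_pstp b rule)

/-- a pop letter is not applicable -/
def Pop.Not (b : ℕ) (p : Pop (Fin nQ) (Fin nK)) (c : Cf (Fin nQ) (Fin nK)) : Prop :=
  c.1 ≠ p.src ∨ ∃ k d, p.dg k = some d ∧ c.2 k % b ≠ d

theorem not_aux {b : ℕ} (hb : 0 < b) (rule : Fin nR → Pop (Fin nQ) (Fin nK))
    (x : Cf (Fin nQ) (Fin nK) × Fin nR) :
    (∃ y : (Fin nK × ℕ) × (Fin b × ℤ), ((rule x.2).dg y.1.1 = some y.1.2 ∧
        (y.2.1 : ℕ) ≠ y.1.2) ∧ x.1.2 y.1.1 = ((y.2.1 : ℕ) : ℤ) + b * y.2.2) ↔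
      ∃ k d, (rule x.2).dg k = some d ∧ x.1.2 k % b ≠ d := by
  constructor
  · rintro ⟨⟨⟨k, d⟩, a, z⟩, ⟨h2, h3⟩, h4⟩
    refine ⟨k, d, h2, ?_⟩
    simp only at h4
    rw [h4, emod_aff a.2]
    exact_mod_cast h3
  · rintro ⟨k, d, h2, h3⟩
    have h4 : 0 ≤ x.1.2 k % b := Int.emod_nonneg _ (by omega)
    have h5 : x.1.2 k % b < b := Int.emod_lt_of_pos _ (by omega)
    have h6 : ((x.1.2 k % b).toNat : ℤ) = x.1.2 k % b := Int.toNat_of_nonneg h4
    refine ⟨((k, d), ⟨(x.1.2 k % b).toNat, by omega⟩, x.1.2 k / b), ⟨h2, ?_⟩, ?_⟩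
    · simp only
      intro h7
      apply h3
      rw [← h6, h7]
    · simp only
      rw [h6]
      exact (Int.emod_add_mul_ediv _ _).symm

section aux
variable (b : ℕ) (rule : Fin nR → Pop (Fin nQ) (Fin nK))

/-- the data for the search of a wrong digit -/
abbrev Dat (nQ nK nR b : ℕ) := (Cf (Fin nQ) (Fin nK) × Fin nR) × ((Fin nK × ℕ) × (Fin b × ℤ))

theorem f1 : Computable fun y : Dat nQ nK nR b => (rule y.1.2).dg y.2.1.1 := by
  have h1 : Primrec fun z : Fin nR × Fin nK => (rule z.1).dg z.2 := Primrec.dom_finite _
  have h2 : Primrec fun y : Dat nQ nK nR b => (y.1.2, y.2.1.1) :=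
    (Primrec.snd.comp Primrec.fst).pair (Primrec.fst.comp (Primrec.fst.comp Primrec.snd))
  exact (h1.comp h2).to_comp

theorem f2 : Computable fun y : Dat nQ nK nR b => some y.2.1.2 :=
  Computable.option_some.comp (Computable.snd.comp (Computable.fst.comp Computable.snd))

theorem f3 : Computable fun y : Dat nQ nK nR b => (y.2.2.1 : ℕ) := by
  have h1 : Computable fun y : Dat nQ nK nR b => y.2.2.1 :=
    Computable.fst.comp (Computable.snd.comp Computable.snd)
  exact (Primrec.fin_val (n := b)).to_comp.comp h1

theorem f4 : Computable fun y : Dat nQ nK nR b => y.2.1.2 :=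
  Computable.snd.comp (Computable.fst.comp Computable.snd)

theorem f5 : Computable fun y : Dat nQ nK nR b => y.1.1.2 y.2.1.1 := by
  have h1 : Computable fun y : Dat nQ nK nR b => y.1.1.2 :=
    Computable.snd.comp (Computable.fst.comp Computable.fst)
  have h2 : Computable fun y : Dat nQ nK nR b => y.2.1.1 :=
    Computable.fst.comp (Computable.fst.comp Computable.snd)
  exact Computable.fin_app.comp h1 h2

theorem f6 : Computable fun y : Dat nQ nK nR b => ((y.2.2.1 : ℕ) : ℤ) + b * y.2.2.2 := by
  have h1 : Computable fun y : Dat nQ nK nR b => y.2.2.2 :=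
    Computable.snd.comp (Computable.snd.comp Computable.snd)
  exact (primrec_affine b).to_comp.comp (f3 b) h1

end aux

theorem re_not {b : ℕ} (hb : 0 < b) (rule : Fin nR → Pop (Fin nQ) (Fin nK)) :
    REPred fun x : Cf (Fin nQ) (Fin nK) × Fin nR => (rule x.2).Not b x.1 := by
  have e1 : Computable fun x : Cf (Fin nQ) (Fin nK) × Fin nR => x.1.1 :=
    Computable.fst.comp Computable.fst
  have e2 : Computable fun x : Cf (Fin nQ) (Fin nK) × Fin nR => (rule x.2).src :=
    (Primrec.dom_finite fun r : Fin nR => (rule r).src).to_comp.comp Computable.snd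
  have h0 : REPred fun x : Cf (Fin nQ) (Fin nK) × Fin nR => x.1.1 ≠ (rule x.2).src := re_ne e1 e2
  have h1 : REPred fun y : Dat nQ nK nR b =>
      ((rule y.1.2).dg y.2.1.1 = some y.2.1.2 ∧ (y.2.2.1 : ℕ) ≠ y.2.1.2) ∧
        y.1.1.2 y.2.1.1 = ((y.2.2.1 : ℕ) : ℤ) + b * y.2.2.2 :=
    re_and (re_and (re_eq (f1 b rule) (f2 b)) (re_ne (f3 b) (f4 b))) (re_eq (f5 b) (f6 b))
  have h2 : REPred fun x : Cf (Fin nQ) (Fin nK) × Fin nR =>
      ∃ k d, (rule x.2).dg k = some d ∧ x.1.2 k % b ≠ d := by
    have h3 := re_ex h1
    exact h3.of_eq (not_aux hb rule)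
  exact re_or h0 h2

end

end Crest.Agent.R185.Clk
end

-- ▼ part R185/Clk6
section

/-!
# R185, block WIT (a), part 6: the universal machine
-/

set_option autoImplicit false

namespace Crest.Agent.R185.Clk

open Relation StateTransition Turing Function Crest.Agent.R185.Comp Encodable
open Turing.PartrecToTM2 Crest.Agent.R292 Crest.Agent.R185.Re

/-! ### the universal machine with the text at the bottom -/

/-- the text `w ++ none ^ e` -/
def text' {A : Type} (e : ℕ) (w : List A) : List (Option A) := w.map some ++ List.replicate e none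

theorem textE_text' {A : Type} (e : ℕ) (w : List A) : textE (text' e w) = e := by
  have h1 : (w.map some).filter (fun o : Option A => o.isNone) = [] := by
    rw [List.filter_eq_nil_iff]
    intro a ha
    rw [List.mem_map] at ha
    obtain ⟨b, -, rfl⟩ := ha
    simp
  have h2 : (List.replicate e (none : Option A)).filter (fun o : Option A => o.isNone) =
      List.replicate e none := by
    rw [List.filter_eq_self]
    intro a ha
    rw [List.eq_of_mem_replicate ha]
    rfl
  unfold textE text'
  rw [List.filter_append, h1, h2]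
  simp

theorem textW_text' {A : Type} (e : ℕ) (w : List A) : textW (text' e w) = w := by
  have h2 : (List.replicate e (none : Option A)).filterMap id = [] := by
    rw [List.filterMap_eq_nil_iff]
    intro a ha
    rw [List.eq_of_mem_replicate ha]
    rfl
  have h1 : (w.map some).filterMap id = w := by
    rw [List.filterMap_map]
    simp
  unfold textW text'
  rw [List.filterMap_append, h1, h2]
  simp

/-- **The universal machine**, text version `w ++ none ^ e`. -/
theorem exists_univ_mach' (A : Type) [Finite A] [Primcodable A] :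
    ∃ (Q : Type) (_ : Finite Q) (ins : Q → Ins Q (Option K') (Γ' ⊕ Option A)) (q0 : Q)
      (qb : Bool → Q), Injective qb ∧ (∀ q, ins q = .halt ↔ ∃ b, q = qb b) ∧
      ∀ Alg : ℕ → List A → Bool, Computable₂ Alg → ∃ e : ℕ, ∀ w : List A, ∃ S,
        (qb (Alg e w), S) ∈ eval (step ins) (q0, liftS ((text' e w).map .inr) (fun _ => [])) := by
  -- the universal function
  let U : List (Option A) →. Bool := fun l =>
    ((Nat.Partrec.Code.eval (Denumerable.ofNat Nat.Partrec.Code (textE l))
      (encode (textW l)))).map fun n => decide (n = 1)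
  have hU : Partrec U := by
    have h1 : Partrec fun l : List (Option A) =>
        (Nat.Partrec.Code.eval (Denumerable.ofNat Nat.Partrec.Code (textE l))
          (encode (textW l))) :=
      Nat.Partrec.Code.eval_part.comp
        ((Computable.ofNat _).comp textE_primrec.to_comp)
        (Computable.encode.comp textW_primrec.to_comp)
    have h2 : Primrec₂ fun (_ : List (Option A)) (n : ℕ) => decide (n = 1) :=
      ((Primrec.eq (α := ℕ)).comp Primrec.snd (Primrec.const 1)).decide.to₂
    exact h1.map h2.to_comp
  obtain ⟨Q, hQ, ins, q0, qb, hqb, hh, hev⟩ := exists_mach U hU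
  refine ⟨Q, hQ, ins, q0, qb, hqb, hh, fun Alg hAlg => ?_⟩
  -- the family of partial functions for Kleene's theorem
  have hg : Partrec₂ fun (c : Nat.Partrec.Code) (n : ℕ) =>
      ((decode n : Option (List A)) : Part (List A)).map fun w => cond (Alg (encode c) w) 1 0 := by
    have h1 : Partrec fun p : Nat.Partrec.Code × ℕ => ((decode p.2 : Option (List A)) :
      Part (List A)) := (Computable.decode.comp Computable.snd).ofOption
    have h2 : Computable₂ fun (p : Nat.Partrec.Code × ℕ) (w : List A) => Alg (encode p.1) w :=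
      (hAlg.comp (Computable.encode.comp (Computable.fst.comp Computable.fst))
        Computable.snd).to₂
    have h3 : Computable₂ fun (p : Nat.Partrec.Code × ℕ) (w : List A) =>
        cond (Alg (encode p.1) w) 1 0 :=
      (Computable.cond h2 (Computable.const 1) (Computable.const 0)).to₂
    exact (h1.map h3).to₂
  obtain ⟨c, hc⟩ := Nat.Partrec.Code.fixed_point₂ hg
  refine ⟨encode c, fun w => ?_⟩
  have h1 : U (text' (encode c) w) = Part.some (Alg (encode c) w) := by
    simp only [U, textE_text', textW_text', Denumerable.ofNat_encode, hc, encodek, Part.coe_some,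
      Part.map_some]
    cases Alg (encode c) w <;> rfl
  have h2 : qb (Alg (encode c) w) ∈ (eval (step ins) (q0,
      liftS ((text' (encode c) w).map .inr) (fun _ => []))).map Prod.fst := by
    rw [hev, h1]
    exact Part.mem_map qb (Part.mem_some _)
  rw [Part.mem_map_iff] at h2
  obtain ⟨⟨q, S⟩, h3, h4⟩ := h2
  refine ⟨S, ?_⟩
  rw [← h4]
  exact h3

/-! ### terminal configurations of the split system -/

section term

variable {Q K A : Type} [DecidableEq K] [Finite A]
variable (ins : Q → Ins Q K A) (qa : Q) {n : ℕ} (e : K1 K ≃ Fin n) (b : ℕ)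

/-- every configuration is connected to a terminal one -/
theorem term_exists (hb : Nat.card A + 3 ≤ b)
    (c : Cf ((Q ⊕ Fin (n + 1)) ⊕ Let ins qa n (b - 1)) (K1 K)) :
    ∃ d : Cf (Q ⊕ Fin (n + 1)) (K1 K), PConn b (split (lets ins qa e (b - 1))) c (lft d) ∧
      ∀ d', ¬ St ins qa e b d d' := by
  obtain ⟨d, h1, h2⟩ := fine ins qa e b (by omega) (ret b (lets ins qa e (b - 1)) c)
  exact ⟨d, (conn_iff' (lets_wf ins qa e hb)).2 (Conn.of_reach h1), h2⟩

/-- connected terminal configurations are equal -/
theorem term_unique (hb : Nat.card A + 3 ≤ b) {d d' : Cf (Q ⊕ Fin (n + 1)) (K1 K)}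
    (h : PConn b (split (lets ins qa e (b - 1))) (lft d) (lft d'))
    (hd : ∀ x, ¬ St ins qa e b d x) (hd' : ∀ x, ¬ St ins qa e b d' x) : d = d' := by
  have h1 := (conn_iff (lets_wf ins qa e hb)).1 h
  have h2 := Conn.reach_of_stuck (lets_det ins qa e b) h1 hd'
  rcases ReflTransGen.cases_head h2 with h3 | ⟨x, h3, _⟩
  · exact h3
  · exact absurd h3 (hd x)

end term

/-! ### start configurations -/

section start

variable {A : Type}

/-- the stacks of the universal machine at the start -/
def stk (e : ℕ) (w : List (Option A)) : Option K' → List (Γ' ⊕ Option A) :=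
  liftS ((text' e (w.filterMap id)).map .inr) (fun _ => [])

/-- number of ticks -/
def tk (w : List (Option A)) : ℕ := (w.filter fun o => o.isNone).length

theorem stk_none (e : ℕ) (w : List (Option A)) : stk e (none :: w) = stk e w := rfl

theorem stk_some (e : ℕ) (a : A) (w : List (Option A)) :
    stk e (some a :: w) = update (stk e w) none (.inr (some a) :: stk e w none) := by
  funext k
  cases k with
  | none => simp [stk, liftS, text']
  | some k => simp [stk, liftS]

theorem tk_none (w : List (Option A)) : tk (none :: w) = tk w + 1 := by simp [tk]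
theorem tk_some (a : A) (w : List (Option A)) : tk (some a :: w) = tk w := by simp [tk]

variable [Finite A] {Q : Type} (b n : ℕ)

/-- the start configuration -/
noncomputable def strt (q0 : Q) (e : ℕ) (w : List (Option A)) :
    Cf (Q ⊕ Fin (n + 1)) (K1 (Option K')) :=
  cfg b n q0 (stk e w) (enc b (w.map (dig (Option A)))) (tk w)

/-- the inverse input letters -/
noncomputable def inpp {S : Type} (q : S) (o : Option A) : Pop S (K1 (Option K')) where
  src := q
  tgt := q
  dg := fun k => match k, o with
    | none, o => some (dig (Option A) o)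
    | some none, none => some 1
    | some none, some _ => none
    | some (some none), some a => some (dig (Γ' ⊕ Option A) (.inr (some a)))
    | some (some _), _ => none

theorem strt_cons (q0 : Q) (e : ℕ) (o : Option A) (w : List (Option A)) (k : K1 (Option K')) :
    (strt b n q0 e (o :: w)).2 k =
      aff b ((inpp (Sum.inl q0 : Q ⊕ Fin (n + 1)) o).dg k) ((strt b n q0 e w).2 k) := by
  rcases k with _ | _ | _ | k
  · simp [strt, cfg, inpp]
  · cases o with
    | none => simp [strt, cfg, inpp, tk_none, List.replicate_succ]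
    | some a => simp [strt, cfg, inpp, tk_some]
  · cases o with
    | none => simp [strt, cfg, inpp, stk_none]
    | some a => simp [strt, cfg, inpp, stk_some]
  · cases o with
    | none => simp [strt, cfg, inpp, stk_none]
    | some a => simp [strt, cfg, inpp, stk_some]

end start

end Crest.Agent.R185.Clk
end

-- ▼ part R185/Clk7
section

/-!
# R185, block WIT (a), part 7: the clocked universal machine, final form
-/

set_option autoImplicit false

namespace Crest.Agent.R185.Clk

open Relation StateTransition Turing Function Crest.Agent.R185.Comp Encodable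
open Turing.PartrecToTM2 Crest.Agent.R292 Crest.Agent.R185.Re

/-- A clocked universal machine with archive for the alphabet `A`. The input letters are
`Option A`, where `none` is the tick. -/
structure UM (A : Type) [Primcodable A] where
  nQ : ℕ
  nK : ℕ
  nR : ℕ
  b : ℕ
  hb : 2 ≤ b
  /-- the rules, all of them pops -/
  rule : Fin nR → Pop (Fin nQ) (Fin nK)
  rule_lt : ∀ r k d, (rule r).dg k = some d → d < b
  /-- the inverses of the input letters -/
  inp : Option A → Pop (Fin nQ) (Fin nK)
  inp_lt : ∀ o k d, (inp o).dg k = some d → d < b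
  qin : Fin nQ
  qh : Fin nQ
  /-- the archive -/
  I : Fin nK
  inp_src : ∀ o, (inp o).src = qin
  inp_tgt : ∀ o, (inp o).tgt = qin
  da : Option A → ℕ
  da_inj : Function.Injective da
  da_pos : ∀ o, 0 < da o
  inp_I : ∀ o, (inp o).dg I = some (da o)
  start : ℕ → List (Option A) → Fin nK → ℤ
  start_cons : ∀ e o w, (inp o).Stp b (qin, start e (o :: w)) (qin, start e w)
  start_I : ∀ e w, start e w I = enc b (w.map da)
  start_comp : Computable fun x : ℕ × List (Option A) => start x.1 x.2
  /-- if the start configuration is rejected, then its component never touches the archive -/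
  archive : ∀ e w, ¬ PConn b rule (qin, start e w) (qh, fun _ => 0) →
    ∀ c, PConn b rule (qin, start e w) c → c.2 I = start e w I
  /-- halting is decidable, for all configurations -/
  dec : ComputablePred fun c : Cf (Fin nQ) (Fin nK) => PConn b rule c (qh, fun _ => 0)
  kleene : ∀ Alg : ℕ → List A → Bool, Computable₂ Alg → ∃ e, ∀ w : List A,
    (∃ w1 : List (Option A), w1.filterMap id = w ∧
      PConn b rule (qin, start e w1) (qh, fun _ => 0)) ↔ Alg e w = true

section

variable {A : Type} [Finite A] [Primcodable A]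
variable {Q : Type} (ins : Q → Ins Q (Option K') (Γ' ⊕ Option A)) (q0 qa : Q)
variable {n : ℕ} (e : K1 (Option K') ≃ Fin n) (b : ℕ)


omit [Primcodable A] in
theorem sum_digits (w : List (Option A)) (hb : Nat.card (Option A) + 3 ≤ b) :
    ∃ l : List ℕ, (∀ d ∈ l, 0 < d ∧ d < b - 1) ∧
      enc b (w.map (dig (Option A))) = enc b l := by
  refine ⟨w.map (dig (Option A)), fun d hd => ?_, rfl⟩
  obtain ⟨a, -, rfl⟩ := List.mem_map.1 hd
  have h1 := dig_pos (A := Option A) a
  have h2 := dig_le (A := Option A) a
  omega

/-- acceptance in the compiled machine -/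
theorem acc_iff {qb : Bool → Q} (hqb : Injective qb)
    (hh : ∀ q, ins q = .halt ↔ ∃ b, q = qb b)
    (hb1 : Nat.card (Γ' ⊕ Option A) + 3 ≤ b) (hb2 : Nat.card (Option A) + 3 ≤ b)
    {ex : ℕ} {w : List A} {β : Bool} {S : Option K' → List (Γ' ⊕ Option A)}
    (hS : (qb β, S) ∈ eval (step ins) (q0, liftS ((text' ex w).map .inr) (fun _ => []))) :
    (∃ w1 : List (Option A), w1.filterMap id = w ∧
      PConn b (split (lets ins (qb true) e (b - 1))) (lft (strt b n q0 ex w1)) (lft (hlt n))) ↔
      β = true := by
  constructor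
  · rintro ⟨w1, hw1, h⟩
    have h1 := (conn_iff (lets_wf ins (qb true) e hb1)).1 h
    have h2 := Conn.reach_of_stuck (lets_det ins (qb true) e b) h1 (hlt_stuck ins (qb true) e b)
    rcases orbit ins (qb true) e b hb1 (sum_digits b w1 hb2) h2 with ⟨q', S', t', h3, -⟩ |
      ⟨⟨S', h3⟩, -⟩
    · have := congrArg Prod.fst h3
      simp [hlt, cfg] at this
    · have h4 : (qb true, S') ∈ eval (step ins)
          (q0, liftS ((text' ex w).map .inr) (fun _ => [])) := by
        refine mem_eval.2 ⟨?_, ?_⟩
        · rw [stk, hw1] at h3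
          exact h3
        · exact (step_eq_none ins).2 ((hh _).2 ⟨true, rfl⟩)
      have h5 := Part.mem_unique hS h4
      exact hqb (congrArg Prod.fst h5)
  · rintro rfl
    have h1 := (mem_eval.1 hS).1
    obtain ⟨t, ht⟩ := halts_of_reaches (n := n) ins (qb true) e b hb1 ((hh _).2 ⟨true, rfl⟩) h1
    refine ⟨List.replicate t none ++ w.map some, ?_, ?_⟩
    · rw [List.filterMap_append, List.filterMap_map]
      have : (List.replicate t (none : Option A)).filterMap id = [] := by
        rw [List.filterMap_eq_nil_iff]
        intro a ha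
        rw [List.eq_of_mem_replicate ha]
        rfl
      rw [this]
      simp
    · have h2 := ht (enc b ((List.replicate t none ++ w.map some).map (dig (Option A))))
        (sum_digits b _ hb2)
      refine lft_conn (lets_wf ins (qb true) e hb1) (Conn.of_reach ?_)
      have h3 : stk ex (List.replicate t none ++ w.map some) =
          liftS ((text' ex w).map .inr) (fun _ => []) := by
        unfold stk
        rw [List.filterMap_append, List.filterMap_map]
        have : (List.replicate t (none : Option A)).filterMap id = [] := by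
          rw [List.filterMap_eq_nil_iff]
          intro a ha
          rw [List.eq_of_mem_replicate ha]
          rfl
        rw [this]
        simp
      have h4 : tk (List.replicate t none ++ w.map some) = t := by
        unfold tk
        rw [List.filter_append]
        have h5 : (w.map some).filter (fun o : Option A => o.isNone) = [] := by
          rw [List.filter_eq_nil_iff]
          intro a ha
          rw [List.mem_map] at ha
          obtain ⟨b, -, rfl⟩ := ha
          simp
        have h6 : (List.replicate t (none : Option A)).filter (fun o : Option A => o.isNone) =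
            List.replicate t none := by
          rw [List.filter_eq_self]
          intro a ha
          rw [List.eq_of_mem_replicate ha]
          rfl
        rw [h5, h6]
        simp
      unfold strt
      rw [h3, h4]
      exact h2

/-- the archive is untouched in the components of rejected start configurations -/
theorem arch {ins : Q → Ins Q (Option K') (Γ' ⊕ Option A)}
    (hb1 : Nat.card (Γ' ⊕ Option A) + 3 ≤ b) (hb2 : Nat.card (Option A) + 3 ≤ b)
    {ex : ℕ} {w : List (Option A)}
    (hn : ¬ PConn b (split (lets ins qa e (b - 1))) (lft (strt b n q0 ex w)) (lft (hlt n)))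
    {c : Cf ((Q ⊕ Fin (n + 1)) ⊕ Let ins qa n (b - 1)) (K1 (Option K'))}
    (hc : PConn b (split (lets ins qa e (b - 1))) (lft (strt b n q0 ex w)) c) :
    c.2 none = (strt b n q0 ex w).2 none := by
  have h1 := (conn_iff' (lets_wf ins qa e hb1)).1 (EqvGen.symm _ _ hc)
  have h2 : ¬ ReflTransGen (St ins qa e b) (strt b n q0 ex w) (hlt n) := fun h =>
    hn (lft_conn (lets_wf ins qa e hb1) (Conn.of_reach h))
  have h3 := archive ins qa e b hb1 (sum_digits b w hb2) h2 h1
  obtain ⟨q | r, s⟩ := c
  · exact h3.2
  · obtain ⟨⟨q, hq⟩, h4⟩ := h3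
    simp only [ret] at hq h4
    have h5 : (lets ins qa e (b - 1) r).pop none = none := by
      rcases r with ⟨y, hy⟩ | ⟨i, j⟩
      · show (let0 ins n y).pop none = none
        unfold let0
        cases ins y.1 <;> simp
      · simp [lets, let1] at hq
    rw [h5, aff_none] at h4
    exact h4

end

end Crest.Agent.R185.Clk
end

-- ▼ part R185/Clk8
section

/-!
# R185, block WIT (a), part 8: existence of the clocked universal machine
-/

set_option autoImplicit false

namespace Crest.Agent.R185.Clk

open Relation StateTransition Turing Function Crest.Agent.R185.Comp Encodable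
open Turing.PartrecToTM2 Crest.Agent.R292 Crest.Agent.R185.Re

section comp
variable {A : Type} [Finite A] [Primcodable A] (b : ℕ)

theorem primrec_arch : Primrec fun x : ℕ × List (Option A) =>
    enc b (x.2.map (dig (Option A))) := by
  have h1 : Primrec (dig (Option A)) := Primrec.dom_finite _
  have h2 : Primrec fun x : ℕ × List (Option A) => x.2.map (dig (Option A)) :=
    Primrec.list_map Primrec.snd (h1.comp Primrec.snd).to₂
  exact (primrec_enc b).comp h2

omit [Finite A] in
theorem primrec_clock : Primrec fun x : ℕ × List (Option A) =>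
    enc b (List.replicate (tk x.2) 1) := by
  have h1 : Primrec fun x : ℕ × List (Option A) =>
      (List.range (textE x.2)).map fun _ => (1 : ℕ) :=
    Primrec.list_map (Primrec.list_range.comp (textE_primrec.comp Primrec.snd))
      (Primrec.const 1).to₂
  refine ((primrec_enc b).comp h1).of_eq fun x => ?_
  rw [List.map_const']
  rw [List.length_range]
  rfl

theorem primrec_text : Primrec fun x : ℕ × List (Option A) =>
    enc b ((stk x.1 x.2 none).map (dig (Γ' ⊕ Option A))) := by
  have h0 : Primrec fun a : A => dig (Γ' ⊕ Option A) (.inr (some a)) := Primrec.dom_finite _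
  have h1 : Primrec fun x : ℕ × List (Option A) =>
      (textW x.2).map fun a => dig (Γ' ⊕ Option A) (.inr (some a)) :=
    Primrec.list_map (textW_primrec.comp Primrec.snd) (h0.comp Primrec.snd).to₂
  have h2 : Primrec fun x : ℕ × List (Option A) =>
      (List.range x.1).map fun _ => dig (Γ' ⊕ Option A) (.inr none) :=
    Primrec.list_map (Primrec.list_range.comp Primrec.fst) (Primrec.const _).to₂
  refine ((primrec_enc b).comp (Primrec.list_append.comp h1 h2)).of_eq fun x => ?_
  rw [List.map_const', List.length_range]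
  congr 1
  simp [stk, liftS, text', textW, Function.comp_def]

theorem primrec_strt {Q : Type} (n : ℕ) (q0 : Q) (k : K1 (Option K')) :
    Primrec fun x : ℕ × List (Option A) => (strt b n q0 x.1 x.2).2 k := by
  rcases k with _ | _ | _ | k
  · exact primrec_arch b
  · exact primrec_clock b
  · exact primrec_text b
  · exact (Primrec.const (enc b [])).of_eq fun x => by simp [strt, cfg, stk, liftS]

end comp

section dec

variable {A : Type} [Finite A] {Q : Type}
variable (ins : Q → Ins Q (Option K') (Γ' ⊕ Option A)) (qa : Q)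
variable {n : ℕ} (e : K1 (Option K') ≃ Fin n) (b : ℕ) {nQ nR : ℕ}
variable (f : (Q ⊕ Fin (n + 1)) ⊕ Let ins qa n (b - 1) ≃ Fin nQ)
variable (h : Fin nR ≃ Let ins qa n (b - 1) ⊕ Let ins qa n (b - 1))

/-- the rules of the final machine -/
noncomputable def frule (r : Fin nR) : Pop (Fin nQ) (Fin n) :=
  (split (lets ins qa e (b - 1)) (h r)).map f e

/-- terminal configurations -/
def Term (d : Cf (Fin nQ) (Fin n)) : Prop :=
  (f.symm d.1).isLeft = true ∧ ∀ r ∈ List.finRange nR, (h r).isRight = true ∨
    (frule ins qa e b f h r).Not b d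

theorem re_term (hb : 0 < b) : REPred (Term ins qa e b f h) := by
  have e1 : Computable fun d : Cf (Fin nQ) (Fin n) => (f.symm d.1).isLeft :=
    (Primrec.dom_finite fun q : Fin nQ => (f.symm q).isLeft).to_comp.comp Computable.fst
  have e2 : Computable fun x : Cf (Fin nQ) (Fin n) × Fin nR => (h x.2).isRight :=
    (Primrec.dom_finite fun r : Fin nR => (h r).isRight).to_comp.comp Computable.snd
  have h1 : REPred fun x : Cf (Fin nQ) (Fin n) × Fin nR => (h x.2).isRight = true :=
    re_of_computable e2 fun _ => Iff.rfl
  have h2 : REPred fun x : Cf (Fin nQ) (Fin n) × Fin nR => (frule ins qa e b f h x.2).Not b x.1 :=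
    re_not hb (frule ins qa e b f h)
  have h3 : REPred fun x : Cf (Fin nQ) (Fin n) × Fin nR => (h x.2).isRight = true ∨
      (frule ins qa e b f h x.2).Not b x.1 := re_or h1 h2
  have h4 : REPred fun d : Cf (Fin nQ) (Fin n) => ∀ r ∈ List.finRange nR,
      (h r).isRight = true ∨ (frule ins qa e b f h r).Not b d :=
    re_all_mem₂ (p := fun (d : Cf (Fin nQ) (Fin n)) (r : Fin nR) => (h r).isRight = true ∨
      (frule ins qa e b f h r).Not b d) h3 (Computable.const _)
  have h5 : REPred fun d : Cf (Fin nQ) (Fin n) => (f.symm d.1).isLeft = true :=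
    re_of_computable e1 fun _ => Iff.rfl
  exact re_and h5 h4

theorem term_iff (d : Cf (Q ⊕ Fin (n + 1)) (K1 (Option K'))) :
    Term ins qa e b f h (cmap f e (lft d)) ↔ ∀ x, ¬ St ins qa e b d x := by
  constructor
  · rintro ⟨-, h2⟩ x ⟨r, h3, -⟩
    rcases h2 (h.symm (.inl r)) (List.mem_finRange _) with h4 | h4
    · simp at h4
    · rw [frule, Equiv.apply_symm_apply] at h4
      rcases h4 with h4 | ⟨k, d', h4, h5⟩
      · apply h4
        show f (.inl d.1) = f (.inl (lets ins qa e (b - 1) r).src)
        rw [h3.1]
      · exact h5 (h3.2 _ _ h4)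
  · intro hd
    refine ⟨by simp [lft], fun r _ => ?_⟩
    rcases hr : h r with r0 | r0
    · right
      have h1 : ¬ (lets ins qa e (b - 1) r0).Ok b d := fun h1 => hd _ ⟨r0, h1, rfl⟩
      by_cases h2 : d.1 = (lets ins qa e (b - 1) r0).src
      · right
        by_contra h3
        apply h1
        refine ⟨h2, fun k d' hk => ?_⟩
        by_contra h4
        apply h3
        refine ⟨e k, d', ?_, ?_⟩
        · rw [frule, hr]
          show (lets ins qa e (b - 1) r0).pop (e.symm (e k)) = _
          rw [Equiv.symm_apply_apply, hk]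
        · show (d.2 (e.symm (e k))) % b ≠ _
          rw [Equiv.symm_apply_apply]
          exact h4
      · left
        intro h3
        rw [frule, hr] at h3
        have h4 : f (.inl d.1) = f (.inl (lets ins qa e (b - 1) r0).src) := h3
        exact h2 (Sum.inl.inj (f.injective h4))
    · left
      rfl

/-- halting is decidable -/
theorem dec_halt (hb : Nat.card (Γ' ⊕ Option A) + 3 ≤ b) :
    ComputablePred fun c : Cf (Fin nQ) (Fin n) =>
      PConn b (frule ins qa e b f h) c (cmap f e (lft (hlt n))) := by
  have h1 : REPred fun c : Cf (Fin nQ) (Fin n) =>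
      PConn b (frule ins qa e b f h) c (cmap f e (lft (hlt n))) :=
    re_comp (re_pconn b (frule ins qa e b f h)) (Computable.id.pair (Computable.const _))
  have h2 : REPred fun c : Cf (Fin nQ) (Fin n) =>
      ∃ d : Cf (Fin nQ) (Fin n), (Term ins qa e b f h d ∧ d ≠ cmap f e (lft (hlt n))) ∧
        PConn b (frule ins qa e b f h) c d := by
    refine re_ex₂ (p := fun (c d : Cf (Fin nQ) (Fin n)) => (Term ins qa e b f h d ∧
      d ≠ cmap f e (lft (hlt n))) ∧ PConn b (frule ins qa e b f h) c d) ?_
    refine re_and (re_and ?_ ?_) (re_pconn b (frule ins qa e b f h))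
    · exact re_comp (re_term ins qa e b f h (by omega)) Computable.snd
    · exact re_ne Computable.snd (Computable.const _)
  have h3 : ∀ c : Cf (Fin nQ) (Fin n), (∃ d : Cf (Fin nQ) (Fin n), (Term ins qa e b f h d ∧
      d ≠ cmap f e (lft (hlt n))) ∧ PConn b (frule ins qa e b f h) c d) ↔
      ¬ PConn b (frule ins qa e b f h) c (cmap f e (lft (hlt n))) := by
    intro c
    obtain ⟨c, rfl⟩ := (cmap f e).surjective c
    constructor
    · rintro ⟨d, ⟨hd1, hd2⟩, hd3⟩ hc
      obtain ⟨d, rfl⟩ := (cmap f e).surjective d
      have h4 : d.1.isLeft = true := by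
        have := hd1.1
        rwa [cmap_fst, Equiv.symm_apply_apply] at this
      obtain ⟨q | r, s⟩ := d
      · have h5 : PConn b (frule ins qa e b f h) (cmap f e (lft (q, s)))
            (cmap f e (lft (hlt n))) := EqvGen.trans _ _ _ (EqvGen.symm _ _ hd3) hc
        have h6 := PConn.map_iff.1 h5
        have h7 := term_unique ins qa e b hb h6 ((term_iff ins qa e b f h (q, s)).1 hd1)
          (hlt_stuck ins qa e b)
        apply hd2
        rw [← h7]
        rfl
      · cases h4
    · intro hc
      obtain ⟨d, h4, h5⟩ := term_exists ins qa e b hb c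
      have h6 : PConn b (frule ins qa e b f h) (cmap f e c) (cmap f e (lft d)) :=
        PConn.map_iff.2 h4
      exact ⟨cmap f e (lft d), ⟨(term_iff ins qa e b f h d).2 h5, fun h7 => hc (h7 ▸ h6)⟩, h6⟩
  obtain ⟨g, hg, hg2⟩ := exists_bool h1 h2 h3
  exact ComputablePred.computable_iff.2 ⟨g, hg, funext fun a => propext (hg2 a).symm⟩

end dec

instance : Finite K' := by
  let g : K' → Fin 4 := fun k => match k with
    | .main => 0
    | .rev => 1
    | .aux => 2
    | .stack => 3
  refine Finite.of_injective g ?_
  intro k k'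
  cases k <;> cases k' <;> simp [g]

theorem inpp_lt {A S : Type} [Finite A] (q : S) (o : Option A) (k : K1 (Option K')) (d : ℕ)
    (h1 : (inpp q o).dg k = some d) :
    d < Nat.card (Γ' ⊕ Option A) + Nat.card (Option A) + 3 := by
  have h2 := dig_le (A := Option A)
  have h3 := dig_le (A := Γ' ⊕ Option A)
  rcases k with _ | _ | _ | k
  · simp [inpp] at h1
    have := h2 o
    omega
  · cases o with
    | none => simp [inpp] at h1; omega
    | some a => simp [inpp] at h1
  · cases o with
    | none => simp [inpp] at h1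
    | some a => simp [inpp] at h1; have := h3 (.inr (some a)); omega
  · cases o with
    | none => simp [inpp] at h1
    | some a => simp [inpp] at h1

/-- **The clocked universal machine exists.** -/
theorem exists_um (A : Type) [Finite A] [Primcodable A] : Nonempty (UM A) := by
  classical
  obtain ⟨Q, hQ, ins, q0, qb, hqb, hh, hkl⟩ := exists_univ_mach' A
  let b : ℕ := Nat.card (Γ' ⊕ Option A) + Nat.card (Option A) + 3
  have hb1 : Nat.card (Γ' ⊕ Option A) + 3 ≤ b := by omega
  have hb2 : Nat.card (Option A) + 3 ≤ b := by omega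
  let n : ℕ := Nat.card (K1 (Option K'))
  let e : K1 (Option K') ≃ Fin n := Finite.equivFin _
  have hv : Finite {x : Q × Option (Γ' ⊕ Option A) // Val ins (qb true) x} := inferInstance
  let f : (Q ⊕ Fin (n + 1)) ⊕ Let ins (qb true) n (b - 1) ≃
    Fin (Nat.card ((Q ⊕ Fin (n + 1)) ⊕ Let ins (qb true) n (b - 1))) := Finite.equivFin _
  let h : Fin (Nat.card (Let ins (qb true) n (b - 1) ⊕ Let ins (qb true) n (b - 1))) ≃
    Let ins (qb true) n (b - 1) ⊕ Let ins (qb true) n (b - 1) := (Finite.equivFin _).symm
  have hw := lets_wf ins (qb true) e hb1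
  exact ⟨{
    nQ := _
    nK := n
    nR := _
    b := b
    hb := by omega
    rule := frule ins (qb true) e b f h
    rule_lt := fun r k d hd => by
      have h1 : (split (lets ins (qb true) e (b - 1)) (h r)).dg (e.symm k) = some d := hd
      rcases hr : h r with r0 | r0
      · rw [hr] at h1
        have := (hw r0).pop_lt _ _ h1
        omega
      · rw [hr] at h1
        have := (hw r0).push_lt _ _ h1
        omega
    inp := fun o => (inpp (Sum.inl (Sum.inl q0)) o).map f e
    inp_lt := fun o k d hd =>
      inpp_lt (Sum.inl (Sum.inl q0) : (Q ⊕ Fin (n + 1)) ⊕ Let ins (qb true) n (b - 1)) o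
        (e.symm k) d hd
    qin := f (.inl (.inl q0))
    qh := f (.inl (.inr (Fin.last n)))
    I := e none
    inp_src := fun o => rfl
    inp_tgt := fun o => rfl
    da := dig (Option A)
    da_inj := fun _ _ => dig_inj
    da_pos := dig_pos
    inp_I := fun o => by
      show (inpp (Sum.inl (Sum.inl q0) : (Q ⊕ Fin (n + 1)) ⊕ Let ins (qb true) n (b - 1))
        o).dg (e.symm (e none)) = _
      rw [Equiv.symm_apply_apply]
      rfl
    start := fun ex w => (cmap f e (lft (strt b n q0 ex w))).2
    start_cons := fun ex o w => by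
      refine ⟨rfl, rfl, fun k => ?_⟩
      exact strt_cons b n q0 ex o w (e.symm k)
    start_I := fun ex w => by
      show (strt b n q0 ex w).2 (e.symm (e none)) = _
      rw [Equiv.symm_apply_apply]
      rfl
    start_comp := by
      have h1 : Primrec₂ fun (x : ℕ × List (Option A)) (k : Fin n) =>
          (strt b n q0 x.1 x.2).2 (e.symm k) := by
        have h2 : Primrec₂ fun (k : Fin n) (x : ℕ × List (Option A)) =>
            (strt b n q0 x.1 x.2).2 (e.symm k) :=
          Primrec.fin_curry₁.2 fun k => primrec_strt b n q0 (e.symm k)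
        exact h2.comp Primrec.snd Primrec.fst
      exact (Primrec.fin_curry.2 h1).to_comp
    archive := fun ex w hn c hc => by
      obtain ⟨c, rfl⟩ := (cmap f e).surjective c
      have h1 : ¬ PConn b (split (lets ins (qb true) e (b - 1))) (lft (strt b n q0 ex w))
          (lft (hlt n)) := fun h2 => hn (PConn.map_iff.2 h2)
      have h2 : PConn b (split (lets ins (qb true) e (b - 1))) (lft (strt b n q0 ex w)) c :=
        PConn.map_iff.1 hc
      have h3 := arch q0 (qb true) e b hb1 hb2 h1 h2
      show c.2 (e.symm (e none)) = (strt b n q0 ex w).2 (e.symm (e none))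
      rw [Equiv.symm_apply_apply]
      exact h3
    dec := dec_halt ins (qb true) e b f h hb1
    kleene := fun Alg hAlg => by
      obtain ⟨ex, hex⟩ := hkl Alg hAlg
      refine ⟨ex, fun w => ?_⟩
      obtain ⟨S, hS⟩ := hex w
      rw [← acc_iff ins q0 e b hqb hh hb1 hb2 hS]
      refine exists_congr fun w1 => and_congr_right fun _ => ?_
      exact PConn.map_iff (f := f) (g := e) (h := h) (c := lft (strt b n q0 ex w1))
        (c' := lft (hlt n)) }⟩

end Crest.Agent.R185.Clk
end

-- ▼ part R185/Clk9

/-!
# R185, block WIT (a), part 9: the machine as a witness system `Wit.WS`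
-/

set_option autoImplicit false

namespace Crest.Agent.R185.Clk

open Relation Function Crest.Agent.R292 Crest.Agent.R185.Re
open Crest.Agent.R185.Wit (WS)

/-- base of a pop of the digit `o` -/
def dB (b : ℕ) (o : Option ℕ) : ℤ := match o with
  | none => 1
  | some _ => b

/-- digit of a pop of the digit `o` -/
def dA (o : Option ℕ) : ℤ := match o with
  | none => 0
  | some d => d

theorem aff_eq (b : ℕ) (o : Option ℕ) (z : ℤ) : aff b o z = dB b o * z + dA o := by
  cases o with
  | none => simp [dB, dA]
  | some d => simp only [aff_some, dB, dA]; ring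

variable {A : Type} [Primcodable A] [DecidableEq A] (U : UM A)

/-- the letters of the witness system -/
def UM.let (U : UM A) : Fin U.nR ⊕ Option A → Pop (Fin U.nQ) (Fin U.nK) := Sum.elim U.rule U.inp

omit [DecidableEq A] in
theorem UM.let_lt (U : UM A) (l : Fin U.nR ⊕ Option A) (k : Fin U.nK) (d : ℕ)
    (h : (U.let l).dg k = some d) : d < U.b := by
  cases l with
  | inl r => exact U.rule_lt r k d h
  | inr o => exact U.inp_lt o k d h

/-- the witness system of the machine with the text `e` -/
def UM.ws (U : UM A) (e : ℕ) : WS (Fin U.nR) (Option A) where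
  Q := Fin U.nQ
  k := U.nK
  I := U.I
  b := U.b
  hb := by exact_mod_cast U.hb
  B := fun l j => dB U.b ((U.let l).dg j)
  Bpos := fun l j => by
    have := U.hb
    rcases (U.let l).dg j with _ | d
    · exact one_pos
    · simp only [dB]; omega
  BI := fun l => by
    have := U.hb
    rcases (U.let l).dg U.I with _ | d
    · simp only [dB]; omega
    · exact le_rfl
  BA := fun x => by
    have : (U.let (.inr x)).dg U.I = some (U.da x) := U.inp_I x
    rw [this]
    rfl
  a := fun l j => dA ((U.let l).dg j)
  a_nonneg := fun l j => by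
    rcases (U.let l).dg j with _ | d
    · exact le_rfl
    · simp [dA]
  a_lt := fun l j => by
    rcases h : (U.let l).dg j with _ | d
    · simp [dA, dB]
    · simp only [dA, dB]
      exact_mod_cast U.let_lt l j d h
  aI_pos := fun x => by
    have : (U.let (.inr x)).dg U.I = some (U.da x) := U.inp_I x
    rw [this]
    simp only [dA]
    exact_mod_cast U.da_pos x
  aI_inj := fun x y h => by
    have h1 : (U.let (.inr x)).dg U.I = some (U.da x) := U.inp_I x
    have h2 : (U.let (.inr y)).dg U.I = some (U.da y) := U.inp_I y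
    rw [h1, h2] at h
    simp only [dA] at h
    exact U.da_inj (by exact_mod_cast h)
  srcR := fun r => (U.rule r).src
  tgtR := fun r => (U.rule r).tgt
  qin := U.qin
  qh := U.qh
  tx := U.start e []
  tx_I := by rw [U.start_I]; rfl

theorem UM.Rs_iff (U : UM A) (e : ℕ) (c d : Cf (Fin U.nQ) (Fin U.nK)) :
    Wit.Rs (U.ws e) c d ↔ PStp U.b U.rule c d := by
  constructor
  · rintro ⟨r, c⟩
    refine ⟨r, rfl, rfl, fun k => ?_⟩
    rw [aff_eq]
    rfl
  · rintro ⟨r, h1, h2, h3⟩
    obtain ⟨q, s⟩ := c
    obtain ⟨q', s'⟩ := d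
    simp only at h1 h2 h3
    subst h1 h2
    have h4 : s = Wit.mulB (S := (U.ws e).toSys) (.inl r) s' + (U.ws e).a (.inl r) := by
      funext k
      rw [h3 k, aff_eq]
      rfl
    rw [h4]
    exact Wit.Rs.mk (W := U.ws e) r s'

theorem UM.Cn_iff (U : UM A) (e : ℕ) (c d : Cf (Fin U.nQ) (Fin U.nK)) :
    Wit.Cn (U.ws e) c d ↔ PConn U.b U.rule c d := by
  unfold Wit.Cn PConn
  have h : Wit.Rs (U.ws e) = PStp U.b U.rule := by
    funext c d
    exact propext (U.Rs_iff e c d)
  rw [h]
  exact Iff.rfl

theorem UM.code_eq (U : UM A) (e : ℕ) (w : List (Option A)) :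
    Wit.code (U.ws e) w = U.start e w := by
  induction w with
  | nil => rfl
  | cons o w ih =>
    funext k
    have h := (U.start_cons e o w).2.2 k
    simp only at h
    rw [h, aff_eq]
    show Wit.mulB (S := (U.ws e).toSys) (.inr o) (Wit.code (U.ws e) w) k + _ = _
    rw [ih]
    rfl

theorem UM.Acc_iff (U : UM A) (e : ℕ) (w : List (Option A)) :
    Wit.Acc (U.ws e) w ↔ PConn U.b U.rule (U.qin, U.start e w) (U.qh, fun _ => 0) := by
  unfold Wit.Acc
  rw [UM.code_eq]
  exact U.Cn_iff e _ _

theorem UM.archive' (U : UM A) (e : ℕ) : Wit.Archive (U.ws e) := by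
  intro L hL d hd
  rw [UM.Acc_iff] at hL
  rw [UM.code_eq] at hd ⊢
  exact U.archive e L hL d ((U.Cn_iff e _ _).1 hd)

end Crest.Agent.R185.Clk
private theorem rz_392772d3a5 : type_of% @_root_.Crest.Agent.R185.Clk.dA.eq_1 := @_root_.Crest.Agent.R185.Clk.dA.eq_1 -- L21
private theorem rz_49bea38019 : type_of% @_root_.Crest.Agent.R185.Clk.dB.eq_1 := @_root_.Crest.Agent.R185.Clk.dB.eq_1 -- L16
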