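import Crest.Agent.R185.Re2
import Crest.Agent.R185.Hub1

/-!
# R185: the hypothesis (HK) of `Hub.hub`

* `reduce_primrec`, `norm_mk`: `FreeGroup.reduce` is primitive recursive;
* `bnd_computable`;
* `exists_alg_hub`: the test of the hub is computable if membership in the levels is;
* `exists_hk`: (HK) from Kleene's fixed point for the machine.
-/

set_option autoImplicit false

namespace Crest.Agent.R185.Hk

open Crest.Agent.R292 Re Hub Encodable

/-! ### `FreeGroup.reduce` is primitive recursive -/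

section red
variable {A : Type} [DecidableEq A] [Primcodable A]

/-- one step of the reduction -/
def redStep (x : A × Bool) (l : List (A × Bool)) : List (A × Bool) :=
  match l with
  | [] => [x]
  | y :: t => if x.1 = y.1 ∧ x.2 = !y.2 then t else x :: y :: t

omit [Primcodable A] in
theorem reduce_eq (l : List (A × Bool)) : FreeGroup.reduce l = l.foldr redStep [] := by
  induction l with
  | nil => rfl
  | cons x l ih =>
    rw [FreeGroup.reduce.cons, List.foldr_cons, ← ih]
    cases FreeGroup.reduce l <;> rfl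

theorem redStep_primrec : Primrec₂ (redStep (A := A)) := by
  have h1 : Primrec fun p : (A × Bool) × List (A × Bool) =>
      (List.casesOn p.2 [p.1] (fun y t => if p.1.1 = y.1 ∧ p.1.2 = !y.2 then t else
        p.1 :: y :: t) : List (A × Bool)) := by
    refine Primrec.list_casesOn (f := fun p : (A × Bool) × List (A × Bool) => p.2)
      (g := fun p => [p.1]) (h := fun p (q : (A × Bool) × List (A × Bool)) =>
        if p.1.1 = q.1.1 ∧ p.1.2 = !q.1.2 then q.2 else p.1 :: q.1 :: q.2)
      Primrec.snd (Primrec.list_cons.comp Primrec.fst (Primrec.const [])) ?_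
    have hx : Primrec fun z : ((A × Bool) × List (A × Bool)) × (A × Bool) × List (A × Bool) =>
      z.1.1 := Primrec.fst.comp Primrec.fst
    have hy : Primrec fun z : ((A × Bool) × List (A × Bool)) × (A × Bool) × List (A × Bool) =>
      z.2.1 := Primrec.fst.comp Primrec.snd
    have ht : Primrec fun z : ((A × Bool) × List (A × Bool)) × (A × Bool) × List (A × Bool) =>
      z.2.2 := Primrec.snd.comp Primrec.snd
    have hc : PrimrecPred fun z : ((A × Bool) × List (A × Bool)) × (A × Bool) ×
        List (A × Bool) => z.1.1.1 = z.2.1.1 ∧ z.1.1.2 = !z.2.1.2 :=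
      PrimrecPred.and
        ((Primrec.eq (α := A)).comp (Primrec.fst.comp hx) (Primrec.fst.comp hy))
        ((Primrec.eq (α := Bool)).comp (Primrec.snd.comp hx)
          (Primrec.not.comp (Primrec.snd.comp hy)))
    exact (Primrec.ite hc ht (Primrec.list_cons.comp hx (Primrec.list_cons.comp hy ht))).to₂
  refine h1.of_eq fun p => ?_
  obtain ⟨x, l⟩ := p
  cases l <;> rfl

theorem reduce_primrec : Primrec (FreeGroup.reduce : List (A × Bool) → List (A × Bool)) := by
  refine (Primrec.list_foldr (f := fun l : List (A × Bool) => l) (g := fun _ => [])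
    (h := fun _ (p : (A × Bool) × List (A × Bool)) => redStep p.1 p.2) Primrec.id
    (Primrec.const []) (redStep_primrec.comp (Primrec.fst.comp Primrec.snd)
      (Primrec.snd.comp Primrec.snd)).to₂).of_eq fun l => (reduce_eq l).symm


theorem norm_computable : Computable fun l : List (A × Bool) => (FreeGroup.mk l).norm :=
  (Primrec.list_length.comp reduce_primrec).to_comp

omit [DecidableEq A] in
theorem invRev_primrec : Primrec (FreeGroup.invRev : List (A × Bool) → List (A × Bool)) := by
  refine Primrec.list_reverse.comp (Primrec.list_map Primrec.id ?_)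
  exact (Primrec.pair (Primrec.fst.comp Primrec.snd)
    (Primrec.not.comp (Primrec.snd.comp Primrec.snd))).to₂

end red

/-! ### `bnd` is computable -/

theorem bnd_computable {β : ℕ → ℕ → ℕ → ℕ} {β0 c : ℕ → ℕ}
    (hβ : Computable fun x : ℕ × ℕ × ℕ => β x.1 x.2.1 x.2.2) (hβ0 : Computable β0)
    (hc : Computable c) : Computable₂ (bnd β β0 c) := by
  -- the graph as a set of derivable facts
  let R : List (ℕ × ℕ × ℕ) → ℕ × ℕ × ℕ → Prop := fun l a =>
    (a.1 = 0 ∧ a.2.2 = β0 a.2.1) ∨
      ∃ m b' : ℕ, a.1 = m + 1 ∧ l = [((m + 1) / 2, c a.2.1, b')] ∧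
        a.2.2 = β (m + 1) a.2.1 b'
  have hR1 : REPred fun a : ℕ × ℕ × ℕ => a.1 = 0 ∧ a.2.2 = β0 a.2.1 :=
    re_and (re_eq Computable.fst (Computable.const 0))
      (re_eq (Computable.snd.comp Computable.snd) (hβ0.comp
        (Computable.fst.comp Computable.snd)))
  have hR2 : REPred fun y : (List (ℕ × ℕ × ℕ) × (ℕ × ℕ × ℕ)) × (ℕ × ℕ) =>
      y.1.2.1 = y.2.1 + 1 ∧ y.1.1 = [((y.2.1 + 1) / 2, c y.1.2.2.1, y.2.2)] ∧
        y.1.2.2.2 = β (y.2.1 + 1) y.1.2.2.1 y.2.2 := by
    have e1 : Computable fun y : (List (ℕ × ℕ × ℕ) × (ℕ × ℕ × ℕ)) × (ℕ × ℕ) => y.1.2.1 :=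
      Computable.fst.comp (Computable.snd.comp Computable.fst)
    have e2 : Computable fun y : (List (ℕ × ℕ × ℕ) × (ℕ × ℕ × ℕ)) × (ℕ × ℕ) => y.2.1 + 1 :=
      Computable.succ.comp (Computable.fst.comp Computable.snd)
    have e3 : Computable fun y : (List (ℕ × ℕ × ℕ) × (ℕ × ℕ × ℕ)) × (ℕ × ℕ) => y.1.2.2.1 :=
      Computable.fst.comp (Computable.snd.comp (Computable.snd.comp Computable.fst))
    have e4 : Computable fun y : (List (ℕ × ℕ × ℕ) × (ℕ × ℕ × ℕ)) × (ℕ × ℕ) => y.2.2 :=
      Computable.snd.comp Computable.snd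
    have e5 : Computable fun y : (List (ℕ × ℕ × ℕ) × (ℕ × ℕ × ℕ)) × (ℕ × ℕ) =>
        y.1.2.2.2 := Computable.snd.comp (Computable.snd.comp (Computable.snd.comp
          Computable.fst))
    have e6 : Computable fun y : (List (ℕ × ℕ × ℕ) × (ℕ × ℕ × ℕ)) × (ℕ × ℕ) =>
        (y.2.1 + 1) / 2 := (Primrec.nat_div.to_comp.comp e2 (Computable.const 2))
    have e7 : Computable fun y : (List (ℕ × ℕ × ℕ) × (ℕ × ℕ × ℕ)) × (ℕ × ℕ) =>
        ([((y.2.1 + 1) / 2, c y.1.2.2.1, y.2.2)] : List (ℕ × ℕ × ℕ)) :=
      Computable.list_cons.comp (e6.pair ((hc.comp e3).pair e4)) (Computable.const [])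
    exact re_and (re_eq e1 e2) (re_and (re_eq (Computable.fst.comp Computable.fst) e7)
      (re_eq e5 (hβ.comp (e2.pair (e3.pair e4)))))
  have hR : REPred fun x : Unit × List (ℕ × ℕ × ℕ) × (ℕ × ℕ × ℕ) => R x.2.1 x.2.2 := by
    have h1 := re_or (re_comp (f := fun y : List (ℕ × ℕ × ℕ) × (ℕ × ℕ × ℕ) => y.2) hR1
      Computable.snd) (re_ex hR2)
    refine (re_comp (f := fun x : Unit × List (ℕ × ℕ × ℕ) × (ℕ × ℕ × ℕ) => x.2) h1
      Computable.snd).of_eq fun x => or_congr Iff.rfl ?_
    constructor
    · rintro ⟨⟨m, b'⟩, h⟩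
      exact ⟨m, b', h⟩
    · rintro ⟨m, b', h⟩
      exact ⟨⟨m, b'⟩, h⟩
  have hD := re_der (γ := Unit) (R := fun _ => R) hR
  have key1 : ∀ a, Der R a → bnd β β0 c a.1 a.2.1 = a.2.2 := by
    intro a ha
    induction ha with
    | mk l a h hl ih =>
      obtain ⟨n, k, b⟩ := a
      rcases h with ⟨h1, h2⟩ | ⟨m, b', h1, h2, h3⟩
      · simp only at h1 h2 ⊢
        rw [h1, h2, bnd]
      · simp only at h1 h2 h3 ⊢
        have h4 := ih ((m + 1) / 2, c k, b') (by rw [h2]; simp)
        simp only at h4
        rw [h1, h3, bnd, h4]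
  have key2 : ∀ n k, Der R (n, k, bnd β β0 c n k) := by
    intro n
    induction n using Nat.strong_induction_on with
    | _ n ih =>
      intro k
      rcases n with _ | m
      · refine Der.mk [] _ (Or.inl ⟨rfl, ?_⟩) (by simp)
        simp only
        rw [bnd]
      · refine Der.mk [((m + 1) / 2, c k, bnd β β0 c ((m + 1) / 2) (c k))] _
          (Or.inr ⟨m, _, rfl, rfl, ?_⟩) ?_
        · simp only
          rw [bnd]
        · intro b hb
          rw [List.mem_singleton] at hb
          rw [hb]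
          exact ih _ (by omega) _
  have h : REPred fun x : (ℕ × ℕ) × ℕ => bnd β β0 c x.1.1 x.1.2 = x.2 := by
    have h1 := re_comp (f := fun x : (ℕ × ℕ) × ℕ => (((), (x.1.1, x.1.2, x.2)) :
      Unit × (ℕ × ℕ × ℕ))) hD ((Computable.const ()).pair
        ((Computable.fst.comp Computable.fst).pair ((Computable.snd.comp Computable.fst).pair
          Computable.snd)))
    refine h1.of_eq fun x => ?_
    obtain ⟨⟨n, k⟩, b⟩ := x
    constructor
    · intro hd
      exact key1 _ hd
    · intro hb
      simp only at hb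
      simp only
      rw [← hb]
      exact key2 n k
  exact computable_of_graph (f := fun x : ℕ × ℕ => bnd β β0 c x.1 x.2) h

/-! ### the test of the hub -/

section hub
variable {A : Type} [DecidableEq A] [Finite A] [Primcodable A]

/-- the test of the hub -/
def Tst (Φ : ℕ → Subgroup (FreeGroup A) → Subgroup (FreeGroup A)) (b : ℕ → ℕ) (e : ℕ)
    (w : FreeGroup A) : Prop :=
  ∀ v : FreeGroup A, v.norm ≤ b w.norm → v⁻¹ * w * v ∈ lev Φ e (w.norm + 2 * b w.norm)

theorem exists_alg_hub (Φ : ℕ → Subgroup (FreeGroup A) → Subgroup (FreeGroup A)) {b : ℕ → ℕ}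
    (hb : Computable b)
    (h3 : ComputablePred fun x : ℕ × ℕ × List (A × Bool) =>
      FreeGroup.mk x.2.2 ∈ lev Φ x.1 x.2.1) :
    ∃ Alg : ℕ → List (A × Bool) → Bool, Computable₂ Alg ∧
      ∀ e l, Alg e l = true ↔ Tst Φ b e (FreeGroup.mk l) := by
  obtain ⟨f, hf, hfe⟩ := ComputablePred.computable_iff.1 h3
  have hfe' : ∀ e i l, f (e, i, l) = true ↔ FreeGroup.mk l ∈ lev Φ e i := fun e i l => by
    rw [← congrFun hfe (e, i, l)]
  have hN : Computable fun x : ℕ × List (A × Bool) => (FreeGroup.mk x.2).norm :=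
    norm_computable.comp Computable.snd
  have hB : Computable fun x : ℕ × List (A × Bool) => b (FreeGroup.mk x.2).norm := hb.comp hN
  refine ⟨fun e l => (wordsLT (A × Bool) (b (FreeGroup.mk l).norm + 1)).all fun l' =>
    f (e, (FreeGroup.mk l).norm + 2 * b (FreeGroup.mk l).norm,
      (FreeGroup.invRev l' ++ l) ++ l'), ?_, fun e l => ?_⟩
  · refine computable_all (f := fun x : ℕ × List (A × Bool) =>
      wordsLT (A × Bool) (b (FreeGroup.mk x.2).norm + 1)) (g := fun x l' =>
        f (x.1, (FreeGroup.mk x.2).norm + 2 * b (FreeGroup.mk x.2).norm,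
          (FreeGroup.invRev l' ++ x.2) ++ l')) ?_ ?_
    · exact computable_wordsLT.comp (Computable.succ.comp hB)
    · refine hf.comp (Computable.pair (Computable.fst.comp Computable.fst)
        (Computable.pair ?_ ?_))
      · have h1 : Computable fun x : ℕ × List (A × Bool) =>
            (FreeGroup.mk x.2).norm + 2 * b (FreeGroup.mk x.2).norm :=
          Primrec.nat_add.to_comp.comp hN (Primrec.nat_mul.to_comp.comp (Computable.const 2) hB)
        exact h1.comp Computable.fst
      · exact Computable.list_append.comp (Computable.list_append.comp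
          (invRev_primrec.to_comp.comp Computable.snd) (Computable.snd.comp Computable.fst))
          Computable.snd
  · rw [List.all_eq_true]
    constructor
    · intro h v hv
      have h1 := h v.toWord (mem_wordsLT.2 (Nat.lt_succ_of_le hv))
      rw [hfe'] at h1
      rw [← FreeGroup.mul_mk, ← FreeGroup.mul_mk, ← FreeGroup.inv_mk, FreeGroup.mk_toWord] at h1
      exact h1
    · intro h l' hl'
      rw [hfe', ← FreeGroup.mul_mk, ← FreeGroup.mul_mk, ← FreeGroup.inv_mk]
      apply h
      have h1 : (FreeGroup.mk l').norm ≤ l'.length := FreeGroup.norm_mk_le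
      have h2 := mem_wordsLT.1 hl'
      omega

/-- **(HK)** from Kleene's fixed point of the machine, for any computable bound `b`. `C e w1`:
the machine `e` accepts the positive word `w1` (with ticks `none`). -/
theorem exists_hk_gen (Φ : ℕ → Subgroup (FreeGroup A) → Subgroup (FreeGroup A))
    {b : ℕ → ℕ} (hb : Computable b)
    (h3 : ComputablePred fun x : ℕ × ℕ × List (A × Bool) =>
      FreeGroup.mk x.2.2 ∈ lev Φ x.1 x.2.1)
    (C : ℕ → List (Option (A × Bool)) → Prop)
    (kleene : ∀ Alg : ℕ → List (A × Bool) → Bool, Computable₂ Alg → ∃ e, ∀ l,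
      (∃ w1 : List (Option (A × Bool)), w1.filterMap id = l ∧ C e w1) ↔ Alg e l = true) :
    ∃ e, {w : FreeGroup A | ∃ w1 : List (Option (A × Bool)),
        FreeGroup.mk (w1.filterMap id) = w ∧ C e w1} =
      {w | ∀ v : FreeGroup A, v.norm ≤ b w.norm →
        v⁻¹ * w * v ∈ lev Φ e (w.norm + 2 * b w.norm)} := by
  obtain ⟨Alg, hA, hAe⟩ := exists_alg_hub Φ hb h3
  obtain ⟨e, he⟩ := kleene Alg hA
  refine ⟨e, ?_⟩
  ext w
  constructor
  · rintro ⟨w1, hw, hC⟩
    have h1 := (he _).1 ⟨w1, rfl, hC⟩
    rw [hAe, hw] at h1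
    exact h1
  · intro hw
    have h1 : Alg e w.toWord = true := by
      rw [hAe, FreeGroup.mk_toWord]
      exact hw
    obtain ⟨w1, hw1, hC⟩ := (he _).2 h1
    exact ⟨w1, by rw [hw1, FreeGroup.mk_toWord], hC⟩


end hub

/-- Recursion `f 0 = a`, `f (n + 1) = β (n + 1) (f ((n + 1) / 2))` is computable. -/
theorem rec_half_computable {β : ℕ → ℕ → ℕ} (hβ : Computable₂ β) {a : ℕ} {f : ℕ → ℕ}
    (h0 : f 0 = a) (hs : ∀ n, f (n + 1) = β (n + 1) (f ((n + 1) / 2))) : Computable f := by
  have h := bnd_computable (β := fun n _ x => β n x) (β0 := fun _ => a) (c := fun k => k)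
    (hβ.comp Computable.fst (Computable.snd.comp Computable.snd)) (Computable.const a)
    Computable.id
  refine (h.comp Computable.id (Computable.const 1)).of_eq fun n => ?_
  induction n using Nat.strong_induction_on with
  | _ n ih =>
    rcases n with _ | n
    · simp only [id]
      rw [bnd, h0]
    · simp only [id] at ih ⊢
      rw [bnd, hs, ih _ (by omega)]

end Crest.Agent.R185.Hk
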