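import Crest.Agent.R185.Hub2
import Crest.Agent.R185.Hk1

/-!
# The hub for the machine (R185): computability of the bounds, Kleene's fixed point
-/

set_option autoImplicit false

namespace Crest.Agent.R185.Hub

variable {A : Type} [DecidableEq A]


theorem bnd1_computable {β : ℕ → ℕ → ℕ} (hβ : Computable₂ β) : Computable (bnd1 β) :=
  Hk.rec_half_computable hβ (bnd1_zero β) (bnd1_succ β)

/-- **The hub for the machine**: from (H1), (H2), (H3) and Kleene's fixed point. -/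
theorem hub_machine [Finite A] [Primcodable A]
    {Φ : ℕ → Subgroup (FreeGroup A) → Subgroup (FreeGroup A)}
    (C : ℕ → List (Option (A × Bool)) → Prop)
    {Acc : ℕ → Set (FreeGroup A)}
    (hAcc : ∀ e, Acc e = {w : FreeGroup A | ∃ w1 : List (Option (A × Bool)),
      FreeGroup.mk (w1.filterMap id) = w ∧ C e w1})
    {β : ℕ → ℕ → ℕ} (hβ : Computable₂ β)
    (H1 : ∀ e S S' r, Good (Acc e) S r → Good (Acc e) S' r → Agr S S' r →
      Agr (Φ e S) (Φ e S') (2 * r + 1))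
    (H2 : ∀ e S n ρ b, 1 ≤ n → Good (Acc e) S ((n + 2 * ρ) / 2) →
      TL1 S (n / 2) (ρ / 2) b → TL1 (Φ e S) n ρ (β n b))
    (H3 : ComputablePred fun x : ℕ × ℕ × List (A × Bool) =>
      FreeGroup.mk x.2.2 ∈ lev Φ x.1 x.2.1)
    (kleene : ∀ Alg : ℕ → List (A × Bool) → Bool, Computable₂ Alg → ∃ e, ∀ l,
      (∃ w1 : List (Option (A × Bool)), w1.filterMap id = l ∧ C e w1) ↔ Alg e l = true) :
    ∃ e S, Φ e S = S ∧ Acc e = {w | ∀ v : FreeGroup A, v⁻¹ * w * v ∈ S} := by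
  refine hub1 (β := β) H1 H2 ?_
  obtain ⟨e, he⟩ := Hk.exists_hk_gen Φ (bnd1_computable hβ) H3 C kleene
  exact ⟨e, by rw [hAcc, he]⟩

end Crest.Agent.R185.Hub
namespace Crest.Agent.R185.Hub.TL
end Crest.Agent.R185.Hub.TL
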