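import Crest.Agent.R185.Md191E

/-!
# R185 / MOD (G): membership in `S = ⟨E, k E k⁻¹⟩`, reindexing of the presentation data

`(n, h) ∈ S` iff `h ∈ E` and the reduced word of `n` is `κ_{q₁} κ_{q₂}⁻¹ κ_{q₃} ⋯ κ_{q_{2m}}⁻¹` with
all `q_i ∈ E L / L`.
-/

set_option autoImplicit false

namespace Crest.Agent.R185.Md191G

open Crest.Agent.R185.Md191B Crest.Agent.R185.Md191C Crest.Agent.R185.Md191D

/-! ### sign paths -/

section path

variable {α : Type}

/-- the signs alternate, starting with `b`; the next sign after the word would be `c` -/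
def path : Bool → Bool → List (α × Bool) → Prop
  | b, c, [] => b = c
  | b, c, x :: l => x.2 = b ∧ path (!b) c l

@[simp] theorem path_nil (b c : Bool) : path b c ([] : List (α × Bool)) ↔ b = c := Iff.rfl

@[simp] theorem path_cons (b c : Bool) (x : α × Bool) (l : List (α × Bool)) :
    path b c (x :: l) ↔ x.2 = b ∧ path (!b) c l := Iff.rfl

theorem path_append {b c d : Bool} {l l' : List (α × Bool)} (h : path b c l) (h' : path c d l') :
    path b d (l ++ l') := by
  induction l generalizing b with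
  | nil =>
    rw [path_nil] at h
    subst h
    exact h'
  | cons x l ih =>
    rw [path_cons] at h
    rw [List.cons_append, path_cons]
    exact ⟨h.1, ih h.2⟩

theorem path_invRev {b c : Bool} {l : List (α × Bool)} (h : path b c l) :
    path c b (FreeGroup.invRev l) := by
  induction l generalizing b with
  | nil =>
    rw [path_nil] at h
    subst h
    rfl
  | cons x l ih =>
    rw [path_cons] at h
    rw [FreeGroup.invRev_cons]
    refine path_append (ih h.2) ?_
    obtain ⟨x, s⟩ := x
    obtain ⟨h1, -⟩ := h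
    change s = b at h1
    subst h1
    exact ⟨rfl, Bool.not_not s⟩

theorem path_map {β : Type} {b c : Bool} {l : List (α × Bool)} (f : α → β) (h : path b c l) :
    path b c (l.map fun x => (f x.1, x.2)) := by
  induction l generalizing b with
  | nil => exact h
  | cons x l ih =>
    rw [path_cons] at h
    rw [List.map_cons, path_cons]
    exact ⟨h.1, ih h.2⟩

theorem path_step {b c : Bool} {l l' : List (α × Bool)} (h : FreeGroup.Red.Step l l')
    (hl : path b c l) : path b c l' := by
  cases h with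
  | @not L₁ L₂ x s =>
    induction L₁ generalizing b with
    | nil =>
      simp only [List.nil_append, path_cons, Bool.not_not] at hl ⊢
      exact hl.2.2
    | cons y L ih =>
      rw [List.cons_append, path_cons] at hl ⊢
      exact ⟨hl.1, ih hl.2⟩

theorem path_red {b c : Bool} {l l' : List (α × Bool)} (h : FreeGroup.Red l l')
    (hl : path b c l) : path b c l' := by
  induction h with
  | refl => exact hl
  | tail _ h ih => exact path_step h ih

theorem letters_step {P : α → Prop} {l l' : List (α × Bool)} (h : FreeGroup.Red.Step l l')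
    (hl : ∀ x ∈ l, P x.1) : ∀ x ∈ l', P x.1 := by
  cases h with
  | @not L₁ L₂ x s =>
    intro y hy
    apply hl
    rw [List.mem_append] at hy ⊢
    rcases hy with hy | hy
    · exact Or.inl hy
    · exact Or.inr (List.mem_cons_of_mem _ (List.mem_cons_of_mem _ hy))

theorem letters_red {P : α → Prop} {l l' : List (α × Bool)} (h : FreeGroup.Red l l')
    (hl : ∀ x ∈ l, P x.1) : ∀ x ∈ l', P x.1 := by
  induction h with
  | refl => exact hl
  | tail _ h ih => exact letters_step h ih

end path

/-! ### membership in `S` -/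

section mem

variable {A H : Type} [Group H] (L : Subgroup H) (ε : FreeGroup (Option A) →* H)

/-- cosets met by `E` -/
def inE (q : H ⧸ L) : Prop := ∃ e, q = ((ε e : H) : H ⧸ L)

theorem inE_smul {q : H ⧸ L} (h : inE L ε q) {x : H} (hx : x ∈ ε.range) : inE L ε (x • q) := by
  obtain ⟨e, rfl⟩ := h
  obtain ⟨e', rfl⟩ := hx
  exact ⟨e' * e, by rw [map_mul]; rfl⟩

/-- an alternating word over `EL/L` -/
def Alt (l : List ((H ⧸ L) × Bool)) : Prop := path true true l ∧ ∀ x ∈ l, inE L ε x.1

theorem Alt.red {l l' : List ((H ⧸ L) × Bool)} (h : Alt L ε l) (hr : FreeGroup.Red l l') :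
    Alt L ε l' := ⟨path_red hr h.1, letters_red hr h.2⟩

theorem qact_mk (h : H) (l : List ((H ⧸ L) × Bool)) :
    qact L h (FreeGroup.mk l) = FreeGroup.mk (l.map fun x => (h • x.1, x.2)) := by
  change FreeGroup.freeGroupCongr _ (FreeGroup.mk l) = _
  rw [FreeGroup.freeGroupCongr_apply, FreeGroup.map.mk]
  rfl

theorem exists_alt {d : DG L} (hd : d ∈ SG L ε) :
    d.right ∈ ε.range ∧ ∃ l, FreeGroup.mk l = d.left ∧ Alt L ε l := by
  refine Subgroup.closure_induction (p := fun d _ => d.right ∈ ε.range ∧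
    ∃ l, FreeGroup.mk l = d.left ∧ Alt L ε l) ?_ ?_ ?_ ?_ hd
  · rintro _ (⟨e, rfl⟩ | ⟨e, rfl⟩)
    · refine ⟨⟨e, rfl⟩, [], rfl, rfl, by simp⟩
    · have h1 : kD L * hD L (ε e) * (kD L)⁻¹ =
          ⟨FreeGroup.mk [(((1 : H) : H ⧸ L), true), (((ε e : H) : H ⧸ L), false)], ε e⟩ := by
        have h2 : kD L * hD L (ε e) * (kD L)⁻¹ =
            kD L * (hD L (ε e) * kD L * (hD L (ε e))⁻¹)⁻¹ * hD L (ε e) := by group
        rw [h2, conj_kD, SemidirectProduct.mk_eq_inl_mul_inr]
        congr 1
        rw [kD, ← map_inv, ← map_mul]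
        rfl
      change (kD L * hD L (ε e) * (kD L)⁻¹).right ∈ ε.range ∧
        ∃ l, FreeGroup.mk l = (kD L * hD L (ε e) * (kD L)⁻¹).left ∧ Alt L ε l
      rw [h1]
      refine ⟨⟨e, rfl⟩, _, rfl, by simp, ?_⟩
      intro x hx
      simp only [List.mem_cons, List.not_mem_nil, or_false] at hx
      rcases hx with rfl | rfl
      · exact ⟨1, by simp⟩
      · exact ⟨e, rfl⟩
  · refine ⟨⟨1, by simp⟩, [], rfl, rfl, by simp⟩
  · rintro x y - - ⟨hx, l, hl, h1⟩ ⟨hy, l', hl', h1'⟩
    refine ⟨by rw [SemidirectProduct.mul_right]; exact mul_mem hx hy,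
      l ++ l'.map (fun z => (x.right • z.1, z.2)), ?_, ?_, ?_⟩
    · rw [SemidirectProduct.mul_left, ← hl, ← hl', qact_mk, FreeGroup.mul_mk]
    · exact path_append h1.1 (path_map _ h1'.1)
    · intro z hz
      rw [List.mem_append] at hz
      rcases hz with hz | hz
      · exact h1.2 z hz
      · rw [List.mem_map] at hz
        obtain ⟨z', hz', rfl⟩ := hz
        exact inE_smul L ε (h1'.2 z' hz') hx
  · rintro x - ⟨hx, l, hl, h1⟩
    refine ⟨by rw [SemidirectProduct.inv_right]; exact inv_mem hx,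
      (FreeGroup.invRev l).map (fun z => (x.right⁻¹ • z.1, z.2)), ?_, ?_, ?_⟩
    · rw [SemidirectProduct.inv_left, ← hl, ← qact_mk, FreeGroup.inv_mk]
    · exact path_map _ (path_invRev h1.1)
    · intro z hz
      rw [List.mem_map] at hz
      obtain ⟨z', hz', rfl⟩ := hz
      refine inE_smul L ε ?_ (inv_mem hx)
      rw [FreeGroup.invRev, List.mem_reverse, List.mem_map] at hz'
      obtain ⟨z'', hz'', rfl⟩ := hz'
      exact h1.2 z'' hz''

theorem pair_mem {q q' : H ⧸ L} (h : inE L ε q) (h' : inE L ε q') :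
    (SemidirectProduct.inl (FreeGroup.of q * (FreeGroup.of q')⁻¹) : DG L) ∈ SG L ε := by
  obtain ⟨e, rfl⟩ := h
  obtain ⟨e', rfl⟩ := h'
  rw [map_mul, map_inv, ← conj_kD, ← conj_kD]
  have : hD L (ε e) * kD L * (hD L (ε e))⁻¹ * (hD L (ε e') * kD L * (hD L (ε e'))⁻¹)⁻¹ =
      hD L (ε e) * (kD L * hD L (ε (e⁻¹ * e')) * (kD L)⁻¹) * (hD L (ε e'))⁻¹ := by
    rw [map_mul, map_inv, map_mul, map_inv]; group
  rw [this]
  exact mul_mem (mul_mem (mem_SG L ε e) (mem_SG' L ε _)) (inv_mem (mem_SG L ε e'))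

theorem mk_mem : ∀ (n : ℕ) (l : List ((H ⧸ L) × Bool)), l.length ≤ n → Alt L ε l →
    (SemidirectProduct.inl (FreeGroup.mk l) : DG L) ∈ SG L ε := by
  intro n
  induction n with
  | zero =>
    intro l hn _
    have : l = [] := List.eq_nil_of_length_eq_zero (by omega)
    subst this
    have h1 : (FreeGroup.mk [] : FreeGroup (H ⧸ L)) = 1 := rfl
    rw [h1, map_one]
    exact one_mem _
  | succ n ih =>
    intro l hn hl
    rcases l with _ | ⟨⟨q, s⟩, _ | ⟨⟨q', s'⟩, l⟩⟩
    · have h1 : (FreeGroup.mk [] : FreeGroup (H ⧸ L)) = 1 := rfl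
      rw [h1, map_one]
      exact one_mem _
    · have := hl.1
      simp at this
    · obtain ⟨h1, h2⟩ := hl
      simp only [path_cons, Bool.not_true, Bool.not_false] at h1
      obtain ⟨rfl, rfl, h3⟩ := h1
      have h4 : (FreeGroup.mk ((q, true) :: (q', false) :: l) : FreeGroup (H ⧸ L)) =
          (FreeGroup.of q * (FreeGroup.of q')⁻¹) * FreeGroup.mk l := rfl
      rw [h4, map_mul]
      refine mul_mem (pair_mem L ε (h2 (q, true) (by simp)) (h2 (q', false) (by simp))) ?_
      refine ih l (by simp only [List.length_cons] at hn; omega) ⟨h3, fun x hx => h2 x ?_⟩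
      exact List.mem_cons_of_mem _ (List.mem_cons_of_mem _ hx)

theorem mem_of_alt {l : List ((H ⧸ L) × Bool)} {h : H} (hl : Alt L ε l) (hh : h ∈ ε.range) :
    (⟨FreeGroup.mk l, h⟩ : DG L) ∈ SG L ε := by
  rw [SemidirectProduct.mk_eq_inl_mul_inr]
  obtain ⟨e, rfl⟩ := hh
  exact mul_mem (mk_mem L ε _ l le_rfl hl) (mem_SG L ε e)


/-- **membership in `S`** -/
theorem mem_SG_iff [DecidableEq (H ⧸ L)] (d : DG L) : d ∈ SG L ε ↔
    d.right ∈ ε.range ∧ path true true d.left.toWord ∧ ∀ x ∈ d.left.toWord, inE L ε x.1 := by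
  have : d = ⟨FreeGroup.mk d.left.toWord, d.right⟩ := by rw [FreeGroup.mk_toWord]
  constructor
  · intro hd
    obtain ⟨h1, l', h2, h3⟩ := exists_alt L ε hd
    refine ⟨h1, ?_⟩
    rw [← h2, FreeGroup.toWord_mk]
    exact h3.red L ε FreeGroup.reduce.red
  · rintro ⟨h1, h2, h3⟩
    rw [this]
    exact mem_of_alt L ε ⟨h2, h3⟩ h1

end mem

/-! ### reindexing of the presentation data -/

section reindex

variable {A H : Type} [Group H] {L : Subgroup H} {ε : FreeGroup (Option A) →* H}
  {Acc : Set (FreeGroup A)} {ι ι' : Type}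

/-- change of the index type -/
def reindex (W : WitFP L ε Acc ι) (e : ι' ≃ ι) : WitFP L ε Acc ι' where
  gen := W.gen.comp (FreeGroup.map e)
  rels := (FreeGroup.map e) ⁻¹' W.rels
  rels_fin := W.rels_fin.preimage (FreeGroup.freeGroupCongr e).injective.injOn
  rels_true := fun r hr => W.rels_true _ hr
  θ := (FreeGroup.map e.symm).comp W.θ
  hθ := by
    intro x
    have : FreeGroup.map e (FreeGroup.map e.symm (W.θ x)) = W.θ x := by
      rw [FreeGroup.map.comp]
      simp
    change W.gen (FreeGroup.map e (FreeGroup.map e.symm (W.θ x))) = ε x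
    rw [this, W.hθ]
  Lw := (FreeGroup.map e) ⁻¹' W.Lw
  Lw_fin := W.Lw_fin.preimage (FreeGroup.freeGroupCongr e).injective.injOn
  Lw_mem := fun r hr => W.Lw_mem _ hr
  deriv := by
    intro K _ f hf w hw
    have he : ∀ x : FreeGroup ι, FreeGroup.map e (FreeGroup.map e.symm x) = x := by
      intro x
      rw [FreeGroup.map.comp]
      simp
    have := W.deriv K (f.comp (FreeGroup.map e.symm)) (fun r hr => hf _ (by
      change FreeGroup.map e (FreeGroup.map e.symm r) ∈ W.rels
      rw [he]; exact hr)) w hw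
    refine Subgroup.closure_mono ?_ this
    rintro _ ⟨x, hx, rfl⟩
    refine ⟨FreeGroup.map e.symm x, ?_, rfl⟩
    change FreeGroup.map e (FreeGroup.map e.symm x) ∈ W.Lw
    rw [he]; exact hx

end reindex

end Crest.Agent.R185.Md191G
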