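import Crest.Agent.R185.Smp6
import Crest.Agent.R185.Hub2

-- ▼ part R185/Smp7
section

/-!
# R185 / SMP (7): the guard

`GX Z = ℤ × ℤ × ℤ × Z` with three letters `x, y, t`:
* `x : (i, j, n, z) ↦ (i + 1, j, n, z)`;
* `y` moves `j ↦ j + 1` at the doors `i = M k`, `k ≠ 0`, with label `σ k` on `z` if `j = 0`, `n < 0`;
* `t : (0, 0, n, z) ↦ (0, 0, n + 1, z)`.
-/

set_option autoImplicit false

namespace Crest.Agent.R185.Smp

/-- the three letters of the guard -/
inductive GdL : Type
  | x
  | y
  | t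
  deriving DecidableEq

/-- positions -/
abbrev GP : Type := ℤ × ℤ × ℤ

/-- points of the guard -/
abbrev GX (Z : Type) : Type := GP × Z

/-- `i` is a door -/
def Door (M : ℕ) (i : ℤ) : Prop := (M : ℤ) ∣ i ∧ i ≠ 0

instance (M : ℕ) (i : ℤ) : Decidable (Door M i) := inferInstanceAs (Decidable (_ ∧ _))

section guard

variable {Z : Type} (M : ℕ) (σ : ℤ → Equiv.Perm Z)

/-- the move of positions -/
def gpos : GdL × Bool → GP → GP
  | (.x, true), (i, j, n) => (i + 1, j, n)
  | (.x, false), (i, j, n) => (i - 1, j, n)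
  | (.y, true), (i, j, n) => if Door M i then (i, j + 1, n) else (i, j, n)
  | (.y, false), (i, j, n) => if Door M i then (i, j - 1, n) else (i, j, n)
  | (.t, true), (i, j, n) => if i = 0 ∧ j = 0 then (i, j, n + 1) else (i, j, n)
  | (.t, false), (i, j, n) => if i = 0 ∧ j = 0 then (i, j, n - 1) else (i, j, n)

/-- the label of a move -/
def glab : GdL × Bool → GP → Equiv.Perm Z
  | (.y, true), (i, j, n) => if Door M i ∧ j = 0 ∧ n < 0 then σ (i / M) else 1
  | (.y, false), (i, j, n) => if Door M i ∧ j = 1 ∧ n < 0 then (σ (i / M))⁻¹ else 1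
  | (.x, _), _ => 1
  | (.t, _), _ => 1

/-- the letters on points -/
def gstep (a : GdL × Bool) (p : GX Z) : GX Z := (gpos M a p.1, glab M σ a p.1 p.2)

/-- inverse letter -/
def ginv (a : GdL × Bool) : GdL × Bool := (a.1, !a.2)

theorem gpos_ginv (a : GdL × Bool) (p : GP) : gpos M (ginv a) (gpos M a p) = p := by
  obtain ⟨i, j, n⟩ := p
  rcases a with ⟨_ | _ | _, _ | _⟩
  · simp [gpos, ginv]
  · simp [gpos, ginv]
  · by_cases h : Door M i <;> simp [gpos, ginv, h]
  · by_cases h : Door M i <;> simp [gpos, ginv, h]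
  · by_cases h : i = 0 ∧ j = 0 <;> simp [gpos, ginv, h]
  · by_cases h : i = 0 ∧ j = 0 <;> simp [gpos, ginv, h]

theorem glab_ginv (a : GdL × Bool) (p : GP) :
    glab M σ (ginv a) (gpos M a p) = (glab M σ a p)⁻¹ := by
  obtain ⟨i, j, n⟩ := p
  rcases a with ⟨_ | _ | _, _ | _⟩
  · simp [glab, ginv]
  · simp [glab, ginv]
  · by_cases h : Door M i
    · by_cases h2 : j = 1 ∧ n < 0
      · simp [gpos, glab, ginv, h, h2]
      · have h3 : ¬ (j - 1 = 0 ∧ n < 0) := fun h3 => h2 ⟨by omega, h3.2⟩
        simp [gpos, glab, ginv, h, h2]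
        intro h4 h5
        exact absurd ⟨h4, h5⟩ h3
    · simp [gpos, glab, ginv, h]
  · by_cases h : Door M i
    · by_cases h2 : j = 0 ∧ n < 0
      · simp [gpos, glab, ginv, h, h2]
      · simp [gpos, glab, ginv, h, h2]
    · simp [gpos, glab, ginv, h]
  · simp [glab, ginv]
  · simp [glab, ginv]

theorem ginv_ginv (a : GdL × Bool) : ginv (ginv a) = a := by
  rcases a with ⟨a, ε⟩
  simp [ginv]

theorem gstep_ginv (a : GdL × Bool) (p : GX Z) : gstep M σ (ginv a) (gstep M σ a p) = p := by
  obtain ⟨p, z⟩ := p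
  simp [gstep, gpos_ginv, glab_ginv]

/-- the letters as permutations -/
def gperm (a : GdL) : Equiv.Perm (GX Z) where
  toFun := gstep M σ (a, true)
  invFun := gstep M σ (a, false)
  left_inv p := gstep_ginv M σ (a, true) p
  right_inv p := gstep_ginv M σ (a, false) p

theorem sg_gperm (a : GdL × Bool) : sg (gperm M σ) a = gstep M σ a := by
  funext p
  rcases a with ⟨a, _ | _⟩
  · rw [sg_false]; rfl
  · rw [sg_true]; rfl

/-! ### labels of words -/

/-- the label of a word -/
def glabs : List (GdL × Bool) → GP → Equiv.Perm Z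
  | [], _ => 1
  | a :: w, p => glab M σ a (ev (gpos M) w p) * glabs w p

theorem ev_gstep (w : List (GdL × Bool)) (p : GP) (z : Z) :
    ev (gstep M σ) w (p, z) = (ev (gpos M) w p, glabs M σ w p z) := by
  induction w with
  | nil => rfl
  | cons a w ih => rw [ev_cons, ih]; rfl

/-! ### the list of doors -/

/-- toggle -/
def tog (d : ℤ) : List ℤ → List ℤ
  | [] => [d]
  | d' :: L => if d = d' then L else d :: d' :: L

/-- update of the list of doors -/
def gdl : GdL × Bool → GP → List ℤ → List ℤ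
  | (.y, true), (i, j, n), L => if Door M i ∧ j = 0 ∧ n < 0 then tog i L else L
  | (.y, false), (i, j, n), L => if Door M i ∧ j = 1 ∧ n < 0 then tog i L else L
  | (.x, _), _, L => L
  | (.t, _), _, L => L

/-- the doors of a word, most recent first, backtracks cancelled -/
def gds : List (GdL × Bool) → GP → List ℤ
  | [], _ => []
  | a :: w, p => gdl M a (ev (gpos M) w p) (gds w p)

/-- the side -/
def rs (p : GP) : Bool := decide (1 ≤ p.2.1 ∧ p.2.2 < 0)

/-- the label word of a list of doors as a permutation -/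
def kv : List ℤ → Bool → Equiv.Perm Z
  | [], _ => 1
  | d :: L, s => (if s then σ (d / M) else (σ (d / M))⁻¹) * kv L (!s)

theorem kv_tog (d : ℤ) (L : List ℤ) (s : Bool) :
    kv M σ (tog d L) s = (if s then σ (d / M) else (σ (d / M))⁻¹) * kv M σ L (!s) := by
  cases L with
  | nil => rfl
  | cons d' L =>
    by_cases h : d = d'
    · subst h
      rcases s with _ | _ <;> simp [tog, kv]
    · simp only [tog, if_neg h, kv]

theorem rs_eq {i j n i' j' n' : ℤ} (h : (1 ≤ j ∧ n < 0) ↔ (1 ≤ j' ∧ n' < 0)) :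
    rs (i, j, n) = rs (i', j', n') := by
  unfold rs
  simp only [decide_eq_decide]
  exact h

theorem rs_true {i j n : ℤ} (h : 1 ≤ j ∧ n < 0) : rs (i, j, n) = true := decide_eq_true h

theorem rs_false {i j n : ℤ} (h : ¬ (1 ≤ j ∧ n < 0)) : rs (i, j, n) = false :=
  decide_eq_false h

theorem glab_kv (a : GdL × Bool) (p : GP) (L : List ℤ) :
    glab M σ a p * kv M σ L (rs p) = kv M σ (gdl M a p L) (rs (gpos M a p)) := by
  obtain ⟨i, j, n⟩ := p
  rcases a with ⟨_ | _ | _, _ | _⟩
  · exact one_mul _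
  · exact one_mul _
  · by_cases h : Door M i
    · by_cases h2 : j = 1 ∧ n < 0
      · obtain ⟨rfl, h2⟩ := h2
        have e1 : gpos M (.y, false) (i, 1, n) = (i, 0, n) := by simp [gpos, h]
        have e2 : glab M σ (.y, false) (i, 1, n) = (σ (i / M))⁻¹ := by simp [glab, h, h2]
        have e3 : gdl M (.y, false) (i, 1, n) L = tog i L := by simp [gdl, h, h2]
        rw [e1, e2, e3, kv_tog, rs_true ⟨le_rfl, h2⟩, rs_false (by omega)]
        rfl
      · have h3 : rs (i, j - 1, n) = rs (i, j, n) := rs_eq (by omega)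
        simp [glab, gdl, gpos, h, h2, h3]
    · simp [glab, gdl, gpos, h]
  · by_cases h : Door M i
    · by_cases h2 : j = 0 ∧ n < 0
      · obtain ⟨rfl, h2⟩ := h2
        have e1 : gpos M (.y, true) (i, 0, n) = (i, 1, n) := by simp [gpos, h]
        have e2 : glab M σ (.y, true) (i, 0, n) = σ (i / M) := by simp [glab, h, h2]
        have e3 : gdl M (.y, true) (i, 0, n) L = tog i L := by simp [gdl, h, h2]
        rw [e1, e2, e3, kv_tog, rs_true (i := i) ⟨le_rfl, h2⟩, rs_false (by omega)]
        rfl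
      · have h3 : rs (i, j + 1, n) = rs (i, j, n) := rs_eq (by omega)
        simp [glab, gdl, gpos, h, h2, h3]
    · simp [glab, gdl, gpos, h]
  · by_cases h : i = 0 ∧ j = 0
    · obtain ⟨rfl, rfl⟩ := h
      have h3 : rs (0, 0, n - 1) = rs (0, 0, n) := rs_eq (by omega)
      simp [glab, gdl, gpos, h3]
    · simp [glab, gdl, gpos, h]
  · by_cases h : i = 0 ∧ j = 0
    · obtain ⟨rfl, rfl⟩ := h
      have h3 : rs (0, 0, n + 1) = rs (0, 0, n) := rs_eq (by omega)
      simp [glab, gdl, gpos, h3]
    · simp [glab, gdl, gpos, h]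

theorem glabs_kv (w : List (GdL × Bool)) (p : GP) :
    glabs M σ w p = kv M σ (gds M w p) (rs (ev (gpos M) w p)) := by
  induction w with
  | nil => rfl
  | cons a w ih =>
    rw [glabs, ih, glab_kv, ev_cons]
    rfl

theorem tog_parity (d : ℤ) (L : List ℤ) :
    ((tog d L).length % 2 = 1) ↔ ¬ (L.length % 2 = 1) := by
  cases L with
  | nil => simp [tog]
  | cons d' L =>
    by_cases h : d = d'
    · subst h; simp [tog]; omega
    · simp [tog, h]; omega

/-- the parity of the list -/
theorem gdl_parity (a : GdL × Bool) (q : GP) (L : List ℤ) (s : Bool)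
    (hq : rs q = xor s (decide (L.length % 2 = 1))) :
    rs (gpos M a q) = xor s (decide ((gdl M a q L).length % 2 = 1)) := by
  obtain ⟨i, j, n⟩ := q
  have htog : ∀ (q' : GP), rs q' = !rs ((i, j, n) : GP) →
      rs q' = xor s (decide ((tog i L).length % 2 = 1)) := by
    intro q' hq'
    rw [hq', hq]
    by_cases h : L.length % 2 = 1
    · have h2 : ¬ ((tog i L).length % 2 = 1) := fun h2 => (tog_parity i L).1 h2 h
      rw [decide_eq_true h, decide_eq_false h2]
      cases s <;> rfl
    · have h2 : (tog i L).length % 2 = 1 := (tog_parity i L).2 h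
      rw [decide_eq_false h, decide_eq_true h2]
      cases s <;> rfl
  rcases a with ⟨_ | _ | _, _ | _⟩
  · exact hq
  · exact hq
  · by_cases h : Door M i
    · by_cases h2 : j = 1 ∧ n < 0
      · obtain ⟨rfl, h2⟩ := h2
        have e1 : gpos M (.y, false) (i, 1, n) = (i, 0, n) := by simp [gpos, h]
        have e3 : gdl M (.y, false) (i, 1, n) L = tog i L := by simp [gdl, h, h2]
        rw [e1, e3]
        apply htog
        rw [rs_true ⟨le_rfl, h2⟩, rs_false (by omega)]
        rfl
      · have h3 : rs (i, j - 1, n) = rs (i, j, n) := rs_eq (by omega)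
        have e1 : gpos M (.y, false) (i, j, n) = (i, j - 1, n) := by simp [gpos, h]
        have e3 : gdl M (.y, false) (i, j, n) L = L := by simp [gdl, h2]
        rw [e1, e3, h3]
        exact hq
    · have e1 : gpos M (.y, false) (i, j, n) = (i, j, n) := by simp [gpos, h]
      have e3 : gdl M (.y, false) (i, j, n) L = L := by simp [gdl, h]
      rw [e1, e3]
      exact hq
  · by_cases h : Door M i
    · by_cases h2 : j = 0 ∧ n < 0
      · obtain ⟨rfl, h2⟩ := h2
        have e1 : gpos M (.y, true) (i, 0, n) = (i, 1, n) := by simp [gpos, h]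
        have e3 : gdl M (.y, true) (i, 0, n) L = tog i L := by simp [gdl, h, h2]
        rw [e1, e3]
        apply htog
        rw [rs_true ⟨le_rfl, h2⟩, rs_false (by omega)]
        rfl
      · have h3 : rs (i, j + 1, n) = rs (i, j, n) := rs_eq (by omega)
        have e1 : gpos M (.y, true) (i, j, n) = (i, j + 1, n) := by simp [gpos, h]
        have e3 : gdl M (.y, true) (i, j, n) L = L := by simp [gdl, h2]
        rw [e1, e3, h3]
        exact hq
    · have e1 : gpos M (.y, true) (i, j, n) = (i, j, n) := by simp [gpos, h]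
      have e3 : gdl M (.y, true) (i, j, n) L = L := by simp [gdl, h]
      rw [e1, e3]
      exact hq
  · by_cases h : i = 0 ∧ j = 0
    · obtain ⟨rfl, rfl⟩ := h
      have e1 : gpos M (.t, false) (0, 0, n) = (0, 0, n - 1) := by simp [gpos]
      rw [e1, show rs (0, 0, n - 1) = rs (0, 0, n) from rs_eq (by omega)]
      exact hq
    · have e1 : gpos M (.t, false) (i, j, n) = (i, j, n) := by simp [gpos, h]
      rw [e1]
      exact hq
  · by_cases h : i = 0 ∧ j = 0
    · obtain ⟨rfl, rfl⟩ := h
      have e1 : gpos M (.t, true) (0, 0, n) = (0, 0, n + 1) := by simp [gpos]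
      rw [e1, show rs (0, 0, n + 1) = rs (0, 0, n) from rs_eq (by omega)]
      exact hq
    · have e1 : gpos M (.t, true) (i, j, n) = (i, j, n) := by simp [gpos, h]
      rw [e1]
      exact hq

theorem gds_parity (w : List (GdL × Bool)) (p : GP) :
    rs (ev (gpos M) w p) = xor (rs p) (decide ((gds M w p).length % 2 = 1)) := by
  induction w with
  | nil => simp [gds]
  | cons a w ih => exact gdl_parity M a _ _ _ ih

/-! ### the potential -/

/-- the potential: total distance walked between the doors of the list -/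
def pot (i₀ : ℤ) : List ℤ → ℤ → ℕ
  | [], i => (i - i₀).natAbs
  | d :: L, i => (i - d).natAbs + pot i₀ L d

theorem pot_move (i₀ : ℤ) (L : List ℤ) (i i' : ℤ) (h : (i' - i).natAbs ≤ 1) :
    pot i₀ L i' ≤ pot i₀ L i + 1 := by
  cases L with
  | nil => simp only [pot]; omega
  | cons d L => simp only [pot]; omega

theorem pot_tog (i₀ : ℤ) (L : List ℤ) (i : ℤ) : pot i₀ (tog i L) i = pot i₀ L i := by
  cases L with
  | nil => simp [tog, pot]
  | cons d L =>
    by_cases h : i = d
    · subst h; simp [tog, pot]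
    · simp [tog, h, pot]

theorem pot_gds (w : List (GdL × Bool)) (p : GP) :
    pot p.1 (gds M w p) (ev (gpos M) w p).1 ≤ w.length := by
  induction w with
  | nil => simp [gds, pot]
  | cons a w ih =>
    rw [ev_cons, gds]
    generalize hq : ev (gpos M) w p = q at *
    generalize gds M w p = L at *
    obtain ⟨i, j, n⟩ := q
    have h0 : pot p.1 L i ≤ w.length := ih
    rw [List.length_cons]
    rcases a with ⟨_ | _ | _, _ | _⟩
    · refine (pot_move _ L i _ ?_).trans (by omega)
      simp only [gpos]; omega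
    · refine (pot_move _ L i _ ?_).trans (by omega)
      simp only [gpos]; omega
    · by_cases h : Door M i
      · by_cases h2 : j = 1 ∧ n < 0
        · simp only [gdl, gpos, h, h2, if_true, and_self, pot_tog]; omega
        · simp only [gdl, gpos, h, h2, if_true, true_and, if_false]; omega
      · simp only [gdl, gpos, h, false_and, if_false]; omega
    · by_cases h : Door M i
      · by_cases h2 : j = 0 ∧ n < 0
        · simp only [gdl, gpos, h, h2, if_true, and_self, pot_tog]; omega
        · simp only [gdl, gpos, h, h2, if_true, true_and, if_false]; omega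
      · simp only [gdl, gpos, h, false_and, if_false]; omega
    · by_cases h : i = 0 ∧ j = 0
      · simp only [gdl, gpos, h, and_self, if_true]
        obtain ⟨rfl, -⟩ := h
        omega
      · simp only [gdl, gpos, h, if_false]; omega
    · by_cases h : i = 0 ∧ j = 0
      · simp only [gdl, gpos, h, and_self, if_true]
        obtain ⟨rfl, -⟩ := h
        omega
      · simp only [gdl, gpos, h, if_false]; omega

/-- a good list of doors: adjacent doors differ -/
def GoodL (L : List ℤ) : Prop := (∀ d ∈ L, Door M d) ∧ L.IsChain (· ≠ ·)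

theorem goodL_tog {L : List ℤ} (h : GoodL M L) {d : ℤ} (hd : Door M d) : GoodL M (tog d L) := by
  cases L with
  | nil => exact ⟨by simpa [tog] using hd, by simp [tog]⟩
  | cons d' L =>
    by_cases h2 : d = d'
    · simp only [tog, if_pos h2]
      exact ⟨fun x hx => h.1 x (List.mem_cons_of_mem _ hx), h.2.tail⟩
    · simp only [tog, if_neg h2]
      refine ⟨?_, ?_⟩
      · intro x hx
        rcases List.mem_cons.1 hx with rfl | hx
        · exact hd
        · exact h.1 x hx
      · exact List.isChain_cons_cons.2 ⟨h2, h.2⟩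

theorem goodL_gds (w : List (GdL × Bool)) (p : GP) : GoodL M (gds M w p) := by
  induction w with
  | nil => exact ⟨by simp [gds], by simp [gds]⟩
  | cons a w ih =>
    rw [gds]
    generalize ev (gpos M) w p = q at *
    obtain ⟨i, j, n⟩ := q
    rcases a with ⟨_ | _ | _, _ | _⟩
    · exact ih
    · exact ih
    · simp only [gdl]
      split_ifs with h
      · exact goodL_tog M ih h.1
      · exact ih
    · simp only [gdl]
      split_ifs with h
      · exact goodL_tog M ih h.1
      · exact ih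
    · exact ih
    · exact ih

theorem door_dist {d d' : ℤ} (h : Door M d) (h' : Door M d') (hne : d ≠ d') :
    M ≤ (d - d').natAbs := by
  obtain ⟨k, rfl⟩ := h.1
  obtain ⟨l, rfl⟩ := h'.1
  have : k - l ≠ 0 := fun h => hne (by rw [sub_eq_zero.1 h])
  rw [← mul_sub, Int.natAbs_mul, Int.natAbs_natCast]
  exact Nat.le_mul_of_pos_right _ (Int.natAbs_pos.2 this)

theorem door_zero {d : ℤ} (h : Door M d) : M ≤ d.natAbs := by
  obtain ⟨k, rfl⟩ := h.1
  have : k ≠ 0 := fun hk => h.2 (by rw [hk, mul_zero])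
  rw [Int.natAbs_mul, Int.natAbs_natCast]
  exact Nat.le_mul_of_pos_right _ (Int.natAbs_pos.2 this)

/-- lower bound of the potential -/
theorem pot_lower (i₀ : ℤ) (L : List ℤ) (h : GoodL M L) (i : ℤ) :
    M * L.length ≤ pot i₀ L i + M := by
  have key : ∀ (L : List ℤ) (d : ℤ), GoodL M (d :: L) → M * L.length ≤ pot i₀ L d := by
    intro L
    induction L with
    | nil => intro d _; simp
    | cons d' L ih =>
      intro d h
      have h1 := ih d' ⟨fun x hx => h.1 x (List.mem_cons_of_mem _ hx), h.2.tail⟩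
      have h2 := door_dist M (h.1 d (by simp)) (h.1 d' (by simp)) (List.isChain_cons_cons.1 h.2).1
      simp only [pot, List.length_cons, Nat.mul_add, Nat.mul_one]
      omega
  cases L with
  | nil => simp
  | cons d L =>
    have := key L d h
    simp only [pot, List.length_cons, Nat.mul_add, Nat.mul_one]
    omega

theorem pot_lower_zero (L : List ℤ) (h : GoodL M L) (i : ℤ) :
    M * L.length ≤ pot 0 L i := by
  have key : ∀ (L : List ℤ) (d : ℤ), GoodL M (d :: L) → M * (L.length + 1) ≤ pot 0 L d := by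
    intro L
    induction L with
    | nil =>
      intro d h
      have := door_zero M (h.1 d (by simp))
      simp only [pot, List.length_nil, Nat.zero_add, Nat.mul_one, sub_zero]
      omega
    | cons d' L ih =>
      intro d h
      have h1 := ih d' ⟨fun x hx => h.1 x (List.mem_cons_of_mem _ hx), h.2.tail⟩
      have h2 := door_dist M (h.1 d (by simp)) (h.1 d' (by simp)) (List.isChain_cons_cons.1 h.2).1
      simp only [pot, List.length_cons, Nat.mul_add, Nat.mul_one] at h1 ⊢
      omega
  cases L with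
  | nil => simp
  | cons d L =>
    have := key L d h
    simp only [pot, List.length_cons]
    omega

variable {M}

/-- **sections from the base position** -/
theorem gds_base (w : List (GdL × Bool)) (n : ℤ) (j : ℤ) :
    M * (gds M w (0, j, n)).length ≤ w.length :=
  (pot_lower_zero M _ (goodL_gds M w _) _).trans (pot_gds M w (0, j, n))

/-- **sections of closed words** -/
theorem gds_closed (hM : 0 < M) (w : List (GdL × Bool)) (p : GP) (h : ev (gpos M) w p = p) :
    (gds M w p).length ≤ 2 * (w.length / M) := by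
  have h1 := pot_gds M w p
  have h2 := pot_lower M p.1 _ (goodL_gds M w p) (ev (gpos M) w p).1
  have h3 := gds_parity M w p
  rw [h] at h3
  have h4 : (gds M w p).length % 2 = 0 := by
    by_contra hc
    have : (gds M w p).length % 2 = 1 := by omega
    rw [this] at h3
    rcases rs p with _ | _ <;> simp at h3
  set l := (gds M w p).length with hl
  have h5 : M * l ≤ w.length + M := by omega
  have h6 : l ≤ w.length / M + 1 := by
    have : (M * l) / M ≤ (w.length + M) / M := Nat.div_le_div_right h5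
    rw [Nat.mul_div_cancel_left _ hM, Nat.add_div_right _ hM] at this
    exact this
  rcases Nat.eq_zero_or_pos (w.length / M) with h7 | h7
  · omega
  · omega

end guard

end Crest.Agent.R185.Smp
private theorem rz_3b97ae3b52 : type_of% @_root_.Crest.Agent.R185.Smp.gdl.eq_1 := @_root_.Crest.Agent.R185.Smp.gdl.eq_1 -- L134
private theorem rz_f4438dedfd : type_of% @_root_.Crest.Agent.R185.Smp.gds.eq_def := @_root_.Crest.Agent.R185.Smp.gds.eq_def -- L141
private theorem rz_e59169c5bb : type_of% @_root_.Crest.Agent.R185.Smp.gds.eq_1 := @_root_.Crest.Agent.R185.Smp.gds.eq_1 -- L141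
private theorem rz_4b62737839 : type_of% @_root_.Crest.Agent.R185.Smp.glab.eq_1 := @_root_.Crest.Agent.R185.Smp.glab.eq_1 -- L48
private theorem rz_2bf53fd3c6 : type_of% @_root_.Crest.Agent.R185.Smp.glabs.eq_def := @_root_.Crest.Agent.R185.Smp.glabs.eq_def -- L116
private theorem rz_af5127d2d0 : type_of% @_root_.Crest.Agent.R185.Smp.glabs.eq_1 := @_root_.Crest.Agent.R185.Smp.glabs.eq_1 -- L116
private theorem rz_ab15052dcd : type_of% @_root_.Crest.Agent.R185.Smp.gpos.eq_1 := @_root_.Crest.Agent.R185.Smp.gpos.eq_1 -- L39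
private theorem rz_ec97ac44f0 : type_of% @_root_.Crest.Agent.R185.Smp.kv.eq_def := @_root_.Crest.Agent.R185.Smp.kv.eq_def -- L149
private theorem rz_56a335241c : type_of% @_root_.Crest.Agent.R185.Smp.kv.eq_1 := @_root_.Crest.Agent.R185.Smp.kv.eq_1 -- L149
private theorem rz_c60b01a8ad : type_of% @_root_.Crest.Agent.R185.Smp.pot.eq_def := @_root_.Crest.Agent.R185.Smp.pot.eq_def -- L311
private theorem rz_9cac1f8524 : type_of% @_root_.Crest.Agent.R185.Smp.pot.eq_1 := @_root_.Crest.Agent.R185.Smp.pot.eq_1 -- L311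
private theorem rz_8a53252746 : type_of% @_root_.Crest.Agent.R185.Smp.tog.eq_1 := @_root_.Crest.Agent.R185.Smp.tog.eq_1 -- L129
end

-- ▼ part R185/Smp8
section

/-!
# R185 / SMP (8): the guard: independence of far positions, types, the words of the letters
-/

set_option autoImplicit false

namespace Crest.Agent.R185.Smp

/-! ### labels from letters -/

section lab

variable {C Z Z' : Type} (M : ℕ) (lt : ℤ → Option C) (p : C → Equiv.Perm Z)

/-- the labels of the doors -/
def sig (k : ℤ) : Equiv.Perm Z := (lt k).elim 1 p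

/-- the word of a list of doors -/
def kwd : List ℤ → Bool → List (C × Bool)
  | [], _ => []
  | d :: L, s => match lt (d / M) with
    | some c => (c, s) :: kwd L (!s)
    | none => kwd L (!s)

theorem kwd_length (L : List ℤ) (s : Bool) : (kwd M lt L s).length ≤ L.length := by
  induction L generalizing s with
  | nil => simp [kwd]
  | cons d L ih =>
    have := ih (!s)
    unfold kwd
    cases lt (d / M) with
    | none => simp only [List.length_cons]; omega
    | some c => simp only [List.length_cons]; omega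

theorem kv_kwd (L : List ℤ) (s : Bool) (z : Z) :
    kv M (sig lt p) L s z = ev (sg p) (kwd M lt L s) z := by
  induction L generalizing s with
  | nil => rfl
  | cons d L ih =>
    unfold kv kwd
    rw [Equiv.Perm.mul_apply, ih]
    cases h : lt (d / M) with
    | none =>
      have : sig lt p (d / M) = 1 := by simp [sig, h]
      rw [this]
      rcases s with _ | _ <;> simp
    | some c =>
      have : sig lt p (d / M) = p c := by simp [sig, h]
      rw [this, ev_cons]
      rcases s with _ | _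
      · rw [sg_false]; simp
      · rw [sg_true]; simp

/-- the label of a word of guard letters as a word -/
theorem glabs_word (w : List (GdL × Bool)) (q : GP) (z : Z) :
    glabs M (sig lt p) w q z = ev (sg p) (kwd M lt (gds M w q) (rs (ev (gpos M) w q))) z := by
  rw [glabs_kv, kv_kwd]

end lab

/-! ### translation of far positions -/

/-- `p'` is a translate of `p`, and the two are indistinguishable for `m` steps -/
structure SR (M J : ℕ) (α β γ : ℤ) (m : ℕ) (p p' : GP) : Prop where
  hi : p'.1 = p.1 + α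
  hj : p'.2.1 = p.2.1 + β
  hn : p'.2.2 = p.2.2 + γ
  ci : α = 0 ∨ ((M : ℤ) ∣ α ∧ ((M * J + m < p.1 ∧ M * J + m < p'.1) ∨ (p.1 < -m ∧ p'.1 < -m)))
  cj : β = 0 ∨ ((m + 1 < p.2.1 ∧ m + 1 < p'.2.1) ∨ (p.2.1 < -m ∧ p'.2.1 < -m))
  cn : γ = 0 ∨ ((m < p.2.2 ∧ m < p'.2.2) ∨ (p.2.2 < -m ∧ p'.2.2 < -m))

section sr

variable {M J : ℕ} {α β γ : ℤ}

theorem SR.door {m : ℕ} {p p' : GP} (h : SR M J α β γ (m + 1) p p') :
    Door M p.1 ↔ Door M p'.1 := by
  unfold Door
  rcases h.ci with h1 | ⟨h1, h2⟩
  · rw [h.hi, h1, add_zero]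
  · rw [h.hi, (Int.dvd_add_left h1 : (M : ℤ) ∣ p.1 + α ↔ (M : ℤ) ∣ p.1)]
    have h3 := h.hi
    have h4 : (0 : ℤ) ≤ M * J := by positivity
    constructor
    · rintro ⟨h5, h6⟩
      exact ⟨h5, by omega⟩
    · rintro ⟨h5, h6⟩
      exact ⟨h5, by omega⟩

theorem SR.zero {m : ℕ} {p p' : GP} (h : SR M J α β γ (m + 1) p p') :
    (p.1 = 0 ∧ p.2.1 = 0) ↔ (p'.1 = 0 ∧ p'.2.1 = 0) := by
  have h1 := h.hi
  have h2 := h.hj
  have h4 : (0 : ℤ) ≤ M * J := by positivity
  rcases h.ci with h3 | ⟨-, h3⟩ <;> rcases h.cj with h5 | h5 <;> omega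

theorem SR.step {m : ℕ} {p p' : GP} (h : SR M J α β γ (m + 1) p p') (a : GdL × Bool) :
    SR M J α β γ m (gpos M a p) (gpos M a p') := by
  have hd := h.door
  have hz := h.zero
  obtain ⟨i, j, n⟩ := p
  obtain ⟨i', j', n'⟩ := p'
  have hi := h.hi
  have hj := h.hj
  have hn := h.hn
  have ci := h.ci
  have cj := h.cj
  have cn := h.cn
  push_cast at ci cj cn hi hj hn
  simp only at hd hz hi hj hn ci cj cn
  have ci' : ∀ c : ℤ, -1 ≤ c → c ≤ 1 → (α = 0 ∨ ((M : ℤ) ∣ α ∧
      ((M * J + m < i + c ∧ M * J + m < i' + c) ∨ (i + c < -m ∧ i' + c < -m)))) := by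
    intro c h1 h2
    rcases ci with h3 | ⟨h3, h4⟩
    · exact Or.inl h3
    · exact Or.inr ⟨h3, by omega⟩
  rcases a with ⟨_ | _ | _, _ | _⟩
  · exact ⟨by simp only [gpos]; omega, hj, hn, by simpa [gpos, sub_eq_add_neg] using ci' (-1) le_rfl (by omega),
      by simp only [gpos]; omega, by simp only [gpos]; omega⟩
  · exact ⟨by simp only [gpos]; omega, hj, hn, by simpa [gpos] using ci' 1 (by omega) le_rfl,
      by simp only [gpos]; omega, by simp only [gpos]; omega⟩
  · by_cases h1 : Door M i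
    · have h2 := hd.1 h1
      simp only [gpos, h1, h2, if_true]
      exact ⟨hi, by simp only; omega, hn, by simpa using ci' 0 (by omega) (by omega),
        by simp only; omega, by simp only; omega⟩
    · have h2 : ¬ Door M i' := fun h2 => h1 (hd.2 h2)
      simp only [gpos, h1, h2, if_false]
      exact ⟨hi, hj, hn, by simpa using ci' 0 (by omega) (by omega),
        by simp only; omega, by simp only; omega⟩
  · by_cases h1 : Door M i
    · have h2 := hd.1 h1
      simp only [gpos, h1, h2, if_true]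
      exact ⟨hi, by simp only; omega, hn, by simpa using ci' 0 (by omega) (by omega),
        by simp only; omega, by simp only; omega⟩
    · have h2 : ¬ Door M i' := fun h2 => h1 (hd.2 h2)
      simp only [gpos, h1, h2, if_false]
      exact ⟨hi, hj, hn, by simpa using ci' 0 (by omega) (by omega),
        by simp only; omega, by simp only; omega⟩
  · by_cases h1 : i = 0 ∧ j = 0
    · have h2 := hz.1 h1
      simp only [gpos, h1, h2, and_self, if_true]
      exact ⟨by simp only; omega, by simp only; omega, by simp only; omega,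
        by simp only; left; omega, by simp only; left; omega, by simp only; omega⟩
    · have h2 : ¬ (i' = 0 ∧ j' = 0) := fun h2 => h1 (hz.2 h2)
      simp only [gpos, h1, h2, if_false]
      exact ⟨hi, hj, hn, by simpa using ci' 0 (by omega) (by omega),
        by simp only; omega, by simp only; omega⟩
  · by_cases h1 : i = 0 ∧ j = 0
    · have h2 := hz.1 h1
      simp only [gpos, h1, h2, and_self, if_true]
      exact ⟨by simp only; omega, by simp only; omega, by simp only; omega,
        by simp only; left; omega, by simp only; left; omega, by simp only; omega⟩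
    · have h2 : ¬ (i' = 0 ∧ j' = 0) := fun h2 => h1 (hz.2 h2)
      simp only [gpos, h1, h2, if_false]
      exact ⟨hi, hj, hn, by simpa using ci' 0 (by omega) (by omega),
        by simp only; omega, by simp only; omega⟩

theorem SR.le {m m' : ℕ} (hm : m' ≤ m) {p p' : GP} (h : SR M J α β γ m p p') :
    SR M J α β γ m' p p' := by
  have ci := h.ci
  have cj := h.cj
  have cn := h.cn
  refine ⟨h.hi, h.hj, h.hn, ?_, by omega, by omega⟩
  rcases ci with h3 | ⟨h3, h4⟩
  · exact Or.inl h3
  · exact Or.inr ⟨h3, by omega⟩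

variable {C Z : Type} {lt : ℤ → Option C} (q : C → Equiv.Perm Z)

/-- same labels -/
theorem SR.lab (hlt : ∀ k c, lt k = some c → 1 ≤ k ∧ k ≤ J) (hM : 0 < M) {m : ℕ} {p p' : GP}
    (h : SR M J α β γ (m + 1) p p') (a : GdL × Bool) :
    glab M (sig lt q) a p = glab M (sig lt q) a p' := by
  have hd := h.door
  have hs : Door M p.1 → sig lt q (p.1 / M) = sig lt q (p'.1 / M) := by
    intro hdp
    rcases h.ci with h3 | ⟨h3, h4⟩
    · rw [h.hi, h3, add_zero]
    · have hout : ∀ i : ℤ, (M : ℤ) ∣ i → ((M * J + (m + 1 : ℕ) < i) ∨ i < -((m + 1 : ℕ) : ℤ)) →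
          sig lt q (i / M) = 1 := by
        rintro i ⟨k, rfl⟩ hi
        rw [Int.mul_ediv_cancel_left _ (by omega)]
        have hk : lt k = none := by
          rcases hk : lt k with _ | c
          · rfl
          · exfalso
            obtain ⟨h5, h6⟩ := hlt k c hk
            rcases hi with hi | hi
            · have : (M : ℤ) * k ≤ M * J := mul_le_mul_of_nonneg_left h6 (by omega)
              omega
            · have : 0 ≤ (M : ℤ) * k := mul_nonneg (by omega) (by omega)
              omega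
        simp [sig, hk]
      have hd' := hd.1 hdp
      rw [hout _ hdp.1 (by omega), hout _ hd'.1 (by omega)]
  obtain ⟨i, j, n⟩ := p
  obtain ⟨i', j', n'⟩ := p'
  have hj := h.hj
  have hn := h.hn
  have cj := h.cj
  have cn := h.cn
  simp only at hd hs hj hn cj cn
  rcases a with ⟨_ | _ | _, _ | _⟩
  · rfl
  · rfl
  · have h1 : (Door M i ∧ j = 1 ∧ n < 0) ↔ (Door M i' ∧ j' = 1 ∧ n' < 0) := by
      rw [hd]
      constructor
      · rintro ⟨h1, h2, h3⟩; exact ⟨h1, by omega, by omega⟩
      · rintro ⟨h1, h2, h3⟩; exact ⟨h1, by omega, by omega⟩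
    simp only [glab]
    by_cases h2 : Door M i ∧ j = 1 ∧ n < 0
    · rw [if_pos h2, if_pos (h1.1 h2), hs h2.1]
    · rw [if_neg h2, if_neg (fun h3 => h2 (h1.2 h3))]
  · have h1 : (Door M i ∧ j = 0 ∧ n < 0) ↔ (Door M i' ∧ j' = 0 ∧ n' < 0) := by
      rw [hd]
      constructor
      · rintro ⟨h1, h2, h3⟩; exact ⟨h1, by omega, by omega⟩
      · rintro ⟨h1, h2, h3⟩; exact ⟨h1, by omega, by omega⟩
    simp only [glab]
    by_cases h2 : Door M i ∧ j = 0 ∧ n < 0
    · rw [if_pos h2, if_pos (h1.1 h2), hs h2.1]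
    · rw [if_neg h2, if_neg (fun h3 => h2 (h1.2 h3))]
  · rfl
  · rfl

theorem SR.ev {N : ℕ} (hlt : ∀ k c, lt k = some c → 1 ≤ k ∧ k ≤ J) (hM : 0 < M) {p p' : GP}
    (h : SR M J α β γ N p p') (w : List (GdL × Bool)) :
    ∀ m, w.length + m ≤ N → SR M J α β γ m (Smp.ev (gpos M) w p) (Smp.ev (gpos M) w p') ∧
      glabs M (sig lt q) w p = glabs M (sig lt q) w p' := by
  induction w with
  | nil => intro m hm; exact ⟨h.le (by simpa using hm), rfl⟩
  | cons a w ih =>
    intro m hm
    obtain ⟨h1, h2⟩ := ih (m + 1) (by simp at hm; omega)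
    refine ⟨h1.step a, ?_⟩
    rw [glabs, glabs, h2, h1.lab q hlt hM a]

theorem SR.fix {N : ℕ} {p p' : GP} (h : SR M J α β γ N p p') (w : List (GdL × Bool))
    (hw : SR M J α β γ 0 (Smp.ev (gpos M) w p) (Smp.ev (gpos M) w p')) :
    Smp.ev (gpos M) w p = p ↔ Smp.ev (gpos M) w p' = p' := by
  have h1 := h.hi
  have h2 := h.hj
  have h3 := h.hn
  have k1 := hw.hi
  have k2 := hw.hj
  have k3 := hw.hn
  obtain ⟨i, j, n⟩ := p
  obtain ⟨i', j', n'⟩ := p'
  generalize Smp.ev (gpos M) w (i, j, n) = r at *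
  generalize Smp.ev (gpos M) w (i', j', n') = r' at *
  obtain ⟨a, b, c⟩ := r
  obtain ⟨a', b', c'⟩ := r'
  simp only at h1 h2 h3 k1 k2 k3
  rw [Prod.mk.injEq, Prod.mk.injEq, Prod.mk.injEq, Prod.mk.injEq]
  constructor
  · rintro ⟨h4, h5, h6⟩; exact ⟨by omega, by omega, by omega⟩
  · rintro ⟨h4, h5, h6⟩; exact ⟨by omega, by omega, by omega⟩

/-- small positions -/
theorem exists_smallpos (hM : 0 < M) (J N : ℕ) (p : GP) : ∃ (p' : GP) (α β γ : ℤ),
    SR M J α β γ N p p' ∧ p'.1.natAbs ≤ M * J + N + 1 + M ∧ p'.2.1.natAbs ≤ N + 2 ∧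
      p'.2.2.natAbs ≤ N + 1 := by
  obtain ⟨i, j, n⟩ := p
  obtain ⟨i', α, hi, ci, bi⟩ : ∃ i' α : ℤ, i' = i + α ∧ (α = 0 ∨ ((M : ℤ) ∣ α ∧
      ((M * J + N < i ∧ M * J + N < i') ∨ (i < -N ∧ i' < -N)))) ∧
      i'.natAbs ≤ M * J + N + 1 + M := by
    have hJ : (0 : ℤ) ≤ M * J := by positivity
    have hJ' : ((M * J : ℕ) : ℤ) = (M : ℤ) * J := by push_cast; rfl
    have hM' : (0 : ℤ) < M := by exact_mod_cast hM
    by_cases h1 : (M * J + N : ℤ) < i
    · set B : ℤ := M * J + N + 1 with hB
      have h2 := Int.emod_nonneg (i - B) hM'.ne'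
      have h3 := Int.emod_lt_of_pos (i - B) hM'
      have h4 := Int.mul_ediv_add_emod (i - B) M
      refine ⟨B + (i - B) % M, -(M * ((i - B) / M)), by omega, Or.inr ⟨?_, Or.inl ⟨h1, by omega⟩⟩,
        by omega⟩
      exact (dvd_mul_right _ _).neg_right
    · by_cases h1' : i < -(N : ℤ)
      · set B : ℤ := -(N : ℤ) - 1 with hB
        have h2 := Int.emod_nonneg (B - i) hM'.ne'
        have h3 := Int.emod_lt_of_pos (B - i) hM'
        have h4 := Int.mul_ediv_add_emod (B - i) M
        refine ⟨B - (B - i) % M, M * ((B - i) / M), by omega,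
          Or.inr ⟨dvd_mul_right _ _, Or.inr ⟨h1', by omega⟩⟩, by omega⟩
      · exact ⟨i, 0, by omega, Or.inl rfl, by omega⟩
  obtain ⟨j', β, hj, cj, bj⟩ : ∃ j' β : ℤ, j' = j + β ∧ (β = 0 ∨ ((N + 1 < j ∧ N + 1 < j') ∨
      (j < -N ∧ j' < -N))) ∧ j'.natAbs ≤ N + 2 := by
    by_cases h1 : (N + 1 : ℤ) < j
    · exact ⟨N + 2, N + 2 - j, by omega, Or.inr (Or.inl ⟨h1, by omega⟩), by omega⟩
    · by_cases h2 : j < -(N : ℤ)
      · exact ⟨-N - 1, -N - 1 - j, by omega, Or.inr (Or.inr ⟨h2, by omega⟩), by omega⟩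
      · exact ⟨j, 0, by omega, Or.inl rfl, by omega⟩
  obtain ⟨n', γ, hn, cn, bn⟩ : ∃ n' γ : ℤ, n' = n + γ ∧ (γ = 0 ∨ ((N < n ∧ N < n') ∨
      (n < -N ∧ n' < -N))) ∧ n'.natAbs ≤ N + 1 := by
    by_cases h1 : (N : ℤ) < n
    · exact ⟨N + 1, N + 1 - n, by omega, Or.inr (Or.inl ⟨h1, by omega⟩), by omega⟩
    · by_cases h2 : n < -(N : ℤ)
      · exact ⟨-N - 1, -N - 1 - n, by omega, Or.inr (Or.inr ⟨h2, by omega⟩), by omega⟩
      · exact ⟨n, 0, by omega, Or.inl rfl, by omega⟩
  exact ⟨(i', j', n'), α, β, γ, ⟨hi, hj, hn, ci, cj, cn⟩, bi, bj, bn⟩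

end sr

/-! ### types of guard points -/

section types

variable {M J : ℕ} {C Z Z' : Type} {lt : ℤ → Option C} {q : C → Equiv.Perm Z}
  {q' : C → Equiv.Perm Z'}

theorem pair_iff {P Z : Type} (a c : P) (b d : Z) : ((a, b) : P × Z) = (c, d) ↔ a = c ∧ b = d := by
  simp

/-- types at the base point -/
theorem guard_type_base {n N : ℕ} (hN : N < M * (n + 1)) {z : Z} {z' : Z'} {j m : ℤ}
    (hz : TyEq (sg q) (sg q') n (fun _ : Fin 1 => z) (fun _ => z')) :
    TyEq (gstep M (sig lt q)) (gstep M (sig lt q')) N (fun _ : Fin 1 => ((0, j, m), z))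
      (fun _ => ((0, j, m), z')) := by
  intro a b w hw
  rw [ev_gstep, ev_gstep, glabs_word, glabs_word]
  have h1 := gds_base (M := M) w m j
  have h2 := kwd_length M lt (gds M w (0, j, m)) (rs (ev (gpos M) w (0, j, m)))
  have h3 : (gds M w (0, j, m)).length ≤ n := by
    by_contra hc
    have : M * (n + 1) ≤ M * (gds M w (0, j, m)).length := Nat.mul_le_mul_left _ (by omega)
    omega
  refine (pair_iff _ _ _ _).trans (Iff.trans ?_ (pair_iff _ _ _ _).symm)
  exact and_congr_right fun _ => hz 0 0 _ (h2.trans h3)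

/-- types at a general point -/
theorem guard_type {α β γ : ℤ} {N : ℕ} (hlt : ∀ k c, lt k = some c → 1 ≤ k ∧ k ≤ J) (hM : 0 < M)
    {p p' : GP} (hp : SR M J α β γ N p p') {z z' : Z}
    (hz : TyEq (sg q) (sg q) (2 * (N / M)) (fun _ : Fin 1 => z) (fun _ => z')) :
    TyEq (gstep M (sig lt q)) (gstep M (sig lt q)) N (fun _ : Fin 1 => (p, z))
      (fun _ => (p', z')) := by
  intro a b w hw
  obtain ⟨h1, h2⟩ := hp.ev q hlt hM w 0 (by simpa using hw)
  have h3 := hp.fix w h1
  rw [ev_gstep, ev_gstep, ← h2]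
  refine (pair_iff _ _ _ _).trans (Iff.trans ?_ (pair_iff _ _ _ _).symm)
  rw [← h3]
  refine and_congr_right fun h4 => ?_
  rw [glabs_word, glabs_word]
  have h5 := gds_closed (M := M) hM w p h4
  have h6 : w.length / M ≤ N / M := Nat.div_le_div_right hw
  have h7 := kwd_length M lt (gds M w p) (rs (ev (gpos M) w p))
  exact hz 0 0 _ ((h7.trans h5).trans (Nat.mul_le_mul_left 2 h6))

end types

end Crest.Agent.R185.Smp
private theorem rz_f52ee9e28b : type_of% @_root_.Crest.Agent.R185.Smp.kwd.eq_def := @_root_.Crest.Agent.R185.Smp.kwd.eq_def -- L21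
private theorem rz_70ab0def3c : type_of% @_root_.Crest.Agent.R185.Smp.kwd.eq_1 := @_root_.Crest.Agent.R185.Smp.kwd.eq_1 -- L21
end

-- ▼ part R185/Smp9
section

/-!
# R185 / SMP (9): the guard words of the letters, reaching guard points
-/

set_option autoImplicit false

namespace Crest.Agent.R185.Smp

section words

variable {Z : Type} (M : ℕ) (σ : ℤ → Equiv.Perm Z)

theorem gstep_inv : Inv (gstep M σ) ginv := by
  refine ⟨fun a y => gstep_ginv M σ a y, fun a y => ?_⟩
  have := gstep_ginv M σ (ginv a) y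
  rwa [ginv_ginv] at this

/-- `x ^ k` -/
def xw (k : ℤ) : List (GdL × Bool) := List.replicate k.natAbs (.x, decide (0 ≤ k))

/-- `t ^ k` -/
def tw (k : ℤ) : List (GdL × Bool) := List.replicate k.natAbs (.t, decide (0 ≤ k))

/-- `y ^ k` -/
def yw (k : ℤ) : List (GdL × Bool) := List.replicate k.natAbs (.y, decide (0 ≤ k))

@[simp] theorem xw_length (k : ℤ) : (xw k).length = k.natAbs := by simp [xw]
@[simp] theorem tw_length (k : ℤ) : (tw k).length = k.natAbs := by simp [tw]
@[simp] theorem yw_length (k : ℤ) : (yw k).length = k.natAbs := by simp [yw]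

theorem ev_replicate {A Y : Type} (act : A → Y → Y) (a : A) (f : ℤ → Y) (c : ℤ)
    (h : ∀ i, act a (f i) = f (i + c)) (n : ℕ) (i : ℤ) :
    ev act (List.replicate n a) (f i) = f (i + n * c) := by
  induction n with
  | zero => simp
  | succ n ih =>
    rw [List.replicate_succ, ev_cons, ih, h]
    congr 1
    push_cast
    ring

theorem ev_pow {Y : Type} (act : GdL × Bool → Y → Y) (a : GdL) (f : ℤ → Y)
    (h : ∀ i, act (a, true) (f i) = f (i + 1)) (h' : ∀ i, act (a, false) (f i) = f (i - 1))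
    (k i : ℤ) : ev act (List.replicate k.natAbs (a, decide (0 ≤ k))) (f i) = f (i + k) := by
  by_cases hk : 0 ≤ k
  · rw [decide_eq_true hk, ev_replicate act (a, true) f 1 h]
    congr 1
    rw [mul_one, Int.natAbs_of_nonneg hk]
  · rw [decide_eq_false hk, ev_replicate act (a, false) f (-1) (fun i => by rw [h']; rfl)]
    congr 1
    have : (k.natAbs : ℤ) = -k := by omega
    rw [this]
    ring

theorem ev_xw (k i j n : ℤ) (z : Z) :
    ev (gstep M σ) (xw k) ((i, j, n), z) = ((i + k, j, n), z) :=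
  ev_pow (gstep M σ) .x (fun i => ((i, j, n), z)) (fun _ => rfl) (fun _ => rfl) k i

theorem ev_tw (k n : ℤ) (z : Z) :
    ev (gstep M σ) (tw k) ((0, 0, n), z) = ((0, 0, n + k), z) := by
  refine ev_pow (gstep M σ) .t (fun n => ((0, 0, n), z)) (fun m => ?_) (fun m => ?_) k n
  · simp [gstep, gpos, glab]
  · simp [gstep, gpos, glab]

theorem ev_yw {i : ℤ} (hi : Door M i) (hs : σ (i / M) = 1) (k j n : ℤ) (z : Z) :
    ev (gstep M σ) (yw k) ((i, j, n), z) = ((i, j + k, n), z) := by
  refine ev_pow (gstep M σ) .y (fun j => ((i, j, n), z)) (fun m => ?_) (fun m => ?_) k j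
  · have : glab M σ (.y, true) (i, m, n) = 1 := by simp [glab, hs]
    simp [gstep, gpos, this, hi]
  · have : glab M σ (.y, false) (i, m, n) = 1 := by simp [glab, hs]
    simp [gstep, gpos, this, hi]

/-- the loop through the door `k` -/
def wW (k : ℤ) : List (GdL × Bool) :=
  xw M ++ (.y, false) :: (xw (-M) ++ (xw (-(M * k)) ++ (.y, true) :: xw (M * k)))

/-- the commutator `[t, W]` -/
def kW (k : ℤ) : List (GdL × Bool) :=
  (.t, true) :: (wW M k ++ (.t, false) :: iw ginv (wW M k))

theorem wW_length (k : ℤ) : (wW M k).length = 2 * M + 2 + 2 * (M * k.natAbs) := by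
  have h1 : ((M : ℤ) * k).natAbs = M * k.natAbs := by rw [Int.natAbs_mul, Int.natAbs_natCast]
  unfold wW
  simp only [List.length_append, List.length_cons, xw_length, Int.natAbs_neg, h1,
    Int.natAbs_natCast]
  ring

theorem kW_length (k : ℤ) : (kW M k).length = 2 * (wW M k).length + 2 := by
  unfold kW
  simp only [List.length_append, List.length_cons, iw_length]
  ring

variable {M σ}

theorem ev_wW (hM : 0 < M) (h1 : σ (-1) = 1) {k : ℤ} (hk : k ≠ 0) (n : ℤ) (z : Z) :
    ev (gstep M σ) (wW M k) ((0, 0, n), z) = ((0, 0, n), if n < 0 then σ k z else z) := by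
  have hM' : (M : ℤ) ≠ 0 := by omega
  have hd : Door M (M * k) := ⟨dvd_mul_right _ _, mul_ne_zero hM' hk⟩
  have hd' : Door M (-M) := ⟨(dvd_refl _).neg_right, neg_ne_zero.2 hM'⟩
  have e1 : (M : ℤ) * k / M = k := Int.mul_ediv_cancel_left _ hM'
  have e2 : -(M : ℤ) / M = -1 := by
    rw [Int.neg_ediv_of_dvd (dvd_refl _), Int.ediv_self hM']
  unfold wW
  rw [ev_append, ev_cons, ev_append, ev_append, ev_cons, ev_xw M σ (M * k) 0 0 n z]
  have h2 : gstep M σ (.y, true) ((0 + M * k, 0, n), z) =
      ((M * k, 1, n), if n < 0 then σ k z else z) := by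
    rw [zero_add]
    by_cases hn : n < 0
    · simp [gstep, gpos, glab, hd, hn, e1]
    · simp [gstep, gpos, glab, hd, hn]
  rw [h2, ev_xw M σ (-(M * k)) (M * k) 1 n _, ev_xw M σ (-M) (M * k + -(M * k)) 1 n _]
  have h3 : ∀ z', gstep M σ (.y, false) ((M * k + -(M * k) + -(M : ℤ), 1, n), z') =
      ((-(M : ℤ), 0, n), z') := by
    intro z'
    rw [add_neg_cancel, zero_add]
    by_cases hn : n < 0
    · simp [gstep, gpos, glab, hd', hn, e2, h1]
    · simp [gstep, gpos, glab, hd', hn]
  rw [h3, ev_xw M σ M (-M) 0 n _, neg_add_cancel]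

/-- a permutation acting on the fibre over `(0, 0, 0)` -/
def blk (τ : Equiv.Perm Z) : Equiv.Perm (GX Z) where
  toFun q := if q.1 = (0, 0, 0) then (q.1, τ q.2) else q
  invFun q := if q.1 = (0, 0, 0) then (q.1, τ⁻¹ q.2) else q
  left_inv q := by
    obtain ⟨p, z⟩ := q
    by_cases h : p = (0, 0, 0)
    · simp [h]
    · simp [h]
  right_inv q := by
    obtain ⟨p, z⟩ := q
    by_cases h : p = (0, 0, 0)
    · simp [h]
    · simp [h]

theorem blk_apply (τ : Equiv.Perm Z) (q : GX Z) :
    blk τ q = if q.1 = (0, 0, 0) then (q.1, τ q.2) else q := rfl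

theorem blk_zero (τ : Equiv.Perm Z) (z : Z) : blk τ ((0, 0, 0), z) = ((0, 0, 0), τ z) := by
  simp [blk_apply]

/-- the block homomorphism -/
def blkH : Equiv.Perm Z →* Equiv.Perm (GX Z) where
  toFun := blk
  map_one' := by
    apply Equiv.ext
    intro q
    rw [blk_apply]
    split_ifs <;> rfl
  map_mul' a b := by
    apply Equiv.ext
    intro q
    rw [Equiv.Perm.mul_apply, blk_apply, blk_apply, blk_apply]
    split_ifs with h
    · simp
    · rfl

theorem blkH_apply (τ : Equiv.Perm Z) : blkH τ = blk τ := rfl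

/-- **the word of a letter acts exactly on the fibre over `(0, 0, 0)`** -/
theorem ev_kW (hM : 0 < M) (h1 : σ (-1) = 1) {k : ℤ} (hk : k ≠ 0) (q : GX Z) :
    ev (gstep M σ) (kW M k) q = blk (σ k) q := by
  have hI := gstep_inv M σ
  have hinv : ∀ (n : ℤ) (z : Z), ev (gstep M σ) (iw ginv (wW M k)) ((0, 0, n), z) =
      ((0, 0, n), if n < 0 then (σ k)⁻¹ z else z) := by
    intro n z
    have h2 := ev_wW hM h1 hk n (if n < 0 then (σ k)⁻¹ z else z)
    have h3 : (if n < 0 then σ k (if n < 0 then (σ k)⁻¹ z else z) else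
        (if n < 0 then (σ k)⁻¹ z else z)) = z := by
      by_cases hn : n < 0 <;> simp [hn]
    rw [h3] at h2
    rw [← h2, ev_iw_left hI]
  obtain ⟨⟨i, j, n⟩, z⟩ := q
  unfold kW
  rw [ev_cons, ev_append, ev_cons]
  by_cases hf : i = 0 ∧ j = 0
  · obtain ⟨rfl, rfl⟩ := hf
    rw [hinv]
    have h2 : ∀ z', gstep M σ (.t, false) ((0, 0, n), z') = ((0, 0, n - 1), z') := by
      intro z'; simp [gstep, gpos, glab]
    have h3 : ∀ z', gstep M σ (.t, true) ((0, 0, n - 1), z') = ((0, 0, n), z') := by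
      intro z'; simp [gstep, gpos, glab]
    rw [h2, ev_wW hM h1 hk, h3, blk_apply]
    rcases lt_trichotomy n 0 with hn | hn | hn
    · have h4 : ¬ ((0, 0, n) : GP) = (0, 0, 0) := by
        intro h
        have : n = 0 := by simpa using h
        omega
      rw [if_pos (by omega), if_pos hn, if_neg h4]
      simp
    · subst hn
      simp
    · have h4 : ¬ ((0, 0, n) : GP) = (0, 0, 0) := by
        intro h
        have : n = 0 := by simpa using h
        omega
      rw [if_neg (by omega), if_neg (by omega), if_neg h4]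
  · have hout : ∀ (ε : Bool) (p : GX Z), ¬ (p.1.1 = 0 ∧ p.1.2.1 = 0) →
        gstep M σ (.t, ε) p = p := by
      rintro ε ⟨⟨a, b, c⟩, z'⟩ hp
      simp only at hp
      cases ε
      · simp [gstep, gpos, glab, hp]
      · simp [gstep, gpos, glab, hp]
    have h2 : ¬ ((ev (gstep M σ) (iw ginv (wW M k)) ((i, j, n), z)).1.1 = 0 ∧
        (ev (gstep M σ) (iw ginv (wW M k)) ((i, j, n), z)).1.2.1 = 0) := by
      intro h3
      generalize hr : ev (gstep M σ) (iw ginv (wW M k)) ((i, j, n), z) = r at h3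
      have h4 : ev (gstep M σ) (wW M k) r = ((i, j, n), z) := by rw [← hr, ev_iw_right hI]
      obtain ⟨⟨a, b, c⟩, z'⟩ := r
      simp only at h3
      obtain ⟨rfl, rfl⟩ := h3
      rw [ev_wW hM h1 hk] at h4
      apply hf
      have h5 := congrArg Prod.fst h4
      simp only [Prod.mk.injEq] at h5
      exact ⟨h5.1.symm, h5.2.1.symm⟩
    rw [hout _ _ h2, ev_iw_right hI, hout _ _ (by simpa using hf), blk_apply]
    have h4 : ¬ ((i, j, n) : GP) = (0, 0, 0) := by
      intro h
      rw [Prod.mk.injEq, Prod.mk.injEq] at h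
      exact hf ⟨h.1, h.2.1⟩
    rw [if_neg h4]

end words

/-! ### words of letters -/

section kmap

variable {C Z : Type} {M J : ℕ} {lt : ℤ → Option C} {ix : C → ℤ} {q : C → Equiv.Perm Z}

/-- the doors carry the letters -/
structure Lbl (J : ℕ) (lt : ℤ → Option C) (ix : C → ℤ) : Prop where
  rng : ∀ k c, lt k = some c → 1 ≤ k ∧ k ≤ J
  ix : ∀ c, lt (ix c) = some c

theorem Lbl.sig_neg (h : Lbl J lt ix) : sig lt q (-1) = 1 := by
  rcases hk : lt (-1) with _ | c
  · simp [sig, hk]
  · have := h.rng _ _ hk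
    omega

theorem Lbl.sig_ix (h : Lbl J lt ix) (c : C) : sig lt q (ix c) = q c := by
  simp [sig, h.ix c]

variable (M ix)

/-- the guard word of a signed letter -/
def kl (a : C × Bool) : List (GdL × Bool) :=
  if a.2 then kW M (ix a.1) else iw ginv (kW M (ix a.1))

/-- the guard word of a word -/
def kmap (w : List (C × Bool)) : List (GdL × Bool) := w.flatMap (kl M ix)

variable {M ix}

theorem kl_length (h : Lbl J lt ix) (a : C × Bool) :
    (kl M ix a).length ≤ 4 * (M * (J + 1)) + 6 := by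
  have h1 := h.rng _ _ (h.ix a.1)
  have h2 : (ix a.1).natAbs ≤ J := by omega
  have h3 : M * (ix a.1).natAbs ≤ M * J := Nat.mul_le_mul_left _ h2
  have h4 : (kl M ix a).length = (kW M (ix a.1)).length := by
    unfold kl
    split_ifs
    · rfl
    · rw [iw_length]
  rw [h4, kW_length, wW_length, Nat.mul_add M J 1, Nat.mul_one]
  omega

theorem kmap_length (h : Lbl J lt ix) (w : List (C × Bool)) :
    (kmap M ix w).length ≤ w.length * (4 * (M * (J + 1)) + 6) := by
  induction w with
  | nil => simp [kmap]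
  | cons a w ih =>
    have h1 := kl_length (M := M) h a
    have h2 : (kmap M ix (a :: w)).length = (kl M ix a).length + (kmap M ix w).length := by
      simp [kmap]
    rw [h2, List.length_cons, Nat.add_mul, Nat.one_mul]
    omega

theorem ev_kl (h : Lbl J lt ix) (hM : 0 < M) (a : C × Bool) (x : GX Z) :
    ev (gstep M (sig lt q)) (kl M ix a) x =
      if x.1 = (0, 0, 0) then (x.1, sg q a x.2) else x := by
  have hix : ix a.1 ≠ 0 := by
    have := h.rng _ _ (h.ix a.1)
    omega
  rcases a with ⟨c, _ | _⟩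
  · have h2 : ev (gstep M (sig lt q)) (iw ginv (kW M (ix c))) x = (blk (q c))⁻¹ x := by
      have h3 := ev_kW (σ := sig lt q) hM h.sig_neg hix ((blk (q c))⁻¹ x)
      rw [h.sig_ix] at h3
      have h4 : blk (q c) ((blk (q c))⁻¹ x) = x := by simp
      rw [h4] at h3
      conv_lhs => rw [← h3, ev_iw_left (gstep_inv M _)]
    unfold kl
    simp only [Bool.false_eq_true, if_false]
    rw [h2]
    change (if x.1 = (0, 0, 0) then (x.1, (q c)⁻¹ x.2) else x) = _
    rw [sg_false]
  · unfold kl
    simp only [if_true]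
    rw [ev_kW (σ := sig lt q) hM h.sig_neg hix, h.sig_ix, blk_apply, sg_true]

theorem ev_kmap (h : Lbl J lt ix) (hM : 0 < M) (w : List (C × Bool)) (x : GX Z) :
    ev (gstep M (sig lt q)) (kmap M ix w) x =
      if x.1 = (0, 0, 0) then (x.1, ev (sg q) w x.2) else x := by
  induction w with
  | nil => simp [kmap]
  | cons a w ih =>
    have h2 : kmap M ix (a :: w) = kl M ix a ++ kmap M ix w := by simp [kmap]
    rw [h2, ev_append, ih, ev_kl h hM]
    by_cases hx : x.1 = (0, 0, 0)
    · simp [hx]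
    · simp [hx]

/-- reaching the guard points -/
theorem guard_reach (h : Lbl J lt ix) (hM : 0 < M) {z₀ : Z} (v : List (C × Bool)) (i j n : ℤ) :
    ∃ w : List (GdL × Bool),
      w.length ≤ v.length * (4 * (M * (J + 1)) + 6) + n.natAbs + 2 * M + j.natAbs + i.natAbs ∧
      ev (gstep M (sig lt q)) w ((0, 0, 0), z₀) = ((i, j, n), ev (sg q) v z₀) := by
  have hM' : (M : ℤ) ≠ 0 := by omega
  have hd' : Door M (-M) := ⟨(dvd_refl _).neg_right, neg_ne_zero.2 hM'⟩
  have e2 : -(M : ℤ) / M = -1 := by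
    rw [Int.neg_ediv_of_dvd (dvd_refl _), Int.ediv_self hM']
  refine ⟨xw (i + M) ++ (yw j ++ (xw (-M) ++ (tw n ++ kmap M ix v))), ?_, ?_⟩
  · simp only [List.length_append, xw_length, yw_length, tw_length, Int.natAbs_neg,
      Int.natAbs_natCast]
    have := kmap_length (M := M) h v
    omega
  · rw [ev_append, ev_append, ev_append, ev_append, ev_kmap h hM, if_pos rfl,
      ev_tw M (sig lt q) n 0 _, ev_xw M (sig lt q) (-M) 0 0 (0 + n) _,
      ev_yw M (sig lt q) (i := 0 + -(M : ℤ)) (by rw [zero_add]; exact hd')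
        (by rw [zero_add, e2]; exact h.sig_neg) j 0 (0 + n) _,
      ev_xw M (sig lt q) (i + M) (0 + -(M : ℤ)) (0 + j) (0 + n) _]
    simp

/-- the guard homomorphism on free groups -/
def kHom (M : ℕ) (ix : C → ℤ) : FreeGroup C →* FreeGroup GdL :=
  FreeGroup.lift fun c => FreeGroup.mk (kW M (ix c))

theorem lift_kHom (h : Lbl J lt ix) (hM : 0 < M) (w : FreeGroup C) :
    FreeGroup.lift (gperm M (sig lt q)) (kHom M ix w) = blkH (FreeGroup.lift q w) := by
  have : (FreeGroup.lift (gperm M (sig lt q))).comp (kHom M ix) =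
      blkH.comp (FreeGroup.lift q) := by
    ext1 c
    apply Equiv.ext
    intro x
    simp only [MonoidHom.comp_apply, kHom, FreeGroup.lift_apply_of]
    rw [← ev_sg, show sg (gperm M (sig lt q)) = gstep M (sig lt q) from
      funext fun a => sg_gperm M (sig lt q) a]
    have hix : ix c ≠ 0 := by
      have := h.rng _ _ (h.ix c)
      omega
    have h2 := ev_kW (σ := sig lt q) hM h.sig_neg hix x
    rw [h.sig_ix] at h2
    exact h2
  exact DFunLike.congr_fun this w

end kmap

end Crest.Agent.R185.Smp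
end

-- ▼ part R185/Smp10

/-!
# R185 / SMP (10): the stage `Y ↦ Guard (ZZ G Y)` in the format of the hub
-/

set_option autoImplicit false

namespace Crest.Agent.R185.Smp

open Crest.Agent.R185.Wu Crest.Agent.R185.Hot

/-! ### doors from a list of letters -/

section list

variable {C : Type}

/-- the letter behind the door `k` -/
def ltL (L : List C) (k : ℤ) : Option C := if 1 ≤ k then L[(k - 1).toNat]? else none

/-- the door of a letter -/
def ixL [DecidableEq C] (L : List C) (c : C) : ℤ := L.idxOf c + 1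

theorem lbl_list [DecidableEq C] {L : List C} (h : ∀ c, c ∈ L) :
    Lbl L.length (ltL L) (ixL L) where
  rng k c hk := by
    unfold ltL at hk
    split_ifs at hk with h1
    obtain ⟨h2, -⟩ := List.getElem?_eq_some_iff.1 hk
    omega
  ix c := by
    unfold ltL ixL
    have h1 : L.idxOf c < L.length := List.idxOf_lt_length_iff.2 (h c)
    rw [if_pos (by omega), add_sub_cancel_right, Int.toNat_natCast, List.getElem?_eq_getElem h1,
      List.getElem_idxOf h1]

end list

section stage

variable {G Y Y' A B : Type} [Group G] (M : ℕ) (lt : ℤ → Option (KLet A B)) (e : B → G)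
  (y₀ : Y) (pa : A → Equiv.Perm Y)

/-- the guard letters over `ZZ G Y` -/
noncomputable def gzP : GdL → Equiv.Perm (GX (ZZ G Y)) := gperm M (sig lt (kact e y₀ pa))

/-- the base point -/
def gz0 (G Y : Type) : GX (ZZ G Y) := ((0, 0, 0), pts G Y 0)

/-- the stabiliser of the base point -/
noncomputable def gzS : Subgroup (FreeGroup GdL) :=
  (MulAction.stabilizer (Equiv.Perm (GX (ZZ G Y))) (gz0 G Y)).comap
    (FreeGroup.lift (gzP M lt e y₀ pa))

theorem mem_gzS {w : FreeGroup GdL} :
    w ∈ gzS M lt e y₀ pa ↔ FreeGroup.lift (gzP M lt e y₀ pa) w (gz0 G Y) = gz0 G Y := Iff.rfl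

theorem mem_gzS_conj {u v : FreeGroup GdL} :
    v⁻¹ * u * v ∈ gzS M lt e y₀ pa ↔
      FreeGroup.lift (gzP M lt e y₀ pa) u (FreeGroup.lift (gzP M lt e y₀ pa) v (gz0 G Y)) =
        FreeGroup.lift (gzP M lt e y₀ pa) v (gz0 G Y) := by
  rw [mem_gzS, map_mul, map_mul, map_inv, Equiv.Perm.mul_apply, Equiv.Perm.mul_apply,
    Equiv.Perm.inv_eq_iff_eq]

theorem lift_gzP (w : List (GdL × Bool)) (x : GX (ZZ G Y)) :
    FreeGroup.lift (gzP M lt e y₀ pa) (FreeGroup.mk w) x =
      ev (gstep M (sig lt (kact e y₀ pa))) w x := by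
  rw [← ev_sg, show sg (gzP M lt e y₀ pa) = gstep M (sig lt (kact e y₀ pa)) from
    funext fun a => sg_gperm M _ a]

theorem lift_gzP' [DecidableEq GdL] (w : FreeGroup GdL) (x : GX (ZZ G Y)) :
    FreeGroup.lift (gzP M lt e y₀ pa) w x =
      ev (gstep M (sig lt (kact e y₀ pa))) w.toWord x := by
  rw [← lift_gzP, FreeGroup.mk_toWord]

end stage

section free

variable {A Y Y' : Type} [DecidableEq A] {pa : A → Equiv.Perm Y} {pa' : A → Equiv.Perm Y'}

/-- types in the language of free groups -/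
theorem tyEq_of_free {ι : Type} {n : ℕ} {y : ι → Y} {y' : ι → Y'}
    (h : ∀ i j (u : FreeGroup A), u.norm ≤ n →
      (FreeGroup.lift pa u (y i) = y j ↔ FreeGroup.lift pa' u (y' i) = y' j)) :
    TyEq (sg pa) (sg pa') n y y' := by
  intro i j w hw
  rw [ev_sg, ev_sg]
  exact h i j _ (FreeGroup.norm_mk_le.trans hw)



end free

section hub

variable {G Y Y' A B : Type} [Group G] {M J : ℕ} {lt : ℤ → Option (KLet A B)}
  {ix : KLet A B → ℤ} {e : B → G} {y₀ : Y} {pa : A → Equiv.Perm Y} {y₀' : Y'}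
  {pa' : A → Equiv.Perm Y'}

/-- **(GZ1)**: the stabiliser of the base point of the guard depends only on the stabiliser of
`y₀`, with gain `M` -/
theorem gz_agree [DecidableEq A] {N : ℕ}
    (hy : ∀ u : FreeGroup A, u.norm ≤ 2 * N →
      (FreeGroup.lift pa u y₀ = y₀ ↔ FreeGroup.lift pa' u y₀' = y₀'))
    {w : FreeGroup GdL} (hw : w.norm < M * (2 * N + 1)) :
    w ∈ gzS M lt e y₀ pa ↔ w ∈ gzS M lt e y₀' pa' := by
  rw [mem_gzS, mem_gzS, lift_gzP', lift_gzP']
  have h1 : TyEq (sg pa) (sg pa') (2 * N) (fun _ : Fin 1 => y₀) (fun _ => y₀') :=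
    tyEq_of_free (fun _ _ u hu => hy u hu)
  have h2 := zz_type_base (G := G) (e := e) h1
  exact guard_type_base (lt := lt) hw h2 0 0 w.toWord le_rfl

/-- the bound of the witnesses -/
def gzbd (M J b n : ℕ) : ℕ :=
  zbd b (n / M) * (4 * (M * (J + 1)) + 6) + (n + 1) + 2 * M + (n + 2) + (M * J + n + 1 + M)

/-- **(GZ2)**: types of points of the guard have small witnesses -/
theorem gz_tl1 {ht : G → ℤ} {t : B} (hh : Height e ht t) (hL : Lbl J lt ix) (hM : 0 < M)
    {n ρ b : ℕ} (hT : 0 < n / M → T5 pa y₀ (2 * (n / M)) (ρ / M) b) :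
    Hub.TL1 (gzS M lt e y₀ pa) n ρ (gzbd M J b n) := by
  intro v hv
  -- the point
  obtain ⟨p, z, hx, hz⟩ : ∃ (p : GP) (z : ZZ G Y),
      FreeGroup.lift (gzP M lt e y₀ pa) v (gz0 G Y) = (p, z) ∧ Shape G pa y₀ (ρ / M) z := by
    have h0 := ev_gstep M (sig lt (kact e y₀ pa)) v.toWord (0, 0, 0) (pts G Y 0)
    rw [glabs_word] at h0
    refine ⟨_, _, (lift_gzP' M lt e y₀ pa v _).trans h0, ?_⟩
    · refine (shape_ev e _).mono ?_
      refine (kwd_length M lt _ _).trans ?_
      have h1 := gds_base (M := M) v.toWord 0 0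
      exact (Nat.le_div_iff_mul_le hM).2 (by rw [Nat.mul_comm]; exact h1.trans hv)
  -- the small entries
  obtain ⟨z', ⟨wz, hwz, hwz'⟩, hzz⟩ : ∃ z', Rch e pa y₀ (zbd b (n / M)) z' ∧
      TyEq (sg (kact e y₀ pa)) (sg (kact e y₀ pa)) (2 * (n / M)) (fun _ : Fin 1 => z)
        (fun _ => z') := by
    rcases Nat.eq_zero_or_pos (n / M) with h0 | h0
    · refine ⟨pts G Y 0, Rch.pts0.mono (Nat.zero_le _), ?_⟩
      intro i j w hw
      rw [h0] at hw
      have : w = [] := List.eq_nil_of_length_eq_zero (by omega)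
      subst this
      simp
    · exact zz_type hh (hT h0) hz
  obtain ⟨⟨i', j', n'⟩, α, β, γ, hs, b1, b2, b3⟩ := exists_smallpos hM J n p
  simp only at b1 b2 b3
  have hty := guard_type (lt := lt) hL.rng hM hs hzz
  obtain ⟨w, hw, hw'⟩ := guard_reach (q := kact e y₀ pa) hL hM (z₀ := pts G Y 0) wz i' j' n'
  refine ⟨FreeGroup.mk w, FreeGroup.norm_mk_le.trans ?_, ?_⟩
  · have h1 : wz.length * (4 * (M * (J + 1)) + 6) ≤
        zbd b (n / M) * (4 * (M * (J + 1)) + 6) := Nat.mul_le_mul_right _ hwz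
    unfold gzbd
    omega
  · intro u hu
    rw [mem_gzS_conj, mem_gzS_conj, hx, lift_gzP (w := w)]
    unfold gz0
    rw [hw', hwz', lift_gzP', lift_gzP']
    exact hty 0 0 u.toWord hu

end hub

end Crest.Agent.R185.Smp
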