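import Mathlib

-- ▼ part R185/Md191A
section

/-!
# R185 / MOD (A): the sheets

`D` a group, `S ≤ D`, `Q` a set with an action `dQ` of `D` and an action `star` of `S`.
`Ind = D ×_S Q`.  Points `YQ = (ℕ × Ind) ⊕ (ℕ × Q)`.  `D` acts on all sheets, `jY j` only on the
sheet `inr 0`, and the shift `sh` pushes the copy `[1, q]` of `Q` through the sheets.
Main relation: `sh * dY e * sh⁻¹ = dY e * jY ((dQ e)⁻¹ * star e)` for `e ∈ S`.
-/

set_option autoImplicit false

namespace Crest.Agent.R185.Md191A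

open Equiv

/-! ### the shift along an injection -/

section shift

variable {Z Q : Type}

open Classical in
/-- the shift -/
noncomputable def shf (c : Q → Z) : (ℕ × Z) ⊕ (ℕ × Q) → (ℕ × Z) ⊕ (ℕ × Q)
  | Sum.inl (0, z) => if h : ∃ q, c q = z then Sum.inr (0, h.choose) else Sum.inl (0, z)
  | Sum.inl (n + 1, z) => if ∃ q, c q = z then Sum.inl (n, z) else Sum.inl (n + 1, z)
  | Sum.inr (n, q) => Sum.inr (n + 1, q)

open Classical in
/-- the inverse shift -/
noncomputable def shg (c : Q → Z) : (ℕ × Z) ⊕ (ℕ × Q) → (ℕ × Z) ⊕ (ℕ × Q)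
  | Sum.inl (n, z) => if ∃ q, c q = z then Sum.inl (n + 1, z) else Sum.inl (n, z)
  | Sum.inr (0, q) => Sum.inl (0, c q)
  | Sum.inr (n + 1, q) => Sum.inr (n, q)

theorem shf_zero {c : Q → Z} (hc : Function.Injective c) (q : Q) :
    shf c (Sum.inl (0, c q)) = Sum.inr (0, q) := by
  have h : ∃ q', c q' = c q := ⟨q, rfl⟩
  unfold shf
  simp only
  rw [dif_pos h, hc h.choose_spec]

theorem shf_succ (c : Q → Z) (n : ℕ) (q : Q) :
    shf c (Sum.inl (n + 1, c q)) = Sum.inl (n, c q) := by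
  have h : ∃ q', c q' = c q := ⟨q, rfl⟩
  unfold shf
  simp only
  rw [if_pos h]

theorem shf_else (c : Q → Z) (n : ℕ) (z : Z) (h : ∀ q, c q ≠ z) :
    shf c (Sum.inl (n, z)) = Sum.inl (n, z) := by
  have h' : ¬ ∃ q, c q = z := by rintro ⟨q, hq⟩; exact h q hq
  rcases n with _ | n
  · unfold shf; simp only; rw [dif_neg h']
  · unfold shf; simp only; rw [if_neg h']

theorem shf_inr (c : Q → Z) (n : ℕ) (q : Q) : shf c (Sum.inr (n, q)) = Sum.inr (n + 1, q) := rfl

theorem shg_con (c : Q → Z) (n : ℕ) (q : Q) :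
    shg c (Sum.inl (n, c q)) = Sum.inl (n + 1, c q) := by
  have h : ∃ q', c q' = c q := ⟨q, rfl⟩
  unfold shg
  simp only
  rw [if_pos h]

theorem shg_else (c : Q → Z) (n : ℕ) (z : Z) (h : ∀ q, c q ≠ z) :
    shg c (Sum.inl (n, z)) = Sum.inl (n, z) := by
  have h' : ¬ ∃ q, c q = z := by rintro ⟨q, hq⟩; exact h q hq
  unfold shg; simp only; rw [if_neg h']

theorem shg_zero (c : Q → Z) (q : Q) : shg c (Sum.inr (0, q)) = Sum.inl (0, c q) := rfl

theorem shg_succ (c : Q → Z) (n : ℕ) (q : Q) : shg c (Sum.inr (n + 1, q)) = Sum.inr (n, q) := rfl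

theorem YZ_cases (c : Q → Z) (x : (ℕ × Z) ⊕ (ℕ × Q)) :
    (∃ q, x = Sum.inl (0, c q)) ∨ (∃ n q, x = Sum.inl (n + 1, c q)) ∨
    (∃ n z, (∀ q, c q ≠ z) ∧ x = Sum.inl (n, z)) ∨ (∃ q, x = Sum.inr (0, q)) ∨
    (∃ n q, x = Sum.inr (n + 1, q)) := by
  rcases x with ⟨n, z⟩ | ⟨n | n, q⟩
  · by_cases h : ∃ q, c q = z
    · obtain ⟨q, rfl⟩ := h
      rcases n with _ | n
      · exact Or.inl ⟨q, rfl⟩
      · exact Or.inr (Or.inl ⟨n, q, rfl⟩)
    · push Not at h
      exact Or.inr (Or.inr (Or.inl ⟨n, z, h, rfl⟩))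
  · exact Or.inr (Or.inr (Or.inr (Or.inl ⟨q, rfl⟩)))
  · exact Or.inr (Or.inr (Or.inr (Or.inr ⟨n, q, rfl⟩)))

/-- the shift permutation -/
noncomputable def shP (c : Q → Z) (hc : Function.Injective c) : Perm ((ℕ × Z) ⊕ (ℕ × Q)) where
  toFun := shf c
  invFun := shg c
  left_inv := by
    intro x
    rcases YZ_cases c x with ⟨y, rfl⟩ | ⟨n, y, rfl⟩ | ⟨n, M, h, rfl⟩ | ⟨y, rfl⟩ | ⟨n, y, rfl⟩
    · rw [shf_zero hc, shg_zero]
    · rw [shf_succ, shg_con]
    · rw [shf_else c n M h, shg_else c n M h]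
    · rw [shf_inr, shg_succ]
    · rw [shf_inr, shg_succ]
  right_inv := by
    intro x
    rcases YZ_cases c x with ⟨y, rfl⟩ | ⟨n, y, rfl⟩ | ⟨n, M, h, rfl⟩ | ⟨y, rfl⟩ | ⟨n, y, rfl⟩
    · rw [shg_con, shf_succ]
    · rw [shg_con, shf_succ]
    · rw [shg_else c n M h, shf_else c n M h]
    · rw [shg_zero, shf_zero hc]
    · rw [shg_succ, shf_inr]

theorem shP_apply (c : Q → Z) (hc : Function.Injective c) (x : (ℕ × Z) ⊕ (ℕ × Q)) :
    shP c hc x = shf c x := rfl


/-- `e` on all the sheets `inl n`, `r` on all the sheets `inr n` -/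
def both : Perm Z × Perm Q →* Perm ((ℕ × Z) ⊕ (ℕ × Q)) where
  toFun e := Equiv.sumCongr (Equiv.prodCongr (Equiv.refl ℕ) e.1)
    (Equiv.prodCongr (Equiv.refl ℕ) e.2)
  map_one' := by
    apply Equiv.ext; intro x; rcases x with ⟨n, M⟩ | ⟨n, y⟩ <;> rfl
  map_mul' a b := by
    apply Equiv.ext; intro x; rcases x with ⟨n, M⟩ | ⟨n, y⟩ <;> rfl

@[simp] theorem both_inl (e : Perm Z × Perm Q) (n : ℕ) (z : Z) :
    both e (Sum.inl (n, z)) = Sum.inl (n, e.1 z) := rfl

@[simp] theorem both_inr (e : Perm Z × Perm Q) (n : ℕ) (q : Q) :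
    both e (Sum.inr (n, q)) = Sum.inr (n, e.2 q) := rfl

/-- action on the sheet `inr 0` only, on points -/
def jf (j : Q → Q) : (ℕ × Z) ⊕ (ℕ × Q) → (ℕ × Z) ⊕ (ℕ × Q)
  | Sum.inl x => Sum.inl x
  | Sum.inr (0, q) => Sum.inr (0, j q)
  | Sum.inr (n + 1, q) => Sum.inr (n + 1, q)

/-- action on the sheet `inr 0` only -/
def jZ (Z : Type) {Q : Type} : Perm Q →* Perm ((ℕ × Z) ⊕ (ℕ × Q)) where
  toFun j :=
    { toFun := jf (⇑j)
      invFun := jf (⇑(j⁻¹))
      left_inv := by rintro (⟨n, M⟩ | ⟨n | n, y⟩) <;> simp [jf]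
      right_inv := by rintro (⟨n, M⟩ | ⟨n | n, y⟩) <;> simp [jf] }
  map_one' := by
    apply Equiv.ext; intro x; rcases x with ⟨n, M⟩ | ⟨n | n, y⟩ <;> simp [jf]
  map_mul' a b := by
    apply Equiv.ext; intro x; rcases x with ⟨n, M⟩ | ⟨n | n, y⟩ <;> simp [jf]

@[simp] theorem jZ_inl (j : Perm Q) (x : ℕ × Z) : jZ Z j (Sum.inl x) = Sum.inl x := rfl

@[simp] theorem jZ_zero (j : Perm Q) (q : Q) : jZ Z j (Sum.inr (0, q)) = Sum.inr (0, j q) := rfl

@[simp] theorem jZ_succ (j : Perm Q) (n : ℕ) (q : Q) :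
    jZ Z j (Sum.inr (n + 1, q)) = Sum.inr (n + 1, q) := rfl


theorem jZ_comm_both (e : Perm Z) (r j : Perm Q) (h : Commute r j) :
    Commute (both (e, r)) (jZ Z j) := by
  apply Equiv.ext
  intro x
  rcases x with ⟨n, z⟩ | ⟨n | n, q⟩
  · rfl
  · have := congrArg (fun e : Perm Q => e q) h.eq
    simp only [Perm.mul_apply] at this
    simp [this]
  · rfl

/-- **the key relation** -/
theorem shP_conj (c : Q → Z) (hc : Function.Injective c) (e : Perm Z) (r g : Perm Q)
    (he : ∀ q, e (c q) = c (g q)) :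
    shP c hc * both (e, r) * (shP c hc)⁻¹ = both (e, r) * jZ Z (r⁻¹ * g) := by
  rw [mul_inv_eq_iff_eq_mul]
  apply Equiv.ext
  intro x
  simp only [Perm.mul_apply, shP_apply]
  rcases YZ_cases c x with ⟨y, rfl⟩ | ⟨n, y, rfl⟩ | ⟨n, M, h, rfl⟩ | ⟨y, rfl⟩ | ⟨n, y, rfl⟩
  · rw [both_inl, he, shf_zero hc, shf_zero hc, jZ_zero, both_inr]; simp
  · rw [both_inl, he, shf_succ, shf_succ, jZ_inl, both_inl, he]
  · have h2 : ∀ q, c q ≠ e M := by
      intro q hq
      apply h (g⁻¹ q)
      apply e.injective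
      rw [he, ← hq]; simp
    rw [both_inl, shf_else c n _ h2, shf_else c n M h, jZ_inl, both_inl]
  · rw [both_inr, shf_inr, shf_inr, jZ_succ, both_inr]
  · rw [both_inr, shf_inr, shf_inr, jZ_succ, both_inr]


end shift

/-! ### the induced set -/

section ind

variable {D : Type} [Group D] (S : Subgroup D) {Q : Type} (star : S →* Perm Q)

/-- the relation `(x e, q) ~ (x, star e q)` -/
def indSetoid : Setoid (D × Q) where
  r a b := ∃ e : S, b.1 = a.1 * (e : D)⁻¹ ∧ b.2 = star e a.2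
  iseqv := by
    refine ⟨fun a => ⟨1, by simp, by simp⟩, ?_, ?_⟩
    · rintro a b ⟨e, h1, h2⟩
      refine ⟨e⁻¹, ?_, ?_⟩
      · rw [h1]; simp
      · rw [h2, map_inv]; simp
    · rintro a b c ⟨e, h1, h2⟩ ⟨e', h3, h4⟩
      refine ⟨e' * e, ?_, ?_⟩
      · rw [h3, h1]; simp [mul_assoc]
      · rw [h4, h2, map_mul]; simp

/-- `D ×_S Q` -/
def Ind : Type := Quotient (indSetoid S star)

/-- the class `[x, q]` -/
def mkI (x : D) (q : Q) : Ind S star := Quotient.mk (indSetoid S star) (x, q)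

variable {S star}

theorem mkI_eq {x x' : D} {q q' : Q} :
    mkI S star x q = mkI S star x' q' ↔ ∃ e : S, x' = x * (e : D)⁻¹ ∧ q' = star e q := by
  constructor
  · intro h; exact Quotient.exact h
  · intro h; exact Quotient.sound h

theorem mkI_mul (x : D) (e : S) (q : Q) : mkI S star (x * e) q = mkI S star x (star e q) :=
  mkI_eq.2 ⟨e, by simp, rfl⟩


theorem Ind_cases (z : Ind S star) : ∃ x q, z = mkI S star x q := by
  obtain ⟨⟨x, q⟩, rfl⟩ := Quotient.exists_rep z
  exact ⟨x, q, rfl⟩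

/-- the point `[1, q]` -/
abbrev in0 (S : Subgroup D) (star : S →* Perm Q) (q : Q) : Ind S star := mkI S star 1 q

theorem in0_inj : Function.Injective (in0 S star) := by
  intro q q' h
  obtain ⟨e, h1, h2⟩ := mkI_eq.1 h
  have : e = 1 := by
    apply Subtype.ext
    simpa using h1.symm
  rw [h2, this]; simp

theorem mkI_mem {x : D} {q : Q} : (∃ q', in0 S star q' = mkI S star x q) ↔ x ∈ S := by
  constructor
  · rintro ⟨q', h⟩
    obtain ⟨e, h1, -⟩ := mkI_eq.1 h
    rw [h1]; simp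
  · intro h
    refine ⟨star ⟨x, h⟩ q, ?_⟩
    have := mkI_mul (star := star) 1 ⟨x, h⟩ q
    rw [one_mul] at this
    exact this.symm

theorem mkI_of_mem {x : D} (h : x ∈ S) (q : Q) :
    mkI S star x q = in0 S star (star ⟨x, h⟩ q) := by
  have := mkI_mul (star := star) 1 ⟨x, h⟩ q
  rw [one_mul] at this
  exact this

/-- left multiplication on `Ind` -/
def dIf (d : D) : Ind S star → Ind S star :=
  Quotient.map' (fun p => (d * p.1, p.2)) (by
    rintro ⟨x, q⟩ ⟨x', q'⟩ ⟨e, h1, h2⟩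
    exact ⟨e, by simp only at h1 ⊢; rw [h1, mul_assoc], h2⟩)

theorem dIf_mk (d x : D) (q : Q) : dIf d (mkI S star x q) = mkI S star (d * x) q := rfl

variable (S star) in
/-- the action of `D` on `Ind` -/
def dI : D →* Perm (Ind S star) where
  toFun d :=
    { toFun := dIf d
      invFun := dIf d⁻¹
      left_inv := by
        intro z
        obtain ⟨x, q, rfl⟩ := Ind_cases z
        rw [dIf_mk, dIf_mk, inv_mul_cancel_left]
      right_inv := by
        intro z
        obtain ⟨x, q, rfl⟩ := Ind_cases z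
        rw [dIf_mk, dIf_mk, mul_inv_cancel_left] }
  map_one' := by
    apply Equiv.ext; intro z
    obtain ⟨x, q, rfl⟩ := Ind_cases z
    change mkI S star (1 * x) q = mkI S star x q
    rw [one_mul]
  map_mul' a b := by
    apply Equiv.ext; intro z
    obtain ⟨x, q, rfl⟩ := Ind_cases z
    change mkI S star (a * b * x) q = mkI S star (a * (b * x)) q
    rw [mul_assoc]

@[simp] theorem dI_mk (d x : D) (q : Q) : dI S star d (mkI S star x q) = mkI S star (d * x) q := rfl

theorem dI_in0 (e : S) (q : Q) : dI S star e (in0 S star q) = in0 S star (star e q) := by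
  rw [dI_mk, mul_one, mkI_of_mem e.2]

end ind

/-! ### the points and the letters -/

section letters

variable {D : Type} [Group D] (S : Subgroup D) {Q : Type} (dQ : D →* Perm Q)
  (star : S →* Perm Q)

/-- the set of points -/
abbrev YQ : Type := (ℕ × Ind S star) ⊕ (ℕ × Q)

/-- the action of `D` -/
def dY : D →* Perm (YQ S star) := both.comp ((dI S star).prod dQ)

/-- the letters acting on the sheet `inr 0` only -/
def jY : Perm Q →* Perm (YQ S star) := jZ (Ind S star)

/-- the shift letter -/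
noncomputable def sh : Perm (YQ S star) := shP (in0 S star) in0_inj

@[simp] theorem dY_inl (d x : D) (n : ℕ) (q : Q) :
    dY S dQ star d (Sum.inl (n, mkI S star x q)) = Sum.inl (n, mkI S star (d * x) q) := rfl

@[simp] theorem dY_inr (d : D) (n : ℕ) (q : Q) :
    dY S dQ star d (Sum.inr (n, q)) = Sum.inr (n, dQ d q) := rfl

@[simp] theorem jY_inl (j : Perm Q) (x : ℕ × Ind S star) :
    jY S star j (Sum.inl x) = Sum.inl x := rfl

@[simp] theorem jY_zero (j : Perm Q) (q : Q) :
    jY S star j (Sum.inr (0, q)) = Sum.inr (0, j q) := rfl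

@[simp] theorem jY_succ (j : Perm Q) (n : ℕ) (q : Q) :
    jY S star j (Sum.inr (n + 1, q)) = Sum.inr (n + 1, q) := rfl

theorem sh_zero {x : D} (hx : x ∈ S) (q : Q) :
    sh S star (Sum.inl (0, mkI S star x q)) = Sum.inr (0, star ⟨x, hx⟩ q) := by
  rw [mkI_of_mem hx]
  exact shf_zero in0_inj _

theorem sh_succ {x : D} (hx : x ∈ S) (n : ℕ) (q : Q) :
    sh S star (Sum.inl (n + 1, mkI S star x q)) = Sum.inl (n, mkI S star x q) := by
  rw [mkI_of_mem hx]
  exact shf_succ _ _ _

theorem sh_else {x : D} (hx : x ∉ S) (n : ℕ) (q : Q) :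
    sh S star (Sum.inl (n, mkI S star x q)) = Sum.inl (n, mkI S star x q) := by
  apply shf_else
  intro q' h
  exact hx (mkI_mem.1 ⟨q', h⟩)

@[simp] theorem sh_inr (n : ℕ) (q : Q) :
    sh S star (Sum.inr (n, q)) = Sum.inr (n + 1, q) := rfl

theorem sh_inv_inl {x : D} (hx : x ∈ S) (n : ℕ) (q : Q) :
    (sh S star)⁻¹ (Sum.inl (n, mkI S star x q)) = Sum.inl (n + 1, mkI S star x q) := by
  rw [Perm.inv_eq_iff_eq, sh_succ S star hx]

theorem sh_inv_else {x : D} (hx : x ∉ S) (n : ℕ) (q : Q) :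
    (sh S star)⁻¹ (Sum.inl (n, mkI S star x q)) = Sum.inl (n, mkI S star x q) := by
  rw [Perm.inv_eq_iff_eq, sh_else S star hx]

@[simp] theorem sh_inv_zero (q : Q) :
    (sh S star)⁻¹ (Sum.inr (0, q)) = Sum.inl (0, in0 S star q) := rfl

@[simp] theorem sh_inv_succ (n : ℕ) (q : Q) :
    (sh S star)⁻¹ (Sum.inr (n + 1, q)) = Sum.inr (n, q) := rfl


theorem jY_comm (j : Perm Q) (d : D) (h : Commute (dQ d) j) :
    Commute (dY S dQ star d) (jY S star j) := jZ_comm_both _ _ _ h

/-- **the main relation** -/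
theorem sh_conj (e : S) :
    sh S star * dY S dQ star e * (sh S star)⁻¹ =
      dY S dQ star e * jY S star ((dQ e)⁻¹ * star e) :=
  shP_conj _ in0_inj _ _ _ (fun q => dI_in0 e q)

end letters

/-! ### functoriality -/

section functor

variable {D : Type} [Group D] {S : Subgroup D} {Q Q' : Type} {dQ : D →* Perm Q}
  {star : S →* Perm Q} {dQ' : D →* Perm Q'} {star' : S →* Perm Q'} {f : Q → Q'}

/-- the induced map on `Ind` -/
def indMap (f : Q → Q') (hf : ∀ e q, f (star e q) = star' e (f q)) : Ind S star → Ind S star' :=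
  Quotient.map' (fun p => (p.1, f p.2)) (by
    rintro ⟨x, q⟩ ⟨x', q'⟩ ⟨e, h1, h2⟩
    exact ⟨e, h1, by simp only at h2 ⊢; rw [h2, hf]⟩)

@[simp] theorem indMap_mk (hf : ∀ e q, f (star e q) = star' e (f q)) (x : D) (q : Q) :
    indMap f hf (mkI S star x q) = mkI S star' x (f q) := rfl


/-- the induced map on points -/
def mapY (f : Q → Q') (hf : ∀ e q, f (star e q) = star' e (f q)) : YQ S star → YQ S star' :=
  Sum.map (Prod.map id (indMap f hf)) (Prod.map id f)

@[simp] theorem mapY_inl (hf : ∀ e q, f (star e q) = star' e (f q)) (n : ℕ) (x : D) (q : Q) :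
    mapY f hf (Sum.inl (n, mkI S star x q)) = Sum.inl (n, mkI S star' x (f q)) := rfl

@[simp] theorem mapY_inr (hf : ∀ e q, f (star e q) = star' e (f q)) (n : ℕ) (q : Q) :
    mapY (S := S) f hf (Sum.inr (n, q)) = Sum.inr (n, f q) := rfl





end functor

end Crest.Agent.R185.Md191A
private theorem rz_750f18703e : type_of% @_root_.Crest.Agent.R185.Md191A.jf.eq_1 := @_root_.Crest.Agent.R185.Md191A.jf.eq_1 -- L135
end

-- ▼ part R185/Md191B
section

/-!
# R185 / MOD (B): the payload `P(X) = F(A) × ℤ × X` and the letters `β'`, `γ`, `d`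

* `bp w : (g, n, x) ↦ (w g, n, x)`,
* `ga w : (g, n, x) ↦ (g, n, w x)` if `n < 0`, identity for `n ≥ 0`,
* `dd : (1, n, x) ↦ (1, n + 1, x)`, identity at `g ≠ 1`,
* `al w : (1, 0, x) ↦ (1, 0, w x)`, identity elsewhere; `dd * ga w * dd⁻¹ = al w * ga w`,
* `gau : (g, n, x) ↦ (g, n, g x)` if `n < 0`; `chi e = gau * chi' e * gau⁻¹`.
-/

set_option autoImplicit false

namespace Crest.Agent.R185.Md191B

open Equiv

/-! ### words -/

section words

variable {A : Type}

/-- the word `π_w` -/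
def piw : FreeGroup A →* FreeGroup (Option A) := FreeGroup.map some

/-- the letter `t` -/
def tt : FreeGroup (Option A) := FreeGroup.of none

/-- `t_w = π_w t π_w⁻¹` -/
def tw (w : FreeGroup A) : FreeGroup (Option A) := piw w * tt * (piw w)⁻¹

end words

variable {A : Type}

/-- the payload -/
abbrev P (A X : Type) : Type := FreeGroup A × ℤ × X

/-! ### the silent letters -/

section silent

variable (A) (X : Type)

/-- `β'` -/
def bp : FreeGroup A →* Perm (P A X) where
  toFun w :=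
    { toFun := fun p => (w * p.1, p.2)
      invFun := fun p => (w⁻¹ * p.1, p.2)
      left_inv := by rintro ⟨g, n, x⟩; simp
      right_inv := by rintro ⟨g, n, x⟩; simp }
  map_one' := by apply Equiv.ext; rintro ⟨g, n, x⟩; simp
  map_mul' a b := by apply Equiv.ext; rintro ⟨g, n, x⟩; simp [mul_assoc]

@[simp] theorem bp_apply (w g : FreeGroup A) (n : ℤ) (x : X) :
    bp A X w (g, n, x) = (w * g, n, x) := rfl

@[simp] theorem bp_inv_apply (w g : FreeGroup A) (n : ℤ) (x : X) :
    (bp A X w)⁻¹ (g, n, x) = (w⁻¹ * g, n, x) := rfl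

open Classical in
/-- `d` -/
noncomputable def dd : Perm (P A X) where
  toFun p := if p.1 = 1 then (p.1, p.2.1 + 1, p.2.2) else p
  invFun p := if p.1 = 1 then (p.1, p.2.1 - 1, p.2.2) else p
  left_inv := by
    rintro ⟨g, n, x⟩
    by_cases h : g = 1 <;> simp [h]
  right_inv := by
    rintro ⟨g, n, x⟩
    by_cases h : g = 1 <;> simp [h]

@[simp] theorem dd_one (n : ℤ) (x : X) : dd A X (1, n, x) = (1, n + 1, x) := by
  simp [dd]

theorem dd_ne {g : FreeGroup A} (h : g ≠ 1) (n : ℤ) (x : X) : dd A X (g, n, x) = (g, n, x) := by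
  simp [dd, h]

@[simp] theorem dd_inv_one (n : ℤ) (x : X) : (dd A X)⁻¹ (1, n, x) = (1, n - 1, x) := by
  rw [Perm.inv_eq_iff_eq, dd_one]; simp

theorem dd_inv_ne {g : FreeGroup A} (h : g ≠ 1) (n : ℤ) (x : X) :
    (dd A X)⁻¹ (g, n, x) = (g, n, x) := by
  rw [Perm.inv_eq_iff_eq, dd_ne A X h]

/-- the silent representation of `F(A ∪ {t})` -/
noncomputable def chi' : FreeGroup (Option A) →* Perm (P A X) :=
  FreeGroup.lift (fun o => o.elim (dd A X) (fun a => bp A X (FreeGroup.of a)))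

@[simp] theorem chi'_pi (w : FreeGroup A) : chi' A X (piw w) = bp A X w := by
  have : (chi' A X).comp piw = bp A X := by
    ext a : 1
    simp [chi', piw]
  exact congrArg (fun f : FreeGroup A →* _ => f w) this

@[simp] theorem chi'_t : chi' A X tt = dd A X := by simp [chi', tt]

theorem chi'_tw_self (w : FreeGroup A) (n : ℤ) (x : X) :
    chi' A X (tw w) (w, n, x) = (w, n + 1, x) := by
  rw [tw, map_mul, map_mul, map_inv, chi'_pi, chi'_t]
  simp only [Perm.mul_apply, bp_inv_apply, inv_mul_cancel, dd_one, bp_apply, mul_one]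

theorem chi'_tw_ne {w g : FreeGroup A} (h : g ≠ w) (n : ℤ) (x : X) :
    chi' A X (tw w) (g, n, x) = (g, n, x) := by
  have : w⁻¹ * g ≠ 1 := by
    intro h1; apply h; rw [inv_mul_eq_one] at h1; exact h1.symm
  rw [tw, map_mul, map_mul, map_inv, chi'_pi, chi'_t]
  simp only [Perm.mul_apply, bp_inv_apply, dd_ne A X this, bp_apply, mul_inv_cancel_left]

end silent

/-! ### the labelled letters -/

section letters

variable (A) (X : Type) [MulAction (FreeGroup A) X]

/-- a permutation of the form `(g, n, x) ↦ (g, n, c g n • x)` -/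
def lab (c : FreeGroup A → ℤ → FreeGroup A) : Perm (P A X) where
  toFun p := (p.1, p.2.1, c p.1 p.2.1 • p.2.2)
  invFun p := (p.1, p.2.1, (c p.1 p.2.1)⁻¹ • p.2.2)
  left_inv := by rintro ⟨g, n, x⟩; simp
  right_inv := by rintro ⟨g, n, x⟩; simp

@[simp] theorem lab_apply (c : FreeGroup A → ℤ → FreeGroup A) (g : FreeGroup A) (n : ℤ) (x : X) :
    lab A X c (g, n, x) = (g, n, c g n • x) := rfl

@[simp] theorem lab_inv_apply (c : FreeGroup A → ℤ → FreeGroup A) (g : FreeGroup A) (n : ℤ)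
    (x : X) : (lab A X c)⁻¹ (g, n, x) = (g, n, (c g n)⁻¹ • x) := rfl

/-- `γ` -/
def ga : FreeGroup A →* Perm (P A X) where
  toFun w := lab A X (fun _ n => if n < 0 then w else 1)
  map_one' := by
    apply Equiv.ext; rintro ⟨g, n, x⟩
    rw [lab_apply]
    by_cases h : n < 0 <;> simp
  map_mul' a b := by
    apply Equiv.ext; rintro ⟨g, n, x⟩
    simp only [Perm.mul_apply, lab_apply]
    by_cases h : n < 0 <;> simp [h, mul_smul]

@[simp] theorem ga_apply (w g : FreeGroup A) (n : ℤ) (x : X) :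
    ga A X w (g, n, x) = (g, n, (if n < 0 then w else 1) • x) := rfl

theorem ga_neg (w g : FreeGroup A) {n : ℤ} (h : n < 0) (x : X) :
    ga A X w (g, n, x) = (g, n, w • x) := by simp [h]

theorem ga_nonneg (w g : FreeGroup A) {n : ℤ} (h : 0 ≤ n) (x : X) :
    ga A X w (g, n, x) = (g, n, x) := by simp [not_lt.2 h]

open Classical in
/-- `α` -/
noncomputable def al : FreeGroup A →* Perm (P A X) where
  toFun w := lab A X (fun g n => if g = 1 ∧ n = 0 then w else 1)
  map_one' := by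
    apply Equiv.ext; rintro ⟨g, n, x⟩
    rw [lab_apply]
    by_cases h : g = 1 ∧ n = 0 <;> simp
  map_mul' a b := by
    apply Equiv.ext; rintro ⟨g, n, x⟩
    simp only [Perm.mul_apply, lab_apply]
    by_cases h : g = 1 ∧ n = 0 <;> simp [h, mul_smul]

open Classical in
theorem al_eq (w : FreeGroup A) : al A X w =
    lab A X (fun g n => if g = 1 ∧ n = 0 then w else 1) := rfl


theorem al_apply_one (w : FreeGroup A) (x : X) : al A X w (1, 0, x) = (1, 0, w • x) := by
  simp [al]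

theorem al_apply_ne (w g : FreeGroup A) (n : ℤ) (h : ¬ (g = 1 ∧ n = 0)) (x : X) :
    al A X w (g, n, x) = (g, n, x) := by
  simp [al, h]

theorem comm_bp_ga (v w : FreeGroup A) : Commute (bp A X v) (ga A X w) := by
  apply Equiv.ext; rintro ⟨g, n, x⟩
  simp

theorem comm_al_ga (v w : FreeGroup A) : Commute (al A X v) (ga A X w) := by
  apply Equiv.ext; rintro ⟨g, n, x⟩
  by_cases h : g = 1 ∧ n = 0
  · obtain ⟨rfl, rfl⟩ := h
    simp [al_apply_one]
  · simp [al_apply_ne _ _ _ _ _ h]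

theorem dd_ga (w : FreeGroup A) :
    dd A X * ga A X w * (dd A X)⁻¹ = al A X w * ga A X w := by
  rw [mul_inv_eq_iff_eq_mul]
  apply Equiv.ext; rintro ⟨g, n, x⟩
  simp only [Perm.mul_apply]
  by_cases hg : g = 1
  · subst hg
    rw [ga_apply, dd_one, dd_one, ga_apply]
    rcases lt_trichotomy n (-1) with h | h | h
    · rw [al_apply_ne _ _ _ _ _ (by omega)]
      simp [show n < 0 by omega, show n + 1 < 0 by omega]
    · subst h
      simp [al_apply_one]
    · rw [al_apply_ne _ _ _ _ _ (by omega)]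
      simp [show ¬ n < 0 by omega, show ¬ n + 1 < 0 by omega]
  · rw [ga_apply, dd_ne _ _ hg, dd_ne _ _ hg, ga_apply, al_apply_ne _ _ _ _ _ (by tauto)]

/-- the gauge -/
def gau : Perm (P A X) := lab A X (fun g n => if n < 0 then g else 1)

theorem gau_apply (g : FreeGroup A) (n : ℤ) (x : X) :
    gau A X (g, n, x) = (g, n, (if n < 0 then g else 1) • x) := rfl


theorem gau_bp (w : FreeGroup A) :
    gau A X * bp A X w * (gau A X)⁻¹ = bp A X w * ga A X w := by
  rw [mul_inv_eq_iff_eq_mul]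
  apply Equiv.ext; rintro ⟨g, n, x⟩
  by_cases h : n < 0 <;> simp [gau_apply, h, mul_smul]

theorem gau_dd : gau A X * dd A X * (gau A X)⁻¹ = dd A X := by
  rw [mul_inv_eq_iff_eq_mul]
  apply Equiv.ext; rintro ⟨g, n, x⟩
  by_cases hg : g = 1
  · subst hg
    simp [gau_apply]
  · simp [gau_apply, dd_ne _ _ hg]

/-- the labelled representation of `F(A ∪ {t})` -/
noncomputable def chi : FreeGroup (Option A) →* Perm (P A X) :=
  FreeGroup.lift (fun o => o.elim (dd A X)
    (fun a => bp A X (FreeGroup.of a) * ga A X (FreeGroup.of a)))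

@[simp] theorem chi_t : chi A X tt = dd A X := by simp [chi, tt]

theorem chi_eq (e : FreeGroup (Option A)) :
    chi A X e = gau A X * chi' A X e * (gau A X)⁻¹ := by
  have : chi A X = (MulAut.conj (gau A X)).toMonoidHom.comp (chi' A X) := by
    ext o : 1
    rcases o with _ | a
    · simp [chi, chi', gau_dd]
    · simp [chi, chi', gau_bp]
  rw [this]; rfl

@[simp] theorem chi_pi (w : FreeGroup A) : chi A X (piw w) = bp A X w * ga A X w := by
  rw [chi_eq, chi'_pi, gau_bp]


/-! ### the gauge with an arbitrary function `κ` -/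

/-- the gauge `(g, n, x) ↦ (g, n, κ(g) x)` if `n < 0` -/
def gauK (κ : FreeGroup A → FreeGroup A) : Perm (P A X) :=
  lab A X (fun g n => if n < 0 then κ g else 1)

theorem gauK_apply (κ : FreeGroup A → FreeGroup A) (g : FreeGroup A) (n : ℤ) (x : X) :
    gauK A X κ (g, n, x) = (g, n, (if n < 0 then κ g else 1) • x) := rfl

theorem gauK_inv_apply (κ : FreeGroup A → FreeGroup A) (g : FreeGroup A) (n : ℤ) (x : X) :
    (gauK A X κ)⁻¹ (g, n, x) = (g, n, (if n < 0 then κ g else 1)⁻¹ • x) := rfl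

/-- the labelled representation in the gauge `κ` -/
noncomputable def chiK (κ : FreeGroup A → FreeGroup A) :
    FreeGroup (Option A) →* Perm (P A X) :=
  (MulAut.conj (gauK A X κ)).toMonoidHom.comp (chi' A X)

theorem chiK_apply (κ : FreeGroup A → FreeGroup A) (e : FreeGroup (Option A)) :
    chiK A X κ e = gauK A X κ * chi' A X e * (gauK A X κ)⁻¹ := rfl

/-- if `κ w = 1` then the two representations agree at `t_w` -/
theorem chiK_tw {κ : FreeGroup A → FreeGroup A} {w : FreeGroup A} (hw : κ w = 1) :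
    chiK A X κ (tw w) = chi' A X (tw w) := by
  rw [chiK_apply, mul_inv_eq_iff_eq_mul]
  apply Equiv.ext; rintro ⟨g, n, x⟩
  simp only [Perm.mul_apply]
  have hw' : ∀ (m : ℤ) (y : X), (if m < 0 then (1 : FreeGroup A) else 1) • y = y := by
    intro m y; simp
  by_cases hg : g = w
  · subst hg
    rw [chi'_tw_self, gauK_apply, gauK_apply, hw, hw', hw', chi'_tw_self]
  · rw [chi'_tw_ne _ _ hg, gauK_apply, chi'_tw_ne _ _ hg]

theorem chiK_closure {κ : FreeGroup A → FreeGroup A} {Acc : Set (FreeGroup A)}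
    (h : ∀ w ∈ Acc, κ w = 1)
    {e : FreeGroup (Option A)} (he : e ∈ Subgroup.closure (tw '' Acc)) :
    chiK A X κ e = chi' A X e := by
  have : Subgroup.closure (tw '' Acc) ≤ (chiK A X κ).eqLocus (chi' A X) := by
    rw [Subgroup.closure_le]
    rintro _ ⟨w, hw, rfl⟩
    exact chiK_tw A X (h w hw)
  exact this he

/-- the honest case -/
theorem chiK_eq_chi {κ : FreeGroup A → FreeGroup A} (h : ∀ (g : FreeGroup A) (x : X),
    κ g • x = g • x) : chiK A X κ = chi A X := by
  have h1 : gauK A X κ = gau A X := by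
    apply Equiv.ext; rintro ⟨g, n, x⟩
    rw [gauK_apply, gau_apply]
    by_cases hn : n < 0 <;> simp [hn, h]
  ext1 e
  rw [chiK_apply, chi_eq, h1]


end letters

/-! ### functoriality -/

section functor

/-- the induced map -/
def mapP (A : Type) {X X' : Type} (f : X → X') : P A X → P A X' := fun p => (p.1, p.2.1, f p.2.2)

@[simp] theorem mapP_apply {X X' : Type} (f : X → X') (g : FreeGroup A) (n : ℤ) (x : X) :
    mapP A f (g, n, x) = (g, n, f x) := rfl







variable {X X' : Type} [MulAction (FreeGroup A) X] [MulAction (FreeGroup A) X']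
variable {f : X → X'} (hf : ∀ (w : FreeGroup A) x, f (w • x) = w • f x)








end functor

end Crest.Agent.R185.Md191B
end

-- ▼ part R185/Md191C

/-!
# R185 / MOD (C): the groups `D = ⟨H, k | [k, L] = 1⟩`, `S = ⟨E, k E k⁻¹⟩` and `χ̂ : S → Sym P(X)`

`D = FreeGroup (H ⧸ L) ⋊ H`.  `D` acts on `XX = H ×_E (P(X) × Bool)` where `E` acts on the copy
`true` by `chi` and on the copy `false` by `chi'`, and `k` exchanges `[l, (p, b)]`, `[l, (p, !b)]`
for `l ∈ L` and is the identity elsewhere.  `S` preserves the copy `[1, (p, true)]` of `P(X)`; this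
defines `chiS`.
-/

set_option autoImplicit false

namespace Crest.Agent.R185.Md191C

open Equiv Crest.Agent.R185.Md191A Crest.Agent.R185.Md191B

/-! ### the group `D` -/

section dgroup

variable {H : Type} [Group H] (L : Subgroup H)

/-- `H` acts on the free group on `H ⧸ L` -/
def qact : H →* MulAut (FreeGroup (H ⧸ L)) where
  toFun h := FreeGroup.freeGroupCongr (MulAction.toPerm h)
  map_one' := by
    ext x
    simp only [FreeGroup.freeGroupCongr_apply]
    have : (⇑(MulAction.toPerm (1 : H) : Perm (H ⧸ L))) = id := by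
      funext q; simp
    rw [this, FreeGroup.map.id]; rfl
  map_mul' a b := by
    ext x
    simp only [FreeGroup.freeGroupCongr_apply, MulAut.mul_apply]
    rw [FreeGroup.map.comp]
    congr 1
    congr 1
    funext q
    simp [mul_smul]

@[simp] theorem qact_of (h : H) (q : H ⧸ L) : qact L h (FreeGroup.of q) = FreeGroup.of (h • q) := by
  simp [qact]

/-- the group `D` -/
abbrev DG : Type := FreeGroup (H ⧸ L) ⋊[qact L] H

/-- `H ≤ D` -/
def hD : H →* DG L := SemidirectProduct.inr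

/-- the letter `k` -/
def kD : DG L := SemidirectProduct.inl (FreeGroup.of ((1 : H) : H ⧸ L))

theorem conj_kD (h : H) : hD L h * kD L * (hD L h)⁻¹ =
    SemidirectProduct.inl (FreeGroup.of ((h : H) : H ⧸ L)) := by
  unfold hD kD
  rw [← map_inv, ← SemidirectProduct.inl_aut, qact_of]
  simp

theorem comm_kD {l : H} (hl : l ∈ L) : Commute (kD L) (hD L l) := by
  have h1 : ((l : H) : H ⧸ L) = ((1 : H) : H ⧸ L) := by
    rw [eq_comm, QuotientGroup.eq]; simpa using hl
  have := conj_kD L l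
  rw [h1] at this
  have h2 : hD L l * kD L * (hD L l)⁻¹ = kD L := this
  rw [mul_inv_eq_iff_eq_mul] at h2
  exact h2.symm

/-- the conjugates of `κ` indexed by `H ⧸ L` -/
def conjQ {K : Type} [Group K] (f : H →* K) (κ : K) (hκ : ∀ l ∈ L, Commute κ (f l)) : H ⧸ L → K :=
  Quotient.lift (fun h => f h * κ * (f h)⁻¹) (by
    intro a b hab
    have hab' : a⁻¹ * b ∈ L := QuotientGroup.leftRel_apply.1 hab
    have := hκ _ hab'
    have hb : b = a * (a⁻¹ * b) := by group
    change f a * κ * (f a)⁻¹ = f b * κ * (f b)⁻¹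
    rw [hb, map_mul f a (a⁻¹ * b), mul_assoc (f a) _ κ, ← this.eq]
    group)

@[simp] theorem conjQ_mk {K : Type} [Group K] (f : H →* K) (κ : K)
    (hκ : ∀ l ∈ L, Commute κ (f l)) (h : H) :
    conjQ L f κ hκ (h : H ⧸ L) = f h * κ * (f h)⁻¹ := rfl

/-- the universal property of `D` -/
def liftD {K : Type} [Group K] (f : H →* K) (κ : K) (hκ : ∀ l ∈ L, Commute κ (f l)) : DG L →* K :=
  SemidirectProduct.lift (FreeGroup.lift (conjQ L f κ hκ)) f (by
    intro g
    ext q : 1
    obtain ⟨h, rfl⟩ := QuotientGroup.mk_surjective q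
    simp only [MonoidHom.comp_apply, MulEquiv.coe_toMonoidHom, qact_of, FreeGroup.lift_apply_of,
      MulAut.conj_apply, conjQ_mk]
    have : g • ((h : H) : H ⧸ L) = ((g * h : H) : H ⧸ L) := rfl
    rw [this, conjQ_mk, map_mul]
    group)

@[simp] theorem liftD_h {K : Type} [Group K] (f : H →* K) (κ : K)
    (hκ : ∀ l ∈ L, Commute κ (f l)) (h : H) : liftD L f κ hκ (hD L h) = f h := by
  simp [liftD, hD]

@[simp] theorem liftD_k {K : Type} [Group K] (f : H →* K) (κ : K)
    (hκ : ∀ l ∈ L, Commute κ (f l)) : liftD L f κ hκ (kD L) = κ := by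
  simp [liftD, kD]


end dgroup

/-! ### restriction of an action to an invariant copy -/

section restrict

variable {G Z Pp : Type} [Group G]

/-- the action induced on an invariant copy `c : Pp → Z` -/
noncomputable def restrictHom (a : G →* Perm Z) (c : Pp → Z) (hc : Function.Injective c)
    (h : ∀ g p, ∃ p', a g (c p) = c p') : G →* Perm Pp where
  toFun g :=
    { toFun := fun p => (h g p).choose
      invFun := fun p => (h g⁻¹ p).choose
      left_inv := by
        intro p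
        apply hc
        rw [← (h g⁻¹ _).choose_spec, ← (h g p).choose_spec, map_inv]; simp
      right_inv := by
        intro p
        apply hc
        rw [← (h g _).choose_spec, ← (h g⁻¹ p).choose_spec, map_inv]; simp }
  map_one' := by
    apply Equiv.ext; intro p
    apply hc
    change c (h 1 p).choose = c p
    rw [← (h 1 p).choose_spec]; simp
  map_mul' g g' := by
    apply Equiv.ext; intro p
    apply hc
    change c (h (g * g') p).choose = c (h g (h g' p).choose).choose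
    rw [← (h (g * g') p).choose_spec, ← (h g _).choose_spec, ← (h g' p).choose_spec, map_mul]
    rfl

theorem restrictHom_spec (a : G →* Perm Z) (c : Pp → Z) (hc : Function.Injective c)
    (h : ∀ g p, ∃ p', a g (c p) = c p') (g : G) (p : Pp) :
    a g (c p) = c (restrictHom a c hc h g p) := (h g p).choose_spec

end restrict

/-! ### the subgroup `S` -/

section sgroup

variable {A H : Type} [Group H] (L : Subgroup H) (ε : FreeGroup (Option A) →* H)

/-- the generators of `S` -/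
def genS : Set (DG L) := Set.range (fun e => hD L (ε e)) ∪
  Set.range (fun e => kD L * hD L (ε e) * (kD L)⁻¹)

/-- `S = ⟨E, k E k⁻¹⟩` -/
def SG : Subgroup (DG L) := Subgroup.closure (genS L ε)

theorem mem_SG (e : FreeGroup (Option A)) : hD L (ε e) ∈ SG L ε :=
  Subgroup.subset_closure (Or.inl ⟨e, rfl⟩)

theorem mem_SG' (e : FreeGroup (Option A)) : kD L * hD L (ε e) * (kD L)⁻¹ ∈ SG L ε :=
  Subgroup.subset_closure (Or.inr ⟨e, rfl⟩)

/-- `e ∈ S` -/
def eS (e : FreeGroup (Option A)) : SG L ε := ⟨hD L (ε e), mem_SG L ε e⟩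

/-- `k e k⁻¹ ∈ S` -/
def eS' (e : FreeGroup (Option A)) : SG L ε := ⟨kD L * hD L (ε e) * (kD L)⁻¹, mem_SG' L ε e⟩

/-- induction on `S` -/
theorem SG_induction {p : SG L ε → Prop} (h1 : ∀ e, p (eS L ε e)) (h2 : ∀ e, p (eS' L ε e))
    (hmul : ∀ x y, p x → p y → p (x * y)) (hinv : ∀ x, p x → p x⁻¹) (x : SG L ε) : p x := by
  obtain ⟨x, hx⟩ := x
  refine Subgroup.closure_induction (p := fun x hx => p ⟨x, hx⟩) ?_ ?_ ?_ ?_ hx
  · rintro _ (⟨e, rfl⟩ | ⟨e, rfl⟩)
    · exact h1 e
    · exact h2 e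
  · have := h1 1
    convert this using 1
    apply Subtype.ext
    simp [eS]
  · intro x y hx hy ihx ihy
    exact hmul _ _ ihx ihy
  · intro x hx ih
    exact hinv _ ih

end sgroup

/-! ### the two-copy set `XX` and `χ̂` -/

section chiS

variable {A H : Type} [Group H] {L : Subgroup H} {ε : FreeGroup (Option A) →* H}
variable {Acc : Set (FreeGroup A)}

/-- what is needed from the syntactic witness -/
structure WitOK (L : Subgroup H) (ε : FreeGroup (Option A) →* H) (Acc : Set (FreeGroup A)) :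
    Prop where
  inj : Function.Injective ε
  cap : ∀ e, ε e ∈ L → e ∈ Subgroup.closure (tw '' Acc)

variable (X : Type) [MulAction (FreeGroup A) X] (κ : FreeGroup A → FreeGroup A)

/-- both representations at once -/
noncomputable def chi2 : FreeGroup (Option A) →* Perm (P A X × Bool) where
  toFun e :=
    { toFun := fun p => (if p.2 then chiK A X κ e p.1 else chi' A X e p.1, p.2)
      invFun := fun p => (if p.2 then (chiK A X κ e)⁻¹ p.1 else (chi' A X e)⁻¹ p.1, p.2)
      left_inv := by rintro ⟨p, b⟩; cases b <;> simp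
      right_inv := by rintro ⟨p, b⟩; cases b <;> simp }
  map_one' := by apply Equiv.ext; rintro ⟨p, b⟩; cases b <;> simp
  map_mul' a b := by apply Equiv.ext; rintro ⟨p, b⟩; cases b <;> simp

@[simp] theorem chi2_true (e : FreeGroup (Option A)) (p : P A X) :
    chi2 X κ e (p, true) = (chiK A X κ e p, true) := by simp [chi2]

@[simp] theorem chi2_false (e : FreeGroup (Option A)) (p : P A X) :
    chi2 X κ e (p, false) = (chi' A X e p, false) := by simp [chi2]

/-- the action of `E = ε.range` -/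
noncomputable def star2 (hε : Function.Injective ε) : ε.range →* Perm (P A X × Bool) :=
  (chi2 X κ).comp (MonoidHom.ofInjective hε).symm.toMonoidHom

theorem star2_apply (hε : Function.Injective ε) (e : FreeGroup (Option A)) :
    star2 X κ hε (ε.rangeRestrict e) = chi2 X κ e := by
  unfold star2
  have : (MonoidHom.ofInjective hε).symm (ε.rangeRestrict e) = e := by
    rw [MulEquiv.symm_apply_eq]; rfl
  simp only [MonoidHom.comp_apply, MulEquiv.coe_toMonoidHom, this]

/-- `H ×_E (P(X) × Bool)` -/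
abbrev XX (hε : Function.Injective ε) : Type := Ind ε.range (star2 X κ hε)

variable {X} {κ}

/-- the point `[h, (p, b)]` -/
noncomputable abbrev mk2 (κ : FreeGroup A → FreeGroup A) (hε : Function.Injective ε) (h : H) (p : P A X) (b : Bool) : XX X κ hε :=
  mkI ε.range (star2 X κ hε) h (p, b)

theorem mk2_mul (hε : Function.Injective ε) (h : H) (e : FreeGroup (Option A)) (p : P A X)
    (b : Bool) :
    mk2 κ hε (h * ε e) p b = mk2 κ hε h (if b then chiK A X κ e p else chi' A X e p) b := by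
  have := mkI_mul (star := star2 X κ hε) h (ε.rangeRestrict e) (p, b)
  rw [star2_apply, MonoidHom.coe_rangeRestrict] at this
  cases b
  · rw [chi2_false] at this; simpa using this
  · rw [chi2_true] at this; simpa using this

theorem mk2_eq {hε : Function.Injective ε} {h h' : H} {p p' : P A X} {b b' : Bool} :
    mk2 κ hε h p b = mk2 κ hε h' p' b' ↔ ∃ e, h' = h * (ε e)⁻¹ ∧ b' = b ∧
      p' = (if b then chiK A X κ e p else chi' A X e p) := by
  rw [mkI_eq]
  constructor
  · rintro ⟨s, h1, h2⟩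
    obtain ⟨e, rfl⟩ := ε.rangeRestrict_surjective s
    rw [star2_apply] at h2
    rw [MonoidHom.coe_rangeRestrict] at h1
    refine ⟨e, h1, ?_⟩
    cases b
    · rw [chi2_false] at h2
      exact ⟨congrArg Prod.snd h2, by simpa using congrArg Prod.fst h2⟩
    · rw [chi2_true] at h2
      exact ⟨congrArg Prod.snd h2, by simpa using congrArg Prod.fst h2⟩
  · rintro ⟨e, h1, rfl, h2⟩
    refine ⟨ε.rangeRestrict e, by rw [MonoidHom.coe_rangeRestrict]; exact h1, ?_⟩
    rw [star2_apply]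
    cases b'
    · rw [chi2_false]; simp at h2; rw [h2]
    · rw [chi2_true]; simp at h2; rw [h2]

open Classical in
/-- the exchange `[l, (p, b)] ↔ [l, (p, !b)]`, `l ∈ L` -/
noncomputable def kf (κ : FreeGroup A → FreeGroup A) (L : Subgroup H) (hε : Function.Injective ε) (z : XX X κ hε) : XX X κ hε :=
  if h : ∃ (l : H) (p : P A X) (b : Bool), l ∈ L ∧ z = mk2 κ hε l p b then
    mk2 κ hε h.choose h.choose_spec.choose (!h.choose_spec.choose_spec.choose) else z

theorem kf_mem (hW : WitOK L ε Acc) (hκ : ∀ w ∈ Acc, κ w = 1) {l : H} (hl : l ∈ L)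
    (p : P A X) (b : Bool) : kf κ L hW.inj (mk2 κ hW.inj l p b) = mk2 κ hW.inj l p (!b) := by
  have h : ∃ (l' : H) (p' : P A X) (b' : Bool), l' ∈ L ∧
      mk2 κ hW.inj l p b = mk2 κ hW.inj l' p' b' := ⟨l, p, b, hl, rfl⟩
  unfold kf
  rw [dif_pos h]
  have h1 := h.choose_spec.choose_spec.choose_spec
  generalize h.choose_spec.choose_spec.choose = b' at h1 ⊢
  generalize h.choose_spec.choose = p' at h1 ⊢
  generalize h.choose = l' at h1 ⊢
  obtain ⟨hl', h2⟩ := h1
  obtain ⟨e, h3, rfl, h4⟩ := mk2_eq.1 h2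
  have he : ε e ∈ L := by
    have : ε e = l'⁻¹ * l := by rw [h3]; group
    rw [this]; exact L.mul_mem (L.inv_mem hl') hl
  have h5 := chiK_closure A X hκ (hW.cap e he)
  symm
  rw [mk2_eq]
  refine ⟨e, h3, rfl, ?_⟩
  rw [h4]
  cases b' <;> simp [h5]

theorem kf_else (hε : Function.Injective ε) (z : XX X κ hε)
    (h : ¬ ∃ (l : H) (p : P A X) (b : Bool), l ∈ L ∧ z = mk2 κ hε l p b) : kf κ L hε z = z := by
  unfold kf
  rw [dif_neg h]

theorem kf_kf (hW : WitOK L ε Acc) (hκ : ∀ w ∈ Acc, κ w = 1) (z : XX X κ hW.inj) :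
    kf κ L hW.inj (kf κ L hW.inj z) = z := by
  by_cases h : ∃ (l : H) (p : P A X) (b : Bool), l ∈ L ∧ z = mk2 κ hW.inj l p b
  · obtain ⟨l, p, b, hl, rfl⟩ := h
    rw [kf_mem hW hκ hl, kf_mem hW hκ hl, Bool.not_not]
  · rw [kf_else _ z h, kf_else _ z h]

/-- the letter `k` on `XX` -/
noncomputable def kX (X : Type) [MulAction (FreeGroup A) X] (hW : WitOK L ε Acc) (hκ : ∀ w ∈ Acc, κ w = 1) :
    Perm (XX X κ hW.inj) where
  toFun := kf κ L hW.inj
  invFun := kf κ L hW.inj
  left_inv := kf_kf hW hκ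
  right_inv := kf_kf hW hκ

theorem kX_mem (hW : WitOK L ε Acc) (hκ : ∀ w ∈ Acc, κ w = 1) {l : H} (hl : l ∈ L)
    (p : P A X) (b : Bool) : kX X hW hκ (mk2 κ hW.inj l p b) = mk2 κ hW.inj l p (!b) :=
  kf_mem hW hκ hl p b

theorem kX_inv_mem (hW : WitOK L ε Acc) (hκ : ∀ w ∈ Acc, κ w = 1) {l : H}
    (hl : l ∈ L) (p : P A X) (b : Bool) :
    (kX X hW hκ)⁻¹ (mk2 κ hW.inj l p b) = mk2 κ hW.inj l p (!b) :=
  kf_mem hW hκ hl p b

theorem kX_else (hW : WitOK L ε Acc) (hκ : ∀ w ∈ Acc, κ w = 1) (z : XX X κ hW.inj)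
    (h : ¬ ∃ (l : H) (p : P A X) (b : Bool), l ∈ L ∧ z = mk2 κ hW.inj l p b) :
    kX X hW hκ z = z := kf_else _ z h

/-- the action of `H` on `XX` -/
noncomputable abbrev hX2 (X : Type) [MulAction (FreeGroup A) X] (κ : FreeGroup A → FreeGroup A) (hε : Function.Injective ε) : H →* Perm (XX X κ hε) :=
  dI ε.range (star2 X κ hε)

theorem kX_comm (hW : WitOK L ε Acc) (hκ : ∀ w ∈ Acc, κ w = 1) (l : H) (hl : l ∈ L) :
    Commute (kX X hW hκ) (hX2 X κ hW.inj l) := by
  apply Equiv.ext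
  intro z
  simp only [Perm.mul_apply]
  by_cases h : ∃ (l : H) (p : P A X) (b : Bool), l ∈ L ∧ z = mk2 κ hW.inj l p b
  · obtain ⟨l', p, b, hl', rfl⟩ := h
    rw [dI_mk, kX_mem hW hκ hl', dI_mk]
    exact kX_mem hW hκ (L.mul_mem hl hl') p b
  · rw [kX_else hW hκ z h, kX_else hW hκ]
    rintro ⟨l', p, b, hl', h1⟩
    apply h
    refine ⟨l⁻¹ * l', p, b, L.mul_mem (L.inv_mem hl) hl', ?_⟩
    obtain ⟨x, ⟨p0, b0⟩, rfl⟩ := Ind_cases z
    rw [dI_mk] at h1
    obtain ⟨e, h2, h3, h4⟩ := mk2_eq.1 h1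
    refine mk2_eq.2 ⟨e, ?_, h3, h4⟩
    rw [h2]; group

/-- the action of `D` on `XX` -/
noncomputable def actX (X : Type) [MulAction (FreeGroup A) X] (hW : WitOK L ε Acc) (hκ : ∀ w ∈ Acc, κ w = 1) :
    DG L →* Perm (XX X κ hW.inj) := liftD L (hX2 X κ hW.inj) (kX X hW hκ) (kX_comm hW hκ)

@[simp] theorem actX_h (hW : WitOK L ε Acc) (hκ : ∀ w ∈ Acc, κ w = 1) (h h' : H)
    (p : P A X) (b : Bool) :
    actX X hW hκ (hD L h) (mk2 κ hW.inj h' p b) = mk2 κ hW.inj (h * h') p b := by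
  unfold actX; rw [liftD_h]; rfl

theorem actX_k (hW : WitOK L ε Acc) (hκ : ∀ w ∈ Acc, κ w = 1) :
    actX X hW hκ (kD L) = kX X hW hκ := by
  unfold actX; rw [liftD_k]

theorem actX_e (hW : WitOK L ε Acc) (hκ : ∀ w ∈ Acc, κ w = 1)
    (e : FreeGroup (Option A)) (p : P A X) :
    actX X hW hκ (hD L (ε e)) (mk2 κ hW.inj 1 p true) = mk2 κ hW.inj 1 (chiK A X κ e p) true := by
  rw [actX_h, mul_one]
  have := mk2_mul (κ := κ) hW.inj 1 e p true
  rw [one_mul] at this
  simpa using this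

theorem actX_e' (hW : WitOK L ε Acc) (hκ : ∀ w ∈ Acc, κ w = 1)
    (e : FreeGroup (Option A)) (p : P A X) :
    actX X hW hκ (kD L * hD L (ε e) * (kD L)⁻¹) (mk2 κ hW.inj 1 p true) =
      mk2 κ hW.inj 1 (chi' A X e p) true := by
  simp only [map_mul, map_inv, Perm.mul_apply, actX_k]
  rw [kX_inv_mem hW hκ L.one_mem, Bool.not_true, actX_h, mul_one]
  have := mk2_mul (κ := κ) hW.inj 1 e p false
  rw [one_mul] at this
  rw [this]
  have := kX_mem hW hκ L.one_mem (chi' A X e p) false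
  simpa using this

theorem actX_inv (hW : WitOK L ε Acc) (hκ : ∀ w ∈ Acc, κ w = 1) (x : SG L ε)
    (p : P A X) : ∃ p', actX X hW hκ x (mk2 κ hW.inj 1 p true) = mk2 κ hW.inj 1 p' true := by
  have key : ∀ x : SG L ε, (∀ p : P A X, ∃ p', actX X hW hκ x (mk2 κ hW.inj 1 p true) =
      mk2 κ hW.inj 1 p' true) ∧ (∀ p : P A X, ∃ p', (actX X hW hκ x)⁻¹ (mk2 κ hW.inj 1 p true) =
      mk2 κ hW.inj 1 p' true) := by
    intro x
    refine SG_induction L ε (p := fun x => (∀ p : P A X, ∃ p', actX X hW hκ x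
      (mk2 κ hW.inj 1 p true) = mk2 κ hW.inj 1 p' true) ∧ (∀ p : P A X, ∃ p',
      (actX X hW hκ x)⁻¹ (mk2 κ hW.inj 1 p true) = mk2 κ hW.inj 1 p' true)) ?_ ?_ ?_ ?_ x
    · intro e
      refine ⟨fun p => ⟨_, actX_e hW hκ e p⟩, fun p => ⟨(chiK A X κ e)⁻¹ p, ?_⟩⟩
      rw [Perm.inv_eq_iff_eq]
      change _ = actX X hW hκ (hD L (ε e)) _
      rw [actX_e]; simp
    · intro e
      refine ⟨fun p => ⟨_, actX_e' hW hκ e p⟩, fun p => ⟨(chi' A X e)⁻¹ p, ?_⟩⟩
      rw [Perm.inv_eq_iff_eq]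
      change _ = actX X hW hκ (kD L * hD L (ε e) * (kD L)⁻¹) _
      rw [actX_e']; simp
    · rintro x y ⟨hx, hx'⟩ ⟨hy, hy'⟩
      constructor
      · intro p
        obtain ⟨p1, h1⟩ := hy p
        obtain ⟨p2, h2⟩ := hx p1
        refine ⟨p2, ?_⟩
        rw [Subgroup.coe_mul, map_mul, Perm.mul_apply, h1, h2]
      · intro p
        obtain ⟨p1, h1⟩ := hx' p
        obtain ⟨p2, h2⟩ := hy' p1
        refine ⟨p2, ?_⟩
        rw [Subgroup.coe_mul, map_mul, mul_inv_rev, Perm.mul_apply, h1, h2]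
    · rintro x ⟨hx, hx'⟩
      constructor
      · intro p
        rw [Subgroup.coe_inv, map_inv]; exact hx' p
      · intro p
        rw [Subgroup.coe_inv, map_inv, inv_inv]; exact hx p
  exact (key x).1 p

theorem mk2_one_inj (κ : FreeGroup A → FreeGroup A) (hε : Function.Injective ε) :
    Function.Injective (fun p : P A X => mk2 κ hε 1 p true) := by
  intro p p' h
  have := in0_inj h
  exact congrArg Prod.fst this

/-- **`χ̂ : S → Sym P(X)`** -/
noncomputable def chiS (X : Type) [MulAction (FreeGroup A) X] (hW : WitOK L ε Acc) (hκ : ∀ w ∈ Acc, κ w = 1) :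
    SG L ε →* Perm (P A X) :=
  restrictHom ((actX X hW hκ).comp (SG L ε).subtype) (fun p => mk2 κ hW.inj 1 p true)
    (mk2_one_inj κ hW.inj) (fun x p => actX_inv hW hκ x p)

/-- the defining property of `χ̂`: evaluate the word in `XX` -/
theorem chiS_spec (hW : WitOK L ε Acc) (hκ : ∀ w ∈ Acc, κ w = 1) (x : SG L ε)
    (p : P A X) :
    actX X hW hκ x (mk2 κ hW.inj 1 p true) = mk2 κ hW.inj 1 (chiS X hW hκ x p) true :=
  restrictHom_spec ((actX X hW hκ).comp (SG L ε).subtype) (fun p => mk2 κ hW.inj 1 p true)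
    (mk2_one_inj κ hW.inj) (fun x p => actX_inv hW hκ x p) x p

@[simp] theorem chiS_e (hW : WitOK L ε Acc) (hκ : ∀ w ∈ Acc, κ w = 1)
    (e : FreeGroup (Option A)) : chiS X hW hκ (eS L ε e) = chiK A X κ e := by
  apply Equiv.ext; intro p
  apply mk2_one_inj (ε := ε) κ hW.inj
  change mk2 κ hW.inj 1 _ true = mk2 κ hW.inj 1 _ true
  rw [← chiS_spec]
  exact actX_e hW hκ e p

@[simp] theorem chiS_e' (hW : WitOK L ε Acc) (hκ : ∀ w ∈ Acc, κ w = 1)
    (e : FreeGroup (Option A)) : chiS X hW hκ (eS' L ε e) = chi' A X e := by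
  apply Equiv.ext; intro p
  apply mk2_one_inj (ε := ε) κ hW.inj
  change mk2 κ hW.inj 1 _ true = mk2 κ hW.inj 1 _ true
  rw [← chiS_spec]
  exact actX_e' hW hκ e p

end chiS


end Crest.Agent.R185.Md191C
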