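import Crest.Agent.R185.Wit6
import Mathlib.Data.List.OfFn
import Mathlib.Algebra.BigOperators.Fin
import Mathlib.Algebra.BigOperators.Pi
import Mathlib.Tactic.Abel
import Mathlib.Tactic.Group
import Mathlib.Data.Finite.Sum

/-!
# R185, block WIT, part 7: the finite presentation side

`rels W`: finitely many words in the letters `HL W`, true in `Hg W`, such that in every group in which
they hold the conjugate of the start letter by an accepted input is a conjugate of the halting letter
by a word in the rules.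
-/

set_option autoImplicit false
set_option linter.unusedSectionVars false

namespace Crest.Agent.R185.Wit

variable {R A : Type} [DecidableEq R] [DecidableEq A] (W : WS R A)

/-- the word `x^v` -/
def xw (v : Fin W.k → ℤ) : FreeGroup (HL W) :=
  (List.ofFn fun j => FreeGroup.of (HL.x j) ^ v j).prod

/-- the letter of an input letter -/
def piw : FreeGroup A →* FreeGroup (HL W) := FreeGroup.lift fun x => (FreeGroup.of (HL.y (.inr x)))⁻¹

/-- the rule words -/
def rw' : FreeGroup R →* FreeGroup (HL W) := FreeGroup.lift fun r => FreeGroup.of (HL.y (.inl r))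

/-- the start letter as a word -/
def tew : FreeGroup (HL W) := xw W W.tx * FreeGroup.of (HL.t W.qin) * (xw W W.tx)⁻¹

/-- the relators -/
inductive rels : FreeGroup (HL W) → Prop
  | comm (i j : Fin W.k) : rels (FreeGroup.of (HL.x i) * FreeGroup.of (HL.x j) *
      (FreeGroup.of (HL.x i))⁻¹ * (FreeGroup.of (HL.x j))⁻¹)
  | scale (l : R ⊕ A) (j : Fin W.k) : rels (FreeGroup.of (HL.y l) *
      FreeGroup.of (HL.x j) ^ W.B l j * (FreeGroup.of (HL.y l))⁻¹ * (FreeGroup.of (HL.x j))⁻¹)
  | step (l : R ⊕ A) : rels (FreeGroup.of (HL.y l) * (xw W (W.a l) *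
      FreeGroup.of (HL.t (W.toSys.src l)) * (xw W (W.a l))⁻¹) * (FreeGroup.of (HL.y l))⁻¹ *
      (FreeGroup.of (HL.t (W.toSys.tgt l)))⁻¹)

theorem rels_finite [Finite R] [Finite A] : {w | rels W w}.Finite := by
  have h : {w | rels W w} ⊆
      (Set.range fun p : Fin W.k × Fin W.k => (FreeGroup.of (HL.x p.1) * FreeGroup.of (HL.x p.2) *
        (FreeGroup.of (HL.x p.1))⁻¹ * (FreeGroup.of (HL.x p.2))⁻¹ : FreeGroup (HL W))) ∪
      (Set.range fun p : (R ⊕ A) × Fin W.k => (FreeGroup.of (HL.y p.1) *
        FreeGroup.of (HL.x p.2) ^ W.B p.1 p.2 * (FreeGroup.of (HL.y p.1))⁻¹ *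
        (FreeGroup.of (HL.x p.2))⁻¹ : FreeGroup (HL W))) ∪
      (Set.range fun l : R ⊕ A => (FreeGroup.of (HL.y l) * (xw W (W.a l) *
        FreeGroup.of (HL.t (W.toSys.src l)) * (xw W (W.a l))⁻¹) * (FreeGroup.of (HL.y l))⁻¹ *
        (FreeGroup.of (HL.t (W.toSys.tgt l)))⁻¹ : FreeGroup (HL W))) := by
    rintro w hw
    cases hw with
    | comm i j => exact Or.inl (Or.inl ⟨(i, j), rfl⟩)
    | scale l j => exact Or.inl (Or.inr ⟨(l, j), rfl⟩)
    | step l => exact Or.inr ⟨l, rfl⟩
  exact (((Set.finite_range _).union (Set.finite_range _)).union (Set.finite_range _)).subset h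

section powers

variable {G : Type*} [Group G]

/-- product of powers -/
def pw {n : ℕ} (g : Fin n → G) (v : Fin n → ℤ) : G := (List.ofFn fun j => g j ^ v j).prod

theorem pw_succ {n : ℕ} (g : Fin (n + 1) → G) (v : Fin (n + 1) → ℤ) :
    pw g v = g 0 ^ v 0 * pw (fun j => g j.succ) (fun j => v j.succ) := by
  rw [pw, List.ofFn_succ, List.prod_cons]
  rfl

theorem commute_pw {n : ℕ} (g : Fin n → G) (v : Fin n → ℤ) (h : G) (hc : ∀ j, Commute h (g j)) :
    Commute h (pw g v) := by
  induction n with
  | zero => simp [pw]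
  | succ n ih =>
    rw [pw_succ]
    exact ((hc 0).zpow_right _).mul_right (ih _ _ fun j => hc _)

theorem pw_add {n : ℕ} (g : Fin n → G) (hc : ∀ i j, Commute (g i) (g j)) (v w : Fin n → ℤ) :
    pw g (v + w) = pw g v * pw g w := by
  induction n with
  | zero => simp [pw]
  | succ n ih =>
    rw [pw_succ, pw_succ, pw_succ]
    have h1 : pw (fun j => g j.succ) (fun j => (v + w) j.succ) =
        pw (fun j => g j.succ) (fun j => v j.succ) * pw (fun j => g j.succ) (fun j => w j.succ) :=
      ih _ (fun i j => hc _ _) _ _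
    have h2 : Commute (g 0 ^ w 0) (pw (fun j => g j.succ) (fun j => v j.succ)) :=
      commute_pw _ _ _ fun j => (hc 0 j.succ).zpow_left _
    rw [h1, Pi.add_apply, zpow_add, mul_assoc, mul_assoc, ← mul_assoc (g 0 ^ w 0), h2.eq]
    simp only [mul_assoc]

theorem conj_pw {n : ℕ} (g : Fin n → G) (B v : Fin n → ℤ) (y : G)
    (hy : ∀ j, y * g j ^ B j * y⁻¹ = g j) :
    y * pw g (fun j => B j * v j) * y⁻¹ = pw g v := by
  induction n with
  | zero => simp [pw]
  | succ n ih =>
    rw [pw_succ, pw_succ]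
    have h1 := ih (fun j => g j.succ) (fun j => B j.succ) (fun j => v j.succ) (fun j => hy _)
    have h2 : y * g 0 ^ (B 0 * v 0) * y⁻¹ = g 0 ^ v 0 := by
      rw [zpow_mul, ← conj_zpow, hy]
    rw [← h1, ← h2]
    group

theorem map_pw {H : Type*} [Group H] (f : G →* H) {n : ℕ} (g : Fin n → G) (v : Fin n → ℤ) :
    f (pw g v) = pw (fun j => f (g j)) v := by
  rw [pw, pw, map_list_prod, List.map_ofFn]
  congr 2
  funext j
  simp

end powers

section derivation

variable {G : Type*} [Group G] (f : FreeGroup (HL W) →* G)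

theorem map_xw (v : Fin W.k → ℤ) :
    f (xw W v) = pw (fun j => f (FreeGroup.of (HL.x j))) v := map_pw f _ v

variable (hf : ∀ w, rels W w → f w = 1)

include hf in
theorem f_comm (i j : Fin W.k) : Commute (f (FreeGroup.of (HL.x i))) (f (FreeGroup.of (HL.x j))) := by
  have := hf _ (.comm i j)
  rw [map_mul, map_mul, map_mul, map_inv, map_inv, mul_inv_eq_one, mul_inv_eq_iff_eq_mul] at this
  exact this

include hf in
theorem f_xadd (v w : W.toSys.V) : f (xw W (v + w)) = f (xw W v) * f (xw W w) := by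
  rw [map_xw, map_xw, map_xw]
  exact pw_add _ (f_comm W f hf) v w

include hf in
theorem f_scale (l : R ⊕ A) (v : W.toSys.V) :
    f (FreeGroup.of (HL.y l)) * f (xw W (mulB (S := W.toSys) l v)) =
      f (xw W v) * f (FreeGroup.of (HL.y l)) := by
  rw [← mul_inv_eq_iff_eq_mul, map_xw, map_xw]
  refine conj_pw _ (W.B l) v _ fun j => ?_
  have := hf _ (.scale l j)
  rw [map_mul, map_mul, map_mul, map_inv, map_inv, mul_inv_eq_one, map_zpow] at this
  exact this

/-- the homomorphism `M → G` -/
noncomputable def fM : M W.toSys →* G :=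
  liftM (S := W.toSys) (fun v => f (xw W v)) (fun l => f (FreeGroup.of (HL.y l)))
    (f_xadd W f hf) (f_scale W f hf)


theorem fM_my (l : R ⊕ A) : fM W f hf (my (S := W.toSys) l) = f (FreeGroup.of (HL.y l)) :=
  liftM_my (S := W.toSys) _ _ _ _ l

/-- the letter at a configuration -/
noncomputable def tG (c : W.Q × W.toSys.V) : G :=
  f (xw W c.2) * f (FreeGroup.of (HL.t c.1)) * (f (xw W c.2))⁻¹

include hf in
theorem tG_step (l : R ⊕ A) (c : W.toSys.V) :
    tG W f (W.toSys.tgt l, c) = f (FreeGroup.of (HL.y l)) *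
      tG W f (W.toSys.src l, mulB (S := W.toSys) l c + W.a l) * (f (FreeGroup.of (HL.y l)))⁻¹ := by
  have h1 := hf _ (.step l)
  rw [map_mul, map_mul, map_mul, map_mul, map_mul, map_inv, map_inv, map_inv, mul_inv_eq_one] at h1
  simp only [tG]
  rw [f_xadd W f hf, ← h1]
  have h2 := f_scale W f hf l c
  have h3 : f (FreeGroup.of (HL.y l)) * f (xw W (mulB (S := W.toSys) l c)) *
      (f (FreeGroup.of (HL.y l)))⁻¹ = f (xw W c) := by
    rw [h2, mul_inv_cancel_right]
  rw [← h3]
  group

include hf in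
theorem tG_Cn {c d : W.Q × W.toSys.V} (h : Cn W c d) :
    ∃ p, tG W f d = fM W f hf (iR W p) * tG W f c * (fM W f hf (iR W p))⁻¹ := by
  induction h with
  | rel x y h =>
    obtain ⟨r, c⟩ := h
    refine ⟨FreeGroup.of r, ?_⟩
    rw [iR_of, fM_my]
    exact tG_step W f hf (.inl r) c
  | refl x => exact ⟨1, by simp⟩
  | symm x y h ih =>
    obtain ⟨p, hp⟩ := ih
    refine ⟨p⁻¹, ?_⟩
    rw [hp, map_inv, map_inv]
    group
  | trans x y z h1 h2 ih1 ih2 =>
    obtain ⟨p, hp⟩ := ih1
    obtain ⟨p', hp'⟩ := ih2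
    refine ⟨p' * p, ?_⟩
    rw [hp', hp, map_mul, map_mul]
    group

include hf in
theorem tG_code {L : List (A × Bool)} (h : Pos L) :
    tG W f (W.qin, code W (L.map Prod.fst)) =
      fM W f hf (ip W (FreeGroup.mk L)) * tG W f (W.qin, W.tx) *
        (fM W f hf (ip W (FreeGroup.mk L)))⁻¹ := by
  induction L with
  | nil =>
    have : (FreeGroup.mk [] : FreeGroup A) = 1 := rfl
    simp [this, code]
  | cons x L ih =>
    obtain ⟨x, e⟩ := x
    obtain ⟨h1, h2⟩ := pos_cons.1 h
    simp only at h1
    subst h1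
    have h3 : (FreeGroup.mk [(x, true)] : FreeGroup A) = FreeGroup.of x := rfl
    rw [mk_cons', h3, map_mul, map_mul, ip_of, map_inv, fM_my]
    have h4 := tG_step W f hf (.inr x) (code W (L.map Prod.fst))
    have h5 : tG W f (W.qin, code W (((x, true) :: L).map Prod.fst)) =
        (f (FreeGroup.of (HL.y (.inr x))))⁻¹ * tG W f (W.qin, code W (L.map Prod.fst)) *
          f (FreeGroup.of (HL.y (.inr x))) := by
      have h6 : tG W f (W.qin, code W (L.map Prod.fst)) = f (FreeGroup.of (HL.y (.inr x))) *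
        tG W f (W.qin, code W (((x, true) :: L).map Prod.fst)) *
          (f (FreeGroup.of (HL.y (.inr x))))⁻¹ := h4
      rw [h6]
      group
    rw [h5, ih h2]
    group

theorem fM_ip (g : FreeGroup A) : fM W f hf (ip W g) = f (piw W g) := by
  have : (fM W f hf).comp (ip W) = f.comp (piw W) := by
    ext x
    simp only [MonoidHom.comp_apply, ip_of, map_inv, fM_my, piw, FreeGroup.lift_apply_of]
  exact DFunLike.congr_fun this g

theorem fM_iR (g : FreeGroup R) : fM W f hf (iR W g) = f (rw' W g) := by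
  have : (fM W f hf).comp (iR W) = f.comp (rw' W) := by
    ext x
    simp only [MonoidHom.comp_apply, iR_of, fM_my, rw', FreeGroup.lift_apply_of]
  exact DFunLike.congr_fun this g

theorem xw_zero : f (xw W 0) = 1 := by
  rw [map_xw, pw]
  simp

include hf in
/-- **Derivation**: in every group in which the relators hold, the conjugate of the start letter by
an accepted input is a conjugate of the halting letter by a word in the rules -/
theorem derivation {g : FreeGroup A} (hg : st W g ∈ Ch W) :
    ∃ p : FreeGroup R, f (piw W g) * f (tew W) * (f (piw W g))⁻¹ =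
      f (rw' W p) * f (FreeGroup.of (HL.t W.qh)) * (f (rw' W p))⁻¹ := by
  obtain ⟨hp, ha⟩ := (st_mem_Ch W).1 hg
  obtain ⟨p, h1⟩ := tG_Cn W f hf (Relation.EqvGen.symm _ _ ha)
  refine ⟨p, ?_⟩
  have h2 := tG_code W f hf hp
  rw [FreeGroup.mk_toWord, fM_ip] at h2
  rw [fM_iR] at h1
  have h3 : tG W f (W.qin, W.tx) = f (tew W) := by
    rw [tG, tew, map_mul, map_mul, map_inv]
  have h4 : tG W f (W.qh, (0 : W.toSys.V)) = f (FreeGroup.of (HL.t W.qh)) := by
    rw [tG]
    simp only
    rw [xw_zero, one_mul, inv_one, mul_one]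
  rw [h3] at h2
  rw [h4] at h1
  rw [← h2, ← h1]

end derivation

/-! ### truth in `Hg` -/

theorem hv_x (j : Fin W.k) : hv W (FreeGroup.of (HL.x j)) =
    SemidirectProduct.inr (mx (S := W.toSys) (Pi.single j 1)) := by
  rw [hv, FreeGroup.lift_apply_of]; rfl

theorem hv_y (l : R ⊕ A) : hv W (FreeGroup.of (HL.y l)) =
    SemidirectProduct.inr (my (S := W.toSys) l) := by
  rw [hv, FreeGroup.lift_apply_of]; rfl

theorem hv_t (q : W.Q) : hv W (FreeGroup.of (HL.t q)) = ht W q := by
  rw [hv, FreeGroup.lift_apply_of]; rfl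

/-- translations as a homomorphism -/
def mxH : Multiplicative (W.toSys.V) →* M W.toSys where
  toFun v := mx (Multiplicative.toAdd v)
  map_one' := mx_zero
  map_mul' _ _ := mx_add _ _

theorem pw_mx_aux {n : ℕ} (u : Fin n → W.toSys.V) (v : Fin n → ℤ) :
    pw (fun j => mx (S := W.toSys) (u j)) v = mx (∑ j, v j • u j) := by
  induction n with
  | zero => simp [pw, mx_zero]
  | succ n ih =>
    rw [pw_succ, ih, Fin.sum_univ_succ, mx_add]
    congr 1
    have := (map_zpow (mxH W) (Multiplicative.ofAdd (u 0)) (v 0)).symm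
    rw [← ofAdd_zsmul] at this
    exact this

theorem hv_xw (v : Fin W.k → ℤ) : hv W (xw W v) = SemidirectProduct.inr (mx (S := W.toSys) v) := by
  rw [map_xw]
  simp only [hv_x]
  rw [← map_pw, pw_mx_aux]
  congr 2
  funext i
  simp [Finset.sum_apply, Pi.single_apply]

theorem hv_tew : hv W (tew W) = te W := by
  rw [tew, map_mul, map_mul, map_inv, hv_xw, hv_t, te_eq]

theorem hv_piw (g : FreeGroup A) : hv W (piw W g) = SemidirectProduct.inr (ip W g) := by
  have : (hv W).comp (piw W) = (SemidirectProduct.inr).comp (ip W) := by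
    ext1 x
    simp only [MonoidHom.comp_apply, piw, FreeGroup.lift_apply_of, map_inv, hv_y, ip_of]
  exact DFunLike.congr_fun this g


theorem hv_rels {w : FreeGroup (HL W)} (hw : rels W w) : hv W w = 1 := by
  cases hw with
  | comm i j =>
    rw [map_mul, map_mul, map_mul, map_inv, map_inv, hv_x, hv_x, ← map_inv, ← map_inv, ← map_mul,
      ← map_mul, ← map_mul, ← mx_neg, ← mx_neg, ← mx_add, ← mx_add, ← mx_add]
    rw [← map_one SemidirectProduct.inr, ← mx_zero]
    congr 2
    abel
  | scale l j =>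
    rw [map_mul, map_mul, map_mul, map_inv, map_inv, map_zpow, hv_x, hv_y, ← map_inv, ← map_inv,
      ← map_zpow, ← map_mul, ← map_mul, ← map_mul]
    rw [← map_one SemidirectProduct.inr]
    congr 1
    have h1 : (mx (S := W.toSys) (Pi.single j 1)) ^ W.B l j =
        mx (mulB (S := W.toSys) l (Pi.single j 1)) := by
      have := (map_zpow (mxH W) (Multiplicative.ofAdd (Pi.single j 1)) (W.B l j)).symm
      rw [← ofAdd_zsmul] at this
      refine this.trans ?_
      change mx _ = mx _
      congr 1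
      funext i
      by_cases h : i = j
      · subst h; simp [mulB]
      · simp [mulB, h]
    rw [h1, my_mx, mul_inv_cancel_right, mul_inv_cancel]
  | step l =>
    rw [map_mul, map_mul, map_mul, map_mul, map_mul, map_inv, map_inv, map_inv, hv_xw, hv_y, hv_t,
      hv_t, ht, ht, mul_inv_eq_one, ← map_inv, ← SemidirectProduct.inl_aut, ← map_inv,
      ← SemidirectProduct.inl_aut, phi_of, phi_of, act_mx, act_my]
    congr 2
    have h1 := lperm_cfg (S := W.toSys) l 0
    rw [mulB_zero, zero_add] at h1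
    rw [← h1]
    congr 1
    simp [tperm_apply, cfg]

end Crest.Agent.R185.Wit
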