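import Crest.Agent.R185.Md191E
import Crest.Agent.R185.Wit7
import Crest.Agent.R185.Asm3
import Crest.Agent.R185.Clk9
import Crest.Agent.R185.Md191G
import Crest.Agent.R185.Tab2
import Crest.Agent.R185.Smp10
import Crest.Agent.R185.Hub3

-- ▼ part R185/Md191F
section

/-!
# R185 / MOD (F): the instantiation at the syntactic witness `Wit`
-/

set_option autoImplicit false
set_option linter.unusedSectionVars false

namespace Crest.Agent.R185.Md191F

open Crest.Agent.R185.Md191B Crest.Agent.R185.Md191C Crest.Agent.R185.Md191D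
open Crest.Agent.R185.Wit (WS HL Hg Ls eps st Ch hv tg emb tew te FC my mx ip iR Om M hl ht cfg)

variable {R A : Type} [DecidableEq R] [DecidableEq A] (W : WS R A)

/-- the accepted words -/
def AccS : Set (FreeGroup A) := {g | st W g ∈ Ch W}

theorem emb_eq_piw (g : FreeGroup A) : emb g = Md191B.piw g := by
  have : (emb : FreeGroup A →* _) = Md191B.piw := by
    ext1 a
    simp [emb, Md191B.piw]
  rw [this]

theorem tg_eq_tw (g : FreeGroup A) : tg g = tw g := by
  rw [tg, tw, emb_eq_piw, tt]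

/-- `WitOK` for the witness -/
theorem witOK : WitOK (Ls W) (eps W) (AccS W) where
  inj := Wit.eps_injective W
  cap := by
    intro e he
    have h := (Wit.eps_mem_Ls W).1 he
    refine Subgroup.closure_mono ?_ h
    rintro y ⟨g, hg, rfl⟩
    exact ⟨g, hg, (tg_eq_tw g).symm⟩

/-- the words of the letters of `E` -/
def thW : FreeGroup (Option A) →* FreeGroup (HL W) :=
  FreeGroup.lift (fun o => o.elim (tew W) (fun a => Wit.piw W (FreeGroup.of a)))

theorem thW_piw (g : FreeGroup A) : thW W (Md191B.piw g) = Wit.piw W g := by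
  have : (thW W).comp Md191B.piw = Wit.piw W := by
    ext1 a
    simp [thW, Md191B.piw]
  exact congrArg (fun f : FreeGroup A →* _ => f g) this

theorem thW_tt : thW W tt = tew W := by simp [thW, tt]

/-- `WitFP` for the witness -/
def witFP [Finite R] [Finite A] : WitFP (Ls W) (eps W) (AccS W) (HL W) where
  gen := hv W
  rels := {w | Wit.rels W w}
  rels_fin := Wit.rels_finite W
  rels_true := fun r hr => Wit.hv_rels W hr
  θ := thW W
  hθ := by
    intro e
    have : (hv W).comp (thW W) = eps W := by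
      ext1 o
      rcases o with _ | a
      · simp [thW, Wit.hv_tew]
      · simp [thW, Wit.hv_piw]
    exact congrArg (fun f : FreeGroup (Option A) →* _ => f e) this
  Lw := (Set.range (fun r : R => (FreeGroup.of (HL.y (.inl r)) : FreeGroup (HL W)))) ∪
    {FreeGroup.of (HL.t W.qh)}
  Lw_fin := (Set.finite_range _).union (Set.finite_singleton _)
  Lw_mem := by
    rintro w (⟨r, rfl⟩ | rfl)
    · rw [Wit.hv_y, ← Wit.iR_of]
      exact ⟨⟨FreeGroup.of r, by simp⟩, by simp⟩
    · rw [Wit.hv_t]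
      refine ⟨⟨1, by simp [ht]⟩, ?_⟩
      rw [ht, SemidirectProduct.left_inl]
      exact Wit.of_mem_FC.2 ⟨1, by simp [hl]⟩
  deriv := by
    intro K _ f hf w hw
    obtain ⟨p, hp⟩ := Wit.derivation W f (fun r hr => hf r hr) hw
    have h1 : f (thW W (tw w)) = f (Wit.piw W w) * f (tew W) * (f (Wit.piw W w))⁻¹ := by
      rw [tw, map_mul (thW W), map_mul (thW W), map_inv (thW W), thW_piw, thW_tt, map_mul f,
        map_mul f, map_inv f]
    rw [h1, hp]
    set C := Subgroup.closure (f '' ((Set.range (fun r : R =>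
      (FreeGroup.of (HL.y (.inl r)) : FreeGroup (HL W)))) ∪ {FreeGroup.of (HL.t W.qh)})) with hC
    have h2 : f (FreeGroup.of (HL.t W.qh)) ∈ C :=
      Subgroup.subset_closure ⟨_, Or.inr rfl, rfl⟩
    have h3 : f (Wit.rw' W p) ∈ C := by
      have h4 : (⊤ : Subgroup (FreeGroup R)) ≤ C.comap (f.comp (Wit.rw' W)) := by
        rw [← FreeGroup.closure_range_of, Subgroup.closure_le]
        rintro _ ⟨r, rfl⟩
        refine Subgroup.subset_closure ⟨_, Or.inl ⟨r, rfl⟩, ?_⟩
        rw [MonoidHom.comp_apply, Wit.rw', FreeGroup.lift_apply_of]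
      exact h4 (Subgroup.mem_top p)
    exact C.mul_mem (C.mul_mem h3 h2) (C.inv_mem h3)

instance [Finite R] [Finite A] [Finite W.Q] : Finite (HL W) := by
  have : Function.Surjective (fun x : (Fin W.k ⊕ (R ⊕ A)) ⊕ W.Q =>
      (match x with
        | Sum.inl (Sum.inl j) => HL.x j
        | Sum.inl (Sum.inr l) => HL.y l
        | Sum.inr q => HL.t q : HL W)) := by
    rintro (j | l | q)
    · exact ⟨Sum.inl (Sum.inl j), rfl⟩
    · exact ⟨Sum.inl (Sum.inr l), rfl⟩
    · exact ⟨Sum.inr q, rfl⟩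
  exact Finite.of_surjective _ this

end Crest.Agent.R185.Md191F
end

-- ▼ part R185/Asm4
section

/-!
# R185 / ASSEMBLY (4): the instantiation at the machine (helper958)

`U : UM (A × Bool)`; the letters of `H` are `HU U` (independent of the text `e`).
-/

set_option autoImplicit false
set_option linter.unusedSectionVars false

namespace Crest.Agent.R185.Asm

open Crest.Agent.R185.Wu Crest.Agent.R185.Hot Crest.Agent.R185.Smp
open Crest.Agent.R185.Md191B Crest.Agent.R185.Md191C Crest.Agent.R185.Md191D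
open Crest.Agent.R185.Clk (UM PConn)
open Crest.Agent.R185.Wit (HL hlv Hg mx my ht Ls eps st Ch)
open Crest.Agent.R185.Tab (AccG kap kap_spec)

section letters

variable {A : Type} [Primcodable A] [DecidableEq A] (U : UM (A × Bool))

/-- the letters of `H` -/
abbrev HU : Type := Fin U.nK ⊕ (Fin U.nR ⊕ Option (A × Bool)) ⊕ Fin U.nQ

/-- the letters of `H`, as the letters of the witness -/
def eqU (e : ℕ) : HU U ≃ HL (U.ws e) where
  toFun := Sum.elim (fun j => HL.x j) (Sum.elim (fun l => HL.y l) (fun q => HL.t q))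
  invFun l := match l with
    | .x j => Sum.inl j
    | .y l => Sum.inr (Sum.inl l)
    | .t q => Sum.inr (Sum.inr q)
  left_inv := by rintro (j | l | q) <;> rfl
  right_inv := by rintro (j | l | q) <;> rfl

/-- the values of the letters of `H` -/
def hlA (e : ℕ) : HU U → Hg (U.ws e) :=
  Sum.elim (fun j => SemidirectProduct.inr (mx (S := (U.ws e).toSys) (Pi.single j 1)))
    (Sum.elim (fun l => SemidirectProduct.inr (my (S := (U.ws e).toSys) l))
      (fun q => ht (U.ws e) q))

theorem hlv_eqU (e : ℕ) (l : HU U) : hlv (eqU U e l) = hlA U e l := by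
  rcases l with j | l | q <;> rfl

/-- the presentation data of `H` -/
def wfp [Finite A] (e : ℕ) : WitFP (Ls (U.ws e)) (eps (U.ws e)) (AccG (U.ws e)) (HU U) :=
  Md191G.reindex (Md191F.witFP (U.ws e)) (eqU U e)

theorem wfp_gen [Finite A] (e : ℕ) : (wfp U e).gen = FreeGroup.lift (hlA U e) := by
  ext1 l
  rw [FreeGroup.lift_apply_of]
  change Wit.hv (U.ws e) (FreeGroup.map (eqU U e) (FreeGroup.of l)) = _
  rw [FreeGroup.map.of, Wit.hv, FreeGroup.lift_apply_of]
  exact hlv_eqU U e l

/-! ### the accepted words -/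

/-- acceptance by the machine -/
def CU (e : ℕ) (w1 : List (Option (A × Bool))) : Prop :=
  PConn U.b U.rule (U.qin, U.start e w1) (U.qh, fun _ => 0)

/-- the accepted words, stripped -/
def AccU (e : ℕ) : Set (FreeGroup A) :=
  {w | ∃ w1 : List (Option (A × Bool)), FreeGroup.mk (w1.filterMap id) = w ∧ CU U e w1}

theorem isReduced_pos {α : Type} (w : List α) : FreeGroup.IsReduced (w.map fun a => (a, true)) := by
  unfold FreeGroup.IsReduced
  rw [List.isChain_iff_forall_rel_of_append_cons_cons]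
  intro a b l1 l2 h _
  have h1 : a ∈ w.map fun a => (a, true) := by rw [h]; simp
  have h2 : b ∈ w.map fun a => (a, true) := by rw [h]; simp
  simp only [List.mem_map] at h1 h2
  obtain ⟨x, -, rfl⟩ := h1
  obtain ⟨y, -, rfl⟩ := h2
  rfl

theorem toWord_pos {α : Type} [DecidableEq α] (w : List α) :
    (FreeGroup.mk (w.map fun a => (a, true))).toWord = w.map fun a => (a, true) := by
  rw [FreeGroup.toWord_mk]
  exact (isReduced_pos w).reduce_eq

theorem pos_eq {α : Type} [DecidableEq α] {l : List (α × Bool)} (h : Wit.Pos l) :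
    (l.map Prod.fst).map (fun a => (a, true)) = l := by
  induction l with
  | nil => rfl
  | cons x l ih =>
    rw [Wit.pos_cons] at h
    rw [List.map_cons, List.map_cons, ih h.2]
    rcases x with ⟨a, b⟩
    have : b = true := h.1
    rw [this]

/-- the accepted words of the witness are the positive words accepted by the machine -/
theorem mem_AccG (e : ℕ) {g : FreeGroup (Option (A × Bool))} :
    g ∈ AccG (U.ws e) ↔ ∃ w1, FreeGroup.mk (w1.map fun a => (a, true)) = g ∧ CU U e w1 := by
  change st (U.ws e) g ∈ Ch (U.ws e) ↔ _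
  rw [Wit.st_mem_Ch]
  constructor
  · rintro ⟨h1, h2⟩
    refine ⟨g.toWord.map Prod.fst, ?_, ?_⟩
    · rw [pos_eq h1, FreeGroup.mk_toWord]
    · exact (U.Acc_iff e _).1 h2
  · rintro ⟨w1, rfl, h⟩
    rw [toWord_pos]
    refine ⟨?_, ?_⟩
    · intro x hx
      obtain ⟨y, -, rfl⟩ := List.mem_map.1 hx
      rfl
    · rw [List.map_map]
      have : (Prod.fst ∘ fun a : Option (A × Bool) => (a, true)) = id := rfl
      rw [this, List.map_id]
      exact (U.Acc_iff e w1).2 h

theorem mem_AccU (e : ℕ) {w : FreeGroup A} :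
    w ∈ AccU U e ↔ ∃ g ∈ AccG (U.ws e), strip A g = w := by
  constructor
  · rintro ⟨w1, h1, h2⟩
    exact ⟨_, (mem_AccG U e).2 ⟨w1, rfl, h2⟩, by rw [strip_mk, h1]⟩
  · rintro ⟨g, hg, rfl⟩
    obtain ⟨w1, rfl, h2⟩ := (mem_AccG U e).1 hg
    exact ⟨w1, (strip_mk w1).symm, h2⟩

/-! ### the sheet space over the machine -/

variable (e : ℕ) (S : Subgroup (FreeGroup A))

/-- the sheet space -/
abbrev YU : Type := YS (Tab.witOK (U.ws e)) (kap_spec (U.ws e)) S

/-- the base point of the sheet space -/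
noncomputable def yU : YU U e S := yS (Tab.witOK (U.ws e)) (kap_spec (U.ws e)) S

/-- the letters on the sheet space -/
noncomputable def pU : UL (HU U) (Option (A × Bool)) → Equiv.Perm (YU U e S) :=
  letI := actS A (XS S)
  Md191E.lY (Tab.witOK (U.ws e)) (kap_spec (U.ws e)) (FreeGroup.lift (hlA U e)) (XS S)

theorem pU_eq [Finite A] :
    pU U e S = lYS (wfp U e) (Tab.witOK (U.ws e)) (kap_spec (U.ws e)) S := by
  unfold pU lYS
  rw [wfp_gen]

/-- **from the fixed point to a core** -/
theorem core_of_machine [Finite A] {G B : Type} [Group G] {eG : B → G}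
    (he : Subgroup.closure (Set.range eG) = ⊤)
    (hAcc : AccU U e = {w | ∀ v : FreeGroup A, v⁻¹ * w * v ∈ S})
    (kw : FreeGroup (KLet (UL (HU U) (Option (A × Bool))) B) →* FreeGroup A)
    (c1 : ∀ w, kw0 eG (yU U e S) (pU U e S) w (pts G _ 0) = pts G _ 0 ↔ kw w ∈ S)
    (c2 : ∀ w, (∀ v, kw0 eG (yU U e S) (pU U e S) (v⁻¹ * w * v) (pts G _ 0) = pts G _ 0) →
      ∀ v : FreeGroup A, v⁻¹ * kw w * v ∈ S) : Nonempty (Core G) := by
  classical
  have : Finite (U.ws e).Q := inferInstanceAs (Finite (Fin U.nQ))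
  rw [pU_eq] at c1 c2
  refine core_of_model (wfp U e) (Tab.witOK (U.ws e)) (kap_spec (U.ws e)) S he ?_ ?_ ?_ kw c1 c2
  · intro g
    by_cases h : g ∈ AccG (U.ws e)
    · exact Or.inr ⟨h, Tab.kap_acc _ h⟩
    · exact Or.inl (Tab.kap_not _ h)
  · intro w hw
    have h1 : strip A w ∈ AccU U e := (mem_AccU U e).2 ⟨w, hw, rfl⟩
    rw [hAcc] at h1
    exact h1
  · intro w hw
    have h1 : w ∈ AccU U e := by rw [hAcc]; exact hw
    exact (mem_AccU U e).1 h1

end letters

end Crest.Agent.R185.Asm
end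

-- ▼ part R185/Smp11
section

/-!
# R185 / SMP (11): the guard words of `K`-words and the stabiliser of the base point
-/

set_option autoImplicit false

namespace Crest.Agent.R185.Smp

open Crest.Agent.R185.Wu Crest.Agent.R185.Hot

section

variable {G Y A B : Type} [Group G] {M J : ℕ} {lt : ℤ → Option (KLet A B)}
  {ix : KLet A B → ℤ} {e : B → G} {y₀ : Y} {pa : A → Equiv.Perm Y}

/-- the guard word of a `K`-word acts exactly on the fibre over `(0, 0, 0)` -/
theorem lift_gzP_kHom (hL : Lbl J lt ix) (hM : 0 < M) (w : FreeGroup (KLet A B)) :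
    FreeGroup.lift (gzP M lt e y₀ pa) (kHom M ix w) = blkH (FreeGroup.lift (kact e y₀ pa) w) :=
  lift_kHom hL hM w

/-- **(c1)** -/
theorem kHom_mem_gzS (hL : Lbl J lt ix) (hM : 0 < M) (w : FreeGroup (KLet A B)) :
    kHom M ix w ∈ gzS M lt e y₀ pa ↔
      FreeGroup.lift (kact e y₀ pa) w (pts G Y 0) = pts G Y 0 := by
  rw [mem_gzS, lift_gzP_kHom hL hM, blkH_apply]
  unfold gz0
  rw [blk_zero]
  simp

/-- the points of the orbit of the base point lie over the orbit of `pts 0` -/
theorem gz_orbit (v : FreeGroup GdL) : ∃ (p : GP) (k : FreeGroup (KLet A B)),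
    FreeGroup.lift (gzP M lt e y₀ pa) v (gz0 G Y) =
      (p, FreeGroup.lift (kact e y₀ pa) k (pts G Y 0)) := by
  have h0 := ev_gstep M (sig lt (kact e y₀ pa)) v.toWord (0, 0, 0) (pts G Y 0)
  rw [glabs_word, ev_sg] at h0
  exact ⟨_, _, (lift_gzP' M lt e y₀ pa v _).trans h0⟩

/-- **(c2)** -/
theorem kHom_conj_mem_gzS (hL : Lbl J lt ix) (hM : 0 < M) (w : FreeGroup (KLet A B))
    (hw : ∀ v : FreeGroup (KLet A B),
      FreeGroup.lift (kact e y₀ pa) (v⁻¹ * w * v) (pts G Y 0) = pts G Y 0)
    (v : FreeGroup GdL) : v⁻¹ * kHom M ix w * v ∈ gzS M lt e y₀ pa := by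
  rw [mem_gzS_conj, lift_gzP_kHom hL hM]
  obtain ⟨p, k, hk⟩ := gz_orbit (G := G) (M := M) (lt := lt) (e := e) (y₀ := y₀) (pa := pa) v
  rw [hk, blkH_apply, blk_apply]
  have h1 := hw k
  rw [map_mul, map_mul, map_inv, Equiv.Perm.mul_apply, Equiv.Perm.mul_apply,
    Equiv.Perm.inv_eq_iff_eq] at h1
  simp only
  rw [h1, ite_self]

end

end Crest.Agent.R185.Smp
end

-- ▼ part R185/Asm5

/-!
# R185 / ASSEMBLY (5): the operator `Φ` and the core from a fixed point (helper958)

`Phi U eG M e S` is the stabiliser in `FreeGroup GdL` of the base point of the guard over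
`ZZ G (YU U e S)`; all obligations H1, H2, H3 of `Hub.hub_machine` are about this `Φ`.
-/

set_option autoImplicit false
set_option linter.unusedSectionVars false

namespace Crest.Agent.R185.Asm

open Crest.Agent.R185.Wu Crest.Agent.R185.Hot Crest.Agent.R185.Smp
open Crest.Agent.R185.Clk (UM PConn)

/-! ### the alphabet of the guard -/

/-- the letters of the guard are coded by `Fin 3` -/
def gdlEquiv : GdL ≃ Fin 3 where
  toFun a := match a with
    | .x => 0
    | .y => 1
    | .t => 2
  invFun i := match i with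
    | 0 => .x
    | 1 => .y
    | 2 => .t
  left_inv := by rintro (_ | _ | _) <;> rfl
  right_inv := by intro i; fin_cases i <;> rfl

instance : Primcodable GdL := Primcodable.ofEquiv (Fin 3) gdlEquiv

instance : Finite GdL := Finite.of_equiv _ gdlEquiv.symm

instance instFiniteKLet {A B : Type} [Finite A] [Finite B] : Finite (KLet A B) := by
  let f : (A ⊕ (Fin 3 × Fin 4 × A)) ⊕ (B ⊕ Fin 4) → KLet A B := fun x => match x with
    | Sum.inl (Sum.inl a) => .b a
    | Sum.inl (Sum.inr (i, j, a)) => .v i j a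
    | Sum.inr (Sum.inl c) => .g c
    | Sum.inr (Sum.inr 0) => .s
    | Sum.inr (Sum.inr 1) => .sp
    | Sum.inr (Sum.inr 2) => .sw
    | Sum.inr (Sum.inr 3) => .sw'
  refine Finite.of_surjective f ?_
  rintro (a | ⟨i, j, a⟩ | _ | c | _ | _ | _)
  · exact ⟨.inl (.inl a), rfl⟩
  · exact ⟨.inl (.inr (i, j, a)), rfl⟩
  · exact ⟨.inr (.inr 0), rfl⟩
  · exact ⟨.inr (.inl c), rfl⟩
  · exact ⟨.inr (.inr 1), rfl⟩
  · exact ⟨.inr (.inr 2), rfl⟩
  · exact ⟨.inr (.inr 3), rfl⟩

/-- a list of all elements -/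
noncomputable def allL (C : Type) [Finite C] : List C :=
  (@Finset.univ C (Fintype.ofFinite C)).toList

theorem mem_allL {C : Type} [Finite C] (c : C) : c ∈ allL C := by
  unfold allL
  rw [Finset.mem_toList]
  exact @Finset.mem_univ C (Fintype.ofFinite C) c

/-! ### the operator -/

section phi

variable (U : UM (GdL × Bool)) {G B : Type} [Group G] [Finite B] (eG : B → G)

/-- the letters of `U` -/
abbrev UU : Type := Md191D.UL (HU U) (Option (GdL × Bool))

/-- the door of a letter -/
noncomputable def ltU (B : Type) [Finite B] : ℤ → Option (KLet (UU U) B) :=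
  ltL (allL (KLet (UU U) B))

open Classical in
/-- the letter of a door -/
noncomputable def ixU (B : Type) [Finite B] : KLet (UU U) B → ℤ := ixL (allL (KLet (UU U) B))

/-- the number of doors -/
noncomputable def JU (B : Type) [Finite B] : ℕ := (allL (KLet (UU U) B)).length

theorem lblU : Lbl (JU U B) (ltU U B) (ixU U B) := by
  classical
  exact lbl_list (mem_allL)

/-- **the operator `Φ`** -/
noncomputable def Phi (M e : ℕ) (S : Subgroup (FreeGroup GdL)) : Subgroup (FreeGroup GdL) :=
  gzS M (ltU U B) eG (yU U e S) (pU U e S)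

/-- **from a fixed point to a core** -/
theorem core_of_fix (he : Subgroup.closure (Set.range eG) = ⊤) {M : ℕ} (hM : 0 < M) (e : ℕ)
    (S : Subgroup (FreeGroup GdL)) (hS : Phi U eG M e S = S)
    (hAcc : AccU U e = {w | ∀ v : FreeGroup GdL, v⁻¹ * w * v ∈ S}) : Nonempty (Core G) := by
  have hL := lblU U (B := B)
  refine core_of_machine U e S he hAcc (kHom M (ixU U B)) ?_ ?_
  · intro w
    have h := kHom_mem_gzS (G := G) (e := eG) (y₀ := yU U e S) (pa := pU U e S) hL hM w
    have h2 : kHom M (ixU U B) w ∈ S ↔ kHom M (ixU U B) w ∈ Phi U eG M e S := by rw [hS]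
    exact (h2.trans h).symm
  · intro w hw v
    have h := kHom_conj_mem_gzS (G := G) (e := eG) (y₀ := yU U e S) (pa := pU U e S) hL hM w hw v
    have h2 : v⁻¹ * kHom M (ixU U B) w * v ∈ S ↔
      v⁻¹ * kHom M (ixU U B) w * v ∈ Phi U eG M e S := by rw [hS]
    exact h2.2 h

/-- **the core from the three obligations of the hub** -/
theorem core_of_hub (he : Subgroup.closure (Set.range eG) = ⊤) {M : ℕ} (hM : 0 < M)
    {β : ℕ → ℕ → ℕ} (hβ : Computable₂ β)
    (H1 : ∀ e S S' r, Hub.Good (AccU U e) S r → Hub.Good (AccU U e) S' r → Hub.Agr S S' r →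
      Hub.Agr (Phi U eG M e S) (Phi U eG M e S') (2 * r + 1))
    (H2 : ∀ e S n ρ b, 1 ≤ n → Hub.Good (AccU U e) S ((n + 2 * ρ) / 2) →
      Hub.TL1 S (n / 2) (ρ / 2) b → Hub.TL1 (Phi U eG M e S) n ρ (β n b))
    (H3 : ComputablePred fun x : ℕ × ℕ × List (GdL × Bool) =>
      FreeGroup.mk x.2.2 ∈ Hub.lev (Phi U eG M) x.1 x.2.1) : Nonempty (Core G) := by
  obtain ⟨e, S, hS, hA⟩ := Hub.hub_machine (Φ := Phi U eG M) (C := CU U) (Acc := AccU U)
    (fun _ => rfl) hβ H1 H2 H3 U.kleene
  exact core_of_fix U eG he hM e S hS hA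

end phi

end Crest.Agent.R185.Asm
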