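import Crest.Agent.R185.Att1

/-!
# Row 185, block T1, part 2: towers of equivariant attachments and their union

`GSp G` = bundled `G`-spaces, `Cells X m` = finitely many attaching maps of free `m`-cells,
`GSp.att`, `tower F` (start with the empty space, attach free `n`-cells to stage `n`), union `Un F`.
-/

set_option autoImplicit false
set_option linter.unusedSectionVars false

open Set Metric Topology
open Crest.Agent.R197 (OrbSep)

namespace Crest.Agent.R185.Att

/-- a bundled `G`-space -/
structure GSp (G : Type) [Group G] where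
  Z : Type
  [top : TopologicalSpace Z]
  [act : MulAction G Z]
  [cts : ContinuousConstSMul G Z]

attribute [instance] GSp.top GSp.act GSp.cts

variable {G : Type} [Group G]

/-- attaching maps of finitely many (orbits of) `m`-cells -/
structure Cells (X : GSp G) (m : ℕ) where
  C : Type
  [fin : Finite C]
  φ : C → C(S m, X.Z)

attribute [instance] Cells.fin

/-- attach free cells -/
def GSp.att (X : GSp G) {m : ℕ} (c : Cells X m) : GSp G := ⟨GAtt G c.φ⟩

instance : MulAction G Empty where
  smul _ z := z
  one_smul _ := rfl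
  mul_smul _ _ _ := rfl

/-- the empty `G`-space -/
def GSp.emp (G : Type) [Group G] : GSp G where
  Z := Empty
  cts := ⟨fun _ => continuous_of_discreteTopology⟩

/-- no cells -/
def Cells.none (X : GSp G) (m : ℕ) : Cells X m := ⟨Empty, fun c => c.elim⟩

variable (F : ∀ (m : ℕ) (X : GSp G), Cells X m)

/-- stage `n` of the tower has cells of dimension `< n` -/
def tower : ℕ → GSp G
  | 0 => GSp.emp G
  | n + 1 => (tower n).att (F n (tower n))

theorem tower_succ (n : ℕ) : tower F (n + 1) = (tower F n).att (F n (tower F n)) := rfl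

/-- index type of the orbits of `n`-cells -/
abbrev cel (n : ℕ) : Type := (F n (tower F n)).C

/-- attaching map -/
abbrev atm (n : ℕ) (c : cel F n) : C(S n, (tower F n).Z) := (F n (tower F n)).φ c

/-- stage inclusion -/
def inc (n : ℕ) : C((tower F n).Z, (tower F (n + 1)).Z) :=
  ⟨fun z => inZ (F n (tower F n)).φ z, continuous_inZ⟩

/-- open cell point in stage `n+1` -/
def opn (n : ℕ) (g : G) (c : cel F n) (x : B n) : (tower F (n + 1)).Z :=
  inB (F n (tower F n)).φ g c x

/-- characteristic map in stage `n+1` -/
noncomputable def chn (n : ℕ) (g : G) (c : cel F n) : C(D n, (tower F (n + 1)).Z) :=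
  ⟨fun x => chr (F n (tower F n)).φ g c x, continuous_chr g c⟩

variable {F} in
@[elab_as_elim] theorem tower_cases {n : ℕ} {motive : (tower F (n + 1)).Z → Prop}
    (hZ : ∀ z, motive (inc F n z)) (hB : ∀ g c x, motive (opn F n g c x))
    (p : (tower F (n + 1)).Z) : motive p :=
  GAtt.cases' (φ := (F n (tower F n)).φ) (motive := motive) hZ hB p

/-- every stage has separated orbits -/
theorem tower_orbSep (n : ℕ) : OrbSep G (tower F n).Z := by
  induction n with
  | zero => intro z; exact z.elim
  | succ n ih => exact orbSep (φ := (F n (tower F n)).φ) ih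

instance (n : ℕ) : T2Space (tower F n).Z := t2_of_orbSep (tower_orbSep F n)



theorem inc_smul (n : ℕ) (g : G) (z : (tower F n).Z) : inc F n (g • z) = g • inc F n z := rfl

theorem chn_bd (n : ℕ) (g : G) (c : cel F n) (x : B n) : chn F n g c (bd n x) = opn F n g c x :=
  chr_bd g c x

theorem chn_sd (n : ℕ) (g : G) (c : cel F n) (x : S n) :
    chn F n g c (sd n x) = inc F n (g • atm F n c x) := chr_sd g c x

theorem smul_chn (n : ℕ) (g h : G) (c : cel F n) (x : D n) :
    g • chn F n h c x = chn F n (g * h) c x := smul_chr g h c x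

/-- the union of the tower: all points lie in open cells -/
def Un : Type := Σ n, (G × cel F n × B n)

/-- a point of an open cell -/
def pt (n : ℕ) (g : G) (c : cel F n) (x : B n) : Un F := ⟨n, g, c, x⟩

theorem pt_inj {n : ℕ} {g g' : G} {c c' : cel F n} {x x' : B n} :
    pt F n g c x = pt F n g' c' x' ↔ g = g' ∧ c = c' ∧ x = x' := by
  constructor
  · intro h
    have := eq_of_heq (Sigma.mk.inj h).2
    simpa [Prod.ext_iff] using this
  · rintro ⟨rfl, rfl, rfl⟩; rfl

/-- the stage inclusions into the union -/
def jj : ∀ n, (tower F n).Z → Un F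
  | 0 => fun z => Empty.elim z
  | n + 1 => Sum.elim (jj n) (fun p => ⟨n, p⟩)

@[simp] theorem jj_inc (n : ℕ) (z : (tower F n).Z) : jj F (n + 1) (inc F n z) = jj F n z := rfl
@[simp] theorem jj_opn (n : ℕ) (g : G) (c : cel F n) (x : B n) :
    jj F (n + 1) (opn F n g c x) = pt F n g c x := rfl

theorem jj_lt (n : ℕ) (z : (tower F n).Z) : (jj F n z).1 < n := by
  induction n with
  | zero => exact z.elim
  | succ n ih =>
    induction z using tower_cases with
    | hZ z => rw [jj_inc]; exact (ih z).trans n.lt_succ_self
    | hB g c x => rw [jj_opn]; exact n.lt_succ_self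

theorem jj_injective (n : ℕ) : Function.Injective (jj F n) := by
  induction n with
  | zero => intro z; exact z.elim
  | succ n ih =>
    intro z w h
    induction z using tower_cases with
    | hZ z =>
      induction w using tower_cases with
      | hZ w => rw [jj_inc, jj_inc] at h; rw [ih h]
      | hB g c x =>
        rw [jj_inc, jj_opn] at h
        exact absurd (jj_lt F n z) (by rw [h]; exact lt_irrefl n)
    | hB g c x =>
      induction w using tower_cases with
      | hZ w =>
        rw [jj_inc, jj_opn] at h
        exact absurd (jj_lt F n w) (by rw [← h]; exact lt_irrefl n)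
      | hB g' c' x' =>
        rw [jj_opn, jj_opn] at h
        obtain ⟨rfl, rfl, rfl⟩ := (pt_inj F).1 h
        rfl

theorem exists_jj (y : Un F) {n : ℕ} (hn : y.1 < n) : ∃ z, jj F n z = y := by
  induction n with
  | zero => exact absurd hn (Nat.not_lt_zero _)
  | succ n ih =>
    rcases Nat.lt_succ_iff_lt_or_eq.1 hn with h | h
    · obtain ⟨z, hz⟩ := ih h
      exact ⟨inc F n z, hz⟩
    · obtain ⟨k, g, c, x⟩ := y
      simp only at h
      subst h
      exact ⟨opn F k g c x, rfl⟩

instance : TopologicalSpace (Un F) where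
  IsOpen U := ∀ n, IsOpen (jj F n ⁻¹' U)
  isOpen_univ _ := isOpen_univ
  isOpen_inter U V hU hV n := (hU n).inter (hV n)
  isOpen_sUnion s hs n := by
    rw [preimage_sUnion]
    exact isOpen_biUnion fun t ht => hs t ht n

theorem un_isOpen_iff {U : Set (Un F)} : IsOpen U ↔ ∀ n, IsOpen (jj F n ⁻¹' U) := Iff.rfl

theorem un_isClosed_iff {U : Set (Un F)} : IsClosed U ↔ ∀ n, IsClosed (jj F n ⁻¹' U) := by
  simp only [← isOpen_compl_iff, un_isOpen_iff, preimage_compl]

theorem continuous_jj (n : ℕ) : Continuous (jj F n) := continuous_def.2 fun _ hU => hU n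

/-- the stage inclusion as a continuous map -/
def jm (n : ℕ) : C((tower F n).Z, Un F) := ⟨jj F n, continuous_jj F n⟩

theorem un_continuous_iff {W : Type*} [TopologicalSpace W] {f : Un F → W} :
    Continuous f ↔ ∀ n, Continuous (f ∘ jj F n) := by
  refine ⟨fun h n => h.comp (continuous_jj F n), fun h => ?_⟩
  rw [continuous_def]
  intro U hU n
  exact hU.preimage (h n)

/-- characteristic maps of the union -/
noncomputable def Chr (n : ℕ) (g : G) (c : cel F n) : C(D n, Un F) := (jm F (n + 1)).comp (chn F n g c)

theorem Chr_bd (n : ℕ) (g : G) (c : cel F n) (x : B n) :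
    Chr F n g c (bd n x) = pt F n g c x := by
  show jj F (n + 1) (chn F n g c (bd n x)) = _
  rw [chn_bd]; rfl

theorem Chr_sd (n : ℕ) (g : G) (c : cel F n) (x : S n) :
    Chr F n g c (sd n x) = jj F n (g • atm F n c x) := by
  show jj F (n + 1) (chn F n g c (sd n x)) = _
  rw [chn_sd]; rfl

theorem un_isOpen_iff_cells {U : Set (Un F)} :
    IsOpen U ↔ ∀ n g c, IsOpen (Chr F n g c ⁻¹' U) := by
  constructor
  · intro h n g c
    exact h.preimage (Chr F n g c).continuous
  · intro h n
    induction n with
    | zero =>
      have : jj F 0 ⁻¹' U = ∅ := by ext z; exact z.elim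
      rw [this]; exact isOpen_empty
    | succ n ih =>
      refine (isOpen_iff (φ := (F n (tower F n)).φ)).2 ⟨ih, fun g c => h n g c⟩

theorem un_isClosed_iff_cells {U : Set (Un F)} :
    IsClosed U ↔ ∀ n g c, IsClosed (Chr F n g c ⁻¹' U) := by
  simp only [← isOpen_compl_iff, un_isOpen_iff_cells, preimage_compl]



/-! ### action -/

instance : MulAction G (Un F) where
  smul g y := ⟨y.1, g * y.2.1, y.2.2.1, y.2.2.2⟩
  one_smul y := by
    obtain ⟨n, g, c, x⟩ := y
    exact congrArg (fun g => pt F n g c x) (one_mul g)
  mul_smul g h y := by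
    obtain ⟨n, k, c, x⟩ := y
    exact congrArg (fun g => pt F n g c x) (mul_assoc g h k)

@[simp] theorem un_smul (g h : G) (n : ℕ) (c : cel F n) (x : B n) :
    g • pt F n h c x = pt F n (g * h) c x := rfl

theorem jj_smul (n : ℕ) (g : G) (z : (tower F n).Z) : jj F n (g • z) = g • jj F n z := by
  induction n with
  | zero => exact z.elim
  | succ n ih =>
    induction z using tower_cases with
    | hZ z => rw [← inc_smul, jj_inc, jj_inc, ih]
    | hB h c x => rfl

theorem smul_Chr (n : ℕ) (g h : G) (c : cel F n) (x : D n) :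
    g • Chr F n h c x = Chr F n (g * h) c x := by
  show g • jj F (n + 1) (chn F n h c x) = jj F (n + 1) (chn F n (g * h) c x)
  rw [← jj_smul, smul_chn]

instance : ContinuousConstSMul G (Un F) where
  continuous_const_smul g := by
    rw [un_continuous_iff]
    intro n
    have : ((fun x : Un F => g • x) ∘ jj F n) = jj F n ∘ fun z => g • z := by
      funext z; exact (jj_smul F n g z).symm
    rw [this]
    exact (continuous_jj F n).comp (continuous_const_smul g)

theorem un_free (g : G) (y : Un F) (h : g • y = y) : g = 1 := by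
  obtain ⟨n, k, c, x⟩ := y
  exact mul_eq_right.1 ((pt_inj F).1 h).1

/-! ### extension of open sets to the union -/

/-- extend a set of stage `n` to stage `n + k` -/
def ext (n : ℕ) (U : Set (tower F n).Z) : ∀ k, Set (tower F (n + k)).Z
  | 0 => U
  | k + 1 => col (F (n + k) (tower F (n + k))).φ (1/2) (ext n U k)

theorem ext_succ (n : ℕ) (U : Set (tower F n).Z) (k : ℕ) :
    ext F n U (k + 1) = col (F (n + k) (tower F (n + k))).φ (1/2) (ext F n U k) := rfl

theorem isOpen_ext (n : ℕ) {U : Set (tower F n).Z} (hU : IsOpen U) (k : ℕ) :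
    IsOpen (ext F n U k) := by
  induction k with
  | zero => exact hU
  | succ k ih => exact isOpen_col (by norm_num) (by norm_num) ih

/-- the extension of a set of stage `n` to the union -/
def Ext (n : ℕ) (U : Set (tower F n).Z) : Set (Un F) := ⋃ k, jj F (n + k) '' ext F n U k

theorem inc_mem_ext (n : ℕ) {U : Set (tower F n).Z} (k : ℕ) (z : (tower F (n + k)).Z) :
    (inc F (n + k) z) ∈ ext F n U (k + 1) ↔ z ∈ ext F n U k :=
  inZ_mem_col (φ := (F (n + k) (tower F (n + k))).φ)

theorem ext_image_mono (n : ℕ) (U : Set (tower F n).Z) {k l : ℕ} (h : k ≤ l) :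
    jj F (n + k) '' ext F n U k ⊆ jj F (n + l) '' ext F n U l := by
  induction l, h using Nat.le_induction with
  | base => exact Subset.rfl
  | succ l hl ih =>
    refine ih.trans ?_
    rintro _ ⟨z, hz, rfl⟩
    exact ⟨inc F (n + l) z, (inc_mem_ext F n l z).2 hz, rfl⟩

theorem jj_mem_Ext (n : ℕ) (U : Set (tower F n).Z) (k : ℕ) (z : (tower F (n + k)).Z) :
    jj F (n + k) z ∈ Ext F n U ↔ z ∈ ext F n U k := by
  constructor
  · intro h
    obtain ⟨l, hl⟩ := mem_iUnion.1 h
    -- move up to a common stage, then come back down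
    rcases le_total l k with hlk | hlk
    · obtain ⟨w, hw, hwz⟩ := ext_image_mono F n U hlk hl
      rw [← jj_injective F _ hwz]; exact hw
    · obtain ⟨w, hw, hwz⟩ := hl
      -- descend
      have key : ∀ l, k ≤ l → ∀ w ∈ ext F n U l, jj F (n + l) w = jj F (n + k) z →
          z ∈ ext F n U k := by
        intro l hl
        induction l, hl using Nat.le_induction with
        | base => intro w hw h; rw [← jj_injective F _ h]; exact hw
        | succ l hl ih =>
          intro w hw h
          revert hw h
          induction w using tower_cases (n := n + l) with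
          | hZ w =>
            intro hw h
            exact ih w ((inc_mem_ext F n l w).1 hw) h
          | hB g c x =>
            intro hw h
            have h1 : (jj F (n + (l + 1)) (opn F (n + l) g c x)).1 = n + l := rfl
            rw [h] at h1
            have h2 := jj_lt F (n + k) z
            omega
      exact key l hlk w hw hwz
  · intro h
    exact mem_iUnion.2 ⟨k, z, h, rfl⟩

theorem isOpen_Ext (n : ℕ) {U : Set (tower F n).Z} (hU : IsOpen U) : IsOpen (Ext F n U) := by
  -- it is enough to look at the stages `n + k`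
  have h1 : ∀ k, IsOpen (jj F (n + k) ⁻¹' Ext F n U) := by
    intro k
    have : jj F (n + k) ⁻¹' Ext F n U = ext F n U k := by
      ext z; exact jj_mem_Ext F n U k z
    rw [this]; exact isOpen_ext F n hU k
  intro m
  -- stage `m` embeds in stage `m + k`
  have h2 : ∀ k, IsOpen (jj F (m + k) ⁻¹' Ext F n U) → IsOpen (jj F m ⁻¹' Ext F n U) := by
    intro k
    induction k with
    | zero => exact id
    | succ k ih =>
      intro h
      exact ih (h.preimage (inc F (m + k)).continuous)
  refine h2 n ?_
  have := h1 m
  rwa [Nat.add_comm n m] at this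

theorem ext_inter (n : ℕ) (U V : Set (tower F n).Z) (k : ℕ) :
    ext F n U k ∩ ext F n V k = ext F n (U ∩ V) k := by
  induction k with
  | zero => rfl
  | succ k ih => rw [ext_succ, ext_succ, ext_succ, ← ih]; exact col_inter (by norm_num)

theorem ext_nonempty (n : ℕ) {U : Set (tower F n).Z} (k : ℕ) (h : (ext F n U k).Nonempty) :
    U.Nonempty := by
  induction k with
  | zero => exact h
  | succ k ih => exact ih (col_nonempty (φ := (F (n + k) (tower F (n + k))).φ) h)

theorem smul_ext (n : ℕ) (U : Set (tower F n).Z) (g : G) (k : ℕ) :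
    (fun z => g • z) '' ext F n U k = ext F n ((fun z => g • z) '' U) k := by
  induction k with
  | zero => rfl
  | succ k ih =>
    rw [ext_succ, ext_succ, ← ih]
    exact smul_col (φ := (F (n + k) (tower F (n + k))).φ) g

theorem un_orbSep : OrbSep G (Un F) := by
  intro y y'
  obtain ⟨n, hn, hn'⟩ : ∃ n, y.1 < n ∧ y'.1 < n := ⟨max y.1 y'.1 + 1, by omega, by omega⟩
  obtain ⟨z, rfl⟩ := exists_jj F y hn
  obtain ⟨w, rfl⟩ := exists_jj F y' hn'
  obtain ⟨U, hU, V, hV, hUV⟩ := tower_orbSep F n z w
  refine ⟨Ext F n (interior U), (isOpen_Ext F n isOpen_interior).mem_nhds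
      ((jj_mem_Ext F n _ 0 z).2 (mem_interior_iff_mem_nhds.2 hU)),
    Ext F n (interior V), (isOpen_Ext F n isOpen_interior).mem_nhds
      ((jj_mem_Ext F n _ 0 w).2 (mem_interior_iff_mem_nhds.2 hV)), ?_⟩
  rintro g ⟨p, ⟨q, hq, rfl⟩, hp⟩
  obtain ⟨k, hk⟩ := mem_iUnion.1 hq
  obtain ⟨l, hl⟩ := mem_iUnion.1 hp
  have hk' := ext_image_mono F n (interior U) (le_max_left k l) hk
  have hl' := ext_image_mono F n (interior V) (le_max_right k l) hl
  obtain ⟨a, ha, rfl⟩ := hk'
  obtain ⟨b, hb, hab⟩ := hl'
  simp only at hab
  rw [← jj_smul] at hab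
  have hb' := jj_injective F _ hab
  have h1 : (ext F n ((fun z => g • z) '' interior U) (max k l) ∩
      ext F n (interior V) (max k l)).Nonempty := by
    rw [← smul_ext]
    exact ⟨b, ⟨a, ha, hb'.symm⟩, hb⟩
  rw [ext_inter] at h1
  have h2 := ext_nonempty F n _ h1
  rw [← jj_smul, hUV g]
  exact h2.mono (inter_subset_inter (image_mono interior_subset) interior_subset)

instance : T2Space (Un F) := t2_of_orbSep (un_orbSep F)

end Crest.Agent.R185.Att
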