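import Crest.Agent.R185.BldDefs
import Crest.Agent.R185.Bld1

-- ▼ part R185/Base1
section

/-!
# Row 185, BASE, part 1: paths in a complex

A map `φ` out of a simplicial complex which is trivialised on edges (classes `P v` of paths from a
base point to `φ v`, compatible with the edges) is trivial on all loops.
-/

set_option autoImplicit false
set_option linter.unusedSectionVars false

open Set Topology
open Crest.Agent.R185.Att Crest.Agent.R185.Bld

namespace Crest.Agent.R185.Base

theorem homotopic_of_contractible {X : Type*} [TopologicalSpace X] {A : Set X}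
    (hA : ContractibleSpace A) {p q : X} (γ₁ γ₂ : Path p q) (h₁ : ∀ t, γ₁ t ∈ A)
    (h₂ : ∀ t, γ₂ t ∈ A) : γ₁.Homotopic γ₂ := by
  have hp : p ∈ A := by simpa using h₁ 0
  have hq : q ∈ A := by simpa using h₁ 1
  let γ₁' : Path (⟨p, hp⟩ : A) ⟨q, hq⟩ :=
    ⟨⟨fun t => ⟨γ₁ t, h₁ t⟩, by fun_prop⟩, by simp, by simp⟩
  let γ₂' : Path (⟨p, hp⟩ : A) ⟨q, hq⟩ :=
    ⟨⟨fun t => ⟨γ₂ t, h₂ t⟩, by fun_prop⟩, by simp, by simp⟩
  exact (SimplyConnectedSpace.paths_homotopic γ₁' γ₂').map ⟨Subtype.val, continuous_subtype_val⟩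

section cx

variable {V : Type} {K : Cx V}

/-- the support of the convex combination -/
theorem joinable [DecidableEq V] {p q : K.R} (h : p.m.support ∪ q.m.support ∈ K.s) (t : unitInterval) :
    ((1 - (t : ℝ)) • p.m + (t : ℝ) • q.m).support ∈ K.s := Cx.mix_support_mem t p q h

/-- `A` is star-shaped about `c` -/
def StarAt (c : K.R) (A : Set K.R) : Prop :=
  c ∈ A ∧ ∀ p ∈ A, ∃ h : ∀ t : unitInterval, ((1 - (t : ℝ)) • p.m + (t : ℝ) • c.m).support ∈ K.s,
    ∀ t : unitInterval, Cx.mix t p c (h t) ∈ A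

theorem StarAt.contractible {c : K.R} {A : Set K.R} (h : StarAt c A) : ContractibleSpace A := by
  rw [contractible_iff_id_nullhomotopic]
  obtain ⟨hc, h⟩ := h
  choose h1 h2 using h
  refine ⟨⟨c, hc⟩, ⟨⟨⟨fun x => ⟨Cx.mix x.1 x.2.1 c (h1 _ x.2.2 _), h2 _ x.2.2 _⟩, ?_⟩, ?_, ?_⟩⟩⟩
  · apply Continuous.subtype_mk
    rw [Cx.continuous_iff_eval]
    intro v
    simp only [Cx.mix_apply]
    have h3 : Continuous fun x : unitInterval × A => (x.2.1 : K.R) v :=
      (Cx.continuous_eval v).comp (continuous_subtype_val.comp continuous_snd)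
    fun_prop
  · rintro ⟨p, hp⟩
    apply Subtype.ext
    apply Cx.R.ext
    intro v
    simp [Cx.mix_apply]
  · rintro ⟨p, hp⟩
    apply Subtype.ext
    apply Cx.R.ext
    intro v
    simp [Cx.mix_apply]

theorem starAt_star {v : V} (hv : {v} ∈ K.s) : StarAt (Cx.vert v hv) {p : K.R | 0 < p v} := by
  classical
  have hv0 : (Cx.vert v hv : K.R) v = 1 := by
    show (Finsupp.single v (1 : ℝ)) v = 1
    simp
  refine ⟨by simp [hv0], fun p hp => ?_⟩
  have h1 : p.m.support ∪ (Cx.vert v hv : K.R).m.support = p.m.support := by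
    apply Finset.union_eq_left.2
    show (Finsupp.single v (1 : ℝ)).support ⊆ _
    rw [Finsupp.support_single _ one_ne_zero, Finset.singleton_subset_iff]
    exact Cx.R.mem_support'.2 hp
  refine ⟨fun t => joinable (by rw [h1]; exact p.mem) t, fun t => ?_⟩
  show 0 < Cx.mix t p _ _ v
  rw [Cx.mix_apply, hv0]
  have hp' : 0 < p v := hp
  rcases eq_or_lt_of_le t.2.1 with h | h
  · rw [← h]; linarith
  · have := t.2.2
    have h2 : 0 ≤ (1 - (t : ℝ)) * p v := mul_nonneg (by linarith) hp'.le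
    linarith

theorem starAt_face {σ : Finset V} (hσ : σ ∈ K.s) {c : K.R} (hc : c ∈ K.face σ) :
    StarAt c (K.face σ) := by
  classical
  refine ⟨hc, fun p hp => ?_⟩
  have h1 : p.m.support ∪ c.m.support ∈ K.s :=
    K.down hσ (Finset.union_subset hp hc) (p.nonempty.mono Finset.subset_union_left)
  refine ⟨fun t => joinable h1 t, fun t => ?_⟩
  exact (Cx.mix_support_subset t p c).trans (Finset.union_subset hp hc)

/-- straight segment -/
noncomputable def segm (p q : K.R)
    (h : ∀ t : unitInterval, ((1 - (t : ℝ)) • p.m + (t : ℝ) • q.m).support ∈ K.s) : Path p q where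
  toFun t := Cx.mix t p q (h t)
  continuous_toFun := by
    rw [Cx.continuous_iff_eval]
    intro v
    simp only [Cx.mix_apply]
    fun_prop
  source' := by
    apply Cx.R.ext
    intro v
    simp [Cx.mix_apply]
  target' := by
    apply Cx.R.ext
    intro v
    simp [Cx.mix_apply]

theorem segm_mem_face {p q : K.R} {σ : Finset V} (hp : p ∈ K.face σ) (hq : q ∈ K.face σ)
    (h) (t : unitInterval) : segm p q h t ∈ K.face σ := by
  classical
  exact (Cx.mix_support_subset t p q).trans (Finset.union_subset hp hq)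

theorem vert_pos {v : V} (hv : {v} ∈ K.s) : 0 < (Cx.vert v hv : K.R) v := by
  show 0 < (Finsupp.single v (1 : ℝ)) v
  simp

theorem segm_pos {p q : K.R} (h) {v : V} (hp : 0 < p v) (hq : 0 < q v) (t : unitInterval) :
    0 < segm p q h t v := by
  show 0 < Cx.mix t p q _ v
  rw [Cx.mix_apply]
  rcases eq_or_lt_of_le t.2.1 with h0 | h0
  · rw [← h0]; linarith
  · have h1 := t.2.2
    have h2 : 0 ≤ (1 - (t : ℝ)) * p v := mul_nonneg (by linarith) hp.le
    have h3 : 0 < (t : ℝ) * q v := mul_pos h0 hq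
    linarith

/-- class of paths -/
abbrev Q {X : Type*} [TopologicalSpace X] (x y : X) : Type _ := Path.Homotopic.Quotient x y

open Path.Homotopic.Quotient in
theorem trans_cancel_left {X : Type*} [TopologicalSpace X] {x y z : X} (a : Q x y) {b c : Q y z}
    (h : a.trans b = a.trans c) : b = c := by
  have h1 := congrArg (fun u => (symm a).trans u) h
  simpa [← trans_assoc] using h1

open Path.Homotopic.Quotient in
theorem trans_cancel_right {X : Type*} [TopologicalSpace X] {x y z : X} {a b : Q x y} (c : Q y z)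
    (h : a.trans c = b.trans c) : a = b := by
  have h1 := congrArg (fun u => trans u (symm c)) h
  simpa [trans_assoc] using h1

/-- the vertex is a face of the support -/
theorem sing_mem {p : K.R} {v : V} (hv : 0 < p v) : {v} ∈ K.s :=
  K.down p.mem (Finset.singleton_subset_iff.2 (Cx.R.mem_support'.2 hv)) (Finset.singleton_nonempty v)

theorem vert_mem_face {v : V} (hv : {v} ∈ K.s) {σ : Finset V} (h : v ∈ σ) :
    (Cx.vert v hv : K.R) ∈ K.face σ := by
  show (Finsupp.single v (1 : ℝ)).support ⊆ _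
  rw [Finsupp.support_single _ one_ne_zero, Finset.singleton_subset_iff]
  exact h

theorem face_join {p q : K.R} {σ : Finset V} (hσ : σ ∈ K.s) (hp : p ∈ K.face σ) (hq : q ∈ K.face σ)
    (t : unitInterval) : ((1 - (t : ℝ)) • p.m + (t : ℝ) • q.m).support ∈ K.s := by
  classical
  exact joinable (K.down hσ (Finset.union_subset hp hq) (p.nonempty.mono Finset.subset_union_left)) t

/-- class of the segment inside a closed face -/
noncomputable def seg {σ : Finset V} (hσ : σ ∈ K.s) {p q : K.R} (hp : p ∈ K.face σ)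
    (hq : q ∈ K.face σ) : Q p q :=
  Path.Homotopic.Quotient.mk (segm p q (face_join hσ hp hq))

theorem mk_eq_of_face {σ : Finset V} (hσ : σ ∈ K.s) {p q : K.R} {γ₁ γ₂ : Path p q}
    (h₁ : ∀ t, γ₁ t ∈ K.face σ) (h₂ : ∀ t, γ₂ t ∈ K.face σ) :
    Path.Homotopic.Quotient.mk γ₁ = Path.Homotopic.Quotient.mk γ₂ := by
  have hc : p ∈ K.face σ := by simpa using h₁ 0
  exact Path.Homotopic.Quotient.eq.2
    (homotopic_of_contractible (starAt_face hσ hc).contractible γ₁ γ₂ h₁ h₂)

theorem trans_mem {X : Type*} [TopologicalSpace X] {A : Set X} {p q r : X} {γ₁ : Path p q}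
    {γ₂ : Path q r} (h₁ : ∀ t, γ₁ t ∈ A) (h₂ : ∀ t, γ₂ t ∈ A) (t : unitInterval) :
    γ₁.trans γ₂ t ∈ A := by
  rw [Path.trans_apply]
  split_ifs
  · exact h₁ _
  · exact h₂ _

theorem symm_mem {X : Type*} [TopologicalSpace X] {A : Set X} {p q : X} {γ₁ : Path p q}
    (h₁ : ∀ t, γ₁ t ∈ A) (t : unitInterval) : γ₁.symm t ∈ A := h₁ _

theorem seg_trans {σ : Finset V} (hσ : σ ∈ K.s) {p q r : K.R} (hp : p ∈ K.face σ)
    (hq : q ∈ K.face σ) (hr : r ∈ K.face σ) :
    (seg hσ hp hq).trans (seg hσ hq hr) = seg hσ hp hr := by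
  unfold seg
  rw [← Path.Homotopic.Quotient.mk_trans]
  exact mk_eq_of_face hσ (trans_mem (segm_mem_face hp hq _) (segm_mem_face hq hr _))
    (segm_mem_face hp hr _)



/-! ### trivialisations -/

variable {W : Type*} [TopologicalSpace W]

/-- compatible classes of paths to the vertices -/
structure Triv (φ : C(K.R, W)) (w : W) where
  P : ∀ (v : V) (hv : {v} ∈ K.s), Q w (φ (Cx.vert v hv))
  edge : ∀ (v v' : V) (hv : {v} ∈ K.s) (hv' : {v'} ∈ K.s) (σ : Finset V) (hσ : σ ∈ K.s)
    (h : v ∈ σ) (h' : v' ∈ σ),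
    (P v hv).trans ((seg hσ (vert_mem_face hv h) (vert_mem_face hv' h')).map φ) = P v' hv'

theorem mk_eq_of_star {v : V} (hv : {v} ∈ K.s) {p q : K.R} {γ₁ γ₂ : Path p q}
    (h₁ : ∀ t, 0 < γ₁ t v) (h₂ : ∀ t, 0 < γ₂ t v) :
    Path.Homotopic.Quotient.mk γ₁ = Path.Homotopic.Quotient.mk γ₂ :=
  Path.Homotopic.Quotient.eq.2
    (homotopic_of_contractible (starAt_star hv).contractible γ₁ γ₂ h₁ h₂)

theorem mem_face_self (p : K.R) : p ∈ K.face p.m.support := Subset.rfl

/-- class of the segment from a vertex of the support -/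
noncomputable def toPt (v : V) (p : K.R) (hv : 0 < p v) : Q (Cx.vert v (sing_mem hv)) p :=
  seg p.mem (vert_mem_face _ (Cx.R.mem_support'.2 hv)) (mem_face_self p)

open Path.Homotopic.Quotient in
theorem map_trans' {X Y : Type*} [TopologicalSpace X] [TopologicalSpace Y] {x y z : X} (a : Q x y)
    (b : Q y z) (f : C(X, Y)) : (a.trans b).map f = (a.map f).trans (b.map f) := by
  induction a using Path.Homotopic.Quotient.ind with | mk a =>
  induction b using Path.Homotopic.Quotient.ind with | mk b =>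
  rw [← mk_trans, ← mk_map, ← mk_map, ← mk_map, ← mk_trans, Path.map_trans]

namespace Triv

variable {φ : C(K.R, W)} {w : W} (T : Triv φ w)

/-- class of paths to an arbitrary point, through a vertex -/
noncomputable def Qv (v : V) (p : K.R) (hv : 0 < p v) : Q w (φ p) :=
  (T.P v (sing_mem hv)).trans ((toPt v p hv).map φ)

theorem Qv_eq {v v' : V} {p : K.R} (hv : 0 < p v) (hv' : 0 < p v') : T.Qv v p hv = T.Qv v' p hv' := by
  unfold Qv
  rw [← T.edge v v' (sing_mem hv) (sing_mem hv') p.m.support p.mem (Cx.R.mem_support'.2 hv)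
    (Cx.R.mem_support'.2 hv'), Path.Homotopic.Quotient.trans_assoc, ← map_trans']
  unfold toPt
  rw [seg_trans]

theorem Qv_path {v : V} {p q : K.R} (hp : 0 < p v) (hq : 0 < q v) (γ : Path p q)
    (hγ : ∀ t, 0 < γ t v) :
    (T.Qv v p hp).trans ((Path.Homotopic.Quotient.mk γ).map φ) = T.Qv v q hq := by
  unfold Qv
  rw [Path.Homotopic.Quotient.trans_assoc, ← map_trans']
  congr 2
  unfold toPt seg
  rw [← Path.Homotopic.Quotient.mk_trans]
  refine mk_eq_of_star (v := v) (sing_mem hp)
    (trans_mem (A := {x : K.R | 0 < x v}) (fun t => ?_) hγ) (fun t => ?_)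
  · exact segm_pos _ (vert_pos _) hp t
  · exact segm_pos _ (vert_pos _) hq t

theorem Qv_sub {a b : K.R} (γ : Path a b) (t : ℕ → unitInterval) (ht0 : t 0 = 0)
    (ht : Monotone t) (c : ℕ → V) (hc : ∀ n, ∀ s ∈ Icc (t n) (t (n + 1)), 0 < γ s (c n)) (n : ℕ) :
    ∀ (v v' : V) (hp : 0 < γ 0 v) (hq : 0 < γ (t n) v'),
    (T.Qv v (γ 0) hp).trans ((Path.Homotopic.Quotient.mk (γ.subpath 0 (t n))).map φ) =
      T.Qv v' (γ (t n)) hq := by
  induction n with
  | zero =>
    rw [ht0]
    intro v v' hp hq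
    rw [Path.subpath_self, Path.Homotopic.Quotient.mk_refl]
    have h : (Path.Homotopic.Quotient.refl (γ 0)).map φ = Path.Homotopic.Quotient.refl (φ (γ 0)) := by
      rw [← Path.Homotopic.Quotient.mk_refl, ← Path.Homotopic.Quotient.mk_map,
        ← Path.Homotopic.Quotient.mk_refl]
      rfl
    rw [h, Path.Homotopic.Quotient.trans_refl]
    exact T.Qv_eq hp hq
  | succ n ih =>
    intro v v' hp hq
    have h1 : 0 < γ (t n) (c n) := hc n _ ⟨le_rfl, ht n.le_succ⟩
    have h2 : 0 < γ (t (n + 1)) (c n) := hc n _ ⟨ht n.le_succ, le_rfl⟩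
    have h3 : Path.Homotopic.Quotient.mk (γ.subpath 0 (t (n + 1))) =
        (Path.Homotopic.Quotient.mk (γ.subpath 0 (t n))).trans
          (Path.Homotopic.Quotient.mk (γ.subpath (t n) (t (n + 1)))) := by
      rw [← Path.Homotopic.Quotient.mk_trans]
      exact (Path.Homotopic.Quotient.eq.2 ⟨Path.Homotopy.subpathTransSubpath γ _ _ _⟩).symm
    rw [h3, map_trans', ← Path.Homotopic.Quotient.trans_assoc, ih v (c n) hp h1,
      T.Qv_path h1 h2, T.Qv_eq h2 hq]
    intro s
    have h4 : γ.subpath (t n) (t (n + 1)) s ∈ range (γ.subpath (t n) (t (n + 1))) := mem_range_self s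
    rw [Path.range_subpath_of_le _ _ _ (ht n.le_succ)] at h4
    obtain ⟨r, hr, hr'⟩ := h4
    rw [← hr']
    exact hc n r hr

theorem Qv_cast {a b a' b' : K.R} (γ : Path a b) (ha : a' = a) (hb : b' = b) {v v' : V}
    (hp : 0 < a v) (hq : 0 < b v') (hp' : 0 < a' v) (hq' : 0 < b' v')
    (h : (T.Qv v a' hp').trans ((Path.Homotopic.Quotient.mk (γ.cast ha hb)).map φ) = T.Qv v' b' hq') :
    (T.Qv v a hp).trans ((Path.Homotopic.Quotient.mk γ).map φ) = T.Qv v' b hq := by
  subst ha hb
  simpa using h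

theorem Qv_all {p q : K.R} (γ : Path p q) {v v' : V} (hp : 0 < p v) (hq : 0 < q v') :
    (T.Qv v p hp).trans ((Path.Homotopic.Quotient.mk γ).map φ) = T.Qv v' q hq := by
  obtain ⟨t, ht0, htm, ⟨n, hn⟩, hc⟩ := exists_monotone_Icc_subset_open_cover_unitInterval
    (c := fun v : V => {s : unitInterval | 0 < γ s v})
    (fun v => (Cx.isOpen_star v).preimage γ.continuous)
    (fun s _ => by
      obtain ⟨v, hv⟩ := (γ s).exists_pos
      exact mem_iUnion.2 ⟨v, hv⟩)
  choose c hc using hc
  have hp' : 0 < γ 0 v := by rw [γ.source]; exact hp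
  have hq' : 0 < γ 1 v' := by rw [γ.target]; exact hq
  refine T.Qv_cast γ γ.source γ.target hp hq hp' hq' ?_
  rw [← Path.subpath_zero_one]
  have h := T.Qv_sub γ t ht0 htm c (fun n s hs => hc n hs) n v v' hp'
  rw [hn n le_rfl] at h
  exact h hq'

include T in
/-- loops are killed -/
theorem loop {p : K.R} (γ : Path p p) :
    (Path.Homotopic.Quotient.mk γ).map φ = Path.Homotopic.Quotient.refl (φ p) := by
  obtain ⟨v, hv⟩ := p.exists_pos
  refine trans_cancel_left (T.Qv v p hv) ?_
  rw [T.Qv_all γ hv hv, Path.Homotopic.Quotient.trans_refl]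

end Triv

end cx

end Crest.Agent.R185.Base
end

-- ▼ part R185/Base2
section

/-!
# Row 185, BASE, part 2: a finitely presented group is coarsely simply connected
(in the Milnor model): the inclusion `mil F L k ⊆ mil F' (L+3) (L+3)` admits a trivialisation.
-/

set_option autoImplicit false
set_option linter.unusedSectionVars false

open Set Topology
open Crest.Agent.R185.Att Crest.Agent.R185.Bld

namespace Crest.Agent.R185.Base

/-! ### classes of paths with a representative in a set -/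

section InA

variable {X : Type*} [TopologicalSpace X]

/-- group structure on the classes of loops (composition in diagrammatic order) -/
@[reducible] noncomputable def loopGroup (w : X) : Group (Q w w) where
  mul a b := a.trans b
  one := Path.Homotopic.Quotient.refl w
  inv a := a.symm
  mul_assoc a b c := Path.Homotopic.Quotient.trans_assoc a b c
  one_mul a := Path.Homotopic.Quotient.refl_trans a
  mul_one a := Path.Homotopic.Quotient.trans_refl a
  inv_mul_cancel a := Path.Homotopic.Quotient.symm_trans a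

/-- the class has a representative in `A` -/
def InA (A : Set X) {x y : X} (c : Q x y) : Prop :=
  ∃ γ : Path x y, Path.Homotopic.Quotient.mk γ = c ∧ ∀ t, γ t ∈ A

theorem InA.trans {A : Set X} {x y z : X} {c : Q x y} {d : Q y z} (hc : InA A c) (hd : InA A d) :
    InA A (c.trans d) := by
  obtain ⟨γ, rfl, h1⟩ := hc
  obtain ⟨δ, rfl, h2⟩ := hd
  exact ⟨γ.trans δ, Path.Homotopic.Quotient.mk_trans _ _, trans_mem h1 h2⟩

theorem InA.symm {A : Set X} {x y : X} {c : Q x y} (hc : InA A c) : InA A c.symm := by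
  obtain ⟨γ, rfl, h1⟩ := hc
  exact ⟨γ.symm, Path.Homotopic.Quotient.mk_symm _, symm_mem h1⟩

theorem InA.refl {A : Set X} {x : X} (hx : x ∈ A) : InA A (Path.Homotopic.Quotient.refl x) :=
  ⟨Path.refl x, Path.Homotopic.Quotient.mk_refl x, fun _ => hx⟩

theorem InA.eq {A : Set X} (hA : ContractibleSpace A) {x y : X} {c d : Q x y} (hc : InA A c)
    (hd : InA A d) : c = d := by
  obtain ⟨γ, rfl, h1⟩ := hc
  obtain ⟨δ, rfl, h2⟩ := hd
  exact Path.Homotopic.Quotient.eq.2 (homotopic_of_contractible hA γ δ h1 h2)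

end InA

/-! ### edges of a complex -/

section edges

variable {V : Type} {K : Cx V}

/-- the class of an edge -/
noncomputable def ed {x y : V} (h : ∃ σ ∈ K.s, x ∈ σ ∧ y ∈ σ) :
    Q (Cx.vert x (K.down h.choose_spec.1 (Finset.singleton_subset_iff.2 h.choose_spec.2.1)
        (Finset.singleton_nonempty x)) : K.R)
      (Cx.vert y (K.down h.choose_spec.1 (Finset.singleton_subset_iff.2 h.choose_spec.2.2)
        (Finset.singleton_nonempty y))) :=
  seg h.choose_spec.1 (vert_mem_face _ h.choose_spec.2.1) (vert_mem_face _ h.choose_spec.2.2)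

theorem vert_support {x : V} (hx : {x} ∈ K.s) : (Cx.vert x hx : K.R).m.support = {x} :=
  Finsupp.support_single _ one_ne_zero

theorem inA_seg {σ : Finset V} (hσ : σ ∈ K.s) {x y : V} (hx0 : {x} ∈ K.s) (hy0 : {y} ∈ K.s)
    (hx1 : x ∈ σ) (hy1 : y ∈ σ) {c : V → Prop} (hx : c x) (hy : c y) :
    InA {p : K.R | ∀ v ∈ p.m.support, c v}
      (seg hσ (vert_mem_face hx0 hx1) (vert_mem_face hy0 hy1)) := by
  classical
  refine ⟨_, rfl, fun t v hv => ?_⟩
  have h1 := Cx.mix_support_subset t _ _ hv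
  rw [vert_support, vert_support, Finset.mem_union, Finset.mem_singleton, Finset.mem_singleton] at h1
  rcases h1 with rfl | rfl
  · exact hx
  · exact hy

theorem inA_ed {x y : V} (h : ∃ σ ∈ K.s, x ∈ σ ∧ y ∈ σ) {c : V → Prop} (hx : c x) (hy : c y) :
    InA {p : K.R | ∀ v ∈ p.m.support, c v} (ed h) := by
  classical
  refine ⟨_, rfl, fun t v hv => ?_⟩
  have h1 := Cx.mix_support_subset t _ _ hv
  rw [vert_support, vert_support, Finset.mem_union, Finset.mem_singleton, Finset.mem_singleton] at h1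
  rcases h1 with rfl | rfl
  · exact hx
  · exact hy

end edges

/-! ### the Milnor model -/

section mil

variable {G : Type} [Group G]

theorem mem_mil {F : Finset G} {M : ℕ} {σ : Finset (G × ℕ)}
    (h1 : ∀ a ∈ σ, ∀ b ∈ σ, a.1⁻¹ * b.1 ∈ F ∧ (a.2 = b.2 → a = b)) (h2 : ∀ a ∈ σ, a.2 < M) :
    σ ∈ (mil F M M).s := by
  refine ⟨h1, h2, ?_⟩
  have := Finset.card_le_card_of_injOn (s := σ) (t := Finset.range M) (fun a => a.2)
    (fun a ha => by simpa using h2 a ha) (fun a ha b hb hab => (h1 a ha b hb).2 hab)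
  simpa using this

theorem sing_mil {F : Finset G} {M : ℕ} (h1 : 1 ∈ F) {x : G × ℕ} (hx : x.2 < M) :
    {x} ∈ (mil F M M).s := by
  apply mem_mil
  · intro a ha b hb
    rw [Finset.mem_singleton] at ha hb
    subst ha hb
    simp [h1]
  · intro a ha
    rw [Finset.mem_singleton] at ha
    subst ha
    exact hx

theorem pair_mil {F : Finset G} {M : ℕ} (h1 : 1 ∈ F) {x y : G × ℕ} (hx : x.2 < M) (hy : y.2 < M)
    (hxy : x.1⁻¹ * y.1 ∈ F) (hyx : y.1⁻¹ * x.1 ∈ F) (hne : x.2 = y.2 → x = y) :
    ∃ σ ∈ (mil F M M).s, x ∈ σ ∧ y ∈ σ := by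
  classical
  refine ⟨{x, y}, mem_mil ?_ ?_, by simp, by simp⟩
  · intro a ha b hb
    rw [Finset.mem_insert, Finset.mem_singleton] at ha hb
    rcases ha with rfl | rfl <;> rcases hb with rfl | rfl
    · simp [h1]
    · exact ⟨hxy, hne⟩
    · exact ⟨hyx, fun h => (hne h.symm).symm⟩
    · simp [h1]
  · intro a ha
    rw [Finset.mem_insert, Finset.mem_singleton] at ha
    rcases ha with rfl | rfl
    · exact hx
    · exact hy

/-- the data: `B` the ball, `F'` the scale -/
structure Scale (B F' : Finset G) : Prop where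
  one : 1 ∈ B
  sub : B ⊆ F'
  inv : ∀ b ∈ B, b⁻¹ ∈ F'

variable {B F' : Finset G} {L : ℕ}

/-- the cone condition -/
def cond (B : Finset G) (L : ℕ) (g : G) (x : G × ℕ) : Prop :=
  g⁻¹ * x.1 ∈ B ∧ (x.2 = L + 2 → x.1 = g)

/-- the subset of the model near `g` -/
def Ag (B F' : Finset G) (L : ℕ) (g : G) : Set (mil F' (L + 3) (L + 3)).R :=
  {p | ∀ v ∈ p.m.support, cond B L g v}

theorem contractible_Ag (h : Scale B F') (g : G) : ContractibleSpace (Ag B F' L g) := by
  classical
  have h1 : (1 : G) ∈ F' := h.sub h.one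
  have hs : {((g, L + 2) : G × ℕ)} ∈ (mil F' (L + 3) (L + 3)).s := sing_mil h1 (by simp)
  refine StarAt.contractible (c := Cx.vert (g, L + 2) hs) ⟨?_, fun p hp => ?_⟩
  · intro v hv
    rw [vert_support, Finset.mem_singleton] at hv
    subst hv
    exact ⟨by simpa using h.one, fun _ => rfl⟩
  · have h2 : p.m.support ∪ (Cx.vert (g, L + 2) hs : (mil F' (L + 3) (L + 3)).R).m.support ∈
        (mil F' (L + 3) (L + 3)).s := by
      rw [vert_support]
      have h3 := p.mem
      apply mem_mil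
      · intro a ha b hb
        rw [Finset.mem_union, Finset.mem_singleton] at ha hb
        rcases ha with ha | rfl <;> rcases hb with hb | rfl
        · exact h3.1 a ha b hb
        · obtain ⟨h4, h5⟩ := hp a ha
          refine ⟨?_, fun h6 => Prod.ext (h5 h6) h6⟩
          have := h.inv _ h4
          simpa using this
        · obtain ⟨h4, h5⟩ := hp b hb
          exact ⟨h.sub h4, fun h6 => Prod.ext (h5 h6.symm).symm h6⟩
        · simp [h1]
      · intro a ha
        rw [Finset.mem_union, Finset.mem_singleton] at ha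
        rcases ha with ha | rfl
        · exact h3.2.1 a ha
        · simp
    refine ⟨fun t => joinable h2 t, fun t v hv => ?_⟩
    have h3 := Cx.mix_support_subset t _ _ hv
    rw [vert_support, Finset.mem_union, Finset.mem_singleton] at h3
    rcases h3 with h3 | rfl
    · exact hp v h3
    · exact ⟨by simpa using h.one, fun _ => rfl⟩

/-- the vertex `(g, L)` -/
noncomputable def VL (h1 : (1 : G) ∈ F') (L : ℕ) (g : G) : (mil F' (L + 3) (L + 3)).R :=
  Cx.vert (g, L) (sing_mil h1 (by simp))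

/-- the path `(g,L) → (g a, L+1) → (g a, L)` -/
noncomputable def mu (h1 : (1 : G) ∈ F') (L : ℕ) {a : G} (ha : a ∈ F') (ha' : a⁻¹ ∈ F') (g : G) :
    Q (VL h1 L g) (VL h1 L (g * a)) :=
  (ed (x := (g, L)) (y := (g * a, L + 1)) (pair_mil h1 (by simp) (by simp) (by simpa using ha)
    (by simpa using ha') (by simp))).trans
  (ed (x := (g * a, L + 1)) (y := (g * a, L)) (pair_mil h1 (by simp) (by simp) (by simpa using h1)
    (by simpa using h1) (by simp)))

theorem cond_L {g x : G} (h : g⁻¹ * x ∈ B) : cond B L g (x, L) := ⟨h, fun h => by simp at h⟩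
theorem cond_L1 {g x : G} (h : g⁻¹ * x ∈ B) : cond B L g (x, L + 1) := ⟨h, fun h => by simp at h⟩

theorem inA_mu (h1 : (1 : G) ∈ F') {a : G} (ha : a ∈ F') (ha' : a⁻¹ ∈ F') {g g₀ : G}
    (hg : g₀⁻¹ * g ∈ B) (hg' : g₀⁻¹ * (g * a) ∈ B) :
    InA (Ag B F' L g₀) (mu h1 L ha ha' g) :=
  InA.trans (inA_ed _ (cond_L hg) (cond_L1 hg')) (inA_ed _ (cond_L1 hg') (cond_L hg'))

theorem VL_mem (h1 : (1 : G) ∈ F') {g g₀ : G} (hg : g₀⁻¹ * g ∈ B) : VL h1 L g ∈ Ag B F' L g₀ := by
  intro v hv
  unfold VL at hv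
  rw [vert_support, Finset.mem_singleton] at hv
  subst hv
  exact cond_L hg

section act

variable {n : ℕ} (φ : FreeGroup (Fin n) →* G) (h1 : (1 : G) ∈ F')
  (hS : ∀ i, φ (FreeGroup.of i) ∈ F' ∧ (φ (FreeGroup.of i))⁻¹ ∈ F')


variable (L) in
include hS in
theorem exists_tau (hφ : Function.Surjective φ) (g : G) :
    Nonempty (Q (VL h1 L 1) (VL h1 L g)) := by
  have key : ∀ u : FreeGroup (Fin n), ∀ g : G, Nonempty (Q (VL h1 L g) (VL h1 L (g * φ u))) := by
    intro u
    induction u using FreeGroup.induction_on with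
    | C1 => intro g; rw [map_one, mul_one]; exact ⟨Path.Homotopic.Quotient.refl _⟩
    | of i => intro g; exact ⟨mu h1 L (hS i).1 (hS i).2 g⟩
    | inv_of i ih =>
      intro g
      obtain ⟨c⟩ := ih (g * (φ (FreeGroup.of i))⁻¹)
      rw [inv_mul_cancel_right] at c
      rw [map_inv]
      exact ⟨c.symm⟩
    | mul x y hx hy =>
      intro g
      obtain ⟨c⟩ := hx g
      obtain ⟨d⟩ := hy (g * φ x)
      rw [mul_assoc, ← map_mul] at d
      exact ⟨c.trans d⟩
  obtain ⟨u, rfl⟩ := hφ g
  have := key u 1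
  rwa [one_mul] at this

variable (τ : ∀ g : G, Q (VL h1 L 1) (VL h1 L g))

attribute [local instance] loopGroup

/-- the loop of a letter -/
noncomputable def lam (i : Fin n) (g : G) : Q (VL h1 L 1) (VL h1 L 1) :=
  (τ g).trans ((mu h1 L (hS i).1 (hS i).2 g).trans (τ (g * φ (FreeGroup.of i))).symm)

/-- the permutation of a letter -/
noncomputable def perm (i : Fin n) : Equiv.Perm (G × Q (VL h1 L 1) (VL h1 L 1)) where
  toFun p := (p.1 * (φ (FreeGroup.of i))⁻¹,
    p.2 * (lam φ h1 hS τ i (p.1 * (φ (FreeGroup.of i))⁻¹))⁻¹)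
  invFun p := (p.1 * φ (FreeGroup.of i), p.2 * lam φ h1 hS τ i p.1)
  left_inv p := by simp
  right_inv p := by simp

/-- the action of the free group -/
noncomputable def rho : FreeGroup (Fin n) →* Equiv.Perm (G × Q (VL h1 L 1) (VL h1 L 1)) :=
  FreeGroup.lift (perm φ h1 hS τ)

theorem rho_fst (u : FreeGroup (Fin n)) (p : G × Q (VL h1 L 1) (VL h1 L 1)) :
    (rho φ h1 hS τ u p).1 = p.1 * (φ u)⁻¹ := by
  induction u using FreeGroup.induction_on generalizing p with
  | C1 => simp
  | of i => simp [rho, perm]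
  | inv_of i ih => simp [rho, perm]
  | mul x y hx hy => rw [map_mul, Equiv.Perm.mul_apply, hx, hy, map_mul]; group

/-- the suffixes of a word stay in the ball -/
def Sub (B : Finset G) (u : List (Fin n × Bool)) : Prop :=
  ∀ v, v <:+ u → (φ (FreeGroup.mk v))⁻¹ ∈ B

theorem symm_trans_cancel {X : Type*} [TopologicalSpace X] {x y z : X} (a : Q x y) (b : Q y z) :
    a.symm.trans (a.trans b) = b := by
  rw [← Path.Homotopic.Quotient.trans_assoc, Path.Homotopic.Quotient.symm_trans,
    Path.Homotopic.Quotient.refl_trans]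

theorem trans_symm_cancel {X : Type*} [TopologicalSpace X] {x y z : X} (a : Q x y) (b : Q x z) :
    a.trans (a.symm.trans b) = b := by
  rw [← Path.Homotopic.Quotient.trans_assoc, Path.Homotopic.Quotient.trans_symm,
    Path.Homotopic.Quotient.refl_trans]

theorem good (hB : (1 : G) ∈ B) (u : List (Fin n × Bool)) (hu : Sub φ B u) (g : G)
    (α : Q (VL h1 L 1) (VL h1 L 1)) (x : G) (hx : x = g * (φ (FreeGroup.mk u))⁻¹) :
    ∃ c : Q (VL h1 L g) (VL h1 L x), InA (Ag B F' L g) c ∧
      rho φ h1 hS τ (FreeGroup.mk u) (g, α) =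
        (x, α.trans ((τ g).trans (c.trans (τ x).symm))) := by
  induction u generalizing x with
  | nil =>
    have h0 : (FreeGroup.mk ([] : List (Fin n × Bool))) = 1 := rfl
    rw [h0, map_one, inv_one, mul_one] at hx
    subst hx
    refine ⟨Path.Homotopic.Quotient.refl _, InA.refl (VL_mem h1 (by simpa using hB)), ?_⟩
    rw [h0, map_one]
    simp
  | cons a u ih =>
    have hu' : Sub φ B u := fun v hv => hu v (hv.trans (List.suffix_cons a u))
    obtain ⟨i, b⟩ := a
    cases b with
    | true =>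
      have h0 : FreeGroup.mk ((i, true) :: u) = FreeGroup.of i * FreeGroup.mk u := by
        rw [FreeGroup.of, FreeGroup.mul_mk]; rfl
      have hx' : x * φ (FreeGroup.of i) = g * (φ (FreeGroup.mk u))⁻¹ := by
        rw [hx, h0, map_mul]; group
      obtain ⟨c, hc, hc'⟩ := ih hu' _ hx'
      refine ⟨c.trans (mu h1 L (hS i).1 (hS i).2 x).symm, hc.trans (InA.symm (inA_mu h1 _ _ ?_ ?_)), ?_⟩
      · have := hu _ List.suffix_rfl
        rw [hx]; simpa using this
      · have := hu' _ List.suffix_rfl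
        rw [hx']; simpa using this
      · rw [h0, map_mul, Equiv.Perm.mul_apply, hc']
        have h2 : rho φ h1 hS τ (FreeGroup.of i) = perm φ h1 hS τ i := by simp [rho]
        rw [h2]
        show ((_ : G), (_ : Q (VL h1 L 1) (VL h1 L 1))) = _
        rw [mul_inv_cancel_right]
        refine Prod.ext rfl ?_
        show Path.Homotopic.Quotient.trans _ (Path.Homotopic.Quotient.symm _) = _
        refine trans_cancel_right (lam φ h1 hS τ i x) ?_
        rw [Path.Homotopic.Quotient.trans_assoc, Path.Homotopic.Quotient.symm_trans,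
          Path.Homotopic.Quotient.trans_refl]
        unfold lam
        simp only [Path.Homotopic.Quotient.trans_assoc, symm_trans_cancel]
    | false =>
      have h0 : FreeGroup.mk ((i, false) :: u) = (FreeGroup.of i)⁻¹ * FreeGroup.mk u := by
        rw [FreeGroup.of, FreeGroup.inv_mk, FreeGroup.mul_mk]; rfl
      obtain ⟨y, hy⟩ : ∃ y, y = g * (φ (FreeGroup.mk u))⁻¹ := ⟨_, rfl⟩
      have hx' : x = y * φ (FreeGroup.of i) := by
        rw [hx, hy, h0, map_mul, map_inv]; group
      subst hx'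
      obtain ⟨c, hc, hc'⟩ := ih hu' _ hy
      refine ⟨c.trans (mu h1 L (hS i).1 (hS i).2 y), hc.trans (inA_mu h1 _ _ ?_ ?_), ?_⟩
      · have := hu' _ List.suffix_rfl
        rw [hy]; simpa using this
      · have := hu _ List.suffix_rfl
        rw [hx]; simpa using this
      · rw [h0, map_mul, Equiv.Perm.mul_apply, hc']
        have h2 : rho φ h1 hS τ (FreeGroup.of i)⁻¹ = (perm φ h1 hS τ i)⁻¹ := by simp [rho]
        rw [h2]
        refine Prod.ext rfl ?_
        show Path.Homotopic.Quotient.trans _ (lam φ h1 hS τ i y) = _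
        unfold lam
        simp only [Path.Homotopic.Quotient.trans_assoc, symm_trans_cancel]

theorem rho_eq_one (hsc : Scale B F') (u : FreeGroup (Fin n)) (hu : Sub φ B u.toWord)
    (h : φ u = 1) : rho φ h1 hS τ u = 1 := by
  apply Equiv.ext
  rintro ⟨g, α⟩
  have hmk : FreeGroup.mk u.toWord = u := FreeGroup.mk_toWord
  obtain ⟨c, hc, hc'⟩ := good φ h1 hS τ hsc.one u.toWord hu g α g (by rw [hmk, h]; simp)
  have hc0 : c = Path.Homotopic.Quotient.refl _ :=
    InA.eq (contractible_Ag hsc g) hc (InA.refl (VL_mem h1 (by simpa using hsc.one)))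
  rw [hmk] at hc'
  rw [hc', hc0]
  simp

theorem rho_ker (hsc : Scale B F') (R : Set (FreeGroup (Fin n)))
    (hR : Subgroup.normalClosure R = φ.ker) (hu : ∀ r ∈ R, Sub φ B r.toWord)
    (u : FreeGroup (Fin n)) (h : φ u = 1) : rho φ h1 hS τ u = 1 := by
  have h2 : R ⊆ (rho φ h1 hS τ).ker := by
    intro r hr
    have h3 : r ∈ φ.ker := hR ▸ Subgroup.subset_normalClosure hr
    exact rho_eq_one φ h1 hS τ hsc r (hu r hr) h3
  have h4 := Subgroup.normalClosure_le_normal h2
  rw [hR] at h4
  exact h4 h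

include hS τ in
theorem exists_E (hsc : Scale B F') (hφ : Function.Surjective φ) (R : Set (FreeGroup (Fin n)))
    (hR : Subgroup.normalClosure R = φ.ker) (hu : ∀ r ∈ R, Sub φ B r.toWord) :
    ∃ E : ∀ g : G, Q (VL h1 L 1) (VL h1 L g), ∀ (g a : G) (u : List (Fin n × Bool)), Sub φ B u →
      a = (φ (FreeGroup.mk u))⁻¹ →
      ∃ c : Q (VL h1 L g) (VL h1 L (g * a)), InA (Ag B F' L g) c ∧ E (g * a) = (E g).trans c := by
  choose ω hω using fun g : G => hφ g⁻¹
  let β : G → Q (VL h1 L 1) (VL h1 L 1) := fun g => (rho φ h1 hS τ (ω g) (1, 1)).2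
  have hβ : ∀ (g : G) (u : FreeGroup (Fin n)), φ u = g⁻¹ → rho φ h1 hS τ u (1, 1) = (g, β g) := by
    intro g u hg
    have h2 : rho φ h1 hS τ u = rho φ h1 hS τ (ω g) := by
      have h3 := rho_ker φ h1 hS τ hsc R hR hu (u * (ω g)⁻¹) (by rw [map_mul, map_inv, hg, hω]; simp)
      rw [map_mul, map_inv] at h3
      exact mul_inv_eq_one.1 h3
    rw [h2]
    refine Prod.ext ?_ rfl
    rw [rho_fst, hω]
    simp
  refine ⟨fun g => (β g).trans (τ g), fun g a u hu' ha => ?_⟩
  obtain ⟨c, hc, hc'⟩ := good φ h1 hS τ hsc.one u hu' g (β g) (g * a) (by rw [ha])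
  refine ⟨c, hc, ?_⟩
  have h3 := hβ (g * a) (FreeGroup.mk u * ω g) (by
    rw [map_mul, hω, mul_inv_rev, ha, inv_inv])
  rw [map_mul, Equiv.Perm.mul_apply, hβ g (ω g) (hω g), hc'] at h3
  have h4 := (Prod.ext_iff.1 h3).2
  show (β (g * a)).trans (τ (g * a)) = ((β g).trans (τ g)).trans c
  have h5 : β (g * a) = (β g).trans ((τ g).trans (c.trans (τ (g * a)).symm)) := h4.symm
  rw [h5]
  simp only [Path.Homotopic.Quotient.trans_assoc, Path.Homotopic.Quotient.symm_trans,
    Path.Homotopic.Quotient.trans_refl]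

end act

/-! ### the trivialisation -/

theorem assoc_swap {X : Type*} [TopologicalSpace X] {w x y z x' : X} (a : Q w x) (b : Q x y)
    (s : Q y z) (c : Q x x') (d : Q x' z) (h : b.trans s = c.trans d) :
    (a.trans b).trans s = (a.trans c).trans d := by
  rw [Path.Homotopic.Quotient.trans_assoc, Path.Homotopic.Quotient.trans_assoc, h]

theorem mil_sub {F : Finset G} {k M : ℕ} (hF : F ⊆ F') (hM : L ≤ M) :
    (mil F L k).s ⊆ (mil F' M M).s := by
  intro σ hσ
  exact mem_mil (fun a ha b hb => ⟨hF (hσ.1 a ha b hb).1, (hσ.1 a ha b hb).2⟩)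
    fun a ha => (hσ.2.1 a ha).trans_le hM

/-- the inclusion as a continuous map -/
def inc {K K' : Cx (G × ℕ)} (h : K.s ⊆ K'.s) : C(K.R, K'.R) := ⟨Cx.R.incl h, Cx.continuous_incl h⟩



/-- **Coarse simple connectivity** of a finitely presented group, in the Milnor model. -/
theorem exists_triv (G : Type) [Group G] (hG : Group.IsFinitelyPresented G) (F : Finset G) (L : ℕ) :
    ∃ (F' : Finset G) (_ : F ⊆ F') (h : ∀ k, (mil F L k).s ⊆ (mil F' (L + 3) (L + 3)).s)
      (w : MJ F' (L + 3) (L + 3)), ∀ k, Nonempty (Triv (inc (h k)) w) := by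
  classical
  obtain ⟨n, φ, hφ, R, hRf, hR⟩ := hG.out
  choose om hom using fun g : G => hφ g⁻¹
  -- the suffixes
  let sf : List (Fin n × Bool) → Finset G := fun u =>
    (u.tails.map fun v => (φ (FreeGroup.mk v))⁻¹).toFinset
  have hsf : ∀ u v, v <:+ u → (φ (FreeGroup.mk v))⁻¹ ∈ sf u := by
    intro u v hv
    simp only [sf, List.mem_toFinset, List.mem_map]
    exact ⟨v, (List.mem_tails _ _).2 hv, rfl⟩
  let B : Finset G := {1} ∪ F ∪ (hRf.toFinset.biUnion fun r => sf r.toWord) ∪
    F.biUnion fun a => sf (om a).toWord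
  let F' : Finset G := B ∪ B.image (fun b => b⁻¹) ∪
    (Finset.univ.image fun i : Fin n => φ (FreeGroup.of i)) ∪
    (Finset.univ.image fun i : Fin n => (φ (FreeGroup.of i))⁻¹)
  have hsc : Scale B F' := by
    refine ⟨?_, ?_, ?_⟩
    · simp [B]
    · intro b hb
      simp only [F', Finset.mem_union]
      exact Or.inl (Or.inl (Or.inl hb))
    · intro b hb
      simp only [F', Finset.mem_union]
      exact Or.inl (Or.inl (Or.inr (Finset.mem_image_of_mem _ hb)))
  have hFB : F ⊆ B := by
    intro a ha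
    simp only [B, Finset.mem_union]
    exact Or.inl (Or.inl (Or.inr ha))
  have h1 : (1 : G) ∈ F' := hsc.sub hsc.one
  have hS : ∀ i, φ (FreeGroup.of i) ∈ F' ∧ (φ (FreeGroup.of i))⁻¹ ∈ F' := by
    intro i
    simp only [F', Finset.mem_union]
    exact ⟨Or.inl (Or.inr (Finset.mem_image_of_mem _ (Finset.mem_univ _))),
      Or.inr (Finset.mem_image_of_mem _ (Finset.mem_univ _))⟩
  have hτ := fun g => exists_tau (F' := F') L φ h1 hS hφ g
  have τ : ∀ g : G, Q (VL h1 L 1) (VL h1 L g) := fun g => (hτ g).some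
  have hRs : ∀ r ∈ R, Sub φ B r.toWord := by
    intro r hr v hv
    simp only [B, Finset.mem_union, Finset.mem_biUnion]
    exact Or.inl (Or.inr ⟨r, by simpa using hr, hsf _ _ hv⟩)
  obtain ⟨E, hE⟩ := exists_E (B := B) (L := L) φ h1 hS τ hsc hφ R hR hRs
  have hsub : ∀ k, (mil F L k).s ⊆ (mil F' (L + 3) (L + 3)).s := fun k =>
    mil_sub (hFB.trans hsc.sub) (by omega)
  have hE' : ∀ g x : G, g⁻¹ * x ∈ F → ∃ c : Q (VL h1 L g) (VL h1 L x),
      InA (Ag B F' L g) c ∧ E x = (E g).trans c := by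
    intro g x hx
    obtain ⟨a, rfl⟩ : ∃ a, x = g * a := ⟨g⁻¹ * x, by group⟩
    rw [inv_mul_cancel_left] at hx
    refine hE g a (om a).toWord (fun v hv => ?_) ?_
    · simp only [B, Finset.mem_union, Finset.mem_biUnion]
      exact Or.inr ⟨a, hx, hsf _ _ hv⟩
    · rw [FreeGroup.mk_toWord, hom, inv_inv]
  have hvert : ∀ k (v : G × ℕ), {v} ∈ (mil F L k).s → v.2 < L := fun k v hv =>
    hv.2.1 v (Finset.mem_singleton_self v)
  have hpair : ∀ v : G × ℕ, v.2 < L → ∃ σ ∈ (mil F' (L + 3) (L + 3)).s,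
      ((v.1, L) : G × ℕ) ∈ σ ∧ v ∈ σ := by
    intro v hv
    refine pair_mil h1 (by simp) (by omega) (by simpa using h1) (by simpa using h1) ?_
    intro h
    simp only at h
    omega
  refine ⟨F', hFB.trans hsc.sub, hsub, VL h1 L 1, fun k => ⟨⟨fun v hv =>
    (E v.1).trans (ed (hpair v (hvert k v hv))), ?_⟩⟩⟩
  intro v v' hv hv' σ hσ h h'
  obtain ⟨c, hc, hc'⟩ := hE' v.1 v'.1 (hσ.1 v h v' h').1
  have hvB : v.1⁻¹ * v'.1 ∈ B := hFB (hσ.1 v h v' h').1
  have hc1 : cond B L v.1 v := ⟨by simpa using hsc.one, fun _ => rfl⟩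
  have hc2 : cond B L v.1 v' := ⟨hvB, fun h => by have := hvert k v' hv'; omega⟩
  rw [hc']
  refine assoc_swap (x := VL h1 L v.1) (y := Cx.vert v (hsub k hv)) (z := Cx.vert v' (hsub k hv'))
    (E v.1) (ed (hpair v (hvert k v hv)))
    (seg (hsub k hσ) (vert_mem_face (hsub k hv) h) (vert_mem_face (hsub k hv') h')) c
    (ed (hpair v' (hvert k v' hv'))) ?_
  refine InA.eq (contractible_Ag hsc v.1) (InA.trans ?_ ?_) (InA.trans hc ?_)
  · exact inA_ed (hpair v (hvert k v hv)) (c := cond B L v.1)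
      (cond_L (by simpa using hsc.one)) hc1
  · exact inA_seg (hsub k hσ) (hsub k hv) (hsub k hv') h h' hc1 hc2
  · exact inA_ed (hpair v' (hvert k v' hv')) (c := cond B L v.1) (cond_L hvB) hc2

end mil

end Crest.Agent.R185.Base
end

-- ▼ part R185/Base3

/-!
# Row 185, BASE, part 3: spheres `S 1`, `S 2` (two points, a circle) in the Milnor model of a finitely
presented group are filled.
-/

set_option autoImplicit false
set_option linter.unusedSectionVars false

open Set Topology Metric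
open Crest.Agent.R185.Att Crest.Agent.R185.Bld

namespace Crest.Agent.R185.Base

/-! ### parametrisation of the circle -/

/-- the curve `(cos 2πt, sin 2πt)` -/
noncomputable def cs (t : ℝ) : Fin 2 → ℝ := ![Real.cos (2 * Real.pi * t), Real.sin (2 * Real.pi * t)]

theorem cs_zero (t : ℝ) : cs t 0 = Real.cos (2 * Real.pi * t) := rfl
theorem cs_one (t : ℝ) : cs t 1 = Real.sin (2 * Real.pi * t) := rfl

theorem cs_sq (t : ℝ) : cs t 0 ^ 2 + cs t 1 ^ 2 = 1 := by
  rw [cs_zero, cs_one]; exact Real.cos_sq_add_sin_sq _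

theorem cs_ne (t : ℝ) : cs t ≠ 0 := by
  intro h
  have := cs_sq t
  rw [h] at this
  simp at this

theorem continuous_cs : Continuous cs := by
  refine continuous_pi fun i => ?_
  fin_cases i
  · show Continuous fun t => Real.cos (2 * Real.pi * t)
    fun_prop
  · show Continuous fun t => Real.sin (2 * Real.pi * t)
    fun_prop

/-- the parametrisation of the boundary of the square -/
noncomputable def cr (t : ℝ) : S 2 := rad (cs t) (cs_ne t)

theorem continuous_cr : Continuous cr := by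
  apply Continuous.subtype_mk
  exact (continuous_cs.norm.inv₀ fun t => norm_ne_zero_iff.2 (cs_ne t)).smul continuous_cs

theorem cr_eq {t t' : ℝ} (h : cr t = cr t') : cs t = cs t' := by
  have h1 := rad_spec (cs t) (cs_ne t)
  have h2 := rad_spec (cs t') (cs_ne t')
  have h3 : (rad (cs t) (cs_ne t)) = rad (cs t') (cs_ne t') := h
  rw [h3] at h1
  set E : Fin 2 → ℝ := (rad (cs t') (cs_ne t') : Fin 2 → ℝ) with hE
  have a1 := cs_sq t
  have a2 := cs_sq t'
  have b1 : ∀ i, cs t i = ‖cs t‖ * E i := fun i => by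
    conv_lhs => rw [h1]
    rfl
  have b2 : ∀ i, cs t' i = ‖cs t'‖ * E i := fun i => by
    conv_lhs => rw [h2]
    rfl
  have hn : ‖cs t‖ = ‖cs t'‖ := by
    rw [b1, b1] at a1
    rw [b2, b2] at a2
    have c1 : ‖cs t‖ ^ 2 * (E 0 ^ 2 + E 1 ^ 2) = 1 := by linarith [a1, mul_pow ‖cs t‖ (E 0) 2, mul_pow ‖cs t‖ (E 1) 2]
    have c2 : ‖cs t'‖ ^ 2 * (E 0 ^ 2 + E 1 ^ 2) = 1 := by linarith [a2, mul_pow ‖cs t'‖ (E 0) 2, mul_pow ‖cs t'‖ (E 1) 2]
    have c3 : E 0 ^ 2 + E 1 ^ 2 ≠ 0 := by
      intro h0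
      rw [h0, mul_zero] at c1
      exact zero_ne_one c1
    have c4 : ‖cs t‖ ^ 2 = ‖cs t'‖ ^ 2 := mul_right_cancel₀ c3 (c1.trans c2.symm)
    exact (pow_left_inj₀ (norm_nonneg _) (norm_nonneg _) two_ne_zero).1 c4
  funext i
  rw [b1, b2, hn]

theorem cr_inj {t t' : unitInterval} (h : cr t = cr t') :
    t = t' ∨ (t = 0 ∧ t' = 1) ∨ (t = 1 ∧ t' = 0) := by
  have h1 := cr_eq h
  have h2 : Real.cos (2 * Real.pi * t) = Real.cos (2 * Real.pi * t') := congrFun h1 0
  have h3 : Real.sin (2 * Real.pi * t) = Real.sin (2 * Real.pi * t') := congrFun h1 1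
  have h4 := Real.Angle.cos_sin_inj h2 h3
  rw [Real.Angle.angle_eq_iff_two_pi_dvd_sub] at h4
  obtain ⟨k, hk⟩ := h4
  have hk' : (t : ℝ) - t' = k := by
    have : 2 * Real.pi * ((t : ℝ) - t') = 2 * Real.pi * k := by linarith
    exact mul_left_cancel₀ (by positivity) this
  have b1 := t.2.1
  have b2 := t.2.2
  have b3 := t'.2.1
  have b4 := t'.2.2
  have k1 : (k : ℝ) ≤ 1 := by linarith
  have k2 : (-1 : ℝ) ≤ k := by linarith
  have k1' : k ≤ 1 := by exact_mod_cast k1
  have k2' : -1 ≤ k := by exact_mod_cast k2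
  have k3 : k = -1 ∨ k = 0 ∨ k = 1 := by omega
  rcases k3 with rfl | rfl | rfl
  · right; left
    constructor
    · apply Subtype.ext
      show (t : ℝ) = 0
      push_cast at hk'
      linarith
    · apply Subtype.ext
      show (t' : ℝ) = 1
      push_cast at hk'
      linarith
  · left
    apply Subtype.ext
    push_cast at hk'
    linarith
  · right; right
    constructor
    · apply Subtype.ext
      show (t : ℝ) = 1
      push_cast at hk'
      linarith
    · apply Subtype.ext
      show (t' : ℝ) = 0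
      push_cast at hk'
      linarith

theorem cr_surj (s : S 2) : ∃ t : unitInterval, cr t = s := by
  obtain ⟨x, hx⟩ := s
  let z : ℂ := ⟨x 0, x 1⟩
  have hz : z ≠ 0 := by
    intro h
    have h0 : x 0 = 0 := congrArg Complex.re h
    have h1 : x 1 = 0 := congrArg Complex.im h
    have hx0 : x = 0 := by
      funext i; fin_cases i
      · exact h0
      · exact h1
    rw [hx0, mem_sphere_zero_iff_norm, norm_zero] at hx
    exact zero_ne_one hx
  let r : ℝ := z.arg / (2 * Real.pi)
  refine ⟨⟨Int.fract r, Int.fract_nonneg r, (Int.fract_lt_one r).le⟩, ?_⟩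
  have hcs : cs (Int.fract r) = ‖z‖⁻¹ • x := by
    have h1 : 2 * Real.pi * Int.fract r = z.arg - (⌊r⌋ : ℝ) * (2 * Real.pi) := by
      have : Int.fract r = r - ⌊r⌋ := rfl
      rw [this]
      simp only [r]
      field_simp
    funext i
    fin_cases i
    · show Real.cos (2 * Real.pi * Int.fract r) = ‖z‖⁻¹ * x 0
      rw [h1, Real.cos_sub_int_mul_two_pi, Complex.cos_arg hz, div_eq_inv_mul]
    · show Real.sin (2 * Real.pi * Int.fract r) = ‖z‖⁻¹ * x 1
      rw [h1, Real.sin_sub_int_mul_two_pi, Complex.sin_arg, div_eq_inv_mul]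
  symm
  refine rad_unique _ ?_
  have hx1 : ‖x‖ = 1 := mem_sphere_zero_iff_norm.1 hx
  show cs (Int.fract r) = ‖cs (Int.fract r)‖ • x
  rw [hcs, norm_smul, hx1, mul_one, norm_inv, norm_norm]

/-- the closed path around the square -/
noncomputable def cpath : Path (cr 0) (cr 0) where
  toFun t := cr t
  continuous_toFun := continuous_cr.comp continuous_subtype_val
  source' := rfl
  target' := by
    show cr 1 = cr 0
    have : cs 1 = cs 0 := by
      funext i; fin_cases i
      · show Real.cos (2 * Real.pi * 1) = Real.cos (2 * Real.pi * 0)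
        simp
      · show Real.sin (2 * Real.pi * 1) = Real.sin (2 * Real.pi * 0)
        simp
    unfold cr
    congr 1


/-- a map of the circle extends to the square if its loop is null-homotopic -/
theorem fill_circle {W : Type*} [TopologicalSpace W] (f : C(S 2, W))
    (h : Path.Homotopic (cpath.map f.continuous) (Path.refl _)) :
    ∃ g : C(D 2, W), ∀ s, g (sd 2 s) = f s := by
  obtain ⟨H⟩ := h
  let q : C(unitInterval × unitInterval, S 2 × unitInterval) :=
    ⟨fun p => (cr p.1, p.2), (continuous_cr.comp (continuous_subtype_val.comp continuous_fst)).prodMk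
      continuous_snd⟩
  have hqs : Function.Surjective q := by
    rintro ⟨s, t⟩
    obtain ⟨r, hr⟩ := cr_surj s
    exact ⟨(r, t), Prod.ext hr rfl⟩
  have hq : IsQuotientMap q := (q.continuous.isClosedMap.isQuotientMap q.continuous hqs)
  let H' : C(unitInterval × unitInterval, W) := ⟨fun p => H (p.2, p.1), by fun_prop⟩
  have hH : ∀ a b, q a = q b → H' a = H' b := by
    rintro ⟨a1, a2⟩ ⟨b1, b2⟩ hab
    have h1 : cr a1 = cr b1 := congrArg Prod.fst hab
    have h2 : a2 = b2 := congrArg Prod.snd hab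
    subst h2
    show H (a2, a1) = H (a2, b1)
    rcases cr_inj h1 with rfl | ⟨rfl, rfl⟩ | ⟨rfl, rfl⟩
    · rfl
    · rw [H.source, H.target]
    · rw [H.source, H.target]
  let K : C(S 2 × unitInterval, W) := hq.lift H' hH
  have hK : ∀ a, K (q a) = H' a := fun a => by
    have := hq.lift_comp H' hH
    exact congrArg (fun k : C(unitInterval × unitInterval, W) => k a) this
  refine (fill_of_homotopy K (ContinuousMap.const _ (f (cr 0))) ?_).imp fun g hg s => ?_
  · intro s
    obtain ⟨r, rfl⟩ := cr_surj s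
    have : ((cr r, 1) : S 2 × unitInterval) = q (r, 1) := rfl
    rw [this, hK]
    show H (1, r) = _
    rw [H.apply_one]
    rfl
  · rw [hg s]
    obtain ⟨r, rfl⟩ := cr_surj s
    have : ((cr r, 0) : S 2 × unitInterval) = q (r, 0) := rfl
    rw [this, hK]
    show H (0, r) = _
    rw [H.apply_zero]
    rfl

end Crest.Agent.R185.Base
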