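import Crest.Agent.R185.Hur3

-- ▼ part R185/Hur4
section

/-!
# Row 185, T6: levelled complexes and the extension lemma
-/

set_option autoImplicit false
set_option linter.unusedSectionVars false

open Set Metric Topology
open Crest.Agent.R185.Bld

local notation "I" => unitInterval

namespace Crest.Agent.R185.Hur

variable {V : Type}

/-- skeleton: at most `m` vertices -/
def sk (m : ℕ) (K : Cx V) : Cx V where
  s := {σ | σ ∈ K.s ∧ σ.card ≤ m}
  down := fun hσ hτ hne => ⟨K.down hσ.1 hτ hne, (Finset.card_le_card hτ).trans hσ.2⟩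
  lf := fun v => (K.lf v).subset fun _ ⟨σ, hσ, h⟩ => ⟨σ, hσ.1, h⟩

/-- the level function is injective on simplices -/
def Lev (K : Cx V) (ℓ : V → ℕ) : Prop := ∀ σ ∈ K.s, ∀ a ∈ σ, ∀ b ∈ σ, ℓ a = ℓ b → a = b

/-- ordered simplices -/
def Os (K : Cx V) (ℓ : V → ℕ) {k : ℕ} (v : Fin (k + 1) → V) : Prop :=
  StrictMono (ℓ ∘ v) ∧ ∀ σ : Finset V, σ.Nonempty → (∀ a ∈ σ, ∃ i, v i = a) → σ ∈ K.s

theorem Os.inj {K : Cx V} {ℓ : V → ℕ} {k : ℕ} {v : Fin (k + 1) → V} (h : Os K ℓ v) :
    Function.Injective v := fun _ _ hab => h.1.injective (congrArg ℓ hab)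

theorem Os.face {K : Cx V} {ℓ : V → ℕ} {k : ℕ} {v : Fin (k + 2) → V} (h : Os K ℓ v)
    (j : Fin (k + 2)) : Os K ℓ (v ∘ j.succAbove) := by
  refine ⟨h.1.comp (Fin.strictMono_succAbove j), fun σ hσ hv => h.2 σ hσ fun a ha => ?_⟩
  obtain ⟨i, hi⟩ := hv a ha
  exact ⟨_, hi⟩

theorem Os.mono {K K' : Cx V} (hK : K.s ⊆ K'.s) {ℓ : V → ℕ} {k : ℕ} {v : Fin (k + 1) → V}
    (h : Os K ℓ v) : Os K' ℓ v := ⟨h.1, fun σ hσ hv => hK (h.2 σ hσ hv)⟩

/-- every simplex with `k+1` vertices is ordered -/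
theorem exists_os {K : Cx V} {ℓ : V → ℕ} (hK : Lev K ℓ) {k : ℕ} {σ : Finset V} (hσ : σ ∈ K.s)
    (hc : σ.card = k + 1) : ∃ v : Fin (k + 1) → V, Os K ℓ v ∧ ∀ a, a ∈ σ ↔ ∃ i, v i = a := by
  classical
  have hinj : Set.InjOn ℓ σ := fun a ha b hb => hK σ hσ a ha b hb
  have hc' : (σ.image ℓ).card = k + 1 := by rw [Finset.card_image_of_injOn hinj, hc]
  have hex : ∀ i : Fin (k + 1), ∃ a ∈ σ, ℓ a = (σ.image ℓ).orderEmbOfFin hc' i := fun i =>
    Finset.mem_image.1 (Finset.orderEmbOfFin_mem _ hc' i)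
  choose v hv1 hv2 using hex
  have hmono : StrictMono (ℓ ∘ v) := by
    intro i j hij
    show ℓ (v i) < ℓ (v j)
    rw [hv2, hv2]
    exact ((σ.image ℓ).orderEmbOfFin hc').strictMono hij
  have hr : ∀ a, a ∈ σ ↔ ∃ i, v i = a := by
    intro a
    constructor
    · intro ha
      have h1 : ℓ a ∈ Set.range ((σ.image ℓ).orderEmbOfFin hc') := by
        rw [Finset.range_orderEmbOfFin]
        exact Finset.mem_coe.2 (Finset.mem_image_of_mem ℓ ha)
      obtain ⟨i, hi⟩ := h1
      exact ⟨i, hinj (hv1 i) ha ((hv2 i).trans hi)⟩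
    · rintro ⟨i, rfl⟩
      exact hv1 i
  refine ⟨v, ⟨hmono, fun τ hτ h => K.down hσ (fun a ha => ?_) hτ⟩, hr⟩
  exact (hr a).2 (h a ha)

theorem os_unique {K K' : Cx V} {ℓ : V → ℕ} (hK : Lev K ℓ) {k : ℕ} {v v' : Fin (k + 1) → V}
    (h : Os K ℓ v) (h' : Os K' ℓ v') (hr : ∀ a, (∃ i, v i = a) ↔ ∃ i, v' i = a) : v = v' := by
  classical
  have h1 : ℓ ∘ v = ℓ ∘ v' := by
    refine (StrictMono.range_inj h.1 h'.1).1 ?_
    ext m
    constructor
    · rintro ⟨i, rfl⟩
      obtain ⟨j, hj⟩ := (hr (v i)).1 ⟨i, rfl⟩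
      exact ⟨j, congrArg ℓ hj⟩
    · rintro ⟨i, rfl⟩
      obtain ⟨j, hj⟩ := (hr (v' i)).2 ⟨i, rfl⟩
      exact ⟨j, congrArg ℓ hj⟩
  funext i
  have hσ : Finset.univ.image v ∈ K.s := h.2 _ ⟨v 0, by simp⟩ (fun a ha => by simpa using ha)
  obtain ⟨j, hj⟩ := (hr (v' i)).2 ⟨i, rfl⟩
  refine hK _ hσ _ (by simp) _ ?_ (congrFun h1 i)
  rw [← hj]; simp

/-- the point with weights `x` -/
noncomputable def ptm {k : ℕ} (v : Fin (k + 1) → V) (x : Fin k → I) : V →₀ ℝ :=
  Finsupp.mapDomain v (wtF x)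

theorem ptm_nn {k : ℕ} {v : Fin (k + 1) → V} (hv : Function.Injective v) (x : Fin k → I) (a : V) :
    0 ≤ ptm v x a := by
  unfold ptm
  by_cases h : a ∈ Set.range v
  · obtain ⟨i, rfl⟩ := h
    rw [Finsupp.mapDomain_apply hv]
    exact wt_nonneg x i
  · rw [Finsupp.mapDomain_of_notMem_range _ _ h]

theorem ptm_tot {k : ℕ} (v : Fin (k + 1) → V) (x : Fin k → I) :
    ((ptm v x).sum fun _ a => a) = 1 := by
  unfold ptm
  rw [Finsupp.sum_mapDomain_index (fun _ => rfl) (fun _ _ _ => rfl),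
    Finsupp.sum_fintype _ _ (fun _ => rfl)]
  exact wt_sum x

theorem ptm_support {k : ℕ} (v : Fin (k + 1) → V) (x : Fin k → I) (a : V)
    (ha : a ∈ (ptm v x).support) : ∃ i, v i = a := by
  by_contra h
  rw [Finsupp.mem_support_iff] at ha
  exact ha (Finsupp.mapDomain_of_notMem_range _ _ h)

theorem ptm_nonempty {k : ℕ} (v : Fin (k + 1) → V) (x : Fin k → I) :
    (ptm v x).support.Nonempty := by
  rw [Finset.nonempty_iff_ne_empty]
  intro h
  rw [Finsupp.support_eq_empty] at h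
  have := ptm_tot v x
  rw [h, Finsupp.sum_zero_index] at this
  exact zero_ne_one this

theorem ptm_card {k : ℕ} (v : Fin (k + 1) → V) (x : Fin k → I) : (ptm v x).support.card ≤ k + 1 := by
  classical
  refine (Finset.card_le_card (t := Finset.univ.image v) fun a ha => ?_).trans
    (Finset.card_image_le.trans (by simp))
  obtain ⟨i, hi⟩ := ptm_support v x a ha
  simp only [Finset.mem_image, Finset.mem_univ, true_and]
  exact ⟨i, hi⟩

/-- boundary points have small support -/
theorem ptm_card_boundary {k : ℕ} {v : Fin (k + 1) → V} (hv : Function.Injective v) (x : Fin k → I)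
    (hx : x ∈ Cube.boundary (Fin k)) : (ptm v x).support.card ≤ k := by
  classical
  obtain ⟨j, hj⟩ := hx
  have : ∃ i : Fin (k + 1), wt x i = 0 := by
    rcases hj with hj | hj
    · exact ⟨j.succ, wt_eq_zero_of_zero x j hj _ (by simp)⟩
    · exact ⟨_, wt_eq_zero_of_one x j hj⟩
  obtain ⟨i, hi⟩ := this
  have hc : ((Finset.univ.erase i).image v).card ≤ k := Finset.card_image_le.trans (by simp)
  refine (Finset.card_le_card fun a ha => ?_).trans hc
  obtain ⟨l, hl⟩ := ptm_support v x a ha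
  rw [Finset.mem_image]
  refine ⟨l, Finset.mem_erase.2 ⟨?_, Finset.mem_univ _⟩, hl⟩
  rintro rfl
  rw [Finsupp.mem_support_iff, ← hl] at ha
  exact ha ((Finsupp.mapDomain_apply hv _ _).trans hi)

theorem ptm_card_zero {k : ℕ} {v : Fin (k + 1) → V} (hv : Function.Injective v) (x : Fin k → I)
    (j : Fin k) (hj : x j = 0) : (ptm v x).support.card ≤ (j : ℕ) + 1 := by
  classical
  have hc : ((Finset.univ.filter fun i : Fin (k + 1) => (i : ℕ) ≤ j).image v).card ≤ (j : ℕ) + 1 := by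
    refine Finset.card_image_le.trans ?_
    have : (Finset.univ.filter fun i : Fin (k + 1) => (i : ℕ) ≤ j).card ≤
        (Finset.range ((j : ℕ) + 1)).card := by
      refine Finset.card_le_card_of_injOn (fun i => (i : ℕ)) ?_ ?_
      · intro i hi
        simp only [Finset.coe_filter, Finset.mem_univ, true_and, mem_ofPred_eq] at hi
        simp only [Finset.coe_range, mem_Iio]
        omega
      · intro a _ b _ hab
        exact Fin.ext hab
    simpa using this
  refine (Finset.card_le_card fun a ha => ?_).trans hc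
  obtain ⟨l, hl⟩ := ptm_support v x a ha
  rw [Finset.mem_image]
  refine ⟨l, Finset.mem_filter.2 ⟨Finset.mem_univ _, ?_⟩, hl⟩
  by_contra hlt
  push Not at hlt
  rw [Finsupp.mem_support_iff, ← hl] at ha
  exact ha ((Finsupp.mapDomain_apply hv _ _).trans (wt_eq_zero_of_zero x j hj l hlt))

theorem ptm_ins_one {k : ℕ} (v : Fin (k + 2) → V) (j : Fin (k + 1)) (z : Fin k → I) :
    ptm v (ins j 1 z) = ptm (v ∘ j.castSucc.succAbove) z := by
  unfold ptm
  rw [wtF_ins_one, ← Finsupp.mapDomain_comp]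

theorem ptm_ins_zero {k : ℕ} (v : Fin (k + 2) → V) (z : Fin k → I) :
    ptm v (ins (Fin.last k) 0 z) = ptm (v ∘ (Fin.last (k + 1)).succAbove) z := by
  unfold ptm
  rw [wtF_ins_zero, ← Finsupp.mapDomain_comp]

theorem ptm_mem {K : Cx V} {ℓ : V → ℕ} {k : ℕ} {v : Fin (k + 1) → V} (h : Os K ℓ v)
    (x : Fin k → I) : (ptm v x).support ∈ K.s :=
  h.2 _ (ptm_nonempty v x) (ptm_support v x)

theorem continuous_ptm {k : ℕ} {v : Fin (k + 1) → V} (hv : Function.Injective v) (a : V) :
    Continuous fun x : Fin k → I => ptm v x a := by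
  unfold ptm
  by_cases h : a ∈ Set.range v
  · obtain ⟨i, rfl⟩ := h
    simp only [Finsupp.mapDomain_apply hv]
    exact continuous_wt i
  · simp only [Finsupp.mapDomain_of_notMem_range _ _ h]
    exact continuous_const

/-- the characteristic map of an ordered simplex -/
noncomputable def pt {K : Cx V} {ℓ : V → ℕ} {k : ℕ} (v : Fin (k + 1) → V) (h : Os K ℓ v) (m : ℕ)
    (hm : k + 1 ≤ m) : C(Fin k → I, (sk m K).R) where
  toFun x := ⟨ptm v x, ptm_nn h.inj x, ptm_tot v x, ptm_mem h x, (ptm_card v x).trans hm⟩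
  continuous_toFun := Cx.continuous_iff_eval.2 fun a => continuous_ptm h.inj a


/-- every point is on some simplex -/
theorem exists_ptm {K : Cx V} {ℓ : V → ℕ} (hK : Lev K ℓ) {k m : ℕ} (p : (sk m K).R)
    (hp : p.m.support.card = k + 1) : ∃ v : Fin (k + 1) → V, Os K ℓ v ∧ ∃ x, p.m = ptm v x := by
  classical
  obtain ⟨v, hv, hr⟩ := exists_os hK p.mem.1 hp
  refine ⟨v, hv, ?_⟩
  obtain ⟨x, hx⟩ := exists_wt (fun i => p (v i)) (fun i => p.nn _) (by
    have h1 := p.sum_eq (T := Finset.univ.image v) (fun a ha => by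
      obtain ⟨i, hi⟩ := (hr a).1 ha
      simp only [Finset.mem_image, Finset.mem_univ, true_and]
      exact ⟨i, hi⟩)
    rwa [Finset.sum_image fun a _ b _ hab => hv.inj hab] at h1)
  refine ⟨x, Finsupp.ext fun a => ?_⟩
  unfold ptm
  by_cases h : a ∈ Set.range v
  · obtain ⟨i, rfl⟩ := h
    rw [Finsupp.mapDomain_apply hv.inj, wtF_apply, hx]
  · rw [Finsupp.mapDomain_of_notMem_range _ _ h]
    by_contra h1
    exact h ((hr a).1 (Finsupp.mem_support_iff.2 h1))

/-- uniqueness over the interior -/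
theorem ptm_unique {K K' : Cx V} {ℓ : V → ℕ} (hK : Lev K ℓ) {k : ℕ} {v v' : Fin (k + 1) → V}
    (h : Os K ℓ v) (h' : Os K' ℓ v') {x x' : Fin k → I} (he : ptm v x = ptm v' x')
    (hc : (ptm v x).support.card = k + 1) : v = v' ∧ x = x' := by
  classical
  -- full support
  have full : ∀ (v : Fin (k + 1) → V), Function.Injective v → ∀ x,
      (ptm v x).support.card = k + 1 → ∀ a, a ∈ (ptm v x).support ↔ ∃ i, v i = a := by
    intro v hv x hc a
    have hsub : (ptm v x).support ⊆ Finset.univ.image v := fun a ha => by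
      obtain ⟨i, hi⟩ := ptm_support v x a ha
      simp only [Finset.mem_image, Finset.mem_univ, true_and]
      exact ⟨i, hi⟩
    have := Finset.eq_of_subset_of_card_le hsub (by
      rw [hc, Finset.card_image_of_injective _ hv]; simp)
    rw [this]; simp
  have hv : v = v' := os_unique hK h h' fun a => by
    rw [← full v h.inj x hc a, he, full v' h'.inj x' (he ▸ hc) a]
  subst hv
  refine ⟨rfl, ?_⟩
  have hw : wt x = wt x' := by
    funext i
    have := DFunLike.congr_fun he (v i)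
    unfold ptm at this
    rwa [Finsupp.mapDomain_apply h.inj, Finsupp.mapDomain_apply h.inj] at this
  refine wt_inj x x' hw fun i => ?_
  have h1 : v i ∈ (ptm v x).support := (full v h.inj x hc _).2 ⟨i, rfl⟩
  rw [Finsupp.mem_support_iff] at h1
  unfold ptm at h1
  rw [Finsupp.mapDomain_apply h.inj] at h1
  exact lt_of_le_of_ne (wt_nonneg x i) (Ne.symm h1)

/-- a map on the image of a compact space is continuous if it is so upstairs -/
theorem continuousOn_range {A B C : Type*} [TopologicalSpace A] [CompactSpace A]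
    [TopologicalSpace B] [T2Space B] [TopologicalSpace C] (Q : A → B) (hQ : Continuous Q)
    (f : B → C) (hf : Continuous fun a => f (Q a)) : ContinuousOn f (Set.range Q) := by
  rw [continuousOn_iff_continuous_domRestrict]
  have h1 : Continuous (Set.rangeFactorization Q) := hQ.subtype_mk _
  have h2 : IsQuotientMap (Set.rangeFactorization Q) :=
    h1.isClosedMap.isQuotientMap h1 Set.rangeFactorization_surjective
  rw [h2.continuous_iff]
  exact hf

/-- **Extension lemma**: one skeleton. -/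
theorem extend {Y : Type*} [TopologicalSpace Y] (K : Cx V) (ℓ : V → ℕ) (hK : Lev K ℓ) (m : ℕ)
    (Φ0 : C((sk m K).R, Y)) (φ : ∀ v : Fin (m + 1) → V, Os K ℓ v → C(Fin m → I, Y))
    (hφ : ∀ v hv x, x ∈ Cube.boundary (Fin m) → ∀ p : (sk m K).R, p.m = ptm v x →
      φ v hv x = Φ0 p) :
    ∃ Φ : C((sk (m + 1) K).R, Y), (∀ (p : (sk (m + 1) K).R) (q : (sk m K).R), p.m = q.m →
      Φ p = Φ0 q) ∧ ∀ (p : (sk (m + 1) K).R) v hv x, p.m = ptm v x → Φ p = φ v hv x := by
  classical
  have hex : ∀ p : (sk (m + 1) K).R, ¬ p.m.support.card ≤ m →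
      ∃ v : Fin (m + 1) → V, ∃ _ : Os K ℓ v, ∃ x, p.m = ptm v x := by
    intro p hp
    obtain ⟨v, hv, x, hx⟩ := exists_ptm hK p (le_antisymm p.mem.2 (by omega))
    exact ⟨v, hv, x, hx⟩
  choose fv fos fx hfx using hex
  let F : (sk (m + 1) K).R → Y := fun p =>
    if h : p.m.support.card ≤ m then Φ0 ⟨p.m, p.nn, p.tot, ⟨p.mem.1, h⟩⟩
    else φ (fv p h) (fos p h) (fx p h)
  have hF0 : ∀ (p : (sk (m + 1) K).R) (q : (sk m K).R), p.m = q.m → F p = Φ0 q := by
    intro p q hpq
    have h : p.m.support.card ≤ m := by rw [hpq]; exact q.mem.2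
    show dite _ _ _ = _
    rw [dif_pos h]
    congr 1
    exact Cx.R.ext_m hpq
  have hF1 : ∀ (p : (sk (m + 1) K).R) v hv x, p.m = ptm v x → F p = φ v hv x := by
    intro p v hv x hpx
    by_cases hx : x ∈ Cube.boundary (Fin m)
    · have hc := ptm_card_boundary hv.inj x hx
      have h : p.m.support.card ≤ m := by rw [hpx]; exact hc
      rw [hF0 p ⟨p.m, p.nn, p.tot, ⟨p.mem.1, h⟩⟩ rfl]
      exact (hφ v hv x hx _ hpx).symm
    · by_cases h : p.m.support.card ≤ m
      · rw [hF0 p ⟨p.m, p.nn, p.tot, ⟨p.mem.1, h⟩⟩ rfl]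
        exfalso
        -- interior points have full support
        have h1 : (Finset.univ.image v) ⊆ p.m.support := by
          intro a ha
          simp only [Finset.mem_image, Finset.mem_univ, true_and] at ha
          obtain ⟨i, rfl⟩ := ha
          rw [Finsupp.mem_support_iff, hpx]
          unfold ptm
          rw [Finsupp.mapDomain_apply hv.inj]
          exact (wt_pos x hx i).ne'
        have h2 := Finset.card_le_card h1
        rw [Finset.card_image_of_injective _ hv.inj] at h2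
        simp only [Finset.card_univ, Fintype.card_fin] at h2
        omega
      · show dite _ _ _ = _
        rw [dif_neg h]
        have h3 : (ptm v x).support.card = m + 1 := by
          rw [← hpx]; exact le_antisymm p.mem.2 (by omega)
        obtain ⟨h4, h5⟩ := ptm_unique hK hv (fos p h) (hpx.symm.trans (hfx p h)) h3
        have key : ∀ v' hv' x', v = v' → x = x' → φ v' hv' x' = φ v hv x := by
          rintro v' hv' x' rfl rfl; rfl
        exact key _ _ _ h4 h5
  refine ⟨⟨F, ?_⟩, hF0, hF1⟩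
  refine Cx.continuous_of_face fun σ hσ => ?_
  by_cases hc : σ.card ≤ m
  · rw [continuousOn_iff_continuous_domRestrict]
    have h : ∀ p : (sk (m + 1) K).face σ, p.1.m.support.card ≤ m := fun p =>
      (Finset.card_le_card p.2).trans hc
    let G : (sk (m + 1) K).face σ → (sk m K).R := fun p =>
      ⟨p.1.m, p.1.nn, p.1.tot, ⟨p.1.mem.1, h p⟩⟩
    have hG : Continuous G := Cx.continuous_iff_eval.2 fun v =>
      ((Cx.continuous_eval v).comp continuous_subtype_val :
        Continuous fun p : (sk (m + 1) K).face σ => p.1 v)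
    refine (Φ0.continuous.comp hG).congr fun p => ?_
    exact (hF0 p.1 (G p) rfl).symm
  · obtain ⟨v, hv, hr⟩ := exists_os hK hσ.1 (le_antisymm hσ.2 (by omega) : σ.card = m + 1)
    refine (continuousOn_range (pt v hv (m + 1) le_rfl) (pt v hv (m + 1) le_rfl).continuous F ?_).mono ?_
    · exact (φ v hv).continuous.congr fun x => (hF1 _ v hv x rfl).symm
    · intro p hp
      obtain ⟨x, hx⟩ := exists_wt (fun i => p (v i)) (fun i => p.nn _) (by
        have h1 := p.sum_eq (T := Finset.univ.image v) (fun a ha => by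
          obtain ⟨i, hi⟩ := (hr a).1 (hp ha)
          simp only [Finset.mem_image, Finset.mem_univ, true_and]
          exact ⟨i, hi⟩)
        rwa [Finset.sum_image fun a _ b _ hab => hv.inj hab] at h1)
      refine ⟨x, Cx.R.ext_m (Finsupp.ext fun a => ?_)⟩
      show ptm v x a = p a
      unfold ptm
      by_cases h : a ∈ Set.range v
      · obtain ⟨i, rfl⟩ := h
        rw [Finsupp.mapDomain_apply hv.inj, wtF_apply, hx]
      · rw [Finsupp.mapDomain_of_notMem_range _ _ h]
        by_contra h1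
        exact h ((hr a).1 (hp (Finsupp.mem_support_iff.2 (Ne.symm h1))))

end Crest.Agent.R185.Hur
end

-- ▼ part R185/Hur5
section

/-!
# Row 185, T6: homotopy extension for skeleta, normalisation
-/

set_option autoImplicit false
set_option linter.unusedSectionVars false

open Set Metric Topology
open Crest.Agent.R185.Bld

local notation "I" => unitInterval

namespace Crest.Agent.R185.Hur

variable {V : Type} {W : Type*} [TopologicalSpace W]

/-- inclusions as continuous maps -/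
def inc {K K' : Cx V} (h : K.s ⊆ K'.s) : C(K.R, K'.R) := ⟨Cx.R.incl h, Cx.continuous_incl h⟩


theorem sk_sub (K : Cx V) {m m' : ℕ} (h : m ≤ m') : (sk m K).s ⊆ (sk m' K).s :=
  fun _ hσ => ⟨hσ.1, hσ.2.trans h⟩


theorem homotopic_iff {X : Type*} [TopologicalSpace X] (f g : C(X, W)) : f.Homotopic g ↔
    ∃ F : C(X, C(I, W)), (∀ x, F x 0 = f x) ∧ ∀ x, F x 1 = g x := by
  constructor
  · rintro ⟨H⟩
    refine ⟨ContinuousMap.curry ⟨fun p : X × I => H (p.2, p.1), by fun_prop⟩, fun x => ?_, fun x => ?_⟩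
    · exact H.apply_zero x
    · exact H.apply_one x
  · rintro ⟨F, h0, h1⟩
    refine ⟨⟨⟨fun p => F p.2 p.1, by fun_prop⟩, h0, h1⟩⟩

/-- boundary points of a simplex, in the lower skeleton -/
noncomputable def bpt {K : Cx V} {ℓ : V → ℕ} {m : ℕ} (v : Fin (m + 1) → V) (h : Os K ℓ v) :
    C(Cube.boundary (Fin m), (sk m K).R) where
  toFun x := ⟨ptm v x, ptm_nn h.inj x, ptm_tot v x, ptm_mem h x, ptm_card_boundary h.inj x.1 x.2⟩
  continuous_toFun := Cx.continuous_iff_eval.2 fun a =>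
    (continuous_ptm h.inj a).comp continuous_subtype_val

/-- homotopy extension, one skeleton -/
theorem hep (K : Cx V) (ℓ : V → ℕ) (hK : Lev K ℓ) (m : ℕ) (J : C((sk (m + 1) K).R, W))
    (H : C((sk m K).R, C(I, W)))
    (h0 : ∀ (p : (sk (m + 1) K).R) (q : (sk m K).R), p.m = q.m → H q 0 = J p) :
    ∃ H' : C((sk (m + 1) K).R, C(I, W)), (∀ p, H' p 0 = J p) ∧
      ∀ (p : (sk (m + 1) K).R) (q : (sk m K).R), p.m = q.m → H' p = H q := by
  classical
  have hex : ∀ (v : Fin (m + 1) → V) (hv : Os K ℓ v), ∃ φ : C(Fin m → I, C(I, W)),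
      (∀ x, φ x 0 = J (pt v hv (m + 1) le_rfl x)) ∧
      ∀ x (hx : x ∈ Cube.boundary (Fin m)), φ x = H (bpt v hv ⟨x, hx⟩) := by
    intro v hv
    obtain ⟨U, hU0, hU⟩ := cube_hep (J.comp (pt v hv (m + 1) le_rfl))
      (fun p => if h : p.2 ∈ Cube.boundary (Fin m) then H (bpt v hv ⟨p.2, h⟩) p.1
        else J (pt v hv (m + 1) le_rfl p.2)) (by
        rw [continuousOn_iff_continuous_domRestrict]
        let b : {p : I × (Fin m → I) | p.2 ∈ Cube.boundary (Fin m)} → Cube.boundary (Fin m) :=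
          fun p => ⟨p.1.2, p.2⟩
        have hb : Continuous b := by
          apply Continuous.subtype_mk
          fun_prop
        have : Continuous fun p : {p : I × (Fin m → I) | p.2 ∈ Cube.boundary (Fin m)} =>
            H (bpt v hv (b p)) p.1.1 := by fun_prop
        refine this.congr fun p => ?_
        have hp : p.1.2 ∈ Cube.boundary (Fin m) := p.2
        show _ = dite _ _ _
        rw [dif_pos hp]) (by
        intro y hy
        show dite _ _ _ = _
        rw [dif_pos hy]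
        exact h0 _ _ rfl)
    refine ⟨ContinuousMap.curry ⟨fun p : (Fin m → I) × I => U (p.2, p.1), by fun_prop⟩,
      fun x => hU0 x, fun x hx => ?_⟩
    ext t
    show U (t, x) = _
    rw [hU t x hx]
    exact dif_pos hx
  choose φ hφ0 hφ using hex
  obtain ⟨Φ, hΦ0, hΦ1⟩ := extend K ℓ hK m H φ (by
    intro v hv x hx p hp
    rw [hφ v hv x hx]
    congr 1
    exact Cx.R.ext_m hp.symm)
  refine ⟨Φ, fun p => ?_, hΦ0⟩
  by_cases h : p.m.support.card ≤ m
  · rw [hΦ0 p ⟨p.m, p.nn, p.tot, ⟨p.mem.1, h⟩⟩ rfl]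
    exact h0 _ _ rfl
  · obtain ⟨v, hv, x, hx⟩ := exists_ptm hK p (le_antisymm p.mem.2 (by omega))
    rw [hΦ1 p v hv x hx, hφ0 v hv x]
    congr 1
    exact Cx.R.ext_m hx.symm

/-- normalisation: two skeleta -/
theorem normalise (K : Cx V) (ℓ : V → ℕ) (hK : Lev K ℓ) (m : ℕ) (J : C((sk (m + 2) K).R, W)) (w : W)
    (hJ : (J.comp (inc (sk_sub K (Nat.le_add_right m 2)))).Homotopic (ContinuousMap.const _ w)) :
    ∃ κ : C((sk (m + 2) K).R, W), J.Homotopic κ ∧ ∀ p, p.m.support.card ≤ m → κ p = w := by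
  obtain ⟨F, h0, h1⟩ := (homotopic_iff _ _).1 hJ
  obtain ⟨F1, h2, h3⟩ := hep K ℓ hK m (J.comp (inc (sk_sub K (Nat.le_succ (m + 1))))) F (by
    intro p q hpq
    rw [h0 q]
    show J _ = J _
    congr 1
    exact Cx.R.ext_m hpq.symm)
  obtain ⟨F2, h4, h5⟩ := hep K ℓ hK (m + 1) J F1 (by
    intro p q hpq
    rw [h2 q]
    show J _ = J _
    congr 1
    exact Cx.R.ext_m hpq.symm)
  refine ⟨⟨fun p => F2 p 1, by fun_prop⟩, (homotopic_iff _ _).2 ⟨F2, h4, fun p => rfl⟩, ?_⟩
  intro p hp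
  show F2 p 1 = w
  have hp' : p.m.support ∈ (sk (m + 1) K).s := ⟨p.mem.1, hp.trans (Nat.le_succ m)⟩
  have hp'' : p.m.support ∈ (sk m K).s := ⟨p.mem.1, hp⟩
  rw [h5 p ⟨p.m, p.nn, p.tot, hp'⟩ rfl, h3 ⟨p.m, p.nn, p.tot, hp'⟩ ⟨p.m, p.nn, p.tot, hp''⟩ rfl, h1]
  rfl

/-! ### the classes of the `n`-simplices -/

section cochain

variable {K : Cx V} {ℓ : V → ℕ} {n : ℕ} {w : W}

/-- the loop of an ordered simplex -/
noncomputable def gl (κ : C((sk (n + 2) K).R, W)) (hκ : ∀ p, p.m.support.card ≤ n → κ p = w)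
    (v : Fin (n + 1) → V) (h : Os K ℓ v) : GenLoop (Fin n) W w :=
  ⟨κ.comp (pt v h (n + 2) (Nat.le_succ (n + 1))), fun x hx =>
    hκ _ (ptm_card_boundary h.inj x hx)⟩

open Classical in
/-- the obstruction cochain -/
noncomputable def oc (ℓ : V → ℕ) (κ : C((sk (n + 2) K).R, W))
    (hκ : ∀ p, p.m.support.card ≤ n → κ p = w)
    (v : Fin (n + 1) → V) : HomotopyGroup (Fin n) W w :=
  if h : Os K ℓ v then cl (gl κ hκ v h) else cl GenLoop.const

theorem oc_of (κ : C((sk (n + 2) K).R, W)) (hκ : ∀ p, p.m.support.card ≤ n → κ p = w)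
    (v : Fin (n + 1) → V) (h : Os K ℓ v) : oc ℓ κ hκ v = cl (gl κ hκ v h) := dif_pos h

variable [Nontrivial (Fin n)]

theorem alt_special (a : Fin (n + 1) → Bool → GenLoop (Fin n) W w)
    (h : ∀ k : Fin n, a k.castSucc false = GenLoop.const) :
    alt a = (∏ k : Fin (n + 1), cl (a k true) ^ ((-1 : ℤ) ^ (k : ℕ))) *
      cl (a (Fin.last n) false) ^ ((-1 : ℤ) ^ (n + 1)) := by
  unfold alt
  simp only [div_zpow]
  rw [Finset.prod_div_distrib, div_eq_mul_inv]
  congr 1
  rw [Fin.prod_univ_castSucc (fun k : Fin (n + 1) => cl (a k false) ^ ((-1 : ℤ) ^ (k : ℕ))),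
    Finset.prod_eq_one (fun k _ => by rw [h k, cl_const, one_zpow]), one_mul, Fin.val_last,
    pow_succ, mul_neg_one, zpow_neg]

/-- the cocycle condition -/
theorem oc_boundary (κ : C((sk (n + 2) K).R, W)) (hκ : ∀ p, p.m.support.card ≤ n → κ p = w)
    (τ : Fin (n + 2) → V) (h : Os K ℓ τ) :
    ∏ j : Fin (n + 2), oc ℓ κ hκ (τ ∘ j.succAbove) ^ ((-1 : ℤ) ^ (j : ℕ)) = 1 := by
  let Q : C(Fin (n + 1) → I, W) := κ.comp (pt τ h (n + 2) le_rfl)
  have hQ : Good w Q := by
    intro y i j hij hi hj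
    refine hκ _ ?_
    -- two coordinates on the boundary
    obtain ⟨b, hb⟩ := exists_en hi
    obtain ⟨l, hl⟩ := Fin.exists_succAbove_eq hij.symm
    have e1 : y = ins i (en b) (fun l => y (i.succAbove l)) := by
      rw [← hb]; exact eq_ins i y
    have e2 : (fun l => y (i.succAbove l)) ∈ Cube.boundary (Fin n) :=
      ⟨l, by show y (i.succAbove l) = 0 ∨ y (i.succAbove l) = 1; rw [hl]; exact hj⟩
    show (ptm τ y).support.card ≤ n
    rw [e1]
    cases b
    · rcases Fin.eq_castSucc_or_eq_last i with ⟨i', rfl⟩ | rfl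
      · exact (ptm_card_zero h.inj _ i'.castSucc (by rw [ins_same]; rfl)).trans i'.2
      · show (ptm τ (ins (Fin.last n) 0 _)).support.card ≤ n
        rw [ptm_ins_zero]
        exact ptm_card_boundary (h.face _).inj _ e2
    · show (ptm τ (ins i 1 _)).support.card ≤ n
      rw [ptm_ins_one]
      exact ptm_card_boundary (h.face _).inj _ e2
  have h1 := alt_eq_one Q hQ
  have hT : ∀ k : Fin (n + 1), fcs Q hQ k true = gl κ hκ (τ ∘ k.castSucc.succAbove) (h.face _) := by
    intro k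
    apply GenLoop.ext
    intro z
    show κ _ = κ _
    congr 1
    exact Cx.R.ext_m (ptm_ins_one τ k z)
  have hF : fcs Q hQ (Fin.last n) false = gl κ hκ (τ ∘ (Fin.last (n + 1)).succAbove) (h.face _) := by
    apply GenLoop.ext
    intro z
    show κ _ = κ _
    congr 1
    exact Cx.R.ext_m (ptm_ins_zero τ z)
  rw [alt_special _ (fun k => ?_)] at h1
  · rw [Fin.prod_univ_castSucc]
    simp only [Fin.val_castSucc, Fin.val_last]
    rw [oc_of κ hκ _ (h.face (Fin.last (n + 1)))]
    rw [← h1, hF]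
    congr 1
    refine Finset.prod_congr rfl fun k _ => ?_
    rw [hT, oc_of κ hκ _ (h.face _)]
  · apply GenLoop.ext
    intro z
    refine hκ _ ?_
    exact (ptm_card_zero h.inj _ k.castSucc (ins_same _ _ _)).trans k.2

end cochain

end Crest.Agent.R185.Hur
end

-- ▼ part R185/Hur6

/-!
# Row 185, T6: filling the prisms
-/

set_option autoImplicit false
set_option linter.unusedSectionVars false

open Set Metric Topology
open Crest.Agent.R185.Bld

local notation "I" => unitInterval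

namespace Crest.Agent.R185.Hur

variable {V : Type} {W : Type*} [TopologicalSpace W]

theorem continuous_ins {n : ℕ} {X : Type*} [TopologicalSpace X] (i : Fin (n + 1)) {e : X → I}
    {z : X → Fin n → I} (he : Continuous e) (hz : Continuous z) :
    Continuous fun x => ins i (e x) (z x) := by
  refine continuous_pi fun j => ?_
  refine Fin.succAboveCases i ?_ (fun l => ?_) j
  · simpa only [ins_same] using he
  · simp only [ins_succAbove]
    exact (continuous_apply l).comp hz

/-- currying the zeroth coordinate -/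
noncomputable def cur {n : ℕ} (f : C(Fin (n + 1) → I, W)) : C(Fin n → I, C(I, W)) :=
  ContinuousMap.curry ⟨fun p : (Fin n → I) × I => f (ins 0 p.2 p.1),
    f.continuous.comp (continuous_ins 0 continuous_snd continuous_fst)⟩


theorem ins_zero_comp {k : ℕ} (t : I) (x : Fin (k + 1) → I) (j : Fin (k + 1)) :
    (fun l => ins 0 t x (j.succ.succAbove l)) = ins 0 t (fun l => x (j.succAbove l)) := by
  symm
  rw [ins_eq_iff]
  constructor
  · rw [Fin.succ_succAbove_zero, ins_same]
  · intro l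
    rw [Fin.succAbove_zero, Fin.succ_succAbove_succ]
    have := ins_succAbove 0 t x (j.succAbove l)
    rw [Fin.succAbove_zero] at this
    exact this.symm

theorem prism_aux {A : Type*} [CommGroup A] {k : ℕ} (L : Fin (k + 2) → A) (x : Fin (k + 1) → A)
    (h1 : ∀ j, j ≠ Fin.last k → x j = 1) (h2 : x (Fin.last k) = (L (Fin.last (k + 1)))⁻¹) :
    (1 / ∏ j : Fin (k + 2), L j ^ ((-1 : ℤ) ^ (j : ℕ))) *
      ∏ j : Fin (k + 1), ((L j.castSucc)⁻¹ / x j) ^ ((-1 : ℤ) ^ ((j : ℕ) + 1)) = 1 := by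
  have e1 : ∀ j : Fin (k + 1), ((L j.castSucc)⁻¹ / x j) ^ ((-1 : ℤ) ^ ((j : ℕ) + 1)) =
      (L j.castSucc) ^ ((-1 : ℤ) ^ (j : ℕ)) * (x j) ^ ((-1 : ℤ) ^ (j : ℕ)) := by
    intro j
    rw [pow_succ, mul_neg_one, zpow_neg, ← inv_zpow, inv_div, div_inv_eq_mul, mul_zpow, mul_comm]
  have e2 : ∏ j : Fin (k + 1), (x j) ^ ((-1 : ℤ) ^ (j : ℕ)) =
      L (Fin.last (k + 1)) ^ ((-1 : ℤ) ^ (k + 1)) := by
    rw [Fin.prod_univ_castSucc, Finset.prod_eq_one (fun j _ => by
      rw [h1 _ (Fin.castSucc_lt_last j).ne, one_zpow]), one_mul, h2, Fin.val_last, pow_succ,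
      mul_neg_one, zpow_neg, inv_zpow]
  rw [Finset.prod_congr rfl (fun j _ => e1 j), Finset.prod_mul_distrib, e2, Fin.prod_univ_castSucc]
  simp only [Fin.val_castSucc, Fin.val_last]
  rw [one_div, inv_mul_cancel]

variable {ℓ : V → ℕ} {k : ℕ} {w : W}

theorem fill_prisms [Nontrivial (Fin (k + 1))] (K K1 : Cx V) (hKK : K.s ⊆ K1.s)
    (hK1 : Lev K1 ℓ) (κ : C((sk (k + 1 + 2) K1).R, W)) (hκ : ∀ p, p.m.support.card ≤ k + 1 → κ p = w)
    (lam : (Fin (k + 1) → V) → HomotopyGroup (Fin (k + 1)) W w)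
    (hlam : ∀ s : Fin (k + 2) → V, Os K ℓ s →
      oc ℓ κ hκ s = ∏ j : Fin (k + 2), lam (s ∘ j.succAbove) ^ ((-1 : ℤ) ^ (j : ℕ))) :
    ∃ H : C((sk (k + 2) K).R, C(I, W)),
      (∀ (p : (sk (k + 2) K).R) (q : (sk (k + 1 + 2) K1).R), p.m = q.m → H p 0 = κ q) ∧
      ∀ p, H p 1 = w := by
  classical
  have hK : Lev K ℓ := fun s hs => hK1 s (hKK hs)
  -- the loops on the `(n-1)`-simplices
  have hloop : ∀ r : Fin (k + 1) → V, ∃ f : GenLoop (Fin (k + 1)) W w, cl f = (lam r)⁻¹ := fun r =>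
    cl_surj _
  choose lo hlo using hloop
  obtain ⟨Ha, Ha0, Ha1⟩ := extend K ℓ hK k (ContinuousMap.const _ (ContinuousMap.const I w))
    (fun r _ => cur (lo r).1) (by
      intro r hr x hx p hp
      ext t
      show lo r (ins 0 t x) = w
      obtain ⟨j, hj⟩ := hx
      refine GenLoop.boundary _ _ ⟨(0 : Fin (k + 1)).succAbove j, ?_⟩
      rw [ins_succAbove]; exact hj)
  have Haend : ∀ (e : I), (e = 0 ∨ e = 1) → ∀ p, Ha p e = w := by
    intro e he p
    by_cases h : p.m.support.card ≤ k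
    · rw [Ha0 p ⟨p.m, p.nn, p.tot, ⟨p.mem.1, h⟩⟩ rfl]
      rfl
    · obtain ⟨v, hv, x, hx⟩ := exists_ptm hK p (le_antisymm p.mem.2 (by omega))
      rw [Ha1 p v hv x hx]
      show lo v (ins 0 e x) = w
      exact GenLoop.boundary _ _ ⟨0, by rw [ins_same]; exact he⟩
  -- the prisms
  let fam : ∀ s : Fin (k + 2) → V, Os K ℓ s → Fin (k + 2) → Bool → GenLoop (Fin (k + 1)) W w :=
    fun s hs i => Fin.cases (motive := fun _ => Bool → GenLoop (Fin (k + 1)) W w)
      (fun b => if b then GenLoop.const else gl κ hκ s (hs.mono hKK))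
      (fun j b => if b then lo (s ∘ j.castSucc.succAbove) else
        if j = Fin.last k then lo (s ∘ (Fin.last (k + 1)).succAbove) else GenLoop.const) i
  have f00 : ∀ s hs, fam s hs 0 false = gl κ hκ s (hs.mono hKK) := fun _ _ => rfl
  have f01 : ∀ s hs, fam s hs 0 true = GenLoop.const := fun _ _ => rfl
  have f1 : ∀ s hs (j : Fin (k + 1)), fam s hs j.succ true = lo (s ∘ j.castSucc.succAbove) :=
    fun _ _ _ => rfl
  have f0l : ∀ s hs, fam s hs (Fin.last k).succ false = lo (s ∘ (Fin.last (k + 1)).succAbove) := by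
    intro s hs
    show (if Fin.last k = Fin.last k then _ else _) = _
    rw [if_pos rfl]
  have f0 : ∀ s hs (j : Fin (k + 1)), j ≠ Fin.last k → fam s hs j.succ false = GenLoop.const := by
    intro s hs j hj
    show (if j = Fin.last k then _ else _) = _
    rw [if_neg hj]
  have halt : ∀ s hs, alt (fam s hs) = 1 := by
    intro s hs
    unfold alt
    rw [Fin.prod_univ_succ, f00 s hs, f01 s hs, cl_const, ← oc_of κ hκ s (hs.mono hKK), hlam s hs]
    simp only [f1 s hs, hlo, Fin.val_zero, pow_zero, zpow_one, Fin.val_succ]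
    refine prism_aux (fun j => lam (s ∘ j.succAbove)) (fun j => cl (fam s hs j.succ false)) ?_ ?_
    · intro j hj
      show cl (fam s hs j.succ false) = 1
      rw [f0 s hs j hj, cl_const]
    · show cl (fam s hs (Fin.last k).succ false) = _
      rw [f0l s hs, hlo]
  have hfill : ∀ s hs, ∃ U : C(Fin (k + 2) → I, W), ∀ y ∈ Cube.boundary (Fin (k + 2)),
      U y = bmap w (fam s hs) y := fun s hs => exists_fill _ (halt s hs)
  choose U hU using hfill
  obtain ⟨H, H0, H1⟩ := extend K ℓ hK (k + 1) Ha (fun s hs => cur (U s hs)) (by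
    intro s hs x hx p hp
    ext t
    show U s hs (ins 0 t x) = _
    obtain ⟨j, hj⟩ := hx
    obtain ⟨b, hb⟩ := exists_en hj
    have hjs : ins 0 t x j.succ = en b := by
      have := ins_succAbove 0 t x j
      rw [Fin.succAbove_zero] at this
      rw [this, hb]
    rw [hU s hs _ ⟨j.succ, by rw [hjs]; exact en_mem b⟩, bmap_eq _ _ j.succ b hjs, ins_zero_comp]
    have hx' : x = ins j (en b) (fun l => x (j.succAbove l)) := by
      rw [← hb]; exact eq_ins j x
    cases b
    · by_cases hjl : j = Fin.last k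
      · subst hjl
        rw [f0l s hs]
        have e : p.m = ptm (s ∘ (Fin.last (k + 1)).succAbove)
            (fun l => x ((Fin.last k).succAbove l)) := by
          rw [hp, ← ptm_ins_zero]
          exact congrArg _ hx'
        rw [Ha1 p _ (hs.face _) _ e]
        rfl
      · rw [f0 s hs j hjl]
        have hc : p.m.support.card ≤ k := by
          rw [hp]
          refine (ptm_card_zero hs.inj x j hb).trans ?_
          have h1 := j.2
          have h2 : (j : ℕ) ≠ k := fun h => hjl (Fin.ext h)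
          omega
        rw [Ha0 p ⟨p.m, p.nn, p.tot, ⟨p.mem.1, hc⟩⟩ rfl]
        rfl
    · rw [f1 s hs]
      have e : p.m = ptm (s ∘ j.castSucc.succAbove) (fun l => x (j.succAbove l)) := by
        rw [hp, ← ptm_ins_one]
        exact congrArg _ hx'
      rw [Ha1 p _ (hs.face _) _ e]
      rfl)
  refine ⟨H, fun p q hpq => ?_, fun p => ?_⟩
  · by_cases h : p.m.support.card ≤ k + 1
    · rw [H0 p ⟨p.m, p.nn, p.tot, ⟨p.mem.1, h⟩⟩ rfl, Haend 0 (Or.inl rfl), hκ q (by rw [← hpq]; exact h)]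
    · obtain ⟨v, hv, x, hx⟩ := exists_ptm hK p (le_antisymm p.mem.2 (by omega))
      rw [H1 p v hv x hx]
      show U v hv (ins 0 0 x) = _
      rw [hU v hv _ ⟨0, by rw [ins_same]; exact Or.inl rfl⟩, bmap_eq _ _ 0 false
        (show ins 0 0 x 0 = en false from ins_same _ _ _), f00 v hv]
      show κ _ = κ q
      congr 1
      apply Cx.R.ext_m
      rw [← hpq, hx]
      show ptm v _ = ptm v x
      congr 1
  · by_cases h : p.m.support.card ≤ k + 1
    · rw [H0 p ⟨p.m, p.nn, p.tot, ⟨p.mem.1, h⟩⟩ rfl, Haend 1 (Or.inr rfl)]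
    · obtain ⟨v, hv, x, hx⟩ := exists_ptm hK p (le_antisymm p.mem.2 (by omega))
      rw [H1 p v hv x hx]
      show U v hv (ins 0 1 x) = _
      rw [hU v hv _ ⟨0, by rw [ins_same]; exact Or.inr rfl⟩, bmap_eq _ _ 0 true
        (show ins 0 1 x 0 = en true from ins_same _ _ _), f01 v hv]
      rfl

end Crest.Agent.R185.Hur
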