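import Crest.Agent.R185.Null2

-- ▼ part R185/Null3
section

/-!
# R185, null calculus, part 3: tensor products and the diagonal lemma
-/

set_option autoImplicit false

namespace Crest.Agent.R185.Null

open Finsupp

universe u v w u' v' w'

/-! ## The bilinear product of chains -/

section Tp

variable {X : Type v} {Y : Type w} {X' : Type v'} {Y' : Type w'}

/-- `a ⊗ b`. -/
noncomputable def tp : (X →₀ ℤ) →ₗ[ℤ] (Y →₀ ℤ) →ₗ[ℤ] (X × Y →₀ ℤ) :=
  Finsupp.linearCombination ℤ fun x => Finsupp.lmapDomain ℤ ℤ (fun y => (x, y))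

@[simp] theorem tp_single (x : X) (y : Y) :
    tp (single x (1 : ℤ)) (single y (1 : ℤ)) = single (x, y) (1 : ℤ) := by
  simp [tp]

theorem bil_ext {M : Type*} [AddCommGroup M]
    (Φ Ψ : (X →₀ ℤ) →ₗ[ℤ] (Y →₀ ℤ) →ₗ[ℤ] M)
    (h : ∀ x y, Φ (single x 1) (single y 1) = Ψ (single x 1) (single y 1)) (a : X →₀ ℤ)
    (b : Y →₀ ℤ) : Φ a b = Ψ a b := by
  have : Φ = Ψ := lin_ext fun x => lin_ext fun y => h x y
  rw [this]

theorem tp_mem {s : Set X} {t : Set Y} {a : X →₀ ℤ} {b : Y →₀ ℤ}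
    (ha : a ∈ Finsupp.supported ℤ ℤ s) (hb : b ∈ Finsupp.supported ℤ ℤ t) :
    tp a b ∈ Finsupp.supported ℤ ℤ (s ×ˢ t) := by
  refine lin_mem_of (f := tp.flip b) s _ (fun x hx => ?_) a ha
  rw [LinearMap.flip_apply]
  refine lin_mem_of (f := tp (single x 1)) t _ (fun y hy => ?_) b hb
  rw [tp_single]
  exact Finsupp.single_mem_supported ℤ 1 (Set.mk_mem_prod hx hy)

/-- Functoriality. -/
noncomputable def tmap (f : (X →₀ ℤ) →ₗ[ℤ] (X' →₀ ℤ)) (g : (Y →₀ ℤ) →ₗ[ℤ] (Y' →₀ ℤ)) :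
    (X × Y →₀ ℤ) →ₗ[ℤ] (X' × Y' →₀ ℤ) :=
  Finsupp.linearCombination ℤ fun p => tp (f (single p.1 1)) (g (single p.2 1))

@[simp] theorem tmap_single (f : (X →₀ ℤ) →ₗ[ℤ] (X' →₀ ℤ)) (g : (Y →₀ ℤ) →ₗ[ℤ] (Y' →₀ ℤ))
    (p : X × Y) : tmap f g (single p 1) = tp (f (single p.1 1)) (g (single p.2 1)) := by
  simp [tmap]

@[simp] theorem tmap_tp (f : (X →₀ ℤ) →ₗ[ℤ] (X' →₀ ℤ)) (g : (Y →₀ ℤ) →ₗ[ℤ] (Y' →₀ ℤ))
    (a : X →₀ ℤ) (b : Y →₀ ℤ) : tmap f g (tp a b) = tp (f a) (g b) :=
  bil_ext (tp.compr₂ (tmap f g)) (tp.compl₁₂ f g) (fun x y => by simp) a b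

/-- linear maps out of the product which agree on pure tensors. -/
theorem tens_ext {M : Type*} [AddCommGroup M] {f g : (X × Y →₀ ℤ) →ₗ[ℤ] M}
    (h : ∀ x y, f (tp (single x 1) (single y 1)) = g (tp (single x 1) (single y 1))) : f = g :=
  lin_ext fun p => by simpa using h p.1 p.2

end Tp

/-! ## Signs -/

namespace PCx

variable {G : Type u} [Group G] (A : PCx.{u, v} G)

/-- The sign involution. -/
noncomputable def sg : (A.X →₀ ℤ) →ₗ[ℤ] (A.X →₀ ℤ) :=
  Finsupp.linearCombination ℤ fun x => single x ((-1) ^ A.deg x)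

theorem sg_of_mem {n : ℕ} {c : A.X →₀ ℤ} (hc : c ∈ A.Dg n) : A.sg c = (-1 : ℤ) ^ n • c := by
  refine lin_ext_on (f := A.sg) (g := ((-1 : ℤ) ^ n) • LinearMap.id) _ (fun x hx => ?_) c hc
  have hx' : A.deg x = n := hx
  rw [LinearMap.smul_apply, LinearMap.id_apply, Finsupp.smul_single, smul_eq_mul, mul_one]
  simp only [sg, Finsupp.linearCombination_single, one_smul, hx']

@[simp] theorem sg_single (x : A.X) :
    A.sg (single x 1) = (-1 : ℤ) ^ A.deg x • (single x 1 : A.X →₀ ℤ) :=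
  A.sg_of_mem (A.single_mem_Dg rfl 1)

theorem sg_bd (x : A.X) : A.sg (A.bd x) = -((-1 : ℤ) ^ A.deg x • A.bd x) := by
  rcases Nat.eq_zero_or_pos (A.deg x) with h0 | hpos
  · rw [A.bd_zero x h0]; simp
  · obtain ⟨n, hn⟩ : ∃ n, A.deg x = n + 1 := ⟨A.deg x - 1, by omega⟩
    rw [A.sg_of_mem (A.bd_mem x hn), hn, pow_succ]
    simp

theorem sg_D (c : A.X →₀ ℤ) : A.sg (A.D c) = -A.D (A.sg c) := by
  have : A.sg.comp A.D = -(A.D.comp A.sg) := lin_ext fun x => by
    simp [A.sg_bd]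
  exact LinearMap.congr_fun this c

theorem sg_sg (c : A.X →₀ ℤ) : A.sg (A.sg c) = c := by
  have : A.sg.comp A.sg = LinearMap.id := lin_ext fun x => by
    simp only [LinearMap.comp_apply, sg_single, map_smul, smul_smul, ← mul_pow]
    simp
  exact LinearMap.congr_fun this c


theorem E_sg (c : A.X →₀ ℤ) : A.E (A.sg c) = A.E c := by
  have : A.E.comp A.sg = A.E := lin_ext fun x => by
    rcases eq_or_ne (A.deg x) 0 with h | h
    · simp [h]
    · simp [A.ep_deg x h]
  exact LinearMap.congr_fun this c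

theorem sg_mem_Dg {n : ℕ} {c : A.X →₀ ℤ} (hc : c ∈ A.Dg n) : A.sg c ∈ A.Dg n := by
  rw [A.sg_of_mem hc]; exact Submodule.smul_mem _ _ hc

theorem sg_mem_supported {s : Set A.X} {c : A.X →₀ ℤ} (hc : c ∈ Finsupp.supported ℤ ℤ s) :
    A.sg c ∈ Finsupp.supported ℤ ℤ s :=
  lin_mem_of _ _ (fun x hx => by
    rw [sg_single]; exact Submodule.smul_mem _ _ (Finsupp.single_mem_supported ℤ 1 hx)) c hc

theorem sg_mem_Bs {T : Set A.X} {c : A.X →₀ ℤ} (hc : c ∈ A.Bs T) : A.sg c ∈ A.Bs T :=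
  A.sg_mem_supported hc

end PCx

/-- A degree preserving map commutes with signs. -/
theorem sg_comm0 {G : Type u} [Group G] {H : Type u'} [Group H] {A : PCx.{u, v} G}
    {B : PCx.{u', v'} H} {f : (A.X →₀ ℤ) →ₗ[ℤ] (B.X →₀ ℤ)}
    (hf : ∀ n, ∀ c ∈ A.Dg n, f c ∈ B.Dg n) (c : A.X →₀ ℤ) : B.sg (f c) = f (A.sg c) := by
  have : B.sg.comp f = f.comp A.sg := lin_ext fun x => by
    simp only [LinearMap.comp_apply, PCx.sg_single, map_smul]
    exact B.sg_of_mem (hf _ _ (A.single_mem_Dg rfl 1))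
  exact LinearMap.congr_fun this c

/-- A degree one map anticommutes with signs. -/
theorem sg_comm1 {G : Type u} [Group G] {H : Type u'} [Group H] {A : PCx.{u, v} G}
    {B : PCx.{u', v'} H} {f : (A.X →₀ ℤ) →ₗ[ℤ] (B.X →₀ ℤ)}
    (hf : ∀ n, ∀ c ∈ A.Dg n, f c ∈ B.Dg (n + 1)) (c : A.X →₀ ℤ) :
    B.sg (f c) = -f (A.sg c) := by
  have : B.sg.comp f = -(f.comp A.sg) := lin_ext fun x => by
    simp only [LinearMap.comp_apply, LinearMap.neg_apply, PCx.sg_single, map_smul]
    rw [B.sg_of_mem (hf _ _ (A.single_mem_Dg rfl 1)), pow_succ]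
    simp
  exact LinearMap.congr_fun this c

/-! ## Tensor products of complexes -/

section Tensor

variable {G : Type u} [Group G] (A : PCx.{u, v} G) (B : PCx.{u, w} G)

/-- The boundary of a basis element. -/
noncomputable def tbd (p : A.X × B.X) : A.X × B.X →₀ ℤ :=
  tp (A.bd p.1) (single p.2 1) + (-1 : ℤ) ^ A.deg p.1 • tp (single p.1 1) (B.bd p.2)

noncomputable def tD : (A.X × B.X →₀ ℤ) →ₗ[ℤ] (A.X × B.X →₀ ℤ) :=
  Finsupp.linearCombination ℤ (tbd A B)

noncomputable def tE : (A.X × B.X →₀ ℤ) →ₗ[ℤ] ℤ :=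
  Finsupp.linearCombination ℤ fun p => A.ep p.1 * B.ep p.2

theorem tD_tp (a : A.X →₀ ℤ) (b : B.X →₀ ℤ) :
    tD A B (tp a b) = tp (A.D a) b + tp (A.sg a) (B.D b) := by
  have := bil_ext (tp.compr₂ (tD A B)) (tp.compl₁₂ A.D LinearMap.id + tp.compl₁₂ A.sg B.D)
    (fun x y => by simp [tD, tbd, -Finsupp.smul_single]) a b
  simpa using this

theorem tE_tp (a : A.X →₀ ℤ) (b : B.X →₀ ℤ) : tE A B (tp a b) = A.E a * B.E b :=
  bil_ext (tp.compr₂ (tE A B)) ((LinearMap.mul ℤ ℤ).compl₁₂ A.E B.E)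
    (fun x y => by simp [tE]) a b

theorem tr_tp (g : G) (a : A.X →₀ ℤ) (b : B.X →₀ ℤ) :
    (tp a b).mapDomain (fun p : A.X × B.X => (A.sm g p.1, B.sm g p.2)) =
      tp (A.tr g a) (B.tr g b) :=
  bil_ext (tp.compr₂ (Finsupp.lmapDomain ℤ ℤ (fun p : A.X × B.X => (A.sm g p.1, B.sm g p.2))))
    (tp.compl₁₂ (A.tr g) (B.tr g)) (fun x y => by simp) a b

/-- Tensor product with diagonal action. -/
@[reducible] noncomputable def Tens : PCx.{u, max v w} G where
  X := A.X × B.X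
  sm g p := (A.sm g p.1, B.sm g p.2)
  sm_one p := by simp [A.sm_one, B.sm_one]
  sm_mul g h p := by simp [A.sm_mul, B.sm_mul]
  deg p := A.deg p.1 + B.deg p.2
  deg_sm g p := by simp [A.deg_sm, B.deg_sm]
  bd := tbd A B
  bd_sm g p := by
    unfold tbd
    rw [Finsupp.mapDomain_add, Finsupp.mapDomain_smul, tr_tp, tr_tp, A.tr_single, B.tr_single,
      A.tr_apply, B.tr_apply, A.bd_sm, B.bd_sm, A.deg_sm]
  bd_deg p q hq := by
    have h1 : tp (A.bd p.1) (single p.2 1) ∈ Finsupp.supported ℤ ℤ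
        {q : A.X × B.X | A.deg q.1 + B.deg q.2 + 1 = A.deg p.1 + B.deg p.2} := by
      have ha : A.bd p.1 ∈ Finsupp.supported ℤ ℤ {x | A.deg x + 1 = A.deg p.1} :=
        (Finsupp.mem_supported ℤ _).2 fun x hx => A.bd_deg _ x hx
      have hb : (single p.2 1 : B.X →₀ ℤ) ∈ Finsupp.supported ℤ ℤ {y | y = p.2} :=
        Finsupp.single_mem_supported ℤ 1 rfl
      refine Finsupp.supported_mono ?_ (tp_mem ha hb)
      rintro ⟨x, y⟩ ⟨hx, hy⟩
      have hx' : A.deg x + 1 = A.deg p.1 := hx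
      have hy' : y = p.2 := hy
      subst hy'
      change A.deg x + B.deg p.2 + 1 = _
      omega
    have h2 : tp (single p.1 1) (B.bd p.2) ∈ Finsupp.supported ℤ ℤ
        {q : A.X × B.X | A.deg q.1 + B.deg q.2 + 1 = A.deg p.1 + B.deg p.2} := by
      have hb : B.bd p.2 ∈ Finsupp.supported ℤ ℤ {x | B.deg x + 1 = B.deg p.2} :=
        (Finsupp.mem_supported ℤ _).2 fun x hx => B.bd_deg _ x hx
      have ha : (single p.1 1 : A.X →₀ ℤ) ∈ Finsupp.supported ℤ ℤ {y | y = p.1} :=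
        Finsupp.single_mem_supported ℤ 1 rfl
      refine Finsupp.supported_mono ?_ (tp_mem ha hb)
      rintro ⟨x, y⟩ ⟨hx, hy⟩
      have hx' : x = p.1 := hx
      have hy' : B.deg y + 1 = B.deg p.2 := hy
      subst hx'
      change A.deg p.1 + B.deg y + 1 = _
      omega
    have h3 : tbd A B p ∈ _ := Submodule.add_mem _ h1 (Submodule.smul_mem _ ((-1) ^ A.deg p.1) h2)
    exact (Finsupp.mem_supported ℤ _).1 h3 hq
  bd_bd p := by
    change tD A B (tbd A B p) = 0
    unfold tbd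
    rw [map_add, map_smul, tD_tp, tD_tp, A.sg_bd, A.sg_single]
    have e0 : ((-1 : ℤ) ^ A.deg p.1) * (-1) ^ A.deg p.1 = 1 := by
      rw [← mul_pow]; simp
    have e1 : A.D (A.bd p.1) = 0 := A.bd_bd _
    have e2 : B.D (B.bd p.2) = 0 := B.bd_bd _
    rw [e1, e2]
    simp
  ep p := A.ep p.1 * B.ep p.2
  ep_sm g p := by simp [A.ep_sm, B.ep_sm]
  ep_deg p hp := by
    rcases eq_or_ne (A.deg p.1) 0 with h | h
    · have : B.deg p.2 ≠ 0 := fun h' => hp (by rw [h, h'])
      rw [B.ep_deg _ this, mul_zero]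
    · rw [A.ep_deg _ h, zero_mul]
  ep_bd p := by
    change tE A B (tbd A B p) = 0
    unfold tbd
    rw [map_add, map_smul, tE_tp, tE_tp]
    have e1 : A.E (A.bd p.1) = 0 := A.ep_bd _
    have e2 : B.E (B.bd p.2) = 0 := B.ep_bd _
    rw [e1, e2]
    simp

theorem Tens_D_tp (a : A.X →₀ ℤ) (b : B.X →₀ ℤ) :
    (Tens A B).D (tp a b) = tp (A.D a) b + tp (A.sg a) (B.D b) := tD_tp A B a b

theorem Tens_E_tp (a : A.X →₀ ℤ) (b : B.X →₀ ℤ) :
    (Tens A B).E (tp a b) = A.E a * B.E b := tE_tp A B a b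

theorem Tens_tr_tp (g : G) (a : A.X →₀ ℤ) (b : B.X →₀ ℤ) :
    (Tens A B).tr g (tp a b) = tp (A.tr g a) (B.tr g b) := tr_tp A B g a b

theorem tp_mem_Dg {m n : ℕ} {a : A.X →₀ ℤ} {b : B.X →₀ ℤ} (ha : a ∈ A.Dg m) (hb : b ∈ B.Dg n) :
    tp a b ∈ (Tens A B).Dg (m + n) := by
  refine Finsupp.supported_mono ?_ (tp_mem ha hb)
  rintro ⟨x, y⟩ ⟨hx, hy⟩
  have hx' : A.deg x = m := hx
  have hy' : B.deg y = n := hy
  change A.deg x + B.deg y = m + n
  omega

/-- Second projection. -/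
noncomputable def prR : ((Tens A B).X →₀ ℤ) →ₗ[ℤ] (B.X →₀ ℤ) :=
  Finsupp.linearCombination ℤ fun p => A.ep p.1 • single p.2 1

/-- First projection. -/
noncomputable def prL : ((Tens A B).X →₀ ℤ) →ₗ[ℤ] (A.X →₀ ℤ) :=
  Finsupp.linearCombination ℤ fun p => B.ep p.2 • single p.1 1

theorem prR_tp (a : A.X →₀ ℤ) (b : B.X →₀ ℤ) : prR A B (tp a b) = A.E a • b :=
  bil_ext (tp.compr₂ (prR A B)) ((LinearMap.lsmul ℤ (B.X →₀ ℤ)).comp A.E)
    (fun x y => by
      change prR A B (tp (single x 1) (single y 1)) = A.E (single x 1) • single y 1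
      rw [tp_single, A.E_single]
      change Finsupp.linearCombination ℤ _ _ = _
      rw [Finsupp.linearCombination_single, one_smul, one_mul]) a b

theorem prL_tp (a : A.X →₀ ℤ) (b : B.X →₀ ℤ) : prL A B (tp a b) = B.E b • a :=
  bil_ext (tp.compr₂ (prL A B)) ((LinearMap.lsmul ℤ (A.X →₀ ℤ)).comp B.E).flip
    (fun x y => by
      change prL A B (tp (single x 1) (single y 1)) = B.E (single y 1) • single x 1
      rw [tp_single, B.E_single]
      change Finsupp.linearCombination ℤ _ _ = _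
      rw [Finsupp.linearCombination_single, one_smul, one_mul]) a b

/-- The second projection as a chain map. -/
noncomputable def pR : CMap (MonoidHom.id G) (Tens A B) B where
  F := prR A B
  comm c := by
    have : B.D.comp (prR A B) = (prR A B).comp (Tens A B).D := tens_ext fun x y => by
      simp only [LinearMap.comp_apply]
      rw [prR_tp, Tens_D_tp, map_add, prR_tp, prR_tp, A.E_D, A.E_sg, map_smul]
      simp
    exact LinearMap.congr_fun this c
  eqv := by
    intro g c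
    have : (prR A B).comp ((Tens A B).tr g) = (B.tr g).comp (prR A B) := tens_ext fun x y => by
      simp only [LinearMap.comp_apply]
      rw [Tens_tr_tp, prR_tp, prR_tp, A.E_tr, map_smul]
    exact LinearMap.congr_fun this c
  dg n c hc := by
    refine lin_mem_of _ _ (fun p hp => ?_) c hc
    have hp' : A.deg p.1 + B.deg p.2 = n := hp
    change Finsupp.linearCombination ℤ _ _ ∈ _
    rw [Finsupp.linearCombination_single, one_smul]
    rcases eq_or_ne (A.deg p.1) 0 with h | h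
    · exact Submodule.smul_mem _ _ (B.single_mem_Dg (by omega) 1)
    · rw [A.ep_deg _ h, zero_smul]; exact Submodule.zero_mem _
  aug c := by
    have : B.E.comp (prR A B) = (Tens A B).E := tens_ext fun x y => by
      simp only [LinearMap.comp_apply]
      rw [prR_tp, Tens_E_tp, map_smul, smul_eq_mul]
    exact LinearMap.congr_fun this c

/-- The first projection as a chain map. -/
noncomputable def pL : CMap (MonoidHom.id G) (Tens A B) A where
  F := prL A B
  comm c := by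
    have : A.D.comp (prL A B) = (prL A B).comp (Tens A B).D := tens_ext fun x y => by
      simp only [LinearMap.comp_apply]
      rw [prL_tp, Tens_D_tp, map_add, prL_tp, prL_tp, B.E_D, map_smul]
      simp
    exact LinearMap.congr_fun this c
  eqv := by
    intro g c
    have : (prL A B).comp ((Tens A B).tr g) = (A.tr g).comp (prL A B) := tens_ext fun x y => by
      simp only [LinearMap.comp_apply]
      rw [Tens_tr_tp, prL_tp, prL_tp, B.E_tr, map_smul]
    exact LinearMap.congr_fun this c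
  dg n c hc := by
    refine lin_mem_of _ _ (fun p hp => ?_) c hc
    have hp' : A.deg p.1 + B.deg p.2 = n := hp
    change Finsupp.linearCombination ℤ _ _ ∈ _
    rw [Finsupp.linearCombination_single, one_smul]
    rcases eq_or_ne (B.deg p.2) 0 with h | h
    · exact Submodule.smul_mem _ _ (A.single_mem_Dg (by omega) 1)
    · rw [B.ep_deg _ h, zero_smul]; exact Submodule.zero_mem _
  aug c := by
    have : A.E.comp (prL A B) = (Tens A B).E := tens_ext fun x y => by
      simp only [LinearMap.comp_apply]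
      rw [prL_tp, Tens_E_tp, map_smul, smul_eq_mul, mul_comm]
    exact LinearMap.congr_fun this c

theorem Tens_acyclic (hA : A.Acyclic) (hB : B.Acyclic) : (Tens A B).Acyclic := by
  obtain ⟨v, hv, hv1⟩ := hA.1
  obtain ⟨v', hv', hv1'⟩ := hB.1
  obtain ⟨s, s1, s2⟩ := exists_contr A hA v hv hv1
  refine ⟨⟨tp v v', tp_mem_Dg A B hv hv', by rw [Tens_E_tp, hv1, hv1', mul_one]⟩, ?_⟩
  intro n z hz h0 h1
  set S := tmap s (LinearMap.id : (B.X →₀ ℤ) →ₗ[ℤ] (B.X →₀ ℤ)) with hS
  have e1 : ∀ w : (Tens A B).X →₀ ℤ, (Tens A B).D (S w) + S ((Tens A B).D w) =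
      w - tp v (prR A B w) := by
    intro w
    have : (Tens A B).D.comp S + S.comp (Tens A B).D =
        LinearMap.id - (tp v).comp (prR A B) := tens_ext fun x y => by
      simp only [LinearMap.add_apply, LinearMap.comp_apply, LinearMap.sub_apply,
        LinearMap.id_apply]
      rw [hS, tmap_tp, Tens_D_tp, Tens_D_tp, map_add, tmap_tp, tmap_tp, prR_tp]
      have e2 := s2 (single x 1)
      have e3 := sg_comm1 s1 (single x 1)
      simp only [LinearMap.id_apply]
      rw [e3]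
      have e4 : tp (A.D (s (single x 1))) (single y (1 : ℤ)) +
          tp (s (A.D (single x 1))) (single y (1 : ℤ)) =
          tp (single x 1) (single y 1) - tp v (A.E (single x 1) • single y 1) := by
        rw [← LinearMap.add_apply, ← map_add, e2, map_sub, LinearMap.sub_apply, map_smul,
          map_smul, LinearMap.smul_apply]
      rw [← e4, map_neg, LinearMap.neg_apply]
      abel
    exact LinearMap.congr_fun this w
  obtain ⟨y, hy, hy1⟩ := hB.2 n (prR A B z) ((pR A B).dg n z hz)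
    (by
      have := (pR A B).comm z
      change B.D (prR A B z) = prR A B ((Tens A B).D z) at this
      rw [this, h0, map_zero])
    (by
      have := (pR A B).aug z
      change B.E (prR A B z) = (Tens A B).E z at this
      rw [this, h1])
  have hSz : S z ∈ (Tens A B).Dg (n + 1) := by
    refine lin_mem_of _ _ (fun p hp => ?_) z hz
    have hp' : A.deg p.1 + B.deg p.2 = n := hp
    rw [hS, tmap_single]
    have := tp_mem_Dg A B (s1 (A.deg p.1) _ (A.single_mem_Dg rfl 1))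
      (B.single_mem_Dg (x := p.2) rfl 1)
    rwa [show A.deg p.1 + 1 + B.deg p.2 = n + 1 by omega] at this
  refine ⟨S z + tp v y, Submodule.add_mem _ hSz ?_, ?_⟩
  · have := tp_mem_Dg A B hv hy
    rwa [zero_add] at this
  · have := e1 z
    rw [h0, map_zero, add_zero] at this
    rw [map_add, this, Tens_D_tp, A.D_zero hv, A.sg_of_mem hv, hy1]
    simp

end Tensor

/-! ## External products -/

section Ext

variable {G : Type u} [Group G] {H : Type u} [Group H] {K : Type w} [Group K]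

/-- The external product. -/
@[reducible] noncomputable def Ext (A : PCx.{u, v} G) (B : PCx.{u, w} H) : PCx.{u, max v w} (G × H) :=
  Tens (A.pull (MonoidHom.fst G H)) (B.pull (MonoidHom.snd G H))

/-- The external product of free complexes. -/
@[reducible] noncomputable def FExt (A : FCx.{u, v} G) (B : FCx.{u, w} H) : FCx.{u, max v w} (G × H) :=
  { Ext A.toPCx B.toPCx with
    base := fun p => (A.base p.1, B.base p.2)
    base_sm := fun g p => Prod.ext (A.base_sm g.1 p.1) (B.base_sm g.2 p.2) }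

theorem Ext_acyclic {A : PCx.{u, v} G} {B : PCx.{u, w} H} (hA : A.Acyclic) (hB : B.Acyclic) :
    (Ext A B).Acyclic := Tens_acyclic _ _ (A.pull_acyclic _ hA) (B.pull_acyclic _ hB)

theorem Ext_orb (A : PCx.{u, v} G) (B : PCx.{u, w} H) (S : Set A.X) (T : Set B.X) :
    (Ext A B).orb (S ×ˢ T) = A.orb S ×ˢ B.orb T := by
  ext p
  constructor
  · rintro ⟨⟨x, y⟩, ⟨hx, hy⟩, g, rfl⟩
    exact ⟨⟨x, hx, g.1, rfl⟩, ⟨y, hy, g.2, rfl⟩⟩
  · obtain ⟨p1, p2⟩ := p
    rintro ⟨⟨x, hx, g, h1⟩, ⟨y, hy, h, h2⟩⟩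
    change p1 = _ at h1
    change p2 = _ at h2
    subst h1 h2
    exact ⟨(x, y), ⟨hx, hy⟩, (g, h), rfl⟩

theorem tp_mem_ExtBs {A : PCx.{u, v} G} {B : PCx.{u, w} H} {S : Set A.X} {T : Set B.X}
    {a : A.X →₀ ℤ} {b : B.X →₀ ℤ} (ha : a ∈ A.Bs S) (hb : b ∈ B.Bs T) :
    tp a b ∈ (Ext A B).Bs (S ×ˢ T) := by
  unfold PCx.Bs
  rw [Ext_orb]
  exact tp_mem ha hb

end Ext

end Crest.Agent.R185.Null
end

-- ▼ part R185/Null4
section

/-!
# R185, null calculus, part 4: partial contractions, the diagonal lemma, the rook certificate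
-/

set_option autoImplicit false

namespace Crest.Agent.R185.Null

open Finsupp

universe u v w u' v' w'

/-! ## Closure of a finite set of basis elements under the boundary -/

namespace PCx

variable {G : Type u} [Group G] (A : PCx.{u, v} G)

/-- The set `T` is closed under boundaries. -/
def Clo (T : Set A.X) : Prop := ∀ c ∈ A.Bs T, A.D c ∈ A.Bs T

theorem clo_of {T : Set A.X} (h : ∀ x ∈ T, A.bd x ∈ A.Bs T) : A.Clo T := by
  refine fun c hc => lin_mem_of _ _ (fun y hy => ?_) c hc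
  obtain ⟨x, hx, g, rfl⟩ := hy
  rw [D_single, one_smul, A.bd_sm, ← A.tr_apply]
  exact A.tr_mem_Bs g (h x hx)

theorem exists_clo_aux (n : ℕ) : ∀ T : Set A.X, T.Finite → (∀ x ∈ T, A.deg x ≤ n) →
    ∃ T' : Set A.X, T ⊆ T' ∧ T'.Finite ∧ (∀ x ∈ T', A.deg x ≤ n) ∧ ∀ x ∈ T', A.bd x ∈ A.Bs T' := by
  classical
  induction n with
  | zero =>
    intro T hT hd
    refine ⟨T, subset_rfl, hT, hd, fun x hx => ?_⟩
    rw [A.bd_zero x (Nat.le_zero.1 (hd x hx))]
    exact Submodule.zero_mem _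
  | succ n ih =>
    intro T hT hd
    set S : Set A.X := ⋃ x ∈ T, ((A.bd x).support : Set A.X) with hS
    have hSf : S.Finite := hT.biUnion fun x _ => Finset.finite_toSet _
    have hSd : ∀ y ∈ S, A.deg y ≤ n := by
      intro y hy
      rw [hS, Set.mem_iUnion₂] at hy
      obtain ⟨x, hx, hy⟩ := hy
      have := A.bd_deg x y hy
      have := hd x hx
      omega
    obtain ⟨S', h1, h2, h3, h4⟩ := ih S hSf hSd
    refine ⟨T ∪ S', Set.subset_union_left, hT.union h2, ?_, ?_⟩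
    · rintro x (hx | hx)
      · exact hd x hx
      · exact (h3 x hx).trans (Nat.le_succ n)
    · rintro x (hx | hx)
      · refine (Finsupp.mem_supported ℤ _).2 ?_
        refine subset_trans ?_ (A.subset_orb _)
        refine subset_trans ?_ Set.subset_union_right
        refine subset_trans ?_ h1
        rw [hS]
        exact Set.subset_biUnion_of_mem (u := fun x => ((A.bd x).support : Set A.X)) hx
      · exact A.Bs_mono Set.subset_union_right (h4 x hx)

theorem exists_clo (T : Set A.X) (hT : T.Finite) :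
    ∃ T' : Set A.X, T ⊆ T' ∧ T'.Finite ∧ A.Clo T' := by
  obtain ⟨n, hn⟩ : ∃ n, ∀ x ∈ T, A.deg x ≤ n := by
    obtain ⟨n, hn⟩ := (hT.image A.deg).bddAbove
    exact ⟨n, fun x hx => hn ⟨x, hx, rfl⟩⟩
  obtain ⟨T', h1, h2, -, h4⟩ := A.exists_clo_aux n T hT hn
  exact ⟨T', h1, h2, A.clo_of h4⟩

theorem mem_Bs_of_subset {T : Set A.X} {c : A.X →₀ ℤ} (h : (c.support : Set A.X) ⊆ T) :
    c ∈ A.Bs T := (Finsupp.mem_supported ℤ c).2 (h.trans (A.subset_orb T))

end PCx

/-! ## Partial contractions -/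

section PCon

variable {G : Type u} [Group G] {H : Type u'} [Group H] {K : Type w} [Group K]

/-- `f` has partial contractions below degree `n`. -/
def PCon {φ : G →* H} {A : PCx.{u, v} G} {B : PCx.{u', v'} H} (f : CMap φ A B) (n : ℕ) : Prop :=
  ∃ v ∈ B.Dg 0, B.E v = 1 ∧ ∀ T : Set A.X, T.Finite → ∃ T' : Set B.X, T'.Finite ∧
    ∃ h : (A.X →₀ ℤ) →ₗ[ℤ] (B.X →₀ ℤ), (∀ k, ∀ c ∈ A.Dg k, h c ∈ B.Dg (k + 1)) ∧
      (∀ c ∈ A.Bs T, h c ∈ B.Bs T') ∧
      ∀ k < n, ∀ c ∈ A.Dg k, c ∈ A.Bs T → B.D (h c) + h (A.D c) = f.F c - A.E c • v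

theorem PCon.zero {φ : G →* H} {A : PCx.{u, v} G} {B : PCx.{u', v'} H} (hB : B.Acyclic)
    (f : CMap φ A B) : PCon f 0 := by
  obtain ⟨v, hv, hv1⟩ := hB.1
  exact ⟨v, hv, hv1, fun T _ => ⟨∅, Set.finite_empty, 0, fun k c _ => Submodule.zero_mem _,
    fun c _ => Submodule.zero_mem _, fun k hk => absurd hk (Nat.not_lt_zero k)⟩⟩

theorem PCon.post {φ : G →* H} {ψ : H →* K} {A : PCx.{u, v} G} {B : PCx.{u', v'} H}
    {C : PCx.{w, w'} K} {f : CMap φ A B} {n : ℕ} (hf : PCon f n) (g : CMap ψ B C) :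
    PCon (g.comp f) n := by
  obtain ⟨v, hv, hv1, hf⟩ := hf
  refine ⟨g.F v, g.dg 0 v hv, by rw [g.aug, hv1], fun T hT => ?_⟩
  obtain ⟨T1, hT1, h, h1, h2, h3⟩ := hf T hT
  obtain ⟨T2, hT2, k⟩ := g.eqv.bdd T1 hT1
  refine ⟨T2, hT2, g.F.comp h, fun k c hc => g.dg _ _ (h1 k c hc), fun c hc => k _ (h2 c hc),
    fun k hk c hc hc' => ?_⟩
  rw [LinearMap.comp_apply, LinearMap.comp_apply, g.comm, ← map_add, h3 k hk c hc hc', map_sub,
    map_smul]
  rfl

theorem PCon.pre {φ : G →* H} {ψ : H →* K} {A : PCx.{u, v} G} {B : PCx.{u', v'} H}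
    {C : PCx.{w, w'} K} {g : CMap ψ B C} {n : ℕ} (hg : PCon g n) (f : CMap φ A B) :
    PCon (g.comp f) n := by
  obtain ⟨v, hv, hv1, hg⟩ := hg
  refine ⟨v, hv, hv1, fun T hT => ?_⟩
  obtain ⟨T1, hT1, k⟩ := f.eqv.bdd T hT
  obtain ⟨T2, hT2, h, h1, h2, h3⟩ := hg T1 hT1
  refine ⟨T2, hT2, h.comp f.F, fun k c hc => h1 k _ (f.dg k c hc), fun c hc => h2 _ (k c hc),
    fun j hj c hc hc' => ?_⟩
  rw [LinearMap.comp_apply, LinearMap.comp_apply, ← f.comm, h3 j hj _ (f.dg j c hc) (k c hc'),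
    f.aug]
  rfl

theorem PCon.succ {φ : G →* H} {ψ : H →* K} {A : PCx.{u, v} G} {B : PCx.{u', v'} H}
    {C : PCx.{w, w'} K} {f : CMap φ A B} {n : ℕ} (hf : PCon f n) {g : CMap ψ B C}
    (hg : Kill g n) : PCon (g.comp f) (n + 1) := by
  classical
  obtain ⟨v, hv, hv1, hf⟩ := hf
  refine ⟨g.F v, g.dg 0 v hv, by rw [g.aug, hv1], fun T hT => ?_⟩
  obtain ⟨T0, hTT0, hT0, hclo⟩ := A.exists_clo T hT
  obtain ⟨T1, hT1, h, h1, h2, h3⟩ := hf T0 hT0
  obtain ⟨T2, hT2, k2⟩ := g.eqv.bdd T1 hT1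
  obtain ⟨T3, hT3, k3⟩ := f.eqv.bdd T0 hT0
  -- the cycles to be filled
  set w : A.X → (B.X →₀ ℤ) := fun x => f.F (single x 1) - h (A.bd x) - A.ep x • v with hw
  set T4 : Set B.X := T3 ∪ T1 ∪ (v.support : Set B.X) with hT4
  have hT4f : T4.Finite := (hT3.union hT1).union (Finset.finite_toSet _)
  obtain ⟨T5, hT5, k5⟩ := hg T4 hT4f
  have hwc : ∀ x, A.deg x = n → x ∈ A.orb T0 → w x ∈ B.Cy n T4 := by
    intro x hx hxT
    have hxs : single x (1 : ℤ) ∈ A.Bs T0 := A.single_mem_Bs hxT 1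
    have hDx : A.bd x ∈ A.Bs T0 := by
      have := hclo _ hxs
      rwa [A.D_single, one_smul] at this
    have a1 : w x ∈ B.Dg n := by
      refine Submodule.sub_mem _ (Submodule.sub_mem _ (f.dg _ _ (A.single_mem_Dg hx 1)) ?_) ?_
      · rcases Nat.eq_zero_or_pos n with h0 | hpos
        · subst h0
          rw [A.bd_zero x hx, map_zero]; exact Submodule.zero_mem _
        · obtain ⟨m, rfl⟩ : ∃ m, n = m + 1 := ⟨n - 1, by omega⟩
          exact h1 m _ (A.bd_mem x hx)
      · rcases Nat.eq_zero_or_pos n with h0 | hpos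
        · subst h0; exact Submodule.smul_mem _ _ hv
        · rw [A.ep_deg x (by omega), zero_smul]; exact Submodule.zero_mem _
    refine B.mem_Cy.2 ⟨a1, ?_, ?_, ?_⟩
    · refine Submodule.sub_mem _ (Submodule.sub_mem _ ?_ ?_) (Submodule.smul_mem _ _ ?_)
      · exact B.Bs_mono (fun y hy => Or.inl (Or.inl hy)) (k3 _ hxs)
      · exact B.Bs_mono (fun y hy => Or.inl (Or.inr hy)) (h2 _ hDx)
      · exact B.mem_Bs_of_subset Set.subset_union_right
    · rcases Nat.eq_zero_or_pos n with h0 | hpos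
      · subst h0; exact B.D_zero a1
      · obtain ⟨m, rfl⟩ : ∃ m, n = m + 1 := ⟨n - 1, by omega⟩
        have e1 := h3 m (Nat.lt_succ_self m) (A.bd x) (A.bd_mem x hx) hDx
        have e2 : A.D (A.bd x) = 0 := A.bd_bd _
        have e3 : A.E (A.bd x) = 0 := A.ep_bd _
        rw [e2, map_zero, add_zero, e3, zero_smul, sub_zero] at e1
        simp only [hw]
        rw [map_sub, map_sub, f.comm, A.D_single, one_smul, e1, A.ep_deg x (by omega)]
        simp
    · rcases Nat.eq_zero_or_pos n with h0 | hpos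
      · subst h0
        simp only [hw]
        rw [map_sub, map_sub, f.aug, A.bd_zero x hx, map_zero, map_zero, map_smul, hv1,
          A.E_single]
        simp
      · exact B.E_eq_zero (by omega) a1
  have hfill : ∀ x, ∃ y : C.X →₀ ℤ, y ∈ C.Dg (n + 1) ∧ y ∈ C.Bs T5 ∧
      (A.deg x = n → x ∈ A.orb T0 → C.D y = g.F (w x)) := by
    intro x
    by_cases hx : A.deg x = n ∧ x ∈ A.orb T0
    · obtain ⟨b, hb1, hb2, hb3⟩ := C.mem_Bo.1 (k5 _ (hwc x hx.1 hx.2))
      exact ⟨b, hb1, hb2, fun _ _ => hb3⟩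
    · exact ⟨0, Submodule.zero_mem _, Submodule.zero_mem _, fun a b => absurd ⟨a, b⟩ hx⟩
  choose y hy1 hy2 hy3 using hfill
  set h' : (A.X →₀ ℤ) →ₗ[ℤ] (C.X →₀ ℤ) := Finsupp.linearCombination ℤ fun x =>
    if A.deg x = n then y x else g.F (h (single x 1)) with hh'
  have h's : ∀ x, h' (single x 1) = if A.deg x = n then y x else g.F (h (single x 1)) := by
    intro x; simp [hh']
  have h'l : ∀ k, k ≠ n → ∀ c ∈ A.Dg k, h' c = g.F (h c) := by
    intro k hk c hc
    refine lin_ext_on (f := h') (g := g.F.comp h) _ (fun x hx => ?_) c hc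
    have hx' : A.deg x = k := hx
    rw [h's, if_neg (by omega)]; rfl
  refine ⟨T2 ∪ T5, hT2.union hT5, h', ?_, ?_, ?_⟩
  · intro k c hc
    refine lin_mem_of _ _ (fun x hx => ?_) c hc
    have hx' : A.deg x = k := hx
    rw [h's]
    split_ifs with hn
    · rw [← hx', hn]; exact hy1 x
    · exact g.dg _ _ (h1 k _ (A.single_mem_Dg hx 1))
  · intro c hc
    refine lin_mem_of _ _ (fun x hx => ?_) c hc
    rw [h's]
    split_ifs with hn
    · exact C.Bs_mono Set.subset_union_right (hy2 x)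
    · exact C.Bs_mono Set.subset_union_left
        (k2 _ (h2 _ (A.single_mem_Bs (A.orb_mono hTT0 hx) 1)))
  · intro k hk c hc hcT
    have hcT0 : c ∈ A.Bs T0 := A.Bs_mono hTT0 hcT
    have hDc : h' (A.D c) = g.F (h (A.D c)) := by
      rcases Nat.eq_zero_or_pos k with h0 | hpos
      · subst h0; rw [A.D_zero hc, map_zero, map_zero, map_zero]
      · obtain ⟨m, rfl⟩ : ∃ m, k = m + 1 := ⟨k - 1, by omega⟩
        exact h'l m (by omega) _ (A.D_mem hc)
    rcases Nat.lt_or_ge k n with hkn | hkn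
    · rw [h'l k (by omega) c hc, hDc, g.comm, ← map_add, h3 k hkn c hc hcT0, map_sub, map_smul]
      rfl
    · obtain rfl : k = n := by omega
      have hcc : c ∈ Finsupp.supported ℤ ℤ ({x | A.deg x = k} ∩ A.orb T0) := by
        refine (Finsupp.mem_supported ℤ c).2 (Set.subset_inter ?_ ?_)
        · exact (Finsupp.mem_supported ℤ c).1 hc
        · exact (Finsupp.mem_supported ℤ c).1 hcT0
      have e1 : C.D (h' c) = g.F (f.F c) - g.F (h (A.D c)) - A.E c • g.F v := by
        have := lin_ext_on (f := C.D.comp h')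
          (g := g.F.comp f.F - (g.F.comp (h.comp A.D)) - A.E.smulRight (g.F v)) _
          (fun x hx => ?_) c hcc
        · simpa using this
        · obtain ⟨hx1, hx2⟩ := hx
          have hx1' : A.deg x = k := hx1
          rw [LinearMap.comp_apply, h's, if_pos hx1', hy3 x hx1' hx2]
          simp only [hw, LinearMap.sub_apply, LinearMap.comp_apply, LinearMap.smulRight_apply,
            map_sub, map_smul, A.D_single, one_smul, A.E_single, one_mul]
      rw [e1, hDc]
      change _ = g.F (f.F c) - _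
      abel

/-- A homomorphism with partial contractions. -/
def PC (φ : G →* H) (n : ℕ) : Prop :=
  ∃ f : CMap φ (Std G).toPCx (Std H).toPCx, PCon f n

theorem PC.zero (φ : G →* H) : PC φ 0 := by
  obtain ⟨f⟩ := exists_cmap φ (Std G) (Std H).toPCx (Std_acyclic H)
  exact ⟨f, PCon.zero (Std_acyclic H) f⟩

theorem PC.succ {φ : G →* H} {n : ℕ} (h : PC φ n) {ψ : H →* K} (h' : IsNull ψ n) :
    PC (ψ.comp φ) (n + 1) := by
  obtain ⟨f, hf⟩ := h
  obtain ⟨g, hg⟩ := h'
  exact ⟨g.comp f, hf.succ hg⟩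

theorem PC.comp {φ : G →* H} {n : ℕ} (h : PC φ n) (ψ : H →* K) : PC (ψ.comp φ) n := by
  obtain ⟨f, hf⟩ := h
  obtain ⟨g⟩ := exists_cmap ψ (Std H) (Std K).toPCx (Std_acyclic K)
  exact ⟨g.comp f, hf.post g⟩

theorem PC.precomp {ψ : H →* K} {n : ℕ} (h : PC ψ n) (φ : G →* H) : PC (ψ.comp φ) n := by
  obtain ⟨g, hg⟩ := h
  obtain ⟨f⟩ := exists_cmap φ (Std G) (Std H).toPCx (Std_acyclic H)
  exact ⟨g.comp f, hg.pre f⟩

end PCon

end Crest.Agent.R185.Null
end

-- ▼ part R185/Null5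
section

/-!
# R185, null calculus, part 5: the diagonal lemma and certificates
-/

set_option autoImplicit false

namespace Crest.Agent.R185.Null

open Finsupp

universe u v w u' v' w'

section Diag

variable {G : Type u} [Group G] {H : Type u'} [Group H] {K : Type w} [Group K]

/-- The identity as a chain map from the pulled back complex. -/
noncomputable def pullC (φ : G →* H) (B : PCx.{u', v'} H) : CMap φ (B.pull φ) B where
  F := LinearMap.id
  comm _ := rfl
  eqv _ _ := rfl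
  dg _ _ hc := hc
  aug _ := rfl

/-- `f ⊗ f`. -/
noncomputable def ff {φ : G →* H} {A : PCx.{u, v} G} {B : PCx.{u', v'} H} (f : CMap φ A B) :
    CMap (φ.prodMap φ) (Ext A A) (Ext B B) where
  F := tmap f.F f.F
  comm c := by
    have : (Ext B B).D.comp (tmap f.F f.F) = (tmap f.F f.F).comp (Ext A A).D :=
      tens_ext fun x y => by
        simp only [LinearMap.comp_apply]
        rw [tmap_tp, Tens_D_tp, Tens_D_tp, map_add, tmap_tp, tmap_tp]
        have e1 := f.comm (single x 1)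
        have e2 := f.comm (single y 1)
        have e3 := sg_comm0 f.dg (single x 1)
        change tp (B.D (f.F (single x 1))) (f.F (single y 1)) +
          tp (B.sg (f.F (single x 1))) (B.D (f.F (single y 1))) = _
        rw [e1, e2, e3]
        rfl
    exact LinearMap.congr_fun this c
  eqv := by
    intro g c
    have : (tmap f.F f.F).comp ((Ext A A).tr g) =
        ((Ext B B).tr (φ.prodMap φ g)).comp (tmap f.F f.F) :=
      tens_ext fun x y => by
        simp only [LinearMap.comp_apply]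
        rw [tmap_tp, Tens_tr_tp, Tens_tr_tp, tmap_tp]
        have e1 := f.eqv g.1 (single x 1)
        have e2 := f.eqv g.2 (single y 1)
        change tp (f.F (A.tr g.1 (single x 1))) (f.F (A.tr g.2 (single y 1))) = _
        rw [e1, e2]
        rfl
    exact LinearMap.congr_fun this c
  dg n c hc := by
    refine lin_mem_of _ _ (fun p hp => ?_) c hc
    have hp' : A.deg p.1 + A.deg p.2 = n := hp
    rw [tmap_single]
    have := tp_mem_Dg (B.pull (MonoidHom.fst H H)) (B.pull (MonoidHom.snd H H))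
      (f.dg _ _ (A.single_mem_Dg (x := p.1) rfl 1)) (f.dg _ _ (A.single_mem_Dg (x := p.2) rfl 1))
    rw [hp'] at this
    exact this
  aug c := by
    have : (Ext B B).E.comp (tmap f.F f.F) = (Ext A A).E :=
      tens_ext fun x y => by
        simp only [LinearMap.comp_apply]
        rw [tmap_tp, Tens_E_tp, Tens_E_tp]
        have e1 := f.aug (single x 1)
        have e2 := f.aug (single y 1)
        change B.E (f.F (single x 1)) * B.E (f.F (single y 1)) = _
        rw [e1, e2]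
        rfl
    exact LinearMap.congr_fun this c

/-- `c ↦ μ (v ⊗ c)`. -/
noncomputable def mR {β₁ β₂ : H →* K} {hc : ∀ x y, Commute (β₁ x) (β₂ y)} {B : PCx.{u', v'} H}
    {C : PCx.{w, w'} K} (μ : CMap (MonoidHom.noncommCoprod β₁ β₂ hc) (Ext B B) C)
    (v : B.X →₀ ℤ) (hv : v ∈ B.Dg 0) (hv1 : B.E v = 1) : CMap β₂ B C where
  F := μ.F.comp (tp v)
  comm c := by
    rw [LinearMap.comp_apply, μ.comm]
    have e : (Ext B B).D (tp v c) = tp (B.D v) c + tp (B.sg v) (B.D c) := Tens_D_tp _ _ v c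
    rw [e, B.D_zero hv, B.sg_of_mem hv]
    simp
  eqv g c := by
    have e : tp v (B.tr g c) = (Ext B B).tr (1, g) (tp v c) := by
      rw [Tens_tr_tp]
      change _ = tp (B.tr 1 v) (B.tr g c)
      rw [B.tr_one]
    rw [LinearMap.comp_apply, e, μ.eqv]
    simp
  dg n c hc := by
    refine μ.dg n _ ?_
    have := tp_mem_Dg (B.pull (MonoidHom.fst H H)) (B.pull (MonoidHom.snd H H)) hv hc
    rwa [zero_add] at this
  aug c := by
    rw [LinearMap.comp_apply, μ.aug, Tens_E_tp]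
    change B.E v * B.E c = _
    rw [hv1, one_mul]

/-- `c ↦ μ (c ⊗ v)`. -/
noncomputable def mL {β₁ β₂ : H →* K} {hc : ∀ x y, Commute (β₁ x) (β₂ y)} {B : PCx.{u', v'} H}
    {C : PCx.{w, w'} K} (μ : CMap (MonoidHom.noncommCoprod β₁ β₂ hc) (Ext B B) C)
    (v : B.X →₀ ℤ) (hv : v ∈ B.Dg 0) (hv1 : B.E v = 1) : CMap β₁ B C where
  F := μ.F.comp (tp.flip v)
  comm c := by
    rw [LinearMap.comp_apply, μ.comm, LinearMap.flip_apply]
    have e : (Ext B B).D (tp c v) = tp (B.D c) v + tp (B.sg c) (B.D v) := Tens_D_tp _ _ c v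
    rw [e, B.D_zero hv]
    simp
  eqv g c := by
    have e : tp (B.tr g c) v = (Ext B B).tr (g, 1) (tp c v) := by
      rw [Tens_tr_tp]
      change _ = tp (B.tr g c) (B.tr 1 v)
      rw [B.tr_one]
    rw [LinearMap.comp_apply, LinearMap.flip_apply, e, μ.eqv]
    simp
  dg n c hc := by
    refine μ.dg n _ ?_
    rw [LinearMap.flip_apply]
    have := tp_mem_Dg (B.pull (MonoidHom.fst H H)) (B.pull (MonoidHom.snd H H)) hc hv
    rwa [add_zero] at this
  aug c := by
    rw [LinearMap.comp_apply, μ.aug, LinearMap.flip_apply, Tens_E_tp]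
    change B.E c * B.E v = _
    rw [hv1, mul_one]

/-- **The diagonal lemma.** -/
theorem diag_negl {φ : G →* H} {A : FCx.{u, v} G} (hA : A.Acyclic) {B : FCx.{u', v'} H}
    {C : PCx.{w, w'} K} (hC : C.Acyclic) (f : CMap φ A.toPCx B.toPCx) {n : ℕ} (hn : n ≠ 0)
    (hf : PCon f n) {β₁ β₂ γ : H →* K} (hc : ∀ x y, Commute (β₁ x) (β₂ y))
    (hγ : ∀ x, γ x = β₁ x * β₂ x) (F : CMap (γ.comp φ) A.toPCx C)
    (F₁ : CMap (β₁.comp φ) A.toPCx C) (F₂ : CMap (β₂.comp φ) A.toPCx C) :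
    F.F - (F₁.F + F₂.F) ∈ negl A.toPCx C n := by
  classical
  obtain ⟨v, hv, hv1, hf⟩ := hf
  obtain ⟨μ⟩ := exists_cmap (MonoidHom.noncommCoprod β₁ β₂ hc) (FExt B B) C hC
  obtain ⟨Δ⟩ := exists_cmap ((MonoidHom.id G).prod (MonoidHom.id G)) A (Ext A.toPCx A.toPCx)
    (Ext_acyclic hA hA)
  -- reduction to the canonical maps
  have hγ' : ((MonoidHom.noncommCoprod β₁ β₂ hc).comp (φ.prodMap φ)).comp
      ((MonoidHom.id G).prod (MonoidHom.id G)) = γ.comp φ := by
    ext g; simp [hγ]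
  let F' : CMap (γ.comp φ) A.toPCx C := ((μ.comp (ff f)).comp Δ).cast hγ'
  let F₁' : CMap (β₁.comp φ) A.toPCx C := (mL μ v hv hv1).comp f
  let F₂' : CMap (β₂.comp φ) A.toPCx C := (mR μ v hv hv1).comp f
  have r0 := sub_mem_negl hC F F' n
  have r1 := sub_mem_negl hC F₁' F₁ n
  have r2 := sub_mem_negl hC F₂' F₂ n
  suffices hmain : F'.F - (F₁'.F + F₂'.F) ∈ negl A.toPCx C n by
    have := Submodule.add_mem _ (Submodule.add_mem _ (Submodule.add_mem _ r0 hmain) r1) r2
    have e : F.F - F'.F + (F'.F - (F₁'.F + F₂'.F)) + (F₁'.F - F₁.F) + (F₂'.F - F₂.F) =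
        F.F - (F₁.F + F₂.F) := by abel
    rwa [e] at this
  -- homotopies for the projections
  let πL : CMap (MonoidHom.id G) A.toPCx A.toPCx :=
    (((pullC (MonoidHom.fst G G) A.toPCx).comp
      (pL (A.toPCx.pull (MonoidHom.fst G G)) (A.toPCx.pull (MonoidHom.snd G G)))).comp Δ).cast
      (by ext g; rfl)
  let πR : CMap (MonoidHom.id G) A.toPCx A.toPCx :=
    (((pullC (MonoidHom.snd G G) A.toPCx).comp
      (pR (A.toPCx.pull (MonoidHom.fst G G)) (A.toPCx.pull (MonoidHom.snd G G)))).comp Δ).cast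
      (by ext g; rfl)
  obtain ⟨g1, g1e, g1d, g1h⟩ := exists_htpy hA πL (CMap.id A.toPCx)
  obtain ⟨g2, g2e, g2d, g2h⟩ := exists_htpy hA πR (CMap.id A.toPCx)
  intro T hT
  obtain ⟨T2, hT2, kΔ⟩ := Δ.eqv.bdd T hT
  obtain ⟨Tg1, hTg1, kg1⟩ := g1e.bdd T hT
  obtain ⟨Tg2, hTg2, kg2⟩ := g2e.bdd T hT
  obtain ⟨TA, hTA, hTAf, cloA⟩ := A.exists_clo
    (T ∪ (Prod.fst '' T2 ∪ Prod.snd '' T2) ∪ (Tg1 ∪ Tg2))
    ((hT.union ((hT2.image _).union (hT2.image _))).union (hTg1.union hTg2))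
  obtain ⟨T3, hT3, h, h1, h2, h3⟩ := hf TA hTAf
  obtain ⟨T4, hT4, k4⟩ := f.eqv.bdd TA hTAf
  obtain ⟨TB, hTB, hTBf, cloB⟩ := B.exists_clo
    (T3 ∪ T4 ∪ (v.support : Set B.X)) ((hT3.union hT4).union (Finset.finite_toSet _))
  obtain ⟨T', hT', kμ⟩ := μ.eqv.bdd (TB ×ˢ TB) (hTBf.prod hTBf)
  refine ⟨T', hT', fun z hz => ?_⟩
  rw [PCx.mem_Cy] at hz
  obtain ⟨hz1, hz2, hz3, hz4⟩ := hz
  -- bounded pieces
  have bh : ∀ c ∈ A.Bs TA, h c ∈ B.Bs TB := fun c hc =>
    B.Bs_mono (fun x hx => hTB (Or.inl (Or.inl hx))) (h2 c hc)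
  have bf : ∀ c ∈ A.Bs TA, f.F c ∈ B.Bs TB := fun c hc =>
    B.Bs_mono (fun x hx => hTB (Or.inl (Or.inr hx))) (k4 c hc)
  have bv : v ∈ B.Bs TB := B.mem_Bs_of_subset fun x hx => hTB (Or.inr hx)
  set κ : (A.X →₀ ℤ) →ₗ[ℤ] (B.X →₀ ℤ) := f.F - B.D.comp h - h.comp A.D with hκ
  have κa : ∀ c, κ c = f.F c - B.D (h c) - h (A.D c) := fun c => rfl
  have bκ : ∀ c ∈ A.Bs TA, κ c ∈ B.Bs TB := fun c hc => by
    rw [κa]
    exact Submodule.sub_mem _ (Submodule.sub_mem _ (bf c hc) (cloB _ (bh c hc)))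
      (bh _ (cloA c hc))
  have κD : ∀ c, B.D (κ c) = κ (A.D c) := fun c => by
    rw [κa, κa, map_sub, map_sub, f.comm, B.D_D, A.D_D, map_zero]; abel
  have κd : ∀ k, ∀ c ∈ A.Dg k, κ c ∈ B.Dg k := by
    intro k c hc
    rw [κa]
    refine Submodule.sub_mem _ (Submodule.sub_mem _ (f.dg k c hc) (B.D_mem (h1 k c hc))) ?_
    rcases Nat.eq_zero_or_pos k with h0 | hpos
    · subst h0; rw [A.D_zero hc, map_zero]; exact Submodule.zero_mem _
    · obtain ⟨m, rfl⟩ : ∃ m, k = m + 1 := ⟨k - 1, by omega⟩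
      exact h1 m _ (A.D_mem hc)
  have κlow : ∀ k < n, ∀ c ∈ A.Dg k, c ∈ A.Bs TA → κ c = A.E c • v := by
    intro k hk c hc hc'
    have := h3 k hk c hc hc'
    rw [κa]
    have e : f.F c = A.E c • v + (B.D (h c) + h (A.D c)) := by rw [this]; abel
    rw [e]; abel
  -- the homotopy on the tensor product
  set HH : (A.X × A.X →₀ ℤ) →ₗ[ℤ] (B.X × B.X →₀ ℤ) :=
    tmap h f.F + tmap (κ.comp A.sg) h with hHH
  have id1 : ∀ w : A.X × A.X →₀ ℤ, (Ext B.toPCx B.toPCx).D (HH w) +
      HH ((Ext A.toPCx A.toPCx).D w) = tmap f.F f.F w - tmap κ κ w := by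
    intro w
    have : (Ext B.toPCx B.toPCx).D.comp HH + HH.comp (Ext A.toPCx A.toPCx).D =
        tmap f.F f.F - tmap κ κ := tens_ext fun x y => by
      simp only [LinearMap.add_apply, LinearMap.comp_apply, LinearMap.sub_apply, hHH, tmap_tp,
        map_add]
      have q1 : ∀ (a b : B.X →₀ ℤ), (Ext B.toPCx B.toPCx).D (tp a b) =
          tp (B.D a) b + tp (B.sg a) (B.D b) := fun a b => Tens_D_tp _ _ a b
      have q2 : (Ext A.toPCx A.toPCx).D (tp (single x 1) (single y 1)) =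
          tp (A.D (single x 1)) (single y 1) + tp (A.sg (single x 1)) (A.D (single y 1)) :=
        Tens_D_tp _ _ _ _
      rw [q1, q1, q2]
      set a : A.X →₀ ℤ := single x 1 with ha
      set b : A.X →₀ ℤ := single y 1 with hb
      simp only [map_add, tmap_tp, LinearMap.comp_apply]
      rw [sg_comm1 h1 a, sg_comm0 κd (A.sg a), A.sg_sg, f.comm, κD, A.sg_D, map_neg κ]
      have e1 : f.F a = κ a + (B.D (h a) + h (A.D a)) := by rw [κa]; abel
      have e2 : f.F b = κ b + (B.D (h b) + h (A.D b)) := by rw [κa]; abel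
      have e3 : tp (f.F a) (f.F b) = tp (κ a) (κ b) + tp (κ a) (B.D (h b) + h (A.D b)) +
          tp (B.D (h a) + h (A.D a)) (f.F b) := by
        conv_lhs => rw [e1, map_add, LinearMap.add_apply]
        rw [← map_add (tp (κ a)), ← e2]
      rw [e3]
      simp only [map_add, LinearMap.add_apply, map_neg, LinearMap.neg_apply]
      abel
    exact LinearMap.congr_fun this w
  have id2 : ∀ w : A.X × A.X →₀ ℤ, w ∈ (Ext A.toPCx A.toPCx).Dg n →
      w ∈ (Ext A.toPCx A.toPCx).Bs (TA ×ˢ TA) →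
      tmap κ κ w = tp v (κ (prR (A.toPCx.pull (MonoidHom.fst G G))
        (A.toPCx.pull (MonoidHom.snd G G)) w)) +
        tp (κ (prL (A.toPCx.pull (MonoidHom.fst G G))
        (A.toPCx.pull (MonoidHom.snd G G)) w)) v := by
    intro w hw1 hw2
    have hww : w ∈ Finsupp.supported ℤ ℤ ({p : A.X × A.X | A.deg p.1 + A.deg p.2 = n} ∩
        (A.orb TA ×ˢ A.orb TA)) := by
      refine (Finsupp.mem_supported ℤ w).2 (Set.subset_inter ?_ ?_)
      · exact (Finsupp.mem_supported ℤ w).1 hw1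
      · rw [← Ext_orb]
        exact (Finsupp.mem_supported ℤ w).1 hw2
    have := lin_ext_on (f := tmap κ κ) (g := ((tp v).comp κ).comp
      (prR (A.toPCx.pull (MonoidHom.fst G G)) (A.toPCx.pull (MonoidHom.snd G G))) +
      ((tp.flip v).comp κ).comp
      (prL (A.toPCx.pull (MonoidHom.fst G G)) (A.toPCx.pull (MonoidHom.snd G G)))) _
      (fun p hp => ?_) w hww
    · simpa using this
    · obtain ⟨x, y⟩ := p
      obtain ⟨hp1, hp2, hp3⟩ := hp
      have hp1' : A.deg x + A.deg y = n := hp1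
      have hp2' : x ∈ A.orb TA := hp2
      have hp3' : y ∈ A.orb TA := hp3
      have s1 : prR (A.toPCx.pull (MonoidHom.fst G G)) (A.toPCx.pull (MonoidHom.snd G G))
          (single (x, y) 1) = A.ep x • single y 1 := by
        simp [prR]
      have s2 : prL (A.toPCx.pull (MonoidHom.fst G G)) (A.toPCx.pull (MonoidHom.snd G G))
          (single (x, y) 1) = A.ep y • single x 1 := by
        simp [prL]
      simp only [tmap_single, LinearMap.add_apply, LinearMap.comp_apply, s1, s2]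
      rw [map_smul, map_smul, map_smul, LinearMap.flip_apply, map_smul, LinearMap.smul_apply]
      have kx : A.deg x < n → κ (single x 1) = A.ep x • v := fun hlt => by
        have := κlow (A.deg x) hlt (single x 1) (A.single_mem_Dg rfl 1) (A.single_mem_Bs hp2' 1)
        rwa [A.E_single, one_mul] at this
      have ky : A.deg y < n → κ (single y 1) = A.ep y • v := fun hlt => by
        have := κlow (A.deg y) hlt (single y 1) (A.single_mem_Dg rfl 1) (A.single_mem_Bs hp3' 1)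
        rwa [A.E_single, one_mul] at this
      rcases Nat.eq_zero_or_pos (A.deg x) with hx0 | hxpos
      · have hy0 : A.deg y ≠ 0 := by omega
        rw [kx (by omega), A.ep_deg y hy0, zero_smul, add_zero, map_smul, LinearMap.smul_apply]
      · rw [A.ep_deg x (by omega), zero_smul, zero_add]
        rw [ky (by omega), map_smul]
  -- the computation
  have hΔ1 : Δ.F z ∈ (Ext A.toPCx A.toPCx).Bs (TA ×ˢ TA) := by
    refine (Ext A.toPCx A.toPCx).Bs_mono ?_ (kΔ z hz2)
    intro p hp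
    refine ⟨hTA (Or.inl (Or.inr (Or.inl ⟨p, hp, rfl⟩))), hTA (Or.inl (Or.inr (Or.inr ⟨p, hp, rfl⟩)))⟩
  have hΔ2 : Δ.F z ∈ (Ext A.toPCx A.toPCx).Dg n := Δ.dg n z hz1
  have hΔ3 : (Ext A.toPCx A.toPCx).D (Δ.F z) = 0 := by rw [Δ.comm, hz3, map_zero]
  have hzTA : z ∈ A.Bs TA := A.Bs_mono (fun x hx => hTA (Or.inl (Or.inl hx))) hz2
  have hg1TA : g1 z ∈ A.Bs TA := A.Bs_mono (fun x hx => hTA (Or.inr (Or.inl hx))) (kg1 z hz2)
  have hg2TA : g2 z ∈ A.Bs TA := A.Bs_mono (fun x hx => hTA (Or.inr (Or.inr hx))) (kg2 z hz2)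
  have pLz : prL (A.toPCx.pull (MonoidHom.fst G G)) (A.toPCx.pull (MonoidHom.snd G G)) (Δ.F z) =
      z + A.D (g1 z) := by
    have := g1h z
    rw [hz3, map_zero, add_zero] at this
    rw [this]
    change _ = z + (prL _ _ (Δ.F z) - z)
    abel
  have pRz : prR (A.toPCx.pull (MonoidHom.fst G G)) (A.toPCx.pull (MonoidHom.snd G G)) (Δ.F z) =
      z + A.D (g2 z) := by
    have := g2h z
    rw [hz3, map_zero, add_zero] at this
    rw [this]
    change _ = z + (prR _ _ (Δ.F z) - z)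
    abel
  have κz : ∀ c, κ (z + A.D c) = f.F z + B.D (κ c - h z) := fun c => by
    rw [map_add, ← κD, κa z, hz3, map_zero, map_sub]; abel
  have main : tmap f.F f.F (Δ.F z) = tp v (f.F z) + tp (f.F z) v +
      (Ext B.toPCx B.toPCx).D (tp v (κ (g2 z) - h z) + tp (κ (g1 z) - h z) v + HH (Δ.F z)) := by
    have e1 := id1 (Δ.F z)
    rw [hΔ3, map_zero, add_zero] at e1
    have e2 := id2 (Δ.F z) hΔ2 hΔ1
    rw [pLz, pRz, κz, κz, map_add, map_add, LinearMap.add_apply] at e2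
    have e3 : (Ext B.toPCx B.toPCx).D (tp v (κ (g2 z) - h z)) = tp v (B.D (κ (g2 z) - h z)) := by
      have : (Ext B.toPCx B.toPCx).D (tp v (κ (g2 z) - h z)) = tp (B.D v) (κ (g2 z) - h z) +
        tp (B.sg v) (B.D (κ (g2 z) - h z)) := Tens_D_tp _ _ _ _
      rw [this, B.D_zero hv, B.sg_of_mem hv]; simp
    have e4 : (Ext B.toPCx B.toPCx).D (tp (κ (g1 z) - h z) v) = tp (B.D (κ (g1 z) - h z)) v := by
      have : (Ext B.toPCx B.toPCx).D (tp (κ (g1 z) - h z) v) = tp (B.D (κ (g1 z) - h z)) v +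
        tp (B.sg (κ (g1 z) - h z)) (B.D v) := Tens_D_tp _ _ _ _
      rw [this, B.D_zero hv]; simp
    rw [map_add, map_add, e3, e4, e1, e2]
    abel
  have hW1 : tp v (κ (g2 z) - h z) + tp (κ (g1 z) - h z) v + HH (Δ.F z) ∈
      (Ext B.toPCx B.toPCx).Dg (n + 1) := by
    refine Submodule.add_mem _ (Submodule.add_mem _ ?_ ?_) ?_
    · have := tp_mem_Dg (B.toPCx.pull (MonoidHom.fst H H)) (B.toPCx.pull (MonoidHom.snd H H)) hv
        (Submodule.sub_mem _ (κd _ _ (g2d n z hz1)) (h1 n z hz1))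
      rwa [zero_add] at this
    · have := tp_mem_Dg (B.toPCx.pull (MonoidHom.fst H H)) (B.toPCx.pull (MonoidHom.snd H H))
        (Submodule.sub_mem _ (κd _ _ (g1d n z hz1)) (h1 n z hz1)) hv
      rwa [add_zero] at this
    · refine lin_mem_of _ _ (fun p hp => ?_) _ hΔ2
      have hp' : A.deg p.1 + A.deg p.2 = n := hp
      rw [hHH, LinearMap.add_apply, tmap_single, tmap_single]
      refine Submodule.add_mem _ ?_ ?_
      · have := tp_mem_Dg (B.toPCx.pull (MonoidHom.fst H H)) (B.toPCx.pull (MonoidHom.snd H H))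
          (h1 _ _ (A.single_mem_Dg (x := p.1) rfl 1)) (f.dg _ _ (A.single_mem_Dg (x := p.2) rfl 1))
        rwa [show A.deg p.1 + 1 + A.deg p.2 = n + 1 by omega] at this
      · have := tp_mem_Dg (B.toPCx.pull (MonoidHom.fst H H)) (B.toPCx.pull (MonoidHom.snd H H))
          (κd _ _ (A.sg_mem_Dg (A.single_mem_Dg (x := p.1) rfl 1)))
          (h1 _ _ (A.single_mem_Dg (x := p.2) rfl 1))
        rwa [show A.deg p.1 + (A.deg p.2 + 1) = n + 1 by omega] at this
  have hW2 : tp v (κ (g2 z) - h z) + tp (κ (g1 z) - h z) v + HH (Δ.F z) ∈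
      (Ext B.toPCx B.toPCx).Bs (TB ×ˢ TB) := by
    refine Submodule.add_mem _ (Submodule.add_mem _ ?_ ?_) ?_
    · exact tp_mem_ExtBs bv (Submodule.sub_mem _ (bκ _ hg2TA) (bh _ hzTA))
    · exact tp_mem_ExtBs (Submodule.sub_mem _ (bκ _ hg1TA) (bh _ hzTA)) bv
    · have hΔ4 : Δ.F z ∈ Finsupp.supported ℤ ℤ (A.orb TA ×ˢ A.orb TA) := by
        rw [← Ext_orb]; exact hΔ1
      refine lin_mem_of _ _ (fun p hp => ?_) _ hΔ4
      obtain ⟨hp1, hp2⟩ := hp
      have t1 := A.single_mem_Bs hp1 1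
      have t2 := A.single_mem_Bs hp2 1
      rw [hHH, LinearMap.add_apply, tmap_single, tmap_single]
      exact Submodule.add_mem _ (tp_mem_ExtBs (bh _ t1) (bf _ t2))
        (tp_mem_ExtBs (bκ _ (A.sg_mem_Bs t1)) (bh _ t2))
  refine C.mem_Bo.2 ⟨μ.F (tp v (κ (g2 z) - h z) + tp (κ (g1 z) - h z) v + HH (Δ.F z)),
    μ.dg _ _ hW1, kμ _ hW2, ?_⟩
  rw [μ.comm]
  have e5 : (Ext B.toPCx B.toPCx).D
      (tp v (κ (g2 z) - h z) + tp (κ (g1 z) - h z) v + HH (Δ.F z)) =
      tmap f.F f.F (Δ.F z) - tp v (f.F z) - tp (f.F z) v := by rw [main]; abel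
  have e6 : (F'.F - (F₁'.F + F₂'.F)) z = μ.F (tmap f.F f.F (Δ.F z)) -
      (μ.F (tp (f.F z) v) + μ.F (tp v (f.F z))) := rfl
  rw [e6]
  refine (congrArg μ.F e5).trans ?_
  rw [map_sub, map_sub]; abel

end Diag

end Crest.Agent.R185.Null
end

-- ▼ part R185/Null6
section

/-!
# R185, null calculus, part 6: classes of homomorphisms and certificates
-/

set_option autoImplicit false

namespace Crest.Agent.R185.Null

open Finsupp

universe u v w u' v' w'

section Classes

variable {G : Type u} [Group G] {H : Type u'} [Group H] {K : Type w} [Group K]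

/-- The class of a homomorphism modulo negligible maps. -/
noncomputable def cl (φ : G →* H) (n : ℕ) : NQ (Std G).toPCx (Std H).toPCx n :=
  Submodule.Quotient.mk
    (Classical.choice (exists_cmap φ (Std G) (Std H).toPCx (Std_acyclic H))).F

theorem cl_eq {φ : G →* H} (n : ℕ) (f : CMap φ (Std G).toPCx (Std H).toPCx) :
    cl φ n = Submodule.Quotient.mk f.F :=
  (Submodule.Quotient.eq _).2 (sub_mem_negl (Std_acyclic H) _ _ n)

theorem cl_eq_zero {φ : G →* H} {n : ℕ} : cl φ n = 0 ↔ IsNull φ n := by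
  constructor
  · intro h
    exact ⟨_, (Submodule.Quotient.mk_eq_zero _).1 h⟩
  · rintro ⟨f, hf⟩
    rw [cl_eq n f]
    exact (Submodule.Quotient.mk_eq_zero _).2 hf

/-- **Additivity.** -/
theorem cl_mul {φ : G →* H} {n : ℕ} (hφ : PC φ n) (hn : n ≠ 0) {β₁ β₂ γ : H →* K}
    (hc : ∀ x y, Commute (β₁ x) (β₂ y)) (hγ : ∀ x, γ x = β₁ x * β₂ x) :
    cl (γ.comp φ) n = cl (β₁.comp φ) n + cl (β₂.comp φ) n := by
  obtain ⟨f, hf⟩ := hφ
  have := diag_negl (Std_acyclic G) (Std_acyclic K) f hn hf hc hγ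
    (Classical.choice (exists_cmap (γ.comp φ) (Std G) (Std K).toPCx (Std_acyclic K)))
    (Classical.choice (exists_cmap (β₁.comp φ) (Std G) (Std K).toPCx (Std_acyclic K)))
    (Classical.choice (exists_cmap (β₂.comp φ) (Std G) (Std K).toPCx (Std_acyclic K)))
  exact (Submodule.Quotient.eq _).2 this

/-- The action of `H` on classes. -/
noncomputable def ctr (A : PCx.{u, v} G) (B : PCx.{u', v'} H) (n : ℕ) (k : H) :
    NQ A B n →ₗ[ℤ] NQ A B n :=
  Submodule.mapQ (negl A B n) (negl A B n)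
    { toFun := fun e => (B.tr k).comp e
      map_add' := fun _ _ => LinearMap.comp_add _ _ _
      map_smul' := fun _ _ => LinearMap.comp_smul _ _ _ }
    (fun _ he => negl_tr he k)

theorem cl_conj {φ ψ : G →* H} (n : ℕ) (k : H) (h : ∀ g, k * φ g * k⁻¹ = ψ g) :
    cl ψ n = ctr _ _ n k (cl φ n) := by
  obtain ⟨f⟩ := exists_cmap φ (Std G) (Std H).toPCx (Std_acyclic H)
  have e : (MulAut.conj k).toMonoidHom.comp φ = ψ := by ext g; simp [h]
  rw [cl_eq n f, cl_eq n ((f.conj k).cast e)]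
  rfl

theorem cl_one {φ : G →* H} {n : ℕ} (hφ : PC φ n) (hn : n ≠ 0) :
    cl ((1 : H →* K).comp φ) n = 0 := by
  have := cl_mul (K := K) hφ hn (β₁ := 1) (β₂ := 1) (γ := 1) (fun x y => Commute.one_left _)
    (fun x => by simp)
  simpa using this

/-- Additivity for finitely many pairwise commuting homomorphisms. -/
theorem cl_prod_aux {φ : G →* H} {n : ℕ} (hφ : PC φ n) (hn : n ≠ 0) (m : ℕ) :
    ∀ v : Fin m → (H →* K), (∀ i j, i ≠ j → ∀ x y, Commute (v i x) (v j y)) →
      ∃ γ : H →* K, (∀ x, γ x = (List.ofFn fun i => v i x).prod) ∧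
        cl (γ.comp φ) n = ∑ i, cl ((v i).comp φ) n := by
  induction m with
  | zero =>
    intro v _
    exact ⟨1, fun x => by simp, by rw [cl_one hφ hn]; simp⟩
  | succ m ih =>
    intro v hv
    obtain ⟨γ', h1, h2⟩ := ih (fun i => v i.succ)
      (fun i j hij x y => hv _ _ (fun h => hij (Fin.succ_injective _ h)) x y)
    have hc : ∀ x y, Commute (v 0 x) (γ' y) := by
      intro x y
      rw [h1]
      refine Commute.list_prod_right _ _ fun z hz => ?_
      rw [List.mem_ofFn] at hz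
      obtain ⟨i, rfl⟩ := hz
      exact hv 0 i.succ (Fin.succ_ne_zero i).symm x y
    refine ⟨(MonoidHom.noncommCoprod (v 0) γ' hc).comp ((MonoidHom.id H).prod (MonoidHom.id H)),
      fun x => by simp [h1, List.ofFn_succ], ?_⟩
    rw [cl_mul hφ hn hc (γ := (MonoidHom.noncommCoprod (v 0) γ' hc).comp
      ((MonoidHom.id H).prod (MonoidHom.id H))) (fun x => by simp), h2, Fin.sum_univ_succ]

theorem cl_prod {φ : G →* H} {n : ℕ} (hφ : PC φ n) (hn : n ≠ 0) {m : ℕ}
    (v : Fin m → (H →* K)) (hv : ∀ i j, i ≠ j → ∀ x y, Commute (v i x) (v j y))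
    (γ : H →* K) (hγ : ∀ x, γ x = (List.ofFn fun i => v i x).prod) :
    cl (γ.comp φ) n = ∑ i, cl ((v i).comp φ) n := by
  obtain ⟨γ', h1, h2⟩ := cl_prod_aux hφ hn m v hv
  have : γ = γ' := by ext x; rw [hγ, h1]
  rw [this, h2]

/-- The rook identity: rows and columns of an array have the same total class. -/
theorem rook_sum {φ : G →* H} {n : ℕ} (hφ : PC φ n) (hn : n ≠ 0) {m m' : ℕ}
    (v : Fin m → Fin m' → (H →* K))
    (hrow : ∀ i j j', j ≠ j' → ∀ x y, Commute (v i j x) (v i j' y))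
    (hcol : ∀ i i' j, i ≠ i' → ∀ x y, Commute (v i j x) (v i' j y))
    (r : Fin m → (H →* K)) (hr : ∀ i x, r i x = (List.ofFn fun j => v i j x).prod)
    (c : Fin m' → (H →* K)) (hc : ∀ j x, c j x = (List.ofFn fun i => v i j x).prod) :
    ∑ i, cl ((r i).comp φ) n = ∑ j, cl ((c j).comp φ) n := by
  have h1 : ∀ i, cl ((r i).comp φ) n = ∑ j, cl ((v i j).comp φ) n := fun i =>
    cl_prod hφ hn (v i) (hrow i) (r i) (hr i)
  have h2 : ∀ j, cl ((c j).comp φ) n = ∑ i, cl ((v i j).comp φ) n := fun j =>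
    cl_prod hφ hn (fun i => v i j) (fun i i' h => hcol i i' j h) (c j) (hc j)
  simp only [h1, h2]
  exact Finset.sum_comm

/-- **The rook certificate** (helper681's form). -/
theorem rook_null {φ : G →* H} {n : ℕ} (hφ : PC φ n) (hn : n ≠ 0) {m : ℕ}
    (v : Fin m → Fin (m + 1) → (H →* K))
    (hrow : ∀ i j j', j ≠ j' → ∀ x y, Commute (v i j x) (v i j' y))
    (hcol : ∀ i i' j, i ≠ i' → ∀ x y, Commute (v i j x) (v i' j y))
    (r : Fin m → (H →* K)) (hr : ∀ i x, r i x = (List.ofFn fun j => v i j x).prod)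
    (c : Fin (m + 1) → (H →* K)) (hc : ∀ j x, c j x = (List.ofFn fun i => v i j x).prod)
    (β : H →* K) (hrβ : ∀ i x y, Commute (r i x) (β y)) (hcβ : ∀ j x y, Commute (c j x) (β y))
    (s : K) (hsr : ∀ i x, s * r i x * s⁻¹ = r i x * β x)
    (hsc : ∀ j x, s * c j x * s⁻¹ = c j x * β x) : IsNull (β.comp φ) n := by
  rw [← cl_eq_zero]
  have e0 := rook_sum hφ hn v hrow hcol r hr c hc
  -- conjugated homs
  have er : ∀ i, ctr _ _ n s (cl ((r i).comp φ) n) =
      cl ((r i).comp φ) n + cl (β.comp φ) n := by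
    intro i
    have h1 : ∀ x, ((MulAut.conj s).toMonoidHom.comp (r i)) x = r i x * β x := fun x => by
      simp [hsr]
    rw [← cl_mul hφ hn (γ := (MulAut.conj s).toMonoidHom.comp (r i)) (hrβ i) h1]
    exact (cl_conj n s (fun g => by simp)).symm
  have ec : ∀ j, ctr _ _ n s (cl ((c j).comp φ) n) =
      cl ((c j).comp φ) n + cl (β.comp φ) n := by
    intro j
    have h1 : ∀ x, ((MulAut.conj s).toMonoidHom.comp (c j)) x = c j x * β x := fun x => by
      simp [hsc]
    rw [← cl_mul hφ hn (γ := (MulAut.conj s).toMonoidHom.comp (c j)) (hcβ j) h1]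
    exact (cl_conj n s (fun g => by simp)).symm
  have e1 := congrArg (ctr _ _ n s) e0
  rw [map_sum, map_sum] at e1
  simp only [er, ec, Finset.sum_add_distrib] at e1
  rw [e0] at e1
  have e2 := add_left_cancel e1
  simp only [Finset.sum_const, Finset.card_univ, Fintype.card_fin] at e2
  rw [succ_nsmul] at e2
  exact (left_eq_add.1 e2)


end Classes

/-! ## Null in all degrees -/

section Powers

variable {U : Type u} [Group U]

/-- Iterates of an endomorphism. -/
def ipow (ψ : U →* U) : ℕ → (U →* U)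
  | 0 => MonoidHom.id U
  | n + 1 => ψ.comp (ipow ψ n)

theorem ipow_add (ψ : U →* U) (m n : ℕ) : ipow ψ (m + n) = (ipow ψ m).comp (ipow ψ n) := by
  induction m with
  | zero => rw [Nat.zero_add]; rfl
  | succ m ih => rw [Nat.succ_add, ipow, ih]; rfl

theorem ipow_one (ψ : U →* U) : ipow ψ 1 = ψ := rfl

/-- Telescope: an endomorphism which becomes `n`-null after lower null maps. -/
theorem exists_pow_null (ψ : U →* U) (h0 : IsNull (MonoidHom.id U) 0)
    (h : ∀ n, n ≠ 0 → ∀ φ : U →* U, PC φ n → IsNull (ψ.comp φ) n) :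
    ∀ n, ∃ N : ℕ, IsNull (ipow ψ N) n := by
  have key : ∀ n, (∃ N : ℕ, PC (ipow ψ N) n) := by
    intro n
    induction n with
    | zero => exact ⟨0, PC.zero _⟩
    | succ n ih =>
      obtain ⟨N, hN⟩ := ih
      rcases Nat.eq_zero_or_pos n with h0' | hpos
      · subst h0'
        refine ⟨0 + N, ?_⟩
        rw [ipow_add]
        exact hN.succ (ψ := ipow ψ 0) h0
      · have := h n (by omega) _ hN
        refine ⟨(N + 1) + N, ?_⟩
        rw [ipow_add]
        exact hN.succ (ψ := ipow ψ (N + 1)) this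
  intro n
  rcases Nat.eq_zero_or_pos n with h0' | hpos
  · subst h0'; exact ⟨0, h0⟩
  · obtain ⟨N, hN⟩ := key n
    exact ⟨N + 1, h n (by omega) _ hN⟩


end Powers

end Crest.Agent.R185.Null
private theorem rz_bccc38a8be : type_of% @_root_.Crest.Agent.R185.Null.ipow.eq_def := @_root_.Crest.Agent.R185.Null.ipow.eq_def -- L214
private theorem rz_0e071d47e6 : type_of% @_root_.Crest.Agent.R185.Null.ipow.eq_1 := @_root_.Crest.Agent.R185.Null.ipow.eq_1 -- L214
end

-- ▼ part R185/Null7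
section

/-!
# R185, null calculus, part 7: subcomplexes, simplicial maps, decomposition by classes, cones
-/

set_option autoImplicit false

namespace Crest.Agent.R185.Null

open Finsupp

universe u v w u' v' w'

/-! ## Subcomplexes -/

section Sub

variable {G : Type u} [Group G] (A : PCx.{u, v} G)

/-- The inclusion of chains. -/
noncomputable def inc (S : Set A.X) : (S →₀ ℤ) →ₗ[ℤ] (A.X →₀ ℤ) :=
  Finsupp.lmapDomain ℤ ℤ Subtype.val

theorem inc_inj (S : Set A.X) : Function.Injective (inc A S) :=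
  Finsupp.mapDomain_injective Subtype.val_injective

theorem inc_single (S : Set A.X) (x : S) (n : ℤ) : inc A S (single x n) = single x.1 n := by
  simp [inc]


/-- Restriction of a chain. -/
noncomputable def res (S : Set A.X) (c : A.X →₀ ℤ) : S →₀ ℤ :=
  c.comapDomain Subtype.val Subtype.val_injective.injOn

theorem inc_res (S : Set A.X) (c : A.X →₀ ℤ) (hc : c ∈ Finsupp.supported ℤ ℤ S) :
    inc A S (res A S c) = c :=
  Finsupp.mapDomain_comapDomain _ Subtype.val_injective _ (by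
    rw [Subtype.range_val]; exact (Finsupp.mem_supported ℤ c).1 hc)

/-- A subset which spans a subcomplex. -/
structure IsSub (S : Set A.X) : Prop where
  sm : ∀ g x, x ∈ S → A.sm g x ∈ S
  bd : ∀ x ∈ S, A.bd x ∈ Finsupp.supported ℤ ℤ S

variable {A}

theorem inc_lift {S : Set A.X} (hS : IsSub A S) (x : S) :
    inc A S (res A S (A.bd x)) = A.bd x := inc_res A S _ (hS.bd x.1 x.2)

theorem inc_sm {S : Set A.X} (hS : IsSub A S) (g : G) (c : S →₀ ℤ) :
    inc A S (c.mapDomain fun x => ⟨A.sm g x.1, hS.sm g x.1 x.2⟩) = A.tr g (inc A S c) := by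
  have : (inc A S).comp (Finsupp.lmapDomain ℤ ℤ fun x => ⟨A.sm g x.1, hS.sm g x.1 x.2⟩) =
      (A.tr g).comp (inc A S) := lin_ext fun x => by
    simp [inc]
  exact LinearMap.congr_fun this c

theorem inc_D {S : Set A.X} (hS : IsSub A S) (c : S →₀ ℤ) :
    inc A S (Finsupp.linearCombination ℤ (fun x : S => res A S (A.bd x)) c) =
      A.D (inc A S c) := by
  have : (inc A S).comp (Finsupp.linearCombination ℤ (fun x : S => res A S (A.bd x))) =
      A.D.comp (inc A S) := lin_ext fun x => by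
    simp only [LinearMap.comp_apply, Finsupp.linearCombination_single, one_smul]
    rw [inc_lift hS, inc_single, A.D_single, one_smul]
  exact LinearMap.congr_fun this c

theorem inc_E {S : Set A.X} (c : S →₀ ℤ) :
    Finsupp.linearCombination ℤ (fun x : S => A.ep x.1) c = A.E (inc A S c) := by
  have : Finsupp.linearCombination ℤ (fun x : S => A.ep x.1) =
      A.E.comp (inc A S) := lin_ext fun x => by
    simp [inc_single]
  exact LinearMap.congr_fun this c

/-- The subcomplex. -/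
@[reducible] noncomputable def PCx.sub (A : PCx.{u, v} G) (S : Set A.X) (hS : IsSub A S) :
    PCx.{u, v} G where
  X := S
  sm g x := ⟨A.sm g x.1, hS.sm g x.1 x.2⟩
  sm_one x := Subtype.ext (A.sm_one _)
  sm_mul g h x := Subtype.ext (A.sm_mul _ _ _)
  deg x := A.deg x.1
  deg_sm g x := A.deg_sm _ _
  bd x := res A S (A.bd x)
  bd_sm g x := inc_inj A S (by
    rw [inc_sm hS, inc_lift hS, inc_lift hS, A.bd_sm]; rfl)
  bd_deg x y hy := by
    refine A.bd_deg x.1 y.1 ?_
    rw [Finsupp.mem_support_iff] at hy ⊢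
    exact hy
  bd_bd x := inc_inj A S (by
    rw [inc_D hS, inc_lift hS, map_zero]; exact A.bd_bd _)
  ep x := A.ep x.1
  ep_sm g x := A.ep_sm _ _
  ep_deg x hx := A.ep_deg _ hx
  ep_bd x := by
    rw [inc_E, inc_lift hS]; exact A.ep_bd _

theorem sub_D {S : Set A.X} (hS : IsSub A S) (c : S →₀ ℤ) :
    inc A S ((A.sub S hS).D c) = A.D (inc A S c) := inc_D hS c

theorem sub_E {S : Set A.X} (hS : IsSub A S) (c : S →₀ ℤ) :
    (A.sub S hS).E c = A.E (inc A S c) := inc_E c

theorem sub_tr {S : Set A.X} (hS : IsSub A S) (g : G) (c : S →₀ ℤ) :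
    inc A S ((A.sub S hS).tr g c) = A.tr g (inc A S c) := inc_sm hS g c

end Sub

/-! ## Simplicial maps -/

section Simplicial

variable {G : Type u} [Group G] {H : Type u'} [Group H]

/-- The map on tuples induced by a map of points. -/
def mapX {O : Type v} {O' : Type w} (f : O → O') (x : O × List O) : O' × List O' :=
  (f x.1, x.2.map f)

theorem Simp_D_s {O : Type v} [MulAction G O] (x : O × List O) :
    (Simp G O).D (single x 1) = sbd x.2 x.1 :=
  ((Simp G O).D_single x 1).trans (one_smul _ _)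

theorem Simp_E_s {O : Type v} [MulAction G O] (x : O × List O) :
    (Simp G O).E (single x 1) = sep x :=
  ((Simp G O).E_single x 1).trans (one_mul _)

theorem Simp_tr_s {O : Type v} [MulAction G O] (g : G) (x : O × List O) :
    (Simp G O).tr g (single x 1) = single (smX g x) 1 :=
  (Simp G O).tr_single g x 1

/-- The chain map induced by an equivariant map of points. -/
noncomputable def simpMap (φ : G →* H) {O : Type v} {O' : Type w} [MulAction G O]
    [MulAction H O'] (f : O → O') (hf : ∀ g o, f (g • o) = φ g • f o) :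
    CMap φ (Simp G O) (Simp H O') where
  F := Finsupp.lmapDomain ℤ ℤ (mapX f)
  comm c := by
    have : (Simp H O').D.comp (Finsupp.lmapDomain ℤ ℤ (mapX f)) =
        (Finsupp.lmapDomain ℤ ℤ (mapX f)).comp (Simp G O).D := lin_ext fun x => by
      rw [LinearMap.comp_apply, LinearMap.comp_apply, Simp_D_s, Finsupp.lmapDomain_apply,
        Finsupp.mapDomain_single, Simp_D_s]
      exact sbd_map f x.2 x.1
    exact LinearMap.congr_fun this c
  eqv := by
    refine Eqv.of_single fun g x => ?_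
    rw [Finsupp.lmapDomain_apply, Finsupp.lmapDomain_apply, Finsupp.mapDomain_single,
      Finsupp.mapDomain_single, Simp_tr_s]
    congr 1
    simp only [mapX, smX, hf, List.map_map]
    congr 1
    refine List.map_congr_left fun o _ => ?_
    exact hf g o
  dg n c hc := by
    refine lin_mem_of _ _ (fun x hx => ?_) c hc
    rw [Finsupp.lmapDomain_apply, Finsupp.mapDomain_single]
    refine PCx.single_mem_Dg _ ?_ 1
    have hx' : x.2.length = n := hx
    simp [mapX, hx']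
  aug c := by
    have : (Simp H O').E.comp (Finsupp.lmapDomain ℤ ℤ (mapX f)) = (Simp G O).E :=
      lin_ext fun x => by
        rw [LinearMap.comp_apply, Finsupp.lmapDomain_apply, Finsupp.mapDomain_single, Simp_E_s,
          Simp_E_s]
        simp [sep, mapX]
    exact LinearMap.congr_fun this c

@[simp] theorem simpMap_single (φ : G →* H) {O : Type v} {O' : Type w} [MulAction G O]
    [MulAction H O'] (f : O → O') (hf : ∀ g o, f (g • o) = φ g • f o) (x : O × List O) (n : ℤ) :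
    (simpMap φ f hf).F (single x n) = single (mapX f x) n := by
  simp [simpMap]

/-- The standard chain map of a homomorphism. -/
noncomputable def stdMap (φ : G →* H) : CMap φ (Std G).toPCx (Std H).toPCx :=
  simpMap φ φ (fun g o => map_mul φ g o)

end Simplicial

/-! ## Decomposition by classes -/

section Decomp

variable {X : Type v} {I : Type w}

open Classical in
/-- The component in the class `i`. -/
noncomputable def flt (κ : X → I) (i : I) : (X →₀ ℤ) →ₗ[ℤ] (X →₀ ℤ) :=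
  Finsupp.linearCombination ℤ fun x => if κ x = i then single x 1 else 0

open Classical in
theorem flt_single (κ : X → I) (i : I) (x : X) :
    flt κ i (single x 1) = if κ x = i then single x 1 else 0 := by
  simp [flt]

theorem flt_mem (κ : X → I) (i : I) {s : Set X} {c : X →₀ ℤ}
    (hc : c ∈ Finsupp.supported ℤ ℤ s) :
    flt κ i c ∈ Finsupp.supported ℤ ℤ ({x | κ x = i} ∩ s) := by
  classical
  refine lin_mem_of _ _ (fun x hx => ?_) c hc
  rw [flt_single]
  split_ifs with h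
  · exact Finsupp.single_mem_supported ℤ 1 ⟨h, hx⟩
  · exact Submodule.zero_mem _

theorem flt_mem' (κ : X → I) (i : I) {s : Set X} {c : X →₀ ℤ}
    (hc : c ∈ Finsupp.supported ℤ ℤ s) : flt κ i c ∈ Finsupp.supported ℤ ℤ s :=
  Finsupp.supported_mono Set.inter_subset_right (flt_mem κ i hc)

/-- An operator preserving classes commutes with the components. -/
theorem flt_comm (κ : X → I) (i : I) (D : (X →₀ ℤ) →ₗ[ℤ] (X →₀ ℤ))
    (hD : ∀ x, D (single x 1) ∈ Finsupp.supported ℤ ℤ {y | κ y = κ x}) (c : X →₀ ℤ) :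
    D (flt κ i c) = flt κ i (D c) := by
  classical
  have : D.comp (flt κ i) = (flt κ i).comp D := lin_ext fun x => by
    simp only [LinearMap.comp_apply, flt_single]
    split_ifs with h
    · refine (lin_ext_on (f := flt κ i) (g := LinearMap.id) _ (fun y hy => ?_) _ (hD x)).symm
      have hy' : κ y = κ x := hy
      rw [flt_single, if_pos (hy'.trans h)]; rfl
    · rw [map_zero]
      refine (lin_ext_on (f := flt κ i) (g := 0) _ (fun y hy => ?_) _ (hD x)).symm
      have hy' : κ y = κ x := hy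
      rw [flt_single, if_neg (fun e => h (hy'.symm.trans e))]; rfl
  exact LinearMap.congr_fun this c

open Classical in
theorem sum_flt (κ : X → I) (c : X →₀ ℤ) :
    ∑ i ∈ c.support.image κ, flt κ i c = c := by
  have h : c ∈ Finsupp.supported ℤ ℤ {x | κ x ∈ c.support.image κ} := by
    refine (Finsupp.mem_supported ℤ c).2 fun x hx => ?_
    exact Finset.mem_image_of_mem κ hx
  have := lin_ext_on (f := ∑ i ∈ c.support.image κ, flt κ i) (g := LinearMap.id) _
    (fun x hx => ?_) c h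
  · simpa using this
  · have hx' : κ x ∈ c.support.image κ := hx
    rw [LinearMap.sum_apply, LinearMap.id_apply]
    simp only [flt_single]
    rw [Finset.sum_ite_eq, if_pos hx']

/-- Decomposition principle. -/
theorem flt_induction {M : Type*} [AddCommGroup M] (κ : X → I) (F : (X →₀ ℤ) →ₗ[ℤ] M)
    (N : Submodule ℤ M) (c : X →₀ ℤ) (h : ∀ i, F (flt κ i c) ∈ N) : F c ∈ N := by
  classical
  rw [← sum_flt κ c, map_sum]
  exact Submodule.sum_mem _ fun i _ => h i

end Decomp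

end Crest.Agent.R185.Null
end

-- ▼ part R185/Null8
section

/-!
# R185, null calculus, part 8: mapping tori (ascending HNN extensions)
-/

set_option autoImplicit false

namespace Crest.Agent.R185.Null

open Finsupp

universe u v w u' v' w'

/-! ## Restricting the codomain of a chain map -/

section CodRes

variable {G : Type u} [Group G] {H : Type u'} [Group H]

/-- Corestriction of a chain map to a subcomplex. -/
noncomputable def CMap.cod {φ : G →* H} {A : PCx.{u, v} G} {B : PCx.{u', v'} H} (f : CMap φ A B)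
    (S : Set B.X) (hS : IsSub B S) (h : ∀ x, f.F (single x 1) ∈ Finsupp.supported ℤ ℤ S) :
    CMap φ A (B.sub S hS) := by
  have key : ∀ c, inc B S (Finsupp.linearCombination ℤ
      (fun x => res B S (f.F (single x 1))) c) = f.F c := by
    intro c
    have : (inc B S).comp (Finsupp.linearCombination ℤ
      (fun x => res B S (f.F (single x 1)))) = f.F := lin_ext fun x => by
      rw [LinearMap.comp_apply, Finsupp.linearCombination_single, one_smul,
        inc_res B S _ (h x)]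
    exact LinearMap.congr_fun this c
  exact
    { F := Finsupp.linearCombination ℤ (fun x => res B S (f.F (single x 1)))
      comm := fun c => inc_inj B S (by
        rw [sub_D, key, key, f.comm])
      eqv := fun g c => inc_inj B S (by
        rw [sub_tr, key, key]; exact f.eqv g c)
      dg := fun n c hc => by
        have h1 : inc B S (Finsupp.linearCombination ℤ
          (fun x => res B S (f.F (single x 1))) c) ∈ B.Dg n := by
          rw [key]; exact f.dg n c hc
        refine (Finsupp.mem_supported ℤ _).2 fun x hx => ?_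
        have h2 := (Finsupp.mem_supported ℤ _).1 h1
        have : x.1 ∈ (inc B S (Finsupp.linearCombination ℤ
          (fun x => res B S (f.F (single x 1))) c)).support := by
          rw [Finsupp.mem_support_iff]
          change Finsupp.mapDomain Subtype.val _ x.1 ≠ 0
          rw [Finsupp.mapDomain_apply Subtype.val_injective]
          exact Finsupp.mem_support_iff.1 hx
        exact h2 this
      aug := fun c => by
        rw [sub_E, key, f.aug] }

theorem CMap.inc_cod {φ : G →* H} {A : PCx.{u, v} G} {B : PCx.{u', v'} H} (f : CMap φ A B)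
    (S : Set B.X) (hS : IsSub B S) (h : ∀ x, f.F (single x 1) ∈ Finsupp.supported ℤ ℤ S)
    (c : A.X →₀ ℤ) : inc B S ((f.cod S hS h).F c) = f.F c := by
  have : (inc B S).comp (Finsupp.linearCombination ℤ
    (fun x => res B S (f.F (single x 1)))) = f.F := lin_ext fun x => by
    rw [LinearMap.comp_apply, Finsupp.linearCombination_single, one_smul,
      inc_res B S _ (h x)]
  exact LinearMap.congr_fun this c

end CodRes

/-! ## Cones of `1 - p` -/

section Cone

variable {G : Type u} [Group G]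

/-- An equivariant basis map commuting with everything. -/
structure BMap (M : PCx.{u, v} G) where
  p : M.X → M.X
  sm : ∀ g x, p (M.sm g x) = M.sm g (p x)
  deg : ∀ x, M.deg (p x) = M.deg x
  bd : ∀ x, M.bd (p x) = (M.bd x).mapDomain p
  ep : ∀ x, M.ep (p x) = M.ep x

variable {M : PCx.{u, v} G} (P : BMap M)

/-- The linear extension. -/
noncomputable def BMap.L : (M.X →₀ ℤ) →ₗ[ℤ] (M.X →₀ ℤ) := Finsupp.lmapDomain ℤ ℤ P.p

@[simp] theorem BMap.L_single (x : M.X) (n : ℤ) : P.L (single x n) = single (P.p x) n := by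
  simp [BMap.L]

theorem BMap.L_D (c : M.X →₀ ℤ) : P.L (M.D c) = M.D (P.L c) := by
  have : P.L.comp M.D = M.D.comp P.L := lin_ext fun x => by
    simp only [LinearMap.comp_apply, BMap.L_single, PCx.D_single, one_smul, P.bd]
    rfl
  exact LinearMap.congr_fun this c

theorem BMap.L_tr (g : G) (c : M.X →₀ ℤ) : P.L (M.tr g c) = M.tr g (P.L c) := by
  have : P.L.comp (M.tr g) = (M.tr g).comp P.L := lin_ext fun x => by
    simp [P.sm]
  exact LinearMap.congr_fun this c

theorem BMap.L_E (c : M.X →₀ ℤ) : M.E (P.L c) = M.E c := by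
  have : M.E.comp P.L = M.E := lin_ext fun x => by
    simp [P.ep]
  exact LinearMap.congr_fun this c

theorem BMap.L_mem {n : ℕ} {c : M.X →₀ ℤ} (hc : c ∈ M.Dg n) : P.L c ∈ M.Dg n :=
  lin_mem_of _ _ (fun x hx => by
    rw [BMap.L_single]; exact M.single_mem_Dg ((P.deg x).trans hx) 1) c hc

variable (M) in
/-- left inclusion -/
noncomputable def iL : (M.X →₀ ℤ) →ₗ[ℤ] (M.X ⊕ M.X →₀ ℤ) := Finsupp.lmapDomain ℤ ℤ Sum.inl

variable (M) in
/-- right inclusion -/
noncomputable def iR : (M.X →₀ ℤ) →ₗ[ℤ] (M.X ⊕ M.X →₀ ℤ) := Finsupp.lmapDomain ℤ ℤ Sum.inr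

@[simp] theorem iL_single (x : M.X) (n : ℤ) : iL M (single x n) = single (Sum.inl x) n := by
  simp [iL]

@[simp] theorem iR_single (x : M.X) (n : ℤ) : iR M (single x n) = single (Sum.inr x) n := by
  simp [iR]

/-- The boundary in the cone. -/
noncomputable def cbd : M.X ⊕ M.X → (M.X ⊕ M.X →₀ ℤ)
  | Sum.inl x => iL M (M.bd x)
  | Sum.inr x => iL M (single x 1 - single (P.p x) 1) - iR M (M.bd x)

noncomputable def cD : (M.X ⊕ M.X →₀ ℤ) →ₗ[ℤ] (M.X ⊕ M.X →₀ ℤ) :=
  Finsupp.linearCombination ℤ (cbd P)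

theorem cD_iL (c : M.X →₀ ℤ) : cD P (iL M c) = iL M (M.D c) := by
  have : (cD P).comp (iL M) = (iL M).comp M.D := lin_ext fun x => by
    simp [cD, cbd]
  exact LinearMap.congr_fun this c

theorem cD_iR (c : M.X →₀ ℤ) : cD P (iR M c) = iL M (c - P.L c) - iR M (M.D c) := by
  have : (cD P).comp (iR M) = (iL M).comp (LinearMap.id - P.L) - (iR M).comp M.D :=
    lin_ext fun x => by
      simp [cD, cbd]
  exact LinearMap.congr_fun this c

/-- augmentation of the cone -/
noncomputable def cep : M.X ⊕ M.X → ℤ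
  | Sum.inl x => M.ep x
  | Sum.inr _ => 0

noncomputable def cE : (M.X ⊕ M.X →₀ ℤ) →ₗ[ℤ] ℤ := Finsupp.linearCombination ℤ cep

theorem cE_iL (c : M.X →₀ ℤ) : cE (iL M c) = M.E c := by
  have : (cE (M := M)).comp (iL M) = M.E := lin_ext fun x => by
    simp [cE, cep]
  exact LinearMap.congr_fun this c

theorem cE_iR (c : M.X →₀ ℤ) : cE (iR M c) = 0 := by
  have : (cE (M := M)).comp (iR M) = 0 := lin_ext fun x => by
    simp [cE, cep]
  exact LinearMap.congr_fun this c


/-- degree -/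
def cdeg : M.X ⊕ M.X → ℕ
  | Sum.inl x => M.deg x
  | Sum.inr x => M.deg x + 1

/-- action -/
def csm (g : G) : M.X ⊕ M.X → M.X ⊕ M.X := Sum.map (M.sm g) (M.sm g)

theorem ctr_iL (g : G) (c : M.X →₀ ℤ) : (iL M c).mapDomain (csm g) = iL M (M.tr g c) := by
  have : (Finsupp.lmapDomain ℤ ℤ (csm g)).comp (iL M) = (iL M).comp (M.tr g) :=
    lin_ext fun x => by simp [csm]
  exact LinearMap.congr_fun this c

theorem ctr_iR (g : G) (c : M.X →₀ ℤ) : (iR M c).mapDomain (csm g) = iR M (M.tr g c) := by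
  have : (Finsupp.lmapDomain ℤ ℤ (csm g)).comp (iR M) = (iR M).comp (M.tr g) :=
    lin_ext fun x => by simp [csm]
  exact LinearMap.congr_fun this c

theorem iL_supp {s : Set M.X} {t : Set (M.X ⊕ M.X)} (h : ∀ x ∈ s, Sum.inl x ∈ t)
    {c : M.X →₀ ℤ} (hc : c ∈ Finsupp.supported ℤ ℤ s) : iL M c ∈ Finsupp.supported ℤ ℤ t :=
  lin_mem_of _ _ (fun x hx => by
    rw [iL_single]; exact Finsupp.single_mem_supported ℤ 1 (h x hx)) c hc

theorem iR_supp {s : Set M.X} {t : Set (M.X ⊕ M.X)} (h : ∀ x ∈ s, Sum.inr x ∈ t)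
    {c : M.X →₀ ℤ} (hc : c ∈ Finsupp.supported ℤ ℤ s) : iR M c ∈ Finsupp.supported ℤ ℤ t :=
  lin_mem_of _ _ (fun x hx => by
    rw [iR_single]; exact Finsupp.single_mem_supported ℤ 1 (h x hx)) c hc

/-- The cone. -/
@[reducible] noncomputable def Cone : PCx.{u, v} G where
  X := M.X ⊕ M.X
  sm := csm
  sm_one x := by rcases x with x | x <;> simp [csm, M.sm_one]
  sm_mul g h x := by rcases x with x | x <;> simp [csm, M.sm_mul]
  deg := cdeg
  deg_sm g x := by rcases x with x | x <;> simp [csm, cdeg, M.deg_sm]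
  bd := cbd P
  bd_sm g x := by
    rcases x with x | x
    · change iL M (M.bd (M.sm g x)) = (iL M (M.bd x)).mapDomain (csm g)
      rw [ctr_iL, M.bd_sm]; rfl
    · have h := map_sub (Finsupp.lmapDomain ℤ ℤ (csm (M := M) g))
        (iL M (single x 1 - single (P.p x) 1)) (iR M (M.bd x))
      refine Eq.trans ?_ h.symm
      change iL M (single (M.sm g x) 1 - single (P.p (M.sm g x)) 1) - iR M (M.bd (M.sm g x)) =
        (iL M (single x 1 - single (P.p x) 1)).mapDomain (csm g) -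
        (iR M (M.bd x)).mapDomain (csm g)
      rw [ctr_iL, ctr_iR, M.bd_sm, P.sm, map_sub (M.tr g), M.tr_single, M.tr_single]; rfl
  bd_deg x y hy := by
    rcases x with x | x
    · have h : iL M (M.bd x) ∈ Finsupp.supported ℤ ℤ {y : M.X ⊕ M.X | cdeg y + 1 = M.deg x} :=
        iL_supp (s := {y | M.deg y + 1 = M.deg x}) (fun y hy => hy)
          ((Finsupp.mem_supported ℤ _).2 fun y hy => M.bd_deg x y hy)
      exact (Finsupp.mem_supported ℤ _).1 h hy
    · have h1 : iL M (single x 1 - single (P.p x) 1) ∈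
          Finsupp.supported ℤ ℤ {y : M.X ⊕ M.X | cdeg y + 1 = M.deg x + 1} :=
        iL_supp (s := {y | M.deg y = M.deg x}) (fun y hy => by
          have hy' : M.deg y = M.deg x := hy
          change M.deg y + 1 = M.deg x + 1
          rw [hy'])
          (Submodule.sub_mem _ (Finsupp.single_mem_supported ℤ 1 rfl)
            (Finsupp.single_mem_supported ℤ 1 (P.deg x)))
      have h2 : iR M (M.bd x) ∈
          Finsupp.supported ℤ ℤ {y : M.X ⊕ M.X | cdeg y + 1 = M.deg x + 1} :=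
        iR_supp (s := {y | M.deg y + 1 = M.deg x}) (fun y hy => by
          have hy' : M.deg y + 1 = M.deg x := hy
          change M.deg y + 1 + 1 = M.deg x + 1
          rw [hy'])
          ((Finsupp.mem_supported ℤ _).2 fun y hy => M.bd_deg x y hy)
      exact (Finsupp.mem_supported ℤ _).1 (Submodule.sub_mem _ h1 h2) hy
  bd_bd x := by
    change cD P (cbd P x) = 0
    rcases x with x | x
    · change cD P (iL M (M.bd x)) = 0
      rw [cD_iL]
      have : M.D (M.bd x) = 0 := M.bd_bd x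
      rw [this, map_zero]
    · change cD P (iL M (single x 1 - single (P.p x) 1) - iR M (M.bd x)) = 0
      have : M.D (M.bd x) = 0 := M.bd_bd x
      rw [map_sub, cD_iL, cD_iR, this, map_zero, sub_zero, map_sub, M.D_single, M.D_single,
        one_smul, one_smul, P.bd]
      change iL M (M.bd x - P.L (M.bd x)) - iL M (M.bd x - P.L (M.bd x)) = 0
      rw [sub_self]
  ep := cep
  ep_sm g x := by rcases x with x | x <;> simp [csm, cep, M.ep_sm]
  ep_deg x hx := by
    rcases x with x | x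
    · exact M.ep_deg x hx
    · rfl
  ep_bd x := by
    change cE (cbd P x) = 0
    rcases x with x | x
    · change cE (iL M (M.bd x)) = 0
      rw [cE_iL]; exact M.ep_bd x
    · change cE (iL M (single x 1 - single (P.p x) 1) - iR M (M.bd x)) = 0
      rw [map_sub, cE_iL, cE_iR, map_sub, M.E_single, M.E_single, P.ep]; simp

/-- the left component -/
noncomputable def prA : (M.X ⊕ M.X →₀ ℤ) →ₗ[ℤ] (M.X →₀ ℤ) :=
  Finsupp.linearCombination ℤ (Sum.elim (fun x => single x 1) (fun _ => 0))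

/-- the right component -/
noncomputable def prB : (M.X ⊕ M.X →₀ ℤ) →ₗ[ℤ] (M.X →₀ ℤ) :=
  Finsupp.linearCombination ℤ (Sum.elim (fun _ => 0) (fun x => single x 1))

theorem prAB (z : M.X ⊕ M.X →₀ ℤ) : z = iL M (prA z) + iR M (prB z) := by
  have : LinearMap.id = (iL M).comp prA + (iR M).comp prB := lin_ext fun x => by
    rcases x with x | x <;> simp [prA, prB]
  exact LinearMap.congr_fun this z

theorem prA_iL (c : M.X →₀ ℤ) : prA (iL M c) = c := by
  have : prA.comp (iL M) = LinearMap.id := lin_ext fun x => by simp [prA]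
  exact LinearMap.congr_fun this c

theorem prA_iR (c : M.X →₀ ℤ) : prA (iR M c) = 0 := by
  have : prA.comp (iR M) = 0 := lin_ext fun x => by simp [prA]
  exact LinearMap.congr_fun this c

theorem prB_iL (c : M.X →₀ ℤ) : prB (iL M c) = 0 := by
  have : prB.comp (iL M) = 0 := lin_ext fun x => by simp [prB]
  exact LinearMap.congr_fun this c

theorem prB_iR (c : M.X →₀ ℤ) : prB (iR M c) = c := by
  have : prB.comp (iR M) = LinearMap.id := lin_ext fun x => by simp [prB]
  exact LinearMap.congr_fun this c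



theorem prA_mem {s : Set (M.X ⊕ M.X)} {z : M.X ⊕ M.X →₀ ℤ} (hz : z ∈ Finsupp.supported ℤ ℤ s) :
    prA z ∈ Finsupp.supported ℤ ℤ (Sum.inl ⁻¹' s) :=
  lin_mem_of _ _ (fun x hx => by
    rcases x with x | x
    · have : prA (single (Sum.inl x) 1 : M.X ⊕ M.X →₀ ℤ) = single x 1 := by simp [prA]
      rw [this]
      exact Finsupp.single_mem_supported ℤ 1 hx
    · have : prA (single (Sum.inr x) 1 : M.X ⊕ M.X →₀ ℤ) = 0 := by simp [prA]
      rw [this]; exact Submodule.zero_mem _) z hz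

theorem prB_mem {s : Set (M.X ⊕ M.X)} {z : M.X ⊕ M.X →₀ ℤ} (hz : z ∈ Finsupp.supported ℤ ℤ s) :
    prB z ∈ Finsupp.supported ℤ ℤ (Sum.inr ⁻¹' s) :=
  lin_mem_of _ _ (fun x hx => by
    rcases x with x | x
    · have : prB (single (Sum.inl x) 1 : M.X ⊕ M.X →₀ ℤ) = 0 := by simp [prB]
      rw [this]; exact Submodule.zero_mem _
    · have : prB (single (Sum.inr x) 1 : M.X ⊕ M.X →₀ ℤ) = single x 1 := by simp [prB]
      rw [this]
      exact Finsupp.single_mem_supported ℤ 1 hx) z hz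

theorem inl_orb {T : Set (M.X ⊕ M.X)} {x : M.X} (h : Sum.inl x ∈ (Cone P).orb T) :
    x ∈ M.orb (Sum.inl ⁻¹' T) := by
  obtain ⟨y, hy, g, e⟩ := h
  rcases y with y | y
  · have e' : Sum.inl x = Sum.inl (M.sm g y) := e
    exact ⟨y, hy, g, Sum.inl_injective e'⟩
  · have e' : Sum.inl x = Sum.inr (M.sm g y) := e
    cases e'

theorem inr_orb {T : Set (M.X ⊕ M.X)} {x : M.X} (h : Sum.inr x ∈ (Cone P).orb T) :
    x ∈ M.orb (Sum.inr ⁻¹' T) := by
  obtain ⟨y, hy, g, e⟩ := h
  rcases y with y | y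
  · have e' : Sum.inr x = Sum.inl (M.sm g y) := e
    cases e'
  · have e' : Sum.inr x = Sum.inr (M.sm g y) := e
    exact ⟨y, hy, g, Sum.inr_injective e'⟩

theorem iL_Bs {T : Set M.X} {c : M.X →₀ ℤ} (hc : c ∈ M.Bs T) :
    iL M c ∈ (Cone P).Bs (Sum.inl '' T) :=
  iL_supp (fun x hx => by
    obtain ⟨y, hy, g, rfl⟩ := hx
    exact ⟨Sum.inl y, ⟨y, hy, rfl⟩, g, rfl⟩) hc

theorem iR_Bs {T : Set M.X} {c : M.X →₀ ℤ} (hc : c ∈ M.Bs T) :
    iR M c ∈ (Cone P).Bs (Sum.inr '' T) :=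
  iR_supp (fun x hx => by
    obtain ⟨y, hy, g, rfl⟩ := hx
    exact ⟨Sum.inr y, ⟨y, hy, rfl⟩, g, rfl⟩) hc

theorem iL_Dg {n : ℕ} {c : M.X →₀ ℤ} (hc : c ∈ M.Dg n) : iL M c ∈ (Cone P).Dg n :=
  iL_supp (fun _ hx => hx) hc

theorem iR_Dg {n : ℕ} {c : M.X →₀ ℤ} (hc : c ∈ M.Dg n) : iR M c ∈ (Cone P).Dg (n + 1) :=
  iR_supp (fun x hx => by
    have hx' : M.deg x = n := hx
    change M.deg x + 1 = n + 1
    rw [hx']) hc

end Cone

end Crest.Agent.R185.Null
private theorem rz_6109d77fb6 : type_of% @_root_.Crest.Agent.R185.Null.cbd.eq_1 := @_root_.Crest.Agent.R185.Null.cbd.eq_1 -- L123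
private theorem rz_dbca59bdc2 : type_of% @_root_.Crest.Agent.R185.Null.cdeg.eq_1 := @_root_.Crest.Agent.R185.Null.cdeg.eq_1 -- L167
private theorem rz_efd1890512 : type_of% @_root_.Crest.Agent.R185.Null.cep.eq_1 := @_root_.Crest.Agent.R185.Null.cep.eq_1 -- L142
end

-- ▼ part R185/Null9
section

/-!
# R185, null calculus, part 9: the mapping torus theorem
-/

set_option autoImplicit false

namespace Crest.Agent.R185.Null

open Finsupp

universe u v w u' v' w'

/-- All entries satisfy `P`. -/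
def AllP {O : Type v} (P : O → Prop) : Set (O × List O) := {x | P x.1 ∧ ∀ y ∈ x.2, P y}

theorem sbd_allP {O : Type v} (P : O → Prop) (l : List O) (g : O) (hg : P g) (hl : ∀ y ∈ l, P y) :
    sbd l g ∈ Finsupp.supported ℤ ℤ (AllP P) := by
  induction l generalizing g with
  | nil => simp [sbd]
  | cons h l ih =>
    rw [sbd_eq]
    have hh : P h := hl h (by simp)
    have hl' : ∀ y ∈ l, P y := fun y hy => hl y (by simp [hy])
    refine Submodule.sub_mem _ (Submodule.sub_mem _ ?_ ?_) (Submodule.smul_mem _ _ ?_)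
    · exact Finsupp.single_mem_supported ℤ 1 ⟨hh, hl'⟩
    · refine lin_mem_of _ _ (fun x hx => ?_) _ (ih h hh hl')
      rw [cn_single]
      refine Finsupp.single_mem_supported ℤ 1 ⟨hg, fun y hy => ?_⟩
      rcases List.mem_cons.1 hy with rfl | hy
      · exact hx.1
      · exact hx.2 y hy
    · exact Finsupp.single_mem_supported ℤ 1 ⟨hg, fun y hy => absurd hy (by simp)⟩

section Torus

variable {Γ : Type u} [Group Γ] {U : Type u} [Group U] (ι : U →* Γ)

/-- Tuples inside one left coset. -/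
def CosS : Set (Γ × List Γ) := {x | ∀ y ∈ x.2, x.1⁻¹ * y ∈ ι.range}

theorem allP_cos (g : Γ) (x : Γ × List Γ) (hx : x ∈ AllP (fun y => g⁻¹ * y ∈ ι.range)) :
    x ∈ CosS ι := by
  intro y hy
  have h1 := hx.1
  have h2 := hx.2 y hy
  have : x.1⁻¹ * y = (g⁻¹ * x.1)⁻¹ * (g⁻¹ * y) := by group
  rw [this]
  exact mul_mem (inv_mem h1) h2

theorem cos_allP (x : Γ × List Γ) (hx : x ∈ CosS ι) :
    x ∈ AllP (fun y => x.1⁻¹ * y ∈ ι.range) := by
  refine ⟨?_, hx⟩
  change x.1⁻¹ * x.1 ∈ ι.range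
  rw [inv_mul_cancel]; exact one_mem _

theorem cosSub : IsSub (Std Γ).toPCx (CosS ι) where
  sm g x hx := by
    intro y hy
    have hy' : y ∈ x.2.map (g • ·) := hy
    rw [List.mem_map] at hy'
    obtain ⟨z, hz, rfl⟩ := hy'
    have := hx z hz
    change (g * x.1)⁻¹ * (g * z) ∈ _
    have e : (g * x.1)⁻¹ * (g * z) = x.1⁻¹ * z := by group
    rwa [e]
  bd x hx := by
    have h := cos_allP ι x hx
    exact Finsupp.supported_mono (allP_cos ι x.1) (sbd_allP _ x.2 x.1 h.1 h.2)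

/-- The complex of tuples inside cosets. -/
@[reducible] noncomputable def Mc : PCx.{u, u} Γ := (Std Γ).toPCx.sub (CosS ι) (cosSub ι)

/-- The coset of a tuple. -/
def cosOf (x : CosS ι) : Γ ⧸ ι.range := (x.1.1 : Γ ⧸ ι.range)

theorem res_mem {A : PCx.{u, v} Γ} {S : Set A.X} {c : A.X →₀ ℤ} {s : Set A.X}
    (hc : c ∈ Finsupp.supported ℤ ℤ s) :
    res A S c ∈ Finsupp.supported ℤ ℤ (Subtype.val ⁻¹' s) := by
  refine (Finsupp.mem_supported ℤ _).2 fun x hx => ?_
  have : x.1 ∈ c.support := by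
    rw [Finset.mem_coe, Finsupp.mem_support_iff] at hx
    rw [Finsupp.mem_support_iff]
    exact hx
  exact (Finsupp.mem_supported ℤ _).1 hc this

theorem Mc_D_class (x : CosS ι) :
    (Mc ι).D (single x 1) ∈ Finsupp.supported ℤ ℤ {y | cosOf ι y = cosOf ι x} := by
  have h := cos_allP ι x.1 x.2
  have h1 := res_mem (A := (Std Γ).toPCx) (S := CosS ι) (sbd_allP _ x.1.2 x.1.1 h.1 h.2)
  have e : (Mc ι).D (single x 1) = res (Std Γ).toPCx (CosS ι) (sbd x.1.2 x.1.1) :=
    ((Mc ι).D_single x 1).trans (one_smul _ _)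
  rw [e]
  refine Finsupp.supported_mono ?_ h1
  intro y hy
  have hy1 : x.1.1⁻¹ * y.1.1 ∈ ι.range := hy.1
  exact (QuotientGroup.eq.2 hy1).symm

variable (t : Γ) (ψ : U →* U) (ht : ∀ u, t * ι u * t⁻¹ = ι (ψ u))

include ht in
theorem cos_shift (x : Γ × List Γ) (hx : x ∈ CosS ι) : mapX (· * t⁻¹) x ∈ CosS ι := by
  intro y hy
  have hy' : y ∈ x.2.map (· * t⁻¹) := hy
  rw [List.mem_map] at hy'
  obtain ⟨z, hz, rfl⟩ := hy'
  obtain ⟨u, hu⟩ := hx z hz
  change (x.1 * t⁻¹)⁻¹ * (z * t⁻¹) ∈ _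
  have e : (x.1 * t⁻¹)⁻¹ * (z * t⁻¹) = t * (x.1⁻¹ * z) * t⁻¹ := by group
  rw [e, ← hu, ht]
  exact ⟨_, rfl⟩

/-- Right multiplication by `t⁻¹`. -/
noncomputable def shiftB : BMap (Mc ι) where
  p x := ⟨mapX (· * t⁻¹) x.1, cos_shift ι t ψ ht x.1 x.2⟩
  sm g x := by
    apply Subtype.ext
    change mapX (· * t⁻¹) (smX g x.1) = smX g (mapX (· * t⁻¹) x.1)
    simp [mapX, smX, mul_assoc]
  deg x := by
    change (x.1.2.map (· * t⁻¹)).length = x.1.2.length
    simp
  bd x := by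
    apply inc_inj (Std Γ).toPCx (CosS ι)
    have e1 := inc_lift (cosSub ι) ⟨mapX (· * t⁻¹) x.1, cos_shift ι t ψ ht x.1 x.2⟩
    have e2 := inc_lift (cosSub ι) x
    refine e1.trans ?_
    have e3 : ∀ c : CosS ι →₀ ℤ, inc (Std Γ).toPCx (CosS ι)
        (c.mapDomain fun x => ⟨mapX (· * t⁻¹) x.1, cos_shift ι t ψ ht x.1 x.2⟩) =
        (inc (Std Γ).toPCx (CosS ι) c).mapDomain (mapX (· * t⁻¹)) := by
      intro c
      change Finsupp.mapDomain _ _ = Finsupp.mapDomain _ (Finsupp.mapDomain _ _)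
      rw [← Finsupp.mapDomain_comp, ← Finsupp.mapDomain_comp]
      rfl
    refine Eq.trans ?_ (e3 _).symm
    rw [e2]
    exact sbd_map (· * t⁻¹) x.1.2 x.1.1
  ep x := by
    change sep (mapX (· * t⁻¹) x.1) = sep x.1
    simp [sep, mapX]

/-- The chain map `Std U → Mc`. -/
noncomputable def Jm : CMap ι (Std U).toPCx (Mc ι) :=
  (stdMap ι).cod (CosS ι) (cosSub ι) (fun x => by
    have e : (stdMap ι).F (single x 1) = single (mapX ι x) 1 := simpMap_single _ _ _ x 1
    rw [e]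
    refine Finsupp.single_mem_supported ℤ 1 ?_
    intro y hy
    have hy' : y ∈ x.2.map ι := hy
    rw [List.mem_map] at hy'
    obtain ⟨z, -, rfl⟩ := hy'
    exact ⟨x.1⁻¹ * z, by simp [mapX]⟩)

theorem inc_Jm (c : U × List U →₀ ℤ) :
    inc (Std Γ).toPCx (CosS ι) ((Jm ι).F c) = c.mapDomain (mapX ι) := by
  unfold Jm
  rw [CMap.inc_cod]
  rfl

theorem inc_shift (c : CosS ι →₀ ℤ) : inc (Std Γ).toPCx (CosS ι) ((shiftB ι t ψ ht).L c) =
    (inc (Std Γ).toPCx (CosS ι) c).mapDomain (mapX (· * t⁻¹)) := by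
  change Finsupp.mapDomain _ (Finsupp.mapDomain _ _) = Finsupp.mapDomain _ (Finsupp.mapDomain _ _)
  rw [← Finsupp.mapDomain_comp, ← Finsupp.mapDomain_comp]
  rfl

theorem stdMap_apply {G : Type u} [Group G] {H : Type v} [Group H] (φ : G →* H)
    (c : G × List G →₀ ℤ) : (stdMap φ).F c = c.mapDomain (mapX φ) := rfl

theorem shift_Jm (c : U × List U →₀ ℤ) : (shiftB ι t ψ ht).L ((Jm ι).F c) =
    (Mc ι).tr t⁻¹ ((Jm ι).F ((stdMap ψ).F c)) := by
  apply inc_inj (Std Γ).toPCx (CosS ι)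
  rw [inc_shift, inc_Jm]
  refine Eq.trans ?_ (sub_tr (cosSub ι) t⁻¹ _).symm
  rw [inc_Jm, stdMap_apply, ← Finsupp.mapDomain_comp, ← Finsupp.mapDomain_comp]
  change _ = Finsupp.mapDomain _ (Finsupp.mapDomain _ _)
  rw [← Finsupp.mapDomain_comp]
  congr 1
  funext x
  have hh : ∀ u, ι u * t⁻¹ = t⁻¹ * ι (ψ u) := fun u => by rw [← ht]; group
  change (ι x.1 * t⁻¹, (x.2.map ι).map (· * t⁻¹)) = (t⁻¹ * ι (ψ x.1), ((x.2.map ψ).map ι).map _)
  rw [hh, List.map_map, List.map_map, List.map_map]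
  congr 1
  refine List.map_congr_left fun u _ => ?_
  exact hh u

theorem pow_shift_Jm (N : ℕ) (c : U × List U →₀ ℤ) :
    ((shiftB ι t ψ ht).L ^ N : Module.End ℤ _) ((Jm ι).F c) =
      (Mc ι).tr (t⁻¹ ^ N) ((Jm ι).F ((stdMap (ipow ψ N)).F c)) := by
  induction N with
  | zero =>
    rw [pow_zero, pow_zero, PCx.tr_one]
    have : (stdMap (ipow ψ 0)).F c = c := by
      rw [stdMap_apply]
      have : mapX (ipow ψ 0) = id := by
        funext x
        simp [mapX, ipow]
      rw [this, Finsupp.mapDomain_id]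
    rw [this]; rfl
  | succ N ih =>
    rw [pow_succ', Module.End.mul_apply, ih, BMap.L_tr, shift_Jm, ← PCx.tr_mul, ← pow_succ]
    congr 2
    rw [stdMap_apply, stdMap_apply, stdMap_apply, ← Finsupp.mapDomain_comp]
    congr 1
    funext x
    change (ψ ((ipow ψ N) x.1), (x.2.map _).map _) = _
    rw [List.map_map]
    rfl

open Classical in
/-- A section of `ι` on its range. -/
noncomputable def secι (γ : Γ) : U := if h : ∃ u, ι u = γ then h.choose else 1

theorem ι_sec {γ : Γ} (h : γ ∈ ι.range) : ι (secι ι γ) = γ := by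
  classical
  have h' : ∃ u, ι u = γ := h
  unfold secι
  rw [dif_pos h']
  exact h'.choose_spec

theorem sec_mul (hι : Function.Injective ι) {a b : Γ} (ha : a ∈ ι.range) (hb : b ∈ ι.range) :
    secι ι (a * b) = secι ι a * secι ι b := by
  apply hι
  rw [ι_sec ι (mul_mem ha hb), map_mul, ι_sec ι ha, ι_sec ι hb]

/-- Tuples inside `U`. -/
def InU : Set (CosS ι) := {x | x.1.1 ∈ ι.range}

include ht in
/-- Key lemma on the coset `U`. -/
theorem key_in (hι : Function.Injective ι) {n N : ℕ} (hN : IsNull (ipow ψ N) n)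
    (T : Set (CosS ι)) (hT : T.Finite) : ∃ T' : Set (CosS ι), T'.Finite ∧
      ∀ b ∈ (Mc ι).Dg n, b ∈ (Mc ι).Bs T → (Mc ι).D b = 0 → (Mc ι).E b = 0 →
        b ∈ Finsupp.supported ℤ ℤ (InU ι) →
        ((shiftB ι t ψ ht).L ^ N : Module.End ℤ _) b ∈ (Mc ι).Bo n T' := by
  classical
  set T2 : Set (U × List U) :=
    (fun x : CosS ι => ((1 : U), x.1.2.map fun y => secι ι (x.1.1⁻¹ * y))) '' T with hT2
  have hT2f : T2.Finite := hT.image _
  obtain ⟨T3, hT3, k3⟩ := hN.kill (Std_acyclic U) (stdMap (ipow ψ N)) T2 hT2f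
  obtain ⟨T4, hT4, k4⟩ := (Jm ι).bo T3 hT3
  refine ⟨T4, hT4, fun b hb1 hb2 hb3 hb4 hb5 => ?_⟩
  set c : U × List U →₀ ℤ := (inc (Std Γ).toPCx (CosS ι) b).mapDomain (mapX (secι ι)) with hc
  have hJ : (Jm ι).F c = b := by
    apply inc_inj (Std Γ).toPCx (CosS ι)
    rw [inc_Jm, hc, ← Finsupp.mapDomain_comp]
    have e : inc (Std Γ).toPCx (CosS ι) b ∈ Finsupp.supported ℤ ℤ
        (AllP (fun y : Γ => y ∈ ι.range)) := by
      refine lin_mem_of _ _ (fun x hx => ?_) b hb5
      rw [inc_single]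
      refine Finsupp.single_mem_supported ℤ 1 ⟨hx, fun y hy => ?_⟩
      have h1 := x.2 y hy
      have h2 : x.1.1 ∈ ι.range := hx
      have : y = x.1.1 * (x.1.1⁻¹ * y) := by group
      rw [this]; exact mul_mem h2 h1
    have := lin_ext_on (f := Finsupp.lmapDomain ℤ ℤ (mapX ι ∘ mapX (secι ι)))
      (g := LinearMap.id) _ (fun x hx => ?_) _ e
    · exact this
    · rw [Finsupp.lmapDomain_apply, Finsupp.mapDomain_single, LinearMap.id_apply]
      congr 1
      refine Prod.ext (ι_sec ι hx.1) ?_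
      change (x.2.map (secι ι)).map ι = x.2
      rw [List.map_map]
      conv_rhs => rw [← List.map_id x.2]
      exact List.map_congr_left fun y hy => ι_sec ι (hx.2 y hy)
  have hJi : Function.Injective (Jm ι).F := by
    intro a a' h
    have h' := congrArg (inc (Std Γ).toPCx (CosS ι)) h
    rw [inc_Jm, inc_Jm] at h'
    refine Finsupp.mapDomain_injective ?_ h'
    intro x y hxy
    have h1 : ι x.1 = ι y.1 := congrArg Prod.fst hxy
    have h2 : x.2.map ι = y.2.map ι := congrArg Prod.snd hxy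
    exact Prod.ext (hι h1) (List.map_injective_iff.2 hι h2)
  have hcy : c ∈ (Std U).Cy n T2 := by
    refine (Std U).mem_Cy.2 ⟨?_, ?_, ?_, ?_⟩
    · -- degree
      refine (Finsupp.mem_supported ℤ _).2 fun x hx => ?_
      have := Finsupp.mapDomain_support hx
      rw [Finset.mem_image] at this
      obtain ⟨y, hy, rfl⟩ := this
      have hy1 := Finsupp.mapDomain_support hy
      rw [Finset.mem_image] at hy1
      obtain ⟨z, hz, rfl⟩ := hy1
      have := (Finsupp.mem_supported ℤ _).1 hb1 hz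
      have h' : z.1.2.length = n := this
      change (z.1.2.map _).length = n
      simpa using h'
    · refine (Finsupp.mem_supported ℤ _).2 fun x hx => ?_
      have := Finsupp.mapDomain_support hx
      rw [Finset.mem_image] at this
      obtain ⟨y, hy, rfl⟩ := this
      have hy1 := Finsupp.mapDomain_support hy
      rw [Finset.mem_image] at hy1
      obtain ⟨z, hz, rfl⟩ := hy1
      obtain ⟨x0, hx0, g, e⟩ := (Finsupp.mem_supported ℤ _).1 hb2 hz
      have hzU : z.1.1 ∈ ι.range := (Finsupp.mem_supported ℤ _).1 hb5 hz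
      subst e
      refine ⟨_, ⟨x0, hx0, rfl⟩, secι ι (g * x0.1.1), ?_⟩
      change (secι ι (g * x0.1.1), ((x0.1.2.map (g • ·)).map (secι ι))) =
        (secι ι (g * x0.1.1) * 1, (x0.1.2.map _).map _)
      rw [mul_one, List.map_map, List.map_map]
      congr 1
      refine List.map_congr_left fun y hy => ?_
      change secι ι (g * y) = secι ι (g * x0.1.1) * secι ι (x0.1.1⁻¹ * y)
      have hzU' : g * x0.1.1 ∈ ι.range := hzU
      rw [← sec_mul ι hι hzU' (x0.2 y hy)]
      congr 1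
      group
    · apply hJi
      rw [← (Jm ι).comm, hJ, hb3, map_zero]
    · have := (Jm ι).aug c
      rw [hJ, hb4] at this
      exact this.symm
  have h1 := k4 n _ (k3 c hcy)
  rw [← hJ, pow_shift_Jm]
  exact (Mc ι).tr_mem_Bo _ h1

include ht in
/-- Key lemma. -/
theorem key_all (hι : Function.Injective ι) {n N : ℕ} (hN : IsNull (ipow ψ N) n)
    (T : Set (CosS ι)) (hT : T.Finite) : ∃ T' : Set (CosS ι), T'.Finite ∧
      ∀ b ∈ (Mc ι).Dg n, b ∈ (Mc ι).Bs T → (Mc ι).D b = 0 →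
        (∀ i, (Mc ι).E (flt (cosOf ι) i b) = 0) →
        ((shiftB ι t ψ ht).L ^ N : Module.End ℤ _) b ∈ (Mc ι).Bo n T' := by
  classical
  obtain ⟨T', hT', k⟩ := key_in ι t ψ ht hι hN T hT
  refine ⟨T', hT', fun b hb1 hb2 hb3 hb4 => ?_⟩
  refine flt_induction (cosOf ι) ((shiftB ι t ψ ht).L ^ N : Module.End ℤ _) _ b fun i => ?_
  obtain ⟨g, rfl⟩ := QuotientGroup.mk_surjective i
  set bi := flt (cosOf ι) (g : Γ ⧸ ι.range) b with hbi
  have h1 : bi ∈ (Mc ι).Dg n := flt_mem' _ _ hb1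
  have h2 : bi ∈ (Mc ι).Bs T := flt_mem' _ _ hb2
  have h3 : (Mc ι).D bi = 0 := by
    rw [hbi, flt_comm (cosOf ι) _ (Mc ι).D (Mc_D_class ι), hb3, map_zero]
  have h4 : (Mc ι).E bi = 0 := hb4 _
  have h5 : bi ∈ Finsupp.supported ℤ ℤ {x | cosOf ι x = (g : Γ ⧸ ι.range)} :=
    Finsupp.supported_mono Set.inter_subset_left (flt_mem (cosOf ι) _ hb1)
  have h6 : (Mc ι).tr g⁻¹ bi ∈ Finsupp.supported ℤ ℤ (InU ι) := by
    refine lin_mem_of _ _ (fun x hx => ?_) _ h5
    rw [PCx.tr_single]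
    refine Finsupp.single_mem_supported ℤ 1 ?_
    have hx' : (x.1.1 : Γ ⧸ ι.range) = (g : Γ ⧸ ι.range) := hx
    exact QuotientGroup.eq.1 hx'.symm
  have h7 := k _ ((Mc ι).tr_mem_Dg g⁻¹ h1) ((Mc ι).tr_mem_Bs g⁻¹ h2)
    (by rw [PCx.D_tr, h3, map_zero]) (by rw [PCx.E_tr, h4]) h6
  have hcomm : ∀ (N : ℕ) (c : CosS ι →₀ ℤ), ((shiftB ι t ψ ht).L ^ N : Module.End ℤ _)
      ((Mc ι).tr g⁻¹ c) = (Mc ι).tr g⁻¹ (((shiftB ι t ψ ht).L ^ N : Module.End ℤ _) c) := by
    intro N
    induction N with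
    | zero => intro c; rfl
    | succ N ih =>
      intro c
      rw [pow_succ, Module.End.mul_apply, Module.End.mul_apply, BMap.L_tr, ih]
  rw [hcomm] at h7
  have h8 := (Mc ι).tr_mem_Bo g h7
  rwa [PCx.tr_tr_inv] at h8

end Torus

end Crest.Agent.R185.Null
end

-- ▼ part R185/Null10
section

/-!
# R185, null calculus, part 10: the mapping torus theorem, main proof
-/

set_option autoImplicit false

namespace Crest.Agent.R185.Null

open Finsupp

universe u v w u' v' w'

section TorusMain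

variable {Γ : Type u} [Group Γ] {U : Type u} [Group U] (ι : U →* Γ) (t : Γ) (ψ : U →* U)
  (ht : ∀ u, t * ι u * t⁻¹ = ι (ψ u))

/-- The mapping torus complex. -/
@[reducible] noncomputable def Tor : PCx.{u, u} Γ := Cone (shiftB ι t ψ ht)

/-- Freeness. -/
@[reducible] noncomputable def FTor : FCx.{u, u} Γ :=
  { Tor ι t ψ ht with
    base := Sum.elim (fun x => x.1.1) (fun x => x.1.1)
    base_sm := fun g x => by
      rcases x with x | x
      · rfl
      · rfl }

/-- Partial geometric sums of the shift. -/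
noncomputable def geo (N : ℕ) : Module.End ℤ (CosS ι →₀ ℤ) :=
  ∑ i ∈ Finset.range N, (shiftB ι t ψ ht).L ^ i

theorem geo_mul (N : ℕ) (c : CosS ι →₀ ℤ) :
    geo ι t ψ ht N (c - (shiftB ι t ψ ht).L c) =
      c - ((shiftB ι t ψ ht).L ^ N : Module.End ℤ _) c := by
  have h := geom_sum_mul_neg (R := Module.End ℤ (CosS ι →₀ ℤ)) (shiftB ι t ψ ht).L N
  have := LinearMap.congr_fun h c
  exact this

theorem geo_comm (N : ℕ) (f : Module.End ℤ (CosS ι →₀ ℤ))
    (hf : ∀ c, (shiftB ι t ψ ht).L (f c) = f ((shiftB ι t ψ ht).L c)) (c : CosS ι →₀ ℤ) :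
    geo ι t ψ ht N (f c) = f (geo ι t ψ ht N c) := by
  have h1 : Commute (shiftB ι t ψ ht).L f := LinearMap.ext hf
  have h2 : Commute (geo ι t ψ ht N) f :=
    Commute.sum_left _ _ _ fun i _ => h1.pow_left i
  exact LinearMap.congr_fun h2.eq c

theorem geo_mul' (N : ℕ) (c : CosS ι →₀ ℤ) :
    geo ι t ψ ht N c - (shiftB ι t ψ ht).L (geo ι t ψ ht N c) =
      c - ((shiftB ι t ψ ht).L ^ N : Module.End ℤ _) c := by
  rw [← geo_mul, map_sub, geo_comm ι t ψ ht N (shiftB ι t ψ ht).L (fun _ => rfl)]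

theorem geo_D (N : ℕ) (c : CosS ι →₀ ℤ) :
    geo ι t ψ ht N ((Mc ι).D c) = (Mc ι).D (geo ι t ψ ht N c) :=
  geo_comm ι t ψ ht N (Mc ι).D (fun c => (shiftB ι t ψ ht).L_D c) c

theorem geo_tr (N : ℕ) (g : Γ) (c : CosS ι →₀ ℤ) :
    geo ι t ψ ht N ((Mc ι).tr g c) = (Mc ι).tr g (geo ι t ψ ht N c) :=
  geo_comm ι t ψ ht N ((Mc ι).tr g) (fun c => (shiftB ι t ψ ht).L_tr g c) c

theorem geo_dg (N : ℕ) {n : ℕ} {c : CosS ι →₀ ℤ} (hc : c ∈ (Mc ι).Dg n) :
    geo ι t ψ ht N c ∈ (Mc ι).Dg n := by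
  unfold geo
  rw [LinearMap.sum_apply]
  refine Submodule.sum_mem _ fun i hi => ?_
  clear hi
  induction i with
  | zero => exact hc
  | succ i ih =>
    rw [pow_succ', Module.End.mul_apply]
    exact (shiftB ι t ψ ht).L_mem ih

theorem geo_bdd (N : ℕ) (T : Set (CosS ι)) (hT : T.Finite) :
    ∃ T' : Set (CosS ι), T'.Finite ∧ ∀ c ∈ (Mc ι).Bs T, geo ι t ψ ht N c ∈ (Mc ι).Bs T' :=
  Eqv.bdd (φ := MonoidHom.id Γ) (A := Mc ι) (B := Mc ι) (F := geo ι t ψ ht N)
    (fun g c => geo_tr ι t ψ ht N g c) T hT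

/-- All vertices are in one orbit. -/
theorem vertex_mem (T : Set (CosS ι)) (h1 : (⟨((1 : Γ), []), fun _ hy => absurd hy (by simp)⟩ :
    CosS ι) ∈ T) {c : CosS ι →₀ ℤ} (hc : c ∈ (Mc ι).Dg 0) : c ∈ (Mc ι).Bs T := by
  refine Finsupp.supported_mono ?_ hc
  rintro ⟨⟨g, l⟩, hx⟩ hd
  have hd' : l.length = 0 := hd
  have hl : l = [] := List.eq_nil_of_length_eq_zero hd'
  subst hl
  exact ⟨_, h1, g, Subtype.ext (Prod.ext (mul_one g).symm rfl)⟩

/-- the vertex `[γ]` -/
def vx (γ : Γ) : CosS ι := ⟨(γ, []), fun _ hy => absurd hy (by simp)⟩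

theorem vx_deg (γ : Γ) : (single (vx ι γ) 1 : CosS ι →₀ ℤ) ∈ (Mc ι).Dg 0 :=
  (Mc ι).single_mem_Dg rfl 1

theorem vx_E (γ : Γ) : (Mc ι).E (single (vx ι γ) 1 : CosS ι →₀ ℤ) = 1 :=
  ((Mc ι).E_single (vx ι γ) 1).trans (by rfl)

include ht in
/-- Degree zero. -/
theorem torus_zero (hι : Function.Injective ι)
    (hgen : ∀ γ : Γ, ∃ (a b : ℕ) (u : U), γ = t⁻¹ ^ a * ι u * t ^ b)
    (h0 : ∃ N, IsNull (ipow ψ N) 0) : BAc (Tor ι t ψ ht) 0 := by
  classical
  obtain ⟨N, hN⟩ := h0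
  obtain ⟨T4, hT4, k4⟩ := key_all ι t ψ ht hι hN {vx ι 1} (Set.finite_singleton _)
  set T' : Set (CosS ι ⊕ CosS ι) := {Sum.inr (vx ι 1)} ∪ Sum.inl '' T4 with hT'
  have hT'f : T'.Finite := (Set.finite_singleton _).union (hT4.image _)
  set B := (Tor ι t ψ ht).Bo 0 T' with hB
  set P := shiftB ι t ψ ht with hP
  -- boundaries of the cone edges
  have e1 : ∀ γ : Γ, iL (Mc ι) (single (vx ι γ) 1) - iL (Mc ι) (single (vx ι (γ * t⁻¹)) 1) ∈ B := by
    intro γ
    have h : (Tor ι t ψ ht).D (iR (Mc ι) (single (vx ι γ) 1)) =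
        iL (Mc ι) (single (vx ι γ) 1) - iL (Mc ι) (single (vx ι (γ * t⁻¹)) 1) := by
      refine (cD_iR P (single (vx ι γ) 1)).trans ?_
      rw [PCx.D_zero _ (vx_deg ι γ), map_zero, sub_zero, map_sub, BMap.L_single]
      rfl
    rw [← h]
    refine PCx.D_mem_Bo _ (iR_Dg P (vx_deg ι γ)) ?_
    have := iR_Bs P (vertex_mem ι {vx ι 1} (Set.mem_singleton _) (vx_deg ι γ))
    rw [Set.image_singleton] at this
    exact (Tor ι t ψ ht).Bs_mono Set.subset_union_left this
  have e2 : ∀ (k : ℕ) (γ : Γ),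
      iL (Mc ι) (single (vx ι γ) 1) - iL (Mc ι) (single (vx ι (γ * t⁻¹ ^ k)) 1) ∈ B := by
    intro k
    induction k with
    | zero => intro γ; rw [pow_zero, mul_one, sub_self]; exact Submodule.zero_mem _
    | succ k ih =>
      intro γ
      have h1 := ih γ
      have h2 := e1 (γ * t⁻¹ ^ k)
      have := Submodule.add_mem _ h1 h2
      rwa [sub_add_sub_cancel, mul_assoc, ← pow_succ] at this
  have eP : ∀ (k : ℕ) (γ : Γ), (P.L ^ k : Module.End ℤ _) (single (vx ι γ) 1) =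
      (single (vx ι (γ * t⁻¹ ^ k)) 1 : CosS ι →₀ ℤ) := by
    intro k
    induction k with
    | zero => intro γ; rw [pow_zero, pow_zero, mul_one]; rfl
    | succ k ih =>
      intro γ
      rw [pow_succ', Module.End.mul_apply, ih, BMap.L_single, pow_succ, ← mul_assoc]
      rfl
  have e3 : ∀ (γ : Γ) (u : U),
      iL (Mc ι) (single (vx ι γ) 1) - iL (Mc ι) (single (vx ι (γ * ι u)) 1) ∈ B := by
    intro γ u
    set b : CosS ι →₀ ℤ := single (vx ι γ) 1 - single (vx ι (γ * ι u)) 1 with hb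
    have hb1 : b ∈ (Mc ι).Dg 0 := Submodule.sub_mem _ (vx_deg ι _) (vx_deg ι _)
    have hcl : cosOf ι (vx ι (γ * ι u)) = cosOf ι (vx ι γ) := by
      refine (QuotientGroup.eq.2 ?_).symm
      change γ⁻¹ * (γ * ι u) ∈ ι.range
      rw [inv_mul_cancel_left]; exact ⟨u, rfl⟩
    have h4 := k4 b hb1 (vertex_mem ι {vx ι 1} (Set.mem_singleton _) hb1)
      ((Mc ι).D_zero hb1) (fun i => by
        rw [hb, map_sub, flt_single, flt_single, hcl]
        split_ifs with h
        · rw [map_sub, vx_E, vx_E, sub_self]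
        · simp)
    have h5 : iL (Mc ι) ((P.L ^ N : Module.End ℤ _) b) ∈ B := by
      obtain ⟨y, hy1, hy2, hy3⟩ := (Mc ι).mem_Bo.1 h4
      rw [← hy3]
      have : iL (Mc ι) ((Mc ι).D y) = (Tor ι t ψ ht).D (iL (Mc ι) y) := (cD_iL P y).symm
      rw [this]
      exact PCx.D_mem_Bo _ (iL_Dg P hy1)
        ((Tor ι t ψ ht).Bs_mono Set.subset_union_right (iL_Bs P hy2))
    rw [hb, map_sub, eP, eP, map_sub] at h5
    have h6 := e2 N γ
    have h7 := e2 N (γ * ι u)
    have := Submodule.sub_mem _ (Submodule.add_mem _ h6 h5) h7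
    have e : iL (Mc ι) (single (vx ι γ) 1) - iL (Mc ι) (single (vx ι (γ * t⁻¹ ^ N)) 1) +
        (iL (Mc ι) (single (vx ι (γ * t⁻¹ ^ N)) 1) -
          iL (Mc ι) (single (vx ι (γ * ι u * t⁻¹ ^ N)) 1)) -
        (iL (Mc ι) (single (vx ι (γ * ι u)) 1) -
          iL (Mc ι) (single (vx ι (γ * ι u * t⁻¹ ^ N)) 1)) =
        iL (Mc ι) (single (vx ι γ) 1) - iL (Mc ι) (single (vx ι (γ * ι u)) 1) := by abel
    rwa [e] at this
  have e4 : ∀ γ : Γ, iL (Mc ι) (single (vx ι γ) 1) - iL (Mc ι) (single (vx ι 1) 1) ∈ B := by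
    intro γ
    obtain ⟨a, b, u, rfl⟩ := hgen γ
    have h1 := e2 b (t⁻¹ ^ a * ι u * t ^ b)
    have h2 := e3 (t⁻¹ ^ a) u
    have h3 := e2 a 1
    have hh : t⁻¹ ^ a * ι u * t ^ b * t⁻¹ ^ b = t⁻¹ ^ a * ι u := by
      rw [inv_pow t b]; group
    rw [hh] at h1
    rw [one_mul] at h3
    have := Submodule.sub_mem _ (Submodule.sub_mem _ h1 h2) h3
    have e : iL (Mc ι) (single (vx ι (t⁻¹ ^ a * ι u * t ^ b)) 1) -
        iL (Mc ι) (single (vx ι (t⁻¹ ^ a * ι u)) 1) -
        (iL (Mc ι) (single (vx ι (t⁻¹ ^ a)) 1) -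
          iL (Mc ι) (single (vx ι (t⁻¹ ^ a * ι u)) 1)) -
        (iL (Mc ι) (single (vx ι 1) 1) - iL (Mc ι) (single (vx ι (t⁻¹ ^ a)) 1)) =
        iL (Mc ι) (single (vx ι (t⁻¹ ^ a * ι u * t ^ b)) 1) -
          iL (Mc ι) (single (vx ι 1) 1) := by abel
    rwa [e] at this
  intro T hT
  refine ⟨T', hT'f, fun z hz => ?_⟩
  rw [PCx.mem_Cy] at hz
  obtain ⟨hz1, -, -, hz4⟩ := hz
  have := lin_mem_of (f := LinearMap.id - (Tor ι t ψ ht).E.smulRight
    (iL (Mc ι) (single (vx ι 1) 1))) _ B (fun x hx => ?_) z hz1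
  · rw [LinearMap.sub_apply, LinearMap.smulRight_apply, hz4, zero_smul, sub_zero] at this
    exact this
  · rcases x with ⟨⟨g, l⟩, hx'⟩ | x
    · have hd' : l.length = 0 := hx
      have hl : l = [] := List.eq_nil_of_length_eq_zero hd'
      subst hl
      have h1 := e4 g
      rw [LinearMap.sub_apply, LinearMap.smulRight_apply, LinearMap.id_apply]
      have h2 : (Tor ι t ψ ht).E (single (Sum.inl ⟨(g, []), hx'⟩) 1) = 1 := by
        rw [PCx.E_single]; rfl
      rw [h2, one_smul]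
      rw [iL_single] at h1
      exact h1
    · exact absurd hx (Nat.succ_ne_zero _)

/-! ### Heights -/

section Height

variable (τ : Γ →* Multiplicative ℤ) (hτ : ∀ u, τ (ι u) = 1)

/-- Height of a coset. -/
noncomputable def hq (q : Γ ⧸ ι.range) : ℤ := Multiplicative.toAdd (τ q.out)

include hτ in
theorem hq_mk (g : Γ) : hq ι τ (g : Γ ⧸ ι.range) = Multiplicative.toAdd (τ g) := by
  unfold hq
  have h : ((g : Γ ⧸ ι.range).out : Γ ⧸ ι.range) = (g : Γ ⧸ ι.range) := Quotient.out_eq' _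
  obtain ⟨u, hu⟩ := QuotientGroup.eq.1 h
  have e : τ ((g : Γ ⧸ ι.range).out)⁻¹ * τ g = 1 := by
    rw [← map_mul, ← hu, hτ]
  rw [map_inv, inv_mul_eq_one] at e
  rw [e]

theorem flt_of_mem {X : Type v} {I : Type w} (κ : X → I) {i j : I} {c : X →₀ ℤ}
    (hc : c ∈ Finsupp.supported ℤ ℤ {x | κ x = j}) :
    (j = i → flt κ i c = c) ∧ (j ≠ i → flt κ i c = 0) := by
  constructor
  · intro h
    refine lin_ext_on (f := flt κ i) (g := LinearMap.id) _ (fun x hx => ?_) c hc
    have hx' : κ x = j := hx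
    rw [flt_single, if_pos (hx'.trans h)]; rfl
  · intro h
    refine lin_ext_on (f := flt κ i) (g := 0) _ (fun x hx => ?_) c hc
    have hx' : κ x = j := hx
    rw [flt_single, if_neg (fun e => h (hx'.symm.trans e))]; rfl

theorem cos_p (x : CosS ι) (g : Γ) (h : cosOf ι x = (g : Γ ⧸ ι.range)) :
    cosOf ι ((shiftB ι t ψ ht).p x) = ((g * t⁻¹ : Γ) : Γ ⧸ ι.range) := by
  obtain ⟨u, hu⟩ := QuotientGroup.eq.1 h
  refine QuotientGroup.eq.2 ?_
  change (x.1.1 * t⁻¹)⁻¹ * (g * t⁻¹) ∈ ι.range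
  have e : (x.1.1 * t⁻¹)⁻¹ * (g * t⁻¹) = t * (x.1.1⁻¹ * g) * t⁻¹ := by group
  rw [e, ← hu, ht]
  exact ⟨_, rfl⟩

include hτ in
/-- Coset augmentations vanish. -/
theorem coset_aug (hτt : τ t = Multiplicative.ofAdd 1) {a b : CosS ι →₀ ℤ}
    (h : (Mc ι).D a + (b - (shiftB ι t ψ ht).L b) = 0) (i : Γ ⧸ ι.range) :
    (Mc ι).E (flt (cosOf ι) i b) = 0 := by
  classical
  set P := shiftB ι t ψ ht with hP
  by_contra hne
  -- finite set of classes
  set J : Finset (Γ ⧸ ι.range) := b.support.image (cosOf ι) with hJ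
  set J' : Finset (Γ ⧸ ι.range) := J.filter (fun i => (Mc ι).E (flt (cosOf ι) i b) ≠ 0) with hJ'
  have hzero : ∀ i, i ∉ J → (Mc ι).E (flt (cosOf ι) i b) = 0 := by
    intro i hi
    have : flt (cosOf ι) i b = 0 := by
      have hb : b ∈ Finsupp.supported ℤ ℤ {x | cosOf ι x ≠ i} := by
        refine (Finsupp.mem_supported ℤ _).2 fun x hx => ?_
        intro e
        exact hi (by rw [← e]; exact Finset.mem_image_of_mem _ hx)
      refine lin_ext_on (f := flt (cosOf ι) i) (g := 0) _ (fun x hx => ?_) b hb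
      rw [flt_single, if_neg hx]; rfl
    rw [this, map_zero]
  have hJne : J'.Nonempty := ⟨i, Finset.mem_filter.2 ⟨by
    by_contra hi; exact hne (hzero i hi), hne⟩⟩
  obtain ⟨i0, hi0, hmax⟩ := Finset.exists_max_image J' (hq ι τ) hJne
  have hi0' := (Finset.mem_filter.1 hi0).2
  apply hi0'
  -- e(i0) computed through the shift
  have hb : b = P.L b - (Mc ι).D a := by
    rw [← sub_eq_zero]
    have : b - (P.L b - (Mc ι).D a) = (Mc ι).D a + (b - P.L b) := by abel
    rw [this, h]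
  have e1 : (Mc ι).E (flt (cosOf ι) i0 b) = (Mc ι).E (flt (cosOf ι) i0 (P.L b)) := by
    conv_lhs => rw [hb]
    rw [map_sub, map_sub, ← flt_comm (cosOf ι) _ (Mc ι).D (Mc_D_class ι), PCx.E_D, sub_zero]
  rw [e1, ← sum_flt (cosOf ι) b, map_sum, map_sum, map_sum]
  refine Finset.sum_eq_zero fun j hj => ?_
  obtain ⟨g, rfl⟩ := QuotientGroup.mk_surjective j
  have hj1 : flt (cosOf ι) (g : Γ ⧸ ι.range) b ∈
      Finsupp.supported ℤ ℤ {x | cosOf ι x = (g : Γ ⧸ ι.range)} :=
    Finsupp.supported_mono Set.inter_subset_left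
      (flt_mem (cosOf ι) _ ((Finsupp.mem_supported ℤ b).2 (Set.subset_univ _)))
  have hj2 : P.L (flt (cosOf ι) (g : Γ ⧸ ι.range) b) ∈
      Finsupp.supported ℤ ℤ {x | cosOf ι x = ((g * t⁻¹ : Γ) : Γ ⧸ ι.range)} := by
    refine lin_mem_of _ _ (fun x hx => ?_) _ hj1
    rw [BMap.L_single]
    exact Finsupp.single_mem_supported ℤ 1 (cos_p ι t ψ ht x g hx)
  by_cases hgi : ((g * t⁻¹ : Γ) : Γ ⧸ ι.range) = i0
  · rw [(flt_of_mem (cosOf ι) hj2).1 hgi, BMap.L_E]
    by_contra hne'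
    have hj' : (g : Γ ⧸ ι.range) ∈ J := by rw [hJ]; convert hj
    have hmem : (g : Γ ⧸ ι.range) ∈ J' := Finset.mem_filter.2 ⟨hj', hne'⟩
    have h1 := hmax _ hmem
    rw [← hgi, hq_mk ι τ hτ, hq_mk ι τ hτ, map_mul, map_inv, hτt, toAdd_mul, toAdd_inv,
      toAdd_ofAdd] at h1
    omega
  · rw [(flt_of_mem (cosOf ι) hj2).2 hgi, map_zero]

end Height

include ht in
/-- Positive degrees. -/
theorem torus_succ (hι : Function.Injective ι) (τ : Γ →* Multiplicative ℤ)
    (hτ : ∀ u, τ (ι u) = 1) (hτt : τ t = Multiplicative.ofAdd 1) (m : ℕ)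
    (hm : ∃ N, IsNull (ipow ψ N) m) (hm' : ∃ N, IsNull (ipow ψ N) (m + 1)) :
    BAc (Tor ι t ψ ht) (m + 1) := by
  classical
  obtain ⟨N, hN⟩ := hm
  obtain ⟨N', hN'⟩ := hm'
  set P := shiftB ι t ψ ht with hP
  intro T hT
  set Ta : Set (CosS ι) := Sum.inl ⁻¹' T with hTa
  set Tb : Set (CosS ι) := Sum.inr ⁻¹' T with hTb
  have hTaf : Ta.Finite := hT.preimage Sum.inl_injective.injOn
  have hTbf : Tb.Finite := hT.preimage Sum.inr_injective.injOn
  obtain ⟨T1, hT1, k1⟩ := key_all ι t ψ ht hι hN Tb hTbf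
  obtain ⟨T2, hT2, k2⟩ := geo_bdd ι t ψ ht N Ta hTaf
  obtain ⟨T3, hT3, k3⟩ := Eqv.bdd (φ := MonoidHom.id Γ) (A := Mc ι) (B := Mc ι) (F := P.L)
    (fun g c => P.L_tr g c) (T1 ∪ T2) (hT1.union hT2)
  obtain ⟨T4, hT4, k4⟩ := key_all ι t ψ ht hι hN' (Ta ∪ (T1 ∪ T2) ∪ T3)
    ((hTaf.union (hT1.union hT2)).union hT3)
  obtain ⟨T5, hT5, k5⟩ := geo_bdd ι t ψ ht N' (Ta ∪ (T1 ∪ T2) ∪ T3)
    ((hTaf.union (hT1.union hT2)).union hT3)
  refine ⟨Sum.inr '' T5 ∪ Sum.inl '' T4 ∪ Sum.inr '' (T1 ∪ T2),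
    ((hT5.image _).union (hT4.image _)).union ((hT1.union hT2).image _), fun z hz => ?_⟩
  rw [PCx.mem_Cy] at hz
  obtain ⟨hz1, hz2, hz3, -⟩ := hz
  set a : CosS ι →₀ ℤ := prA z with ha
  set b : CosS ι →₀ ℤ := prB z with hb
  have ha1 : a ∈ (Mc ι).Dg (m + 1) := prA_mem hz1
  have hb1 : b ∈ (Mc ι).Dg m :=
    Finsupp.supported_mono (fun x hx => Nat.succ_injective hx) (prB_mem hz1)
  have ha2 : a ∈ (Mc ι).Bs Ta :=
    Finsupp.supported_mono (fun x hx => inl_orb P hx) (prA_mem hz2)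
  have hb2 : b ∈ (Mc ι).Bs Tb :=
    Finsupp.supported_mono (fun x hx => inr_orb P hx) (prB_mem hz2)
  have hzab : z = iL (Mc ι) a + iR (Mc ι) b := prAB z
  have hDz : iL (Mc ι) ((Mc ι).D a) + (iL (Mc ι) (b - P.L b) - iR (Mc ι) ((Mc ι).D b)) = 0 := by
    rw [← cD_iL P, ← cD_iR P, ← map_add, ← hzab]
    exact hz3
  have hDb : (Mc ι).D b = 0 := by
    have := congrArg (prB (M := Mc ι)) hDz
    rw [map_add, map_sub, prB_iL, prB_iL, prB_iR, map_zero] at this
    simpa using this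
  have hDa : (Mc ι).D a + (b - P.L b) = 0 := by
    have := congrArg (prA (M := Mc ι)) hDz
    rw [map_add, map_sub, prA_iL, prA_iL, prA_iR, map_zero, sub_zero] at this
    exact this
  -- fill b
  obtain ⟨y, hy1, hy2, hy3⟩ := (Mc ι).mem_Bo.1 (k1 b hb1 hb2 hDb
    (fun i => coset_aug ι t ψ ht τ hτ hτt hDa i))
  set y' : CosS ι →₀ ℤ := y - geo ι t ψ ht N a with hy'
  have hy'1 : y' ∈ (Mc ι).Dg (m + 1) := Submodule.sub_mem _ hy1 (geo_dg ι t ψ ht N ha1)
  have hy'2 : y' ∈ (Mc ι).Bs (T1 ∪ T2) := Submodule.sub_mem _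
    ((Mc ι).Bs_mono Set.subset_union_left hy2)
    ((Mc ι).Bs_mono Set.subset_union_right (k2 a ha2))
  have hDy' : (Mc ι).D y' = b := by
    have e1 := geo_mul ι t ψ ht N b
    have e2 : b - P.L b = -(Mc ι).D a := eq_neg_of_add_eq_zero_right hDa
    rw [← hP, e2, map_neg, geo_D, ← hy3] at e1
    rw [hy', map_sub]
    have e3 : (Mc ι).D y = b + (Mc ι).D (geo ι t ψ ht N a) := by
      rw [eq_sub_iff_add_eq] at e1
      rw [← e1]; abel
    rw [e3]; abel
  -- the remaining part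
  set a' : CosS ι →₀ ℤ := a + (y' - P.L y') with ha'
  have ha'1 : a' ∈ (Mc ι).Dg (m + 1) :=
    Submodule.add_mem _ ha1 (Submodule.sub_mem _ hy'1 (P.L_mem hy'1))
  have ha'2 : a' ∈ (Mc ι).Bs (Ta ∪ (T1 ∪ T2) ∪ T3) := by
    refine Submodule.add_mem _ ?_ (Submodule.sub_mem _ ?_ ?_)
    · exact (Mc ι).Bs_mono (fun x hx => Or.inl (Or.inl hx)) ha2
    · exact (Mc ι).Bs_mono (fun x hx => Or.inl (Or.inr hx)) hy'2
    · exact (Mc ι).Bs_mono (fun x hx => Or.inr hx) (k3 y' hy'2)
  have ha'3 : (Mc ι).D a' = 0 := by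
    rw [ha', map_add, map_sub, ← P.L_D, hDy', hDa]
  obtain ⟨y'', hy''1, hy''2, hy''3⟩ := (Mc ι).mem_Bo.1 (k4 a' ha'1 ha'2 ha'3
    (fun i => (Mc ι).E_eq_zero (Nat.succ_ne_zero m) (flt_mem' (cosOf ι) i ha'1)))
  set q : CosS ι →₀ ℤ := geo ι t ψ ht N' a' with hq
  have hq1 : q ∈ (Mc ι).Dg (m + 1) := geo_dg ι t ψ ht N' ha'1
  have hq2 : q ∈ (Mc ι).Bs T5 := k5 a' ha'2
  have hDq : (Mc ι).D q = 0 := by rw [hq, ← geo_D, ha'3, map_zero]
  have hqq : q - P.L q = a' - (Mc ι).D y'' := by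
    rw [hy''3, hq]; exact geo_mul' ι t ψ ht N' a'
  refine (Tor ι t ψ ht).mem_Bo.2
    ⟨iR (Mc ι) q + iL (Mc ι) y'' - iR (Mc ι) y', ?_, ?_, ?_⟩
  · exact Submodule.sub_mem _ (Submodule.add_mem _ (iR_Dg P hq1) (iL_Dg P hy''1))
      (iR_Dg P hy'1)
  · refine Submodule.sub_mem _ (Submodule.add_mem _ ?_ ?_) ?_
    · exact (Tor ι t ψ ht).Bs_mono (fun x hx => Or.inl (Or.inl hx)) (iR_Bs P hq2)
    · exact (Tor ι t ψ ht).Bs_mono (fun x hx => Or.inl (Or.inr hx)) (iL_Bs P hy''2)
    · exact (Tor ι t ψ ht).Bs_mono (fun x hx => Or.inr hx) (iR_Bs P hy'2)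
  · have e1 : (Tor ι t ψ ht).D (iR (Mc ι) q + iL (Mc ι) y'' - iR (Mc ι) y') =
        cD P (iR (Mc ι) q + iL (Mc ι) y'' - iR (Mc ι) y') := rfl
    rw [e1, map_sub, map_add, cD_iR, cD_iL, cD_iR, hDq, hqq, hDy', map_zero, sub_zero, hzab,
      ha', map_sub, map_add]
    abel

end TorusMain

/-- **The mapping torus theorem.** -/
theorem torus_null {Γ : Type u} [Group Γ] {U : Type u} [Group U] (ι : U →* Γ)
    (hι : Function.Injective ι) (t : Γ) (ψ : U →* U) (ht : ∀ u, t * ι u * t⁻¹ = ι (ψ u))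
    (τ : Γ →* Multiplicative ℤ) (hτ : ∀ u, τ (ι u) = 1) (hτt : τ t = Multiplicative.ofAdd 1)
    (hgen : ∀ γ : Γ, ∃ (a b : ℕ) (u : U), γ = t⁻¹ ^ a * ι u * t ^ b)
    (hψ : ∀ n, ∃ N, IsNull (ipow ψ N) n) (n : ℕ) : IsNull (MonoidHom.id Γ) n := by
  have h : ∀ n, BAc (Tor ι t ψ ht) n := by
    intro n
    rcases n with _ | m
    · exact torus_zero ι t ψ ht hι hgen (hψ 0)
    · exact torus_succ ι t ψ ht hι τ hτ hτt m (hψ m) (hψ (m + 1))
  have hac : (FTor ι t ψ ht).Acyclic := by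
    refine acyclic_of_BAc ⟨iL (Mc ι) (single (vx ι 1) 1), iL_Dg _ (vx_deg ι 1), ?_⟩ h
    exact (cE_iL _).trans (vx_E ι 1)
  exact (null_id_iff hac).2 (h n)

end Crest.Agent.R185.Null
end

-- ▼ part R185/Null11

/-!
# R185, null calculus, part 11: finitely generated groups are `0`-null
-/

set_option autoImplicit false

namespace Crest.Agent.R185.Null

open Finsupp

universe u v w u' v' w'

theorem sbd_edge {O : Type v} (g h : O) :
    sbd [h] g = single (h, []) 1 - single (g, []) 1 := by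
  rw [sbd_eq]
  simp [sbd, sep]

/-- A finitely generated group is `0`-null. -/
theorem isNull_zero_of_fg (G : Type u) [Group G] (h : Group.FG G) :
    IsNull (MonoidHom.id G) 0 := by
  classical
  rw [null_id_iff (Std_acyclic G)]
  obtain ⟨S, hS, hSf⟩ := Group.fg_iff.1 h
  intro T hT
  set T' : Set (G × List G) := (fun s : G => ((1 : G), [s])) '' S with hT'
  refine ⟨T', hSf.image _, fun z hz => ?_⟩
  have key : ∀ x ∈ Subgroup.closure S, ∀ g : G,
      (single (g * x, []) 1 - single (g, []) 1 : G × List G →₀ ℤ) ∈ (Std G).Bo 0 T' := by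
    intro x hx
    induction hx using Subgroup.closure_induction with
    | mem s hs =>
      intro g
      have e : (Std G).D (single (g, [g * s]) 1) = single (g * s, []) 1 - single (g, []) 1 :=
        (Simp_D_s (G := G) (g, [g * s])).trans (sbd_edge g (g * s))
      rw [← e]
      refine PCx.D_mem_Bo _ (PCx.single_mem_Dg _ rfl 1) (PCx.single_mem_Bs _ ?_ 1)
      exact ⟨(1, [s]), ⟨s, hs, rfl⟩, g, by simp [smX]⟩
    | one => intro g; rw [mul_one, sub_self]; exact Submodule.zero_mem _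
    | mul x y _ _ ihx ihy =>
      intro g
      have := Submodule.add_mem _ (ihy (g * x)) (ihx g)
      rwa [sub_add_sub_cancel, mul_assoc] at this
    | inv x _ ih =>
      intro g
      have := Submodule.neg_mem _ (ih (g * x⁻¹))
      rwa [neg_sub, inv_mul_cancel_right] at this
  rw [PCx.mem_Cy] at hz
  obtain ⟨hz1, -, -, hz4⟩ := hz
  have := lin_mem_of (f := LinearMap.id - (Std G).E.smulRight (single (1, []) 1 : G × List G →₀ ℤ))
    _ ((Std G).Bo 0 T') (fun x hx => ?_) z hz1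
  · rw [LinearMap.sub_apply, LinearMap.smulRight_apply, hz4, zero_smul, sub_zero] at this
    exact this
  · obtain ⟨g, l⟩ := x
    have hd' : l.length = 0 := hx
    have hl : l = [] := List.eq_nil_of_length_eq_zero hd'
    subst hl
    have h1 := key g (by rw [hS]; trivial) 1
    rw [one_mul] at h1
    rw [LinearMap.sub_apply, LinearMap.smulRight_apply, LinearMap.id_apply]
    have h2 : (Std G).E (single ((g, []) : G × List G) 1) = 1 :=
      (Simp_E_s (G := G) (g, [])).trans (by rfl)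
    rw [h2, one_smul]
    exact h1

end Crest.Agent.R185.Null
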