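import Crest.Agent.R185.Null1

/-!
# R185, null calculus, part 2: negligible maps, the standard complex, nullness of homomorphisms
-/

set_option autoImplicit false

namespace Crest.Agent.R185.Null

open Finsupp

universe u v w u' v' w'

section Negl

variable {G : Type u} [Group G] {H : Type u'} [Group H] {K : Type w} [Group K]

/-- Linear maps which send bounded `n`-cycles to boundaries of bounded chains. -/
def negl (A : PCx.{u, v} G) (B : PCx.{u', v'} H) (n : ℕ) :
    Submodule ℤ ((A.X →₀ ℤ) →ₗ[ℤ] (B.X →₀ ℤ)) where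
  carrier := {e | ∀ T : Set A.X, T.Finite → ∃ T' : Set B.X, T'.Finite ∧
    ∀ z ∈ A.Cy n T, e z ∈ B.Bo n T'}
  add_mem' := by
    intro a b ha hb T hT
    obtain ⟨T1, h1, k1⟩ := ha T hT
    obtain ⟨T2, h2, k2⟩ := hb T hT
    exact ⟨T1 ∪ T2, h1.union h2, fun z hz => Submodule.add_mem _
      (B.Bo_mono Set.subset_union_left (k1 z hz)) (B.Bo_mono Set.subset_union_right (k2 z hz))⟩
  zero_mem' := fun T _ => ⟨∅, Set.finite_empty, fun z _ => Submodule.zero_mem _⟩
  smul_mem' := by
    intro r a ha T hT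
    obtain ⟨T1, h1, k1⟩ := ha T hT
    exact ⟨T1, h1, fun z hz => Submodule.smul_mem _ _ (k1 z hz)⟩


/-- `f` kills bounded `n`-cycles. -/
def Kill {φ : G →* H} {A : PCx.{u, v} G} {B : PCx.{u', v'} H} (f : CMap φ A B) (n : ℕ) : Prop :=
  f.F ∈ negl A B n

theorem CMap.cy {φ : G →* H} {A : PCx.{u, v} G} {B : PCx.{u', v'} H} (f : CMap φ A B)
    (T : Set A.X) (hT : T.Finite) : ∃ T' : Set B.X, T'.Finite ∧
      ∀ n, ∀ z ∈ A.Cy n T, f.F z ∈ B.Cy n T' := by
  obtain ⟨T', h1, h2⟩ := f.eqv.bdd T hT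
  refine ⟨T', h1, fun n z hz => ?_⟩
  rw [PCx.mem_Cy] at hz ⊢
  exact ⟨f.dg n z hz.1, h2 z hz.2.1, by rw [f.comm, hz.2.2.1, map_zero], by rw [f.aug, hz.2.2.2]⟩

theorem CMap.bo {φ : G →* H} {A : PCx.{u, v} G} {B : PCx.{u', v'} H} (f : CMap φ A B)
    (T : Set A.X) (hT : T.Finite) : ∃ T' : Set B.X, T'.Finite ∧
      ∀ n, ∀ z ∈ A.Bo n T, f.F z ∈ B.Bo n T' := by
  obtain ⟨T', h1, h2⟩ := f.eqv.bdd T hT
  refine ⟨T', h1, fun n z hz => ?_⟩
  rw [PCx.mem_Bo] at hz ⊢
  obtain ⟨b, hb1, hb2, rfl⟩ := hz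
  exact ⟨f.F b, f.dg _ _ hb1, h2 b hb2, f.comm b⟩

theorem negl_post {ψ : H →* K} {A : PCx.{u, v} G} {B : PCx.{u', v'} H} {C : PCx.{w, w'} K}
    {n : ℕ} {e : (A.X →₀ ℤ) →ₗ[ℤ] (B.X →₀ ℤ)} (he : e ∈ negl A B n) (g : CMap ψ B C) :
    g.F.comp e ∈ negl A C n := by
  intro T hT
  obtain ⟨T1, h1, k1⟩ := he T hT
  obtain ⟨T2, h2, k2⟩ := g.bo T1 h1
  exact ⟨T2, h2, fun z hz => k2 n _ (k1 z hz)⟩

theorem negl_pre {φ : G →* H} {A : PCx.{u, v} G} {B : PCx.{u', v'} H} {C : PCx.{w, w'} K}
    {n : ℕ} {e : (B.X →₀ ℤ) →ₗ[ℤ] (C.X →₀ ℤ)} (he : e ∈ negl B C n) (f : CMap φ A B) :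
    e.comp f.F ∈ negl A C n := by
  intro T hT
  obtain ⟨T1, h1, k1⟩ := f.cy T hT
  obtain ⟨T2, h2, k2⟩ := he T1 h1
  exact ⟨T2, h2, fun z hz => k2 _ (k1 n z hz)⟩

theorem negl_tr {A : PCx.{u, v} G} {B : PCx.{u', v'} H}
    {n : ℕ} {e : (A.X →₀ ℤ) →ₗ[ℤ] (B.X →₀ ℤ)} (he : e ∈ negl A B n) (k : H) :
    (B.tr k).comp e ∈ negl A B n := by
  intro T hT
  obtain ⟨T1, h1, k1⟩ := he T hT
  exact ⟨T1, h1, fun z hz => B.tr_mem_Bo k (k1 z hz)⟩

/-- Two chain maps into an acyclic complex differ by a negligible map. -/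
theorem sub_mem_negl {φ : G →* H} {A : FCx.{u, v} G} {B : PCx.{u', v'} H} (hB : B.Acyclic)
    (f g : CMap φ A.toPCx B) (n : ℕ) : f.F - g.F ∈ negl A.toPCx B n := by
  intro T hT
  obtain ⟨h, h1, h2, h3⟩ := exists_htpy hB f g
  obtain ⟨T', k1, k2⟩ := h1.bdd T hT
  refine ⟨T', k1, fun z hz => ?_⟩
  rw [PCx.mem_Cy] at hz
  have := h3 z
  rw [hz.2.2.1, map_zero, add_zero] at this
  rw [LinearMap.sub_apply, ← this]
  exact B.D_mem_Bo (h2 n z hz.1) (k2 z hz.2.1)

theorem Kill.indep {φ : G →* H} {A : FCx.{u, v} G} {B : PCx.{u', v'} H} (hB : B.Acyclic)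
    {f : CMap φ A.toPCx B} {n : ℕ} (hf : Kill f n) (g : CMap φ A.toPCx B) : Kill g n := by
  have := Submodule.sub_mem _ hf (sub_mem_negl hB f g n)
  rwa [sub_sub_cancel] at this

theorem Kill.post {φ : G →* H} {ψ : H →* K} {A : PCx.{u, v} G} {B : PCx.{u', v'} H}
    {C : PCx.{w, w'} K} {f : CMap φ A B} {n : ℕ} (hf : Kill f n) (g : CMap ψ B C) :
    Kill (g.comp f) n := negl_post hf g

theorem Kill.pre {φ : G →* H} {ψ : H →* K} {A : PCx.{u, v} G} {B : PCx.{u', v'} H}
    {C : PCx.{w, w'} K} {g : CMap ψ B C} {n : ℕ} (hg : Kill g n) (f : CMap φ A B) :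
    Kill (g.comp f) n := negl_pre hg f

theorem Kill.conj {φ : G →* H} {A : PCx.{u, v} G} {B : PCx.{u', v'} H} {f : CMap φ A B} {n : ℕ}
    (hf : Kill f n) (k : H) : Kill (f.conj k) n := negl_tr hf k

/-- Bounded acyclicity in one degree. -/
def BAc (A : PCx.{u, v} G) (n : ℕ) : Prop :=
  ∀ T : Set A.X, T.Finite → ∃ T' : Set A.X, T'.Finite ∧ A.Cy n T ≤ A.Bo n T'


theorem acyclic_of_BAc {A : PCx.{u, v} G} (h0 : ∃ v ∈ A.Dg 0, A.E v = 1) (h : ∀ n, BAc A n) :
    A.Acyclic := by
  refine ⟨h0, fun n z hz h1 h2 => ?_⟩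
  obtain ⟨T', -, hT'⟩ := h n (z.support : Set A.X) (Finset.finite_toSet _)
  have : z ∈ A.Cy n (z.support : Set A.X) := A.mem_Cy.2 ⟨hz, A.mem_Bs_support z, h1, h2⟩
  obtain ⟨b, hb, -, e⟩ := A.mem_Bo.1 (hT' this)
  exact ⟨b, hb, e⟩

end Negl

/-! ## The full simplex on a `G`-set -/

section Simplex

variable {G : Type u} [Group G]

/-- Prepend a point. -/
def consX {O : Type v} (o : O) (x : O × List O) : O × List O := (o, x.1 :: x.2)

/-- The boundary in the full simplex. -/
noncomputable def sbd {O : Type v} : List O → O → (O × List O →₀ ℤ)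
  | [], _ => 0
  | h :: l, g => single (h, l) 1 - (sbd l h).mapDomain (consX g) -
      (if l.isEmpty then single (g, []) 1 else 0)

/-- Linear map `cons`. -/
noncomputable def cn {O : Type v} (o : O) : (O × List O →₀ ℤ) →ₗ[ℤ] (O × List O →₀ ℤ) :=
  Finsupp.lmapDomain ℤ ℤ (consX o)

@[simp] theorem cn_single {O : Type v} (o : O) (x : O × List O) (n : ℤ) :
    cn o (single x n) = single (consX o x) n := by simp [cn]

/-- The augmentation. -/
def sep {O : Type v} (x : O × List O) : ℤ := if x.2.isEmpty then 1 else 0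

noncomputable def sD {O : Type v} : (O × List O →₀ ℤ) →ₗ[ℤ] (O × List O →₀ ℤ) :=
  Finsupp.linearCombination ℤ fun x => sbd x.2 x.1

noncomputable def sE {O : Type v} : (O × List O →₀ ℤ) →ₗ[ℤ] ℤ :=
  Finsupp.linearCombination ℤ sep

@[simp] theorem sD_single {O : Type v} (x : O × List O) (n : ℤ) :
    sD (single x n) = n • sbd x.2 x.1 := by simp [sD]

@[simp] theorem sE_single {O : Type v} (x : O × List O) (n : ℤ) :
    sE (single x n) = n * sep x := by simp [sE]

theorem sD_cn {O : Type v} (o : O) (c : O × List O →₀ ℤ) :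
    sD (cn o c) = c - cn o (sD c) - sE c • single (o, []) 1 := by
  have : sD.comp (cn o) = LinearMap.id - (cn o).comp sD - sE.smulRight (single (o, []) 1) :=
    lin_ext fun x => by
      obtain ⟨h, l⟩ := x
      simp only [LinearMap.comp_apply, LinearMap.sub_apply, LinearMap.id_apply,
        LinearMap.smulRight_apply, cn_single, sD_single, sE_single, one_smul, one_mul, consX]
      rw [sbd]
      congr 1
      unfold sep
      cases l <;> simp
  have := LinearMap.congr_fun this c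
  simpa using this

theorem sE_cn {O : Type v} (o : O) (c : O × List O →₀ ℤ) : sE (cn o c) = 0 := by
  have : sE.comp (cn o) = 0 := lin_ext fun x => by
    simp [sep, consX]
  exact LinearMap.congr_fun this c

theorem sbd_eq {O : Type v} (g h : O) (l : List O) :
    sbd (h :: l) g = single (h, l) 1 - cn g (sbd l h) - sep (h, l) • single (g, []) 1 := by
  rw [sbd]
  congr 1
  unfold sep
  cases l <;> simp

theorem sE_sbd {O : Type v} (l : List O) (g : O) : sE (sbd l g) = 0 := by
  cases l with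
  | nil => simp [sbd]
  | cons h l =>
    rw [sbd_eq, map_sub, map_sub, sE_cn, map_smul]
    simp [sep]

theorem sD_sbd {O : Type v} (l : List O) (g : O) : sD (sbd l g) = 0 := by
  induction l generalizing g with
  | nil => simp [sbd]
  | cons h l ih =>
    rw [sbd_eq, map_sub, map_sub, sD_cn, map_smul, ih, sE_sbd]
    simp [sbd]

theorem sbd_deg {O : Type v} (l : List O) (g : O) (y : O × List O) (hy : y ∈ (sbd l g).support) :
    y.2.length + 1 = l.length := by
  classical
  induction l generalizing g y with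
  | nil => simp [sbd] at hy
  | cons h l ih =>
    rw [sbd] at hy
    have hy' := Finsupp.support_sub hy
    rw [Finset.mem_union] at hy'
    rcases hy' with hy' | hy'
    · have hy'' := Finsupp.support_sub hy'
      rw [Finset.mem_union] at hy''
      rcases hy'' with hy'' | hy''
      · have := Finsupp.support_single_subset hy''
        rw [Finset.mem_singleton] at this
        subst this
        simp
      · have := Finsupp.mapDomain_support hy''
        rw [Finset.mem_image] at this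
        obtain ⟨z, hz, rfl⟩ := this
        have := ih h z hz
        simp only [consX, List.length_cons]
        omega
    · split_ifs at hy' with hl
      · have := Finsupp.support_single_subset hy'
        rw [Finset.mem_singleton] at this
        subst this
        simp only [List.isEmpty_iff] at hl
        subst hl
        simp
      · simp at hy'

/-- The action on tuples. -/
def smX {O : Type v} [MulAction G O] (g : G) (x : O × List O) : O × List O :=
  (g • x.1, x.2.map (g • ·))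


theorem sbd_map {O : Type v} {O' : Type w} (f : O → O') (l : List O) (o : O) :
    sbd (l.map f) (f o) = (sbd l o).mapDomain (Prod.map f (List.map f)) := by
  induction l generalizing o with
  | nil => simp [sbd]
  | cons h l ih =>
    rw [List.map_cons, sbd, sbd, ih]
    have : ∀ a b c : (O × List O →₀ ℤ), (a - b - c).mapDomain (Prod.map f (List.map f)) =
        a.mapDomain (Prod.map f (List.map f)) - b.mapDomain (Prod.map f (List.map f)) -
        c.mapDomain (Prod.map f (List.map f)) := by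
      intro a b c
      change Finsupp.lmapDomain ℤ ℤ _ _ = _
      rw [map_sub, map_sub]; rfl
    rw [this]
    congr 1
    · congr 1
      · simp
      · rw [← Finsupp.mapDomain_comp, ← Finsupp.mapDomain_comp]
        rfl
    · cases l <;> simp

/-- The full simplex on a `G`-set. -/
@[reducible] noncomputable def Simp (G : Type u) [Group G] (O : Type v) [MulAction G O] : PCx.{u, v} G where
  X := O × List O
  sm := smX
  sm_one x := by simp [smX]
  sm_mul g h x := by simp [smX, mul_smul]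
  deg x := x.2.length
  deg_sm g x := by simp [smX]
  bd x := sbd x.2 x.1
  bd_sm g x := sbd_map (g • ·) x.2 x.1
  bd_deg x y hy := sbd_deg x.2 x.1 y hy
  bd_bd x := sD_sbd x.2 x.1
  ep := sep
  ep_sm g x := by simp [sep, smX]
  ep_deg x hx := by
    unfold sep
    rw [if_neg]
    intro h
    rw [List.isEmpty_iff] at h
    rw [h] at hx
    exact hx rfl
  ep_bd x := sE_sbd x.2 x.1


theorem cn_mem_Dg (O : Type v) [MulAction G O] (o : O) (n : ℕ) (c : O × List O →₀ ℤ)
    (hc : c ∈ (Simp G O).Dg n) : cn o c ∈ (Simp G O).Dg (n + 1) := by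
  refine lin_mem_of _ _ (fun x hx => ?_) c hc
  rw [cn_single]
  refine (Simp G O).single_mem_Dg ?_ 1
  have : x.2.length = n := hx
  simp [Simp, consX, this]

theorem Simp_acyclic (O : Type v) [MulAction G O] (o : O) : (Simp G O).Acyclic := by
  have k1 : sE (single ((o, []) : O × List O) (1 : ℤ)) = 1 := by
    rw [sE_single]; rfl
  have k2 : ∀ z : O × List O →₀ ℤ, sD z = 0 → sE z = 0 → sD (cn o z) = z := by
    intro z h0 h1
    rw [sD_cn, h0, h1]; simp
  exact ⟨⟨single (o, []) 1, (Simp G O).single_mem_Dg rfl 1, k1⟩,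
    fun n z hz h0 h1 => ⟨cn o z, cn_mem_Dg O o n z hz, k2 z h0 h1⟩⟩

/-- The full simplex on a free `G`-set is free. -/
@[reducible] noncomputable def FSimp (G : Type u) [Group G] (O : Type v) [MulAction G O] (b : O → G)
    (hb : ∀ g o, b (g • o) = g * b o) : FCx.{u, v} G :=
  { Simp G O with
    base := fun x => b x.1
    base_sm := fun g x => hb g x.1 }

/-- The standard complex. -/
@[reducible] noncomputable def Std (G : Type u) [Group G] : FCx.{u, u} G :=
  FSimp G G id fun _ _ => rfl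

theorem Std_acyclic (G : Type u) [Group G] : (Std G).Acyclic := Simp_acyclic G (1 : G)

end Simplex

/-! ## Nullness of homomorphisms -/

section NullDef

variable {G : Type u} [Group G] {H : Type u'} [Group H] {K : Type w} [Group K]

/-- `φ` is `n`-null: the image of every bounded `n`-cycle bounds boundedly. -/
def IsNull (φ : G →* H) (n : ℕ) : Prop :=
  ∃ f : CMap φ (Std G).toPCx (Std H).toPCx, Kill f n

theorem IsNull.kill {φ : G →* H} {n : ℕ} (h : IsNull φ n) {A : FCx.{u, v} G} {B : PCx.{u', v'} H}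
    (hB : B.Acyclic) (f : CMap φ A.toPCx B) : Kill f n := by
  obtain ⟨f0, hf0⟩ := h
  obtain ⟨a⟩ := exists_cmap (MonoidHom.id G) A (Std G).toPCx (Std_acyclic G)
  obtain ⟨b⟩ := exists_cmap (MonoidHom.id H) (Std H) B hB
  have h1 : Kill (b.comp (f0.comp a)) n := (hf0.pre a).post b
  have h2 : Kill ((b.comp (f0.comp a)).cast (show _ = φ from rfl)) n := h1
  exact h2.indep hB f

theorem IsNull.of_kill {φ : G →* H} {n : ℕ} {A : PCx.{u, v} G} (hA : A.Acyclic)
    {B : FCx.{u', v'} H} (f : CMap φ A B.toPCx) (h : Kill f n) : IsNull φ n := by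
  obtain ⟨a⟩ := exists_cmap (MonoidHom.id G) (Std G) A hA
  obtain ⟨b⟩ := exists_cmap (MonoidHom.id H) B (Std H).toPCx (Std_acyclic H)
  exact ⟨(b.comp (f.comp a)).cast (show _ = φ from rfl), (h.pre a).post b⟩

/-- **Invariance.** -/
theorem null_iff {φ : G →* H} {n : ℕ} {A : FCx.{u, v} G} (hA : A.Acyclic)
    {B : FCx.{u', v'} H} (hB : B.Acyclic) (f : CMap φ A.toPCx B.toPCx) :
    IsNull φ n ↔ Kill f n :=
  ⟨fun h => h.kill hB f, IsNull.of_kill hA f⟩

/-- Nullness of the identity through any acyclic free complex. -/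
theorem null_id_iff {n : ℕ} {A : FCx.{u, v} G} (hA : A.Acyclic) :
    IsNull (MonoidHom.id G) n ↔ BAc A.toPCx n :=
  null_iff hA hA (CMap.id A.toPCx)

theorem IsNull.comp {φ : G →* H} {n : ℕ} (h : IsNull φ n) (ψ : H →* K) : IsNull (ψ.comp φ) n := by
  obtain ⟨f, hf⟩ := h
  obtain ⟨g⟩ := exists_cmap ψ (Std H) (Std K).toPCx (Std_acyclic K)
  exact ⟨g.comp f, hf.post g⟩

theorem IsNull.precomp {ψ : H →* K} {n : ℕ} (h : IsNull ψ n) (φ : G →* H) : IsNull (ψ.comp φ) n := by
  obtain ⟨g, hg⟩ := h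
  obtain ⟨f⟩ := exists_cmap φ (Std G) (Std H).toPCx (Std_acyclic H)
  exact ⟨g.comp f, hg.pre f⟩

theorem IsNull.conj {φ : G →* H} {n : ℕ} (h : IsNull φ n) (k : H) :
    IsNull ((MulAut.conj k).toMonoidHom.comp φ) n := by
  obtain ⟨f, hf⟩ := h
  exact ⟨f.conj k, hf.conj k⟩


/-- The class of a homomorphism, modulo negligible maps. -/
abbrev NQ (A : PCx.{u, v} G) (B : PCx.{u', v'} H) (n : ℕ) :=
  ((A.X →₀ ℤ) →ₗ[ℤ] (B.X →₀ ℤ)) ⧸ negl A B n

end NullDef

end Crest.Agent.R185.Null
private theorem rz_93161d8c94 : type_of% @_root_.Crest.Agent.R185.Null.sbd.eq_def := @_root_.Crest.Agent.R185.Null.sbd.eq_def -- L140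
private theorem rz_e7ff886e33 : type_of% @_root_.Crest.Agent.R185.Null.sbd.eq_1 := @_root_.Crest.Agent.R185.Null.sbd.eq_1 -- L140
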