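import Crest.Agent.R185.U3

-- ▼ part R185/U4
section

/-!
# R185 / UNIV (4): from commuting corner units to a homomorphism into the Steinberg group (end)
-/

set_option autoImplicit false
set_option linter.unusedSimpArgs false

namespace Crest.Agent.R185.Univ

open scoped commutatorElement
open Matrix

variable {G : Type*} [Group G] {R : Type*} [Ring R] {x : Fin 5 → Fin 5 → R → G}

/-- the data of the swindle -/
structure Data (R : Type*) [Ring R] (ι : Type*) where
  f : R
  k : R
  k' : R
  n : R
  n' : R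
  c : ι → Rˣ
  ff : f * f = f
  kk : k' * k = 1
  nn : n' * n = 1
  fk : Commute f k
  fk' : Commute f k'
  fn : Commute f n
  fn' : Commute f n'
  kn : Commute k n
  kn' : Commute k n'
  k'n : Commute k' n
  k'n' : Commute k' n'
  cf : ∀ i, Commute (c i : R) f
  ck : ∀ i, Commute (c i : R) k
  ck' : ∀ i, Commute (c i : R) k'
  cn : ∀ i, Commute (c i : R) n
  cn' : ∀ i, Commute (c i : R) n'

/-- the basic pairs -/
theorem PI.mk' {a a' e n n' c c' : R} (aa : a' * a = 1) (ee : e * e = e) (nn : n' * n = 1)
    (en : Commute e n) (en' : Commute e n') (ec : Commute e c) (ec' : Commute e c')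
    (cc : c * c' = 1) (cc' : c' * c = 1) (cn : Commute c n) (cn' : Commute c n') :
    PI e (a * (e * (n * n')) * a') (a * (c * (e * n))) (n' * (c' * (e * a'))) := by
  have l1 : ∀ y, e * (e * y) = e * y := fun y => by rw [← mul_assoc, ee]
  have l2 : ∀ y, n' * (n * y) = y := fun y => by rw [← mul_assoc, nn, one_mul]
  have l3 : ∀ y, a' * (a * y) = y := fun y => by rw [← mul_assoc, aa, one_mul]
  have l4 : ∀ y, c' * (c * y) = y := fun y => by rw [← mul_assoc, cc', one_mul]
  have l5 : ∀ y, c * (c' * y) = y := fun y => by rw [← mul_assoc, cc, one_mul]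
  have l6 : ∀ y, n * (e * y) = e * (n * y) := fun y => by rw [← mul_assoc, ← en.eq, mul_assoc]
  have l7 : ∀ y, n' * (e * y) = e * (n' * y) := fun y => by rw [← mul_assoc, ← en'.eq, mul_assoc]
  have l8 : ∀ y, c * (e * y) = e * (c * y) := fun y => by rw [← mul_assoc, ← ec.eq, mul_assoc]
  have l9 : ∀ y, c' * (e * y) = e * (c' * y) := fun y => by rw [← mul_assoc, ← ec'.eq, mul_assoc]
  have l10 : ∀ y, c * (n * y) = n * (c * y) := fun y => by rw [← mul_assoc, cn.eq, mul_assoc]
  have l11 : ∀ y, c * (n' * y) = n' * (c * y) := fun y => by rw [← mul_assoc, cn'.eq, mul_assoc]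
  constructor
  · simp only [mul_assoc, l6, l7, l8, l9, l1, l10, l11, l5]
  · calc n' * (c' * (e * a')) * (a * (c * (e * n))) = n' * (c' * (e * (c * (e * n)))) := by
          simp only [mul_assoc, l3]
      _ = e * (n' * n) := by simp only [l8, l1, l9, l4, l7]
      _ = e := by rw [nn, mul_one]
  · simp only [mul_assoc, l3, l6, l7, l8, l9, l1, l10, l11, l5, l2, cn.eq]
  · simp only [l7, l9, l1]

/-- four `w`-elements -/
def vv (x : Fin 5 → Fin 5 → R → G) (a a' e n n' c c' : R) : G :=
  wel x 0 1 (a * (c * (e * 1))) (1 * (c' * (e * a'))) *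
    wel x 0 1 (a * (1 * (e * 1))) (1 * (1 * (e * a'))) *
    (wel x 0 1 (a * (1 * (e * n))) (n' * (1 * (e * a'))) *
    wel x 0 1 (a * (c * (e * n))) (n' * (c' * (e * a'))))

/-- their matrices -/
def vm (a a' e n n' c c' : R) : GL2 R :=
  wm (a * (c * (e * 1))) (1 * (c' * (e * a'))) *
    wm (a * (1 * (e * 1))) (1 * (1 * (e * a'))) *
    (wm (a * (1 * (e * n))) (n' * (1 * (e * a'))) *
    wm (a * (c * (e * n))) (n' * (c' * (e * a'))))

theorem Act.vv (S : Stein x) (a a' e n n' c c' : R) :
    Act x 0 1 (vv x a a' e n n' c c') (vm a a' e n n' c c') := by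
  have h : (0 : Fin 5) ≠ 1 := by decide
  exact ((Act.w S h _ _).mul (Act.w S h _ _)).mul ((Act.w S h _ _).mul (Act.w S h _ _))

theorem vm_val [Ch2 R] {a a' e n n' c c' : R} (aa : a' * a = 1) (ee : e * e = e) (nn : n' * n = 1)
    (en : Commute e n) (en' : Commute e n') (ec : Commute e c) (ec' : Commute e c')
    (cc : c * c' = 1) (cc' : c' * c = 1) (cn : Commute c n) (cn' : Commute c n') :
    (vm a a' e n n' c c').1 =
      !![1 + a * (e * (1 + n * n')) * a' + a * (c * (e * (1 + n * n'))) * a', 0; 0, 1] := by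
  have o : ∀ y : R, Commute y 1 := fun y => Commute.one_right y
  have o' : ∀ y : R, Commute 1 y := fun y => Commute.one_left y
  have c'n' : Commute c' n' := by
    rw [commute_iff_eq]
    calc c' * n' = c' * (n' * (c * c')) := by rw [cc, mul_one]
      _ = c' * (c * n' * c') := by rw [← mul_assoc n', ← cn'.eq]
      _ = (c' * c) * n' * c' := by simp only [mul_assoc]
      _ = n' * c' := by rw [cc', one_mul]
  have c'n : Commute c' n := by
    rw [commute_iff_eq]
    calc c' * n = c' * (n * (c * c')) := by rw [cc, mul_one]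
      _ = c' * (c * n * c') := by rw [← mul_assoc n, ← cn.eq]
      _ = (c' * c) * n * c' := by simp only [mul_assoc]
      _ = n * c' := by rw [cc', one_mul]
  have p1 := PI.mk' aa ee (mul_one (1 : R)) (o e) (o e) ec ec' cc cc' (o c) (o c)
  have p2 := PI.mk' aa ee (mul_one (1 : R)) (o e) (o e) (o e) (o e) (mul_one (1 : R))
    (mul_one (1 : R)) (o 1) (o 1)
  have p3 := PI.mk' aa ee nn en en' (o e) (o e) (mul_one (1 : R))
    (mul_one (1 : R)) (o' n) (o' n')
  have p4 := PI.mk' aa ee nn en en' ec ec' cc cc' cn cn'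
  have m1 := wm_mul p1 p2
  have m2 := wm_mul p3 p4
  have e0 : (vm a a' e n n' c c').1 =
    (wm (a * (c * (e * 1))) (1 * (c' * (e * a'))) *
    wm (a * (1 * (e * 1))) (1 * (1 * (e * a')))).1 *
    (wm (a * (1 * (e * n))) (n' * (1 * (e * a'))) *
    wm (a * (c * (e * n))) (n' * (c' * (e * a')))).1 := rfl
  rw [e0, m1, m2]
  have l1 : ∀ y, e * (e * y) = e * y := fun y => by rw [← mul_assoc, ee]
  have l2 : ∀ y, n' * (n * y) = y := fun y => by rw [← mul_assoc, nn, one_mul]
  have l3 : ∀ y, a' * (a * y) = y := fun y => by rw [← mul_assoc, aa, one_mul]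
  have l4 : ∀ y, c' * (c * y) = y := fun y => by rw [← mul_assoc, cc', one_mul]
  have l5 : ∀ y, c * (c' * y) = y := fun y => by rw [← mul_assoc, cc, one_mul]
  have l6 : ∀ y, n * (e * y) = e * (n * y) := fun y => by rw [← mul_assoc, ← en.eq, mul_assoc]
  have l7 : ∀ y, n' * (e * y) = e * (n' * y) := fun y => by rw [← mul_assoc, ← en'.eq, mul_assoc]
  have l8 : ∀ y, c * (e * y) = e * (c * y) := fun y => by rw [← mul_assoc, ← ec.eq, mul_assoc]
  have l9 : ∀ y, c' * (e * y) = e * (c' * y) := fun y => by rw [← mul_assoc, ← ec'.eq, mul_assoc]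
  have l10 : ∀ y, n * (c * y) = c * (n * y) := fun y => by rw [← mul_assoc, ← cn.eq, mul_assoc]
  have l11 : ∀ y, n' * (c * y) = c * (n' * y) := fun y => by rw [← mul_assoc, ← cn'.eq, mul_assoc]
  have l12 : ∀ y, n * (c' * y) = c' * (n * y) := fun y => by rw [← mul_assoc, ← c'n.eq, mul_assoc]
  have l13 : ∀ y, n' * (c' * y) = c' * (n' * y) := fun y => by
    rw [← mul_assoc, ← c'n'.eq, mul_assoc]
  have l8' := ec.eq
  have l9' := ec'.eq
  ext i j
  fin_cases i <;> fin_cases j
  · simp [Matrix.mul_apply, Fin.sum_univ_two, mul_add, add_mul, mul_assoc,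
      l1, l2, l3, l4, l5, l6, l7, l8, l9, l10, l11, l12, l13]
    ch2
  · simp [Matrix.mul_apply, Fin.sum_univ_two]
  · simp [Matrix.mul_apply, Fin.sum_univ_two]
  · simp [Matrix.mul_apply, Fin.sum_univ_two, mul_add, add_mul, mul_assoc,
      l1, l2, l3, l4, l5, l6, l7, l8, l9, l10, l11, l12, l13, ← l8', ← l9', nn, ee, cc, cc']
    ch2

/-- two elements supported on orthogonal idempotents commute -/
theorem Stein.comm01 (S : Stein x) {e s s' : R} (h1 : s * e = s) (h2 : e * s' = 0)
    (h3 : s' * s = 0) : Commute (x 0 1 s) (x 1 0 s') := by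
  have e1 : ⁅x 0 2 s, x 2 1 e⁆ = x 0 1 s := by
    rw [S.mul 0 2 1 s e (by decide) (by decide) (by decide), h1]
  rw [← e1]
  refine Commute.commEl ?_ ?_
  · -- x 0 2 s with x 1 0 s'
    have := S.mul 1 0 2 s' s (by decide) (by decide) (by decide)
    rw [h3, S.zero (by decide)] at this
    exact (commutatorElement_eq_one_iff_commute.1 this).symm
  · have := S.mul 2 1 0 e s' (by decide) (by decide) (by decide)
    rw [h2, S.zero (by decide)] at this
    exact commutatorElement_eq_one_iff_commute.1 this

/-- supported on the idempotent `e` -/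
def Sup (e s : R) : Prop := e * s = s ∧ s * e = s

theorem Sup.wel (S : Stein x) {e e' s s' t t' : R} (h0 : e * e' = 0) (h0' : e' * e = 0)
    (hs : Sup e s) (hs' : Sup e s') (ht : Sup e' t) (ht' : Sup e' t') :
    Commute (wel x 0 1 s s') (wel x 0 1 t t') := by
  have z : ∀ {a b : R}, Sup e a → Sup e' b → a * b = 0 := by
    intro a b ha hb
    rw [← ha.2, ← hb.1, mul_assoc, ← mul_assoc e, h0, zero_mul, mul_zero]
  have z' : ∀ {a b : R}, Sup e' a → Sup e b → a * b = 0 := by
    intro a b ha hb
    rw [← ha.2, ← hb.1, mul_assoc, ← mul_assoc e', h0', zero_mul, mul_zero]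
  have z1 : ∀ {b : R}, Sup e' b → e * b = 0 := by
    intro b hb; rw [← hb.1, ← mul_assoc, h0, zero_mul]
  have z1' : ∀ {b : R}, Sup e b → e' * b = 0 := by
    intro b hb; rw [← hb.1, ← mul_assoc, h0', zero_mul]
  have c1 : ∀ a b : R, Commute (x 0 1 a) (x 0 1 b) := fun a b =>
    S.comm 0 1 0 1 a b (by decide) (by decide) (by decide) (by decide)
  have c2 : ∀ a b : R, Commute (x 1 0 a) (x 1 0 b) := fun a b =>
    S.comm 1 0 1 0 a b (by decide) (by decide) (by decide) (by decide)
  have d1 : Commute (x 0 1 s) (x 1 0 t') := S.comm01 hs.2 (z1 ht') (z' ht' hs)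
  have d2 : Commute (x 1 0 s') (x 0 1 t) := (S.comm01 ht.2 (z1' hs') (z hs' ht)).symm
  have k1 : Commute (x 0 1 s) (Univ.wel x 0 1 t t') := ((c1 s t).mul_right d1).mul_right (c1 s t)
  have k2 : Commute (x 1 0 s') (Univ.wel x 0 1 t t') := (d2.mul_right (c2 s' t')).mul_right d2
  exact (k1.mul_left k2).mul_left k1

theorem Sup.mk' {e n n' c c' : R} (ee : e * e = e)
    (en : Commute e n) (en' : Commute e n') (ec : Commute e c) (ec' : Commute e c') :
    Sup e (1 * (c * (e * n))) ∧ Sup e (n' * (c' * (e * 1))) := by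
  have l1 : ∀ y, e * (e * y) = e * y := fun y => by rw [← mul_assoc, ee]
  have l6 : ∀ y, n * (e * y) = e * (n * y) := fun y => by rw [← mul_assoc, ← en.eq, mul_assoc]
  have l7 : ∀ y, n' * (e * y) = e * (n' * y) := fun y => by rw [← mul_assoc, ← en'.eq, mul_assoc]
  have l8 : ∀ y, c * (e * y) = e * (c * y) := fun y => by rw [← mul_assoc, ← ec.eq, mul_assoc]
  have l9 : ∀ y, c' * (e * y) = e * (c' * y) := fun y => by rw [← mul_assoc, ← ec'.eq, mul_assoc]
  have e1 := en.eq
  have e2 := en'.eq
  have e3 := ec.eq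
  have e4 := ec'.eq
  refine ⟨⟨?_, ?_⟩, ?_, ?_⟩
  · simp only [one_mul, mul_one, mul_assoc, l1, l8]
  · simp only [one_mul, mul_one, mul_assoc, l1, l8, l6, ← e1]
  · simp only [one_mul, mul_one, mul_assoc, l1, l9, l7, ← e4, ee, ← e2]
  · simp only [one_mul, mul_one, mul_assoc, ee]

theorem vv_comm (S : Stein x) {e e1 n n' c c' d d' : R} (ee : e * e = e) (ee1 : e1 * e1 = e1)
    (h0 : e * e1 = 0) (h0' : e1 * e = 0)
    (en : Commute e n) (en' : Commute e n') (ec : Commute e c) (ec' : Commute e c')
    (e1n : Commute e1 n) (e1n' : Commute e1 n') (e1d : Commute e1 d) (e1d' : Commute e1 d') :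
    Commute (vv x 1 1 e n n' c c') (vv x 1 1 e1 n n' d d') := by
  have o : ∀ y : R, Commute y 1 := fun y => Commute.one_right y
  have A : ∀ {n1 n1' n2 n2' c1 c1' c2 c2' : R}, Commute e n1 → Commute e n1' → Commute e c1 →
      Commute e c1' → Commute e1 n2 → Commute e1 n2' → Commute e1 c2 → Commute e1 c2' →
      Commute (wel x 0 1 (1 * (c1 * (e * n1))) (n1' * (c1' * (e * 1))))
        (wel x 0 1 (1 * (c2 * (e1 * n2))) (n2' * (c2' * (e1 * 1)))) := by
    intro n1 n1' n2 n2' c1 c1' c2 c2' g1 g2 g3 g4 g5 g6 g7 g8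
    have a1 := Sup.mk' ee g1 g2 g3 g4
    have a2 := Sup.mk' ee1 g5 g6 g7 g8
    exact Sup.wel S h0 h0' a1.1 a1.2 a2.1 a2.2
  have B : ∀ {n1 n1' c1 c1' : R}, Commute e n1 → Commute e n1' → Commute e c1 →
      Commute e c1' → Commute (wel x 0 1 (1 * (c1 * (e * n1))) (n1' * (c1' * (e * 1))))
        (vv x 1 1 e1 n n' d d') := by
    intro n1 n1' c1 c1' g1 g2 g3 g4
    exact (((A g1 g2 g3 g4 (o _) (o _) e1d e1d').mul_right
      (A g1 g2 g3 g4 (o _) (o _) (o _) (o _))).mul_right
      ((A g1 g2 g3 g4 e1n e1n' (o _) (o _)).mul_right (A g1 g2 g3 g4 e1n e1n' e1d e1d')))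
  exact ((B (o _) (o _) ec ec').mul_left (B (o _) (o _) (o _) (o _))).mul_left
    ((B en en' (o _) (o _)).mul_left (B en en' ec ec'))

end Crest.Agent.R185.Univ
end

-- ▼ part R185/U5
section

/-!
# R185 / UNIV (5): the swindle
-/

set_option autoImplicit false
set_option linter.unusedSimpArgs false

namespace Crest.Agent.R185.Univ

open scoped commutatorElement
open Matrix

variable {G : Type*} [Group G] {R : Type*} [Ring R] {x : Fin 5 → Fin 5 → R → G} {ι : Type*}

/-- the shift element -/
def sg (x : Fin 5 → Fin 5 → R → G) (f k k' : R) : G :=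
  wel x 0 2 (f * k) (k' * f) * wel x 0 2 f f

section shift

variable [Ch2 R] (S : Stein x) {f k k' : R} (ff : f * f = f) (kk : k' * k = 1)
  (fk : Commute f k) (fk' : Commute f k')
include S ff kk fk fk'

omit [Group G] [Ch2 R] S in
theorem sg_aux : PI f (f * (k * k')) (f * k) (k' * f) ∧ PI f f f f := by
  have l1 : ∀ y, f * (f * y) = f * y := fun y => by rw [← mul_assoc, ff]
  have l2 : ∀ y, k * (f * y) = f * (k * y) := fun y => by rw [← mul_assoc, ← fk.eq, mul_assoc]
  have l3 : ∀ y, k' * (f * y) = f * (k' * y) := fun y => by rw [← mul_assoc, ← fk'.eq, mul_assoc]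
  have l4 : ∀ y, k' * (k * y) = y := fun y => by rw [← mul_assoc, kk, one_mul]
  have e1 := fk.eq
  have e2 := fk'.eq
  refine ⟨⟨?_, ?_, ?_, ?_⟩, ⟨ff, ff, ff, ff⟩⟩
  · simp only [mul_assoc, ← e2, l2, l1]
  · simp only [mul_assoc, l1, l3, kk, mul_one]
  · simp only [mul_assoc, l3, l2, l1, kk, mul_one, ← e1]
  · simp only [← e2, l1]

omit [Ch2 R] ff kk fk fk' in
theorem sg_act : Act x 0 2 (sg x f k k') (wm (f * k) (k' * f) * wm f f) :=
  (Act.w S (by decide) _ _).mul (Act.w S (by decide) _ _)

theorem sg_col {r : R} (h : f * r = r) : sg x f k k' * x 0 1 r * (sg x f k k')⁻¹ = x 0 1 (k * r) := by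
  obtain ⟨p1, p2⟩ := sg_aux ff kk fk fk'
  have A := (sg_act (f := f) (k := k) (k' := k') S).col 1 (by decide) (by decide) r 0
  rw [S.zero (i := 2) (j := 1) (by decide), mul_one] at A
  rw [A]
  have e0 : (wm (f * k) (k' * f) * wm f f).1 = (wm (f * k) (k' * f)).1 * (wm f f).1 := rfl
  have l3 : ∀ y, k' * (f * y) = f * (k' * y) := fun y => by rw [← mul_assoc, ← fk'.eq, mul_assoc]
  have l2 : ∀ y, k * (f * y) = f * (k * y) := fun y => by rw [← mul_assoc, ← fk.eq, mul_assoc]
  have l1 : ∀ y, f * (f * y) = f * y := fun y => by rw [← mul_assoc, ff]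
  have l5 : f * (k * r) = k * r := by rw [← mul_assoc, fk.eq, mul_assoc, h]
  have l7 : f * (k' * r) = k' * r := by rw [← mul_assoc, fk'.eq, mul_assoc, h]
  rw [e0, wm_val p1, wm_val p2]
  have e1 : (!![1 + f * (k * k'), f * k; k' * f, 1 + f] * !![1 + f, f; f, 1 + f]) 0 0 * r +
      (!![1 + f * (k * k'), f * k; k' * f, 1 + f] * !![1 + f, f; f, 1 + f]) 0 1 * 0 = k * r := by
    simp [Matrix.mul_apply, Fin.sum_univ_two, mul_add, add_mul, mul_assoc, l1, l2, l3, h, l5, l7]
    ch2
  have e2 : (!![1 + f * (k * k'), f * k; k' * f, 1 + f] * !![1 + f, f; f, 1 + f]) 1 0 * r +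
      (!![1 + f * (k * k'), f * k; k' * f, 1 + f] * !![1 + f, f; f, 1 + f]) 1 1 * 0 = 0 := by
    simp [Matrix.mul_apply, Fin.sum_univ_two, mul_add, add_mul, mul_assoc, l1, l2, l3, h, l5, l7]
    ch2
  rw [e1, e2, S.zero (by decide), mul_one]

theorem sg_row {r : R} (h : r * f = r) : sg x f k k' * x 1 0 r * (sg x f k k')⁻¹ = x 1 0 (r * k') := by
  obtain ⟨p1, p2⟩ := sg_aux ff kk fk fk'
  have A := (sg_act (f := f) (k := k) (k' := k') S).row 1 (by decide) (by decide) r 0
  rw [S.zero (i := 1) (j := 2) (by decide), mul_one] at A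
  rw [A]
  have e0 : (wm (f * k) (k' * f) * wm f f).2 = (wm f f).2 * (wm (f * k) (k' * f)).2 := rfl
  have l3 : ∀ y, k' * (f * y) = f * (k' * y) := fun y => by rw [← mul_assoc, ← fk'.eq, mul_assoc]
  have l2 : ∀ y, k * (f * y) = f * (k * y) := fun y => by rw [← mul_assoc, ← fk.eq, mul_assoc]
  have l1 : ∀ y, f * (f * y) = f * y := fun y => by rw [← mul_assoc, ff]
  have l6 : ∀ y, r * (f * y) = r * y := fun y => by rw [← mul_assoc, h]
  have e3 := fk'.eq
  rw [e0, wm_inv p1, wm_inv p2]
  have e1 : r * (!![1 + f, f; f, 1 + f] * !![1 + f * (k * k'), f * k; k' * f, 1 + f]) 0 0 +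
      0 * (!![1 + f, f; f, 1 + f] * !![1 + f * (k * k'), f * k; k' * f, 1 + f]) 1 0 = r * k' := by
    simp [Matrix.mul_apply, Fin.sum_univ_two, mul_add, add_mul, mul_assoc, l1, l2, l3, h, l6, ← e3]
    ch2
  have e2 : r * (!![1 + f, f; f, 1 + f] * !![1 + f * (k * k'), f * k; k' * f, 1 + f]) 0 1 +
      0 * (!![1 + f, f; f, 1 + f] * !![1 + f * (k * k'), f * k; k' * f, 1 + f]) 1 1 = 0 := by
    simp [Matrix.mul_apply, Fin.sum_univ_two, mul_add, add_mul, mul_assoc, l1, l2, l3, h, l6, ← e3]
    ch2
  rw [e1, e2, S.zero (by decide), mul_one]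

/-- conjugating a `w`-element -/
theorem sg_wel {s s' : R} (h : f * s = s) (h' : s' * f = s') :
    sg x f k k' * wel x 0 1 s s' * (sg x f k k')⁻¹ = wel x 0 1 (k * s) (s' * k') := by
  have e1 := sg_col S ff kk fk fk' h
  have e2 := sg_row S ff kk fk fk' h'
  rw [wel, wel, ← e1, ← e2]; group

theorem sg_vv {e n n' c c' : R} (ee : f * e = e) (ee' : e * f = e)
    (cf : Commute f c) :
    sg x f k k' * vv x 1 1 e n n' c c' * (sg x f k k')⁻¹ = vv x k k' e n n' c c' := by
  have key : ∀ {n1 n1' c1 c1' : R}, Commute f c1 →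
      sg x f k k' * wel x 0 1 (1 * (c1 * (e * n1))) (n1' * (c1' * (e * 1))) * (sg x f k k')⁻¹ =
      wel x 0 1 (k * (c1 * (e * n1))) (n1' * (c1' * (e * k'))) := by
    intro n1 n1' c1 c1' h1
    rw [one_mul, mul_one, sg_wel S ff kk fk fk']
    · simp only [mul_assoc]
    · rw [← mul_assoc, h1.eq, mul_assoc, ← mul_assoc f, ee]
    · simp only [mul_assoc, ee']
  have o : Commute f 1 := Commute.one_right f
  rw [vv, vv]
  simp only [← key cf, ← key o]
  group

end shift

/-- two commuting families in a free group -/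
theorem lift_mul {u v : ι → G} (h : ∀ i j, Commute (u i) (v j)) (r : FreeGroup ι) :
    FreeGroup.lift (fun i => u i * v i) r = FreeGroup.lift u r * FreeGroup.lift v r := by
  have h1 : ∀ i s, Commute (u i) (FreeGroup.lift v s) := by
    intro i s
    induction s using FreeGroup.induction_on with
    | C1 => simp
    | of a => simpa using h i a
    | inv_of a _ => simpa using (h i a)
    | mul a b ha hb => rw [map_mul]; exact ha.mul_right hb
  have h2 : ∀ r s, Commute (FreeGroup.lift u r) (FreeGroup.lift v s) := by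
    intro r s
    induction r using FreeGroup.induction_on with
    | C1 => simp
    | of a => simpa using h1 a s
    | inv_of a _ => simpa using (h1 a s)
    | mul a b ha hb => rw [map_mul]; exact ha.mul_left hb
  induction r using FreeGroup.induction_on with
  | C1 => simp
  | of a => simp
  | inv_of a _ => simp [(h a a).eq]
  | mul a b ha hb =>
    rw [map_mul, map_mul, map_mul, ha, hb]
    have := (h2 b a).eq
    calc FreeGroup.lift u a * FreeGroup.lift v a * (FreeGroup.lift u b * FreeGroup.lift v b)
        = FreeGroup.lift u a * (FreeGroup.lift v a * FreeGroup.lift u b) * FreeGroup.lift v b := by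
          group
      _ = _ := by rw [← this]; group

theorem lift_conj (g : G) (u : ι → G) (r : FreeGroup ι) :
    FreeGroup.lift (fun i => g * u i * g⁻¹) r = g * FreeGroup.lift u r * g⁻¹ := by
  have : FreeGroup.lift (fun i => g * u i * g⁻¹) = (MulAut.conj g).toMonoidHom.comp
      (FreeGroup.lift u) := by
    ext i; simp
  rw [this]; simp

/-- `g` acts through the matrix `diag(1+ε+cε,1)` -/
def DG (x : Fin 5 → Fin 5 → R → G) (ε : R) (g : G) (c : R) : Prop :=
  ∃ M : GL2 R, Act x 0 1 g M ∧ M.1 = !![1 + ε + c * ε, 0; 0, 1]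

section DG

variable [Ch2 R] {ε : R} (ee : ε * ε = ε)

theorem DG.one : DG x ε (1 : G) 1 := by
  refine ⟨1, Act.one, ?_⟩
  have : (1 : R) + ε + 1 * ε = 1 := by rw [one_mul]; ch2
  rw [this]
  ext i j; fin_cases i <;> fin_cases j <;> rfl

include ee

theorem DG.mul {g h : G} {c d : R} (hg : DG x ε g c) (hh : DG x ε h d) (hd : Commute d ε) :
    DG x ε (g * h) (c * d) := by
  obtain ⟨M, hM, hM'⟩ := hg
  obtain ⟨N, hN, hN'⟩ := hh
  refine ⟨M * N, hM.mul hN, ?_⟩
  rw [Units.val_mul, hM', hN']
  have l1 : ∀ y, ε * (ε * y) = ε * y := fun y => by rw [← mul_assoc, ee]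
  have l2 : ∀ y, d * (ε * y) = ε * (d * y) := fun y => by rw [← mul_assoc, hd.eq, mul_assoc]
  have l3 := hd.eq
  ext i j
  fin_cases i <;> fin_cases j
  · simp [Matrix.mul_apply, Fin.sum_univ_two, mul_add, add_mul, mul_assoc, l1, l2, ee, l3]
    ch2
  · simp [Matrix.mul_apply, Fin.sum_univ_two]
  · simp [Matrix.mul_apply, Fin.sum_univ_two]
  · simp [Matrix.mul_apply, Fin.sum_univ_two]

theorem DG.inv {g : G} {c : Rˣ} (hg : DG x ε g c) (hc : Commute (c : R) ε) :
    DG x ε g⁻¹ (c⁻¹ : Rˣ) := by
  obtain ⟨M, hM, hM'⟩ := hg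
  refine ⟨M⁻¹, hM.inv, ?_⟩
  have hc' : Commute ((c⁻¹ : Rˣ) : R) ε := hc.units_inv_left
  have l1 : ∀ y, ε * (ε * y) = ε * y := fun y => by rw [← mul_assoc, ee]
  have l2 : ∀ y, ((c⁻¹ : Rˣ) : R) * (ε * y) = ε * ((c⁻¹ : Rˣ) * y) := fun y => by
    rw [← mul_assoc, hc'.eq, mul_assoc]
  have l3 := hc'.eq
  have key : M.1 * !![1 + ε + ((c⁻¹ : Rˣ) : R) * ε, 0; 0, 1] = 1 := by
    rw [hM']
    ext i j
    fin_cases i <;> fin_cases j
    · simp [Matrix.mul_apply, Fin.sum_univ_two, mul_add, add_mul, mul_assoc, l1, l2, ee, l3]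
      rw [← l3, Units.mul_inv_cancel_left]
      ch2
    · simp [Matrix.mul_apply, Fin.sum_univ_two]
    · simp [Matrix.mul_apply, Fin.sum_univ_two]
    · simp [Matrix.mul_apply, Fin.sum_univ_two]
  exact Units.inv_eq_of_mul_eq_one_right key

theorem DG.lift {u : ι → G} {c : ι → Rˣ} (hc : ∀ i, Commute (c i : R) ε)
    (hu : ∀ i, DG x ε (u i) (c i)) (r : FreeGroup ι) :
    Commute (FreeGroup.lift c r : R) ε ∧ DG x ε (FreeGroup.lift u r) (FreeGroup.lift c r : Rˣ) := by
  induction r using FreeGroup.induction_on with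
  | C1 => simpa using DG.one
  | of a => simpa using ⟨hc a, hu a⟩
  | inv_of a _ => simpa using ⟨hc a, DG.inv ee (hu a) (hc a)⟩
  | mul a b ha hb =>
    simp only [map_mul, Units.val_mul]
    exact ⟨ha.1.mul_left hb.1, DG.mul ee ha.2 hb.2 hb.1⟩

end DG

theorem DG.eq_one [Ch2 R] {ε : R} {g : G} {c : R} (h : DG x ε g c) (hc : c * ε = ε) :
    Act x 0 1 g 1 := by
  obtain ⟨M, hM, hM'⟩ := h
  have : M = 1 := by
    apply Units.ext
    rw [hM', hc]
    have : (1 : R) + ε + ε = 1 := by ch2
    rw [this]
    ext i j; fin_cases i <;> fin_cases j <;> rfl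
  rwa [this] at hM

namespace Data

variable (d : Data R ι)

/-- the part of `f` where the counter `K` is zero -/
def e0 : R := d.f * (1 + d.k * d.k')
/-- the part of `f` where the counter `K` is positive -/
def e1 : R := d.f * (d.k * d.k')
/-- first copies -/
def u0 (x : Fin 5 → Fin 5 → R → G) (i : ι) : G :=
  vv x 1 1 d.e0 d.n d.n' (d.c i) ((d.c i)⁻¹ : Rˣ)
/-- second copies -/
def u1 (x : Fin 5 → Fin 5 → R → G) (i : ι) : G :=
  vv x 1 1 d.e1 d.n d.n' (d.c i) ((d.c i)⁻¹ : Rˣ)
/-- the central correction -/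
def a (x : Fin 5 → Fin 5 → R → G) (i : ι) : G :=
  sg x d.f d.k d.k' * (d.u0 x i * d.u1 x i) * (sg x d.f d.k d.k')⁻¹ * (d.u1 x i)⁻¹
/-- the corrected copies -/
def V (x : Fin 5 → Fin 5 → R → G) (i : ι) : G := d.u0 x i * (d.a x i)⁻¹

/-- the final idempotent -/
def eps : R := d.e0 * (1 + d.n * d.n')

variable [Ch2 R]

omit [Ch2 R] in
theorem e0_comm {y : R} (h : Commute d.f y) (h1 : Commute d.k y) (h2 : Commute d.k' y) :
    Commute d.e0 y :=
  h.mul_left ((Commute.one_left y).add_left (h1.mul_left h2))

omit [Ch2 R] in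
theorem e1_comm {y : R} (h : Commute d.f y) (h1 : Commute d.k y) (h2 : Commute d.k' y) :
    Commute d.e1 y := h.mul_left (h1.mul_left h2)

theorem e0_sq : d.e0 * d.e0 = d.e0 := by
  have l1 : ∀ y, d.f * (d.f * y) = d.f * y := fun y => by rw [← mul_assoc, d.ff]
  have l2 : ∀ y, d.k * (d.f * y) = d.f * (d.k * y) := fun y => by
    rw [← mul_assoc, ← d.fk.eq, mul_assoc]
  have l3 : ∀ y, d.k' * (d.f * y) = d.f * (d.k' * y) := fun y => by
    rw [← mul_assoc, ← d.fk'.eq, mul_assoc]
  have l4 : ∀ y, d.k' * (d.k * y) = y := fun y => by rw [← mul_assoc, d.kk, one_mul]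
  have t2 := d.fk'.eq
  have t1 := d.fk.eq
  simp only [e0, mul_add, add_mul, mul_assoc, one_mul, mul_one, l1, l2, l3, l4, ← t1, ← t2, d.ff]
  ch2

omit [Ch2 R] in
theorem e1_sq : d.e1 * d.e1 = d.e1 := by
  have l1 : ∀ y, d.f * (d.f * y) = d.f * y := fun y => by rw [← mul_assoc, d.ff]
  have l2 : ∀ y, d.k * (d.f * y) = d.f * (d.k * y) := fun y => by
    rw [← mul_assoc, ← d.fk.eq, mul_assoc]
  have l3 : ∀ y, d.k' * (d.f * y) = d.f * (d.k' * y) := fun y => by
    rw [← mul_assoc, ← d.fk'.eq, mul_assoc]
  have l4 : ∀ y, d.k' * (d.k * y) = y := fun y => by rw [← mul_assoc, d.kk, one_mul]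
  simp only [e1, mul_assoc, l1, l2, l3, l4]

theorem e01 : d.e0 * d.e1 = 0 := by
  have l1 : ∀ y, d.f * (d.f * y) = d.f * y := fun y => by rw [← mul_assoc, d.ff]
  have l2 : ∀ y, d.k * (d.f * y) = d.f * (d.k * y) := fun y => by
    rw [← mul_assoc, ← d.fk.eq, mul_assoc]
  have l3 : ∀ y, d.k' * (d.f * y) = d.f * (d.k' * y) := fun y => by
    rw [← mul_assoc, ← d.fk'.eq, mul_assoc]
  have l4 : ∀ y, d.k' * (d.k * y) = y := fun y => by rw [← mul_assoc, d.kk, one_mul]
  simp only [e0, e1, mul_add, add_mul, mul_assoc, one_mul, mul_one, l1, l2, l3, l4]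
  ch2

theorem e10 : d.e1 * d.e0 = 0 := by
  have h := d.e01
  have c1 : Commute d.e0 d.f := d.e0_comm (Commute.refl _) d.fk.symm d.fk'.symm
  have l1 : ∀ y, d.f * (d.f * y) = d.f * y := fun y => by rw [← mul_assoc, d.ff]
  have l2 : ∀ y, d.k * (d.f * y) = d.f * (d.k * y) := fun y => by
    rw [← mul_assoc, ← d.fk.eq, mul_assoc]
  have l3 : ∀ y, d.k' * (d.f * y) = d.f * (d.k' * y) := fun y => by
    rw [← mul_assoc, ← d.fk'.eq, mul_assoc]
  have l4 : ∀ y, d.k' * (d.k * y) = y := fun y => by rw [← mul_assoc, d.kk, one_mul]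
  have t2 := d.fk'.eq
  have t1 := d.fk.eq
  simp only [e0, e1, mul_add, add_mul, mul_assoc, one_mul, mul_one, l1, l2, l3, l4, ← t1, ← t2]
  ch2

omit [Ch2 R] in
theorem comms (i : ι) : Commute d.f (d.c i : R) ∧ Commute d.f ((d.c i)⁻¹ : Rˣ) ∧
    Commute d.k (d.c i : R) ∧ Commute d.k ((d.c i)⁻¹ : Rˣ) ∧ Commute d.k' (d.c i : R) ∧
    Commute d.k' ((d.c i)⁻¹ : Rˣ) :=
  ⟨(d.cf i).symm, ((d.cf i).units_inv_left).symm, (d.ck i).symm, ((d.ck i).units_inv_left).symm,
    (d.ck' i).symm, ((d.ck' i).units_inv_left).symm⟩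

omit [Ch2 R] in
theorem u01_comm (S : Stein x) [Ch2 R] (i j : ι) : Commute (d.u0 x i) (d.u1 x j) := by
  obtain ⟨a1, a2, a3, a4, a5, a6⟩ := d.comms i
  obtain ⟨b1, b2, b3, b4, b5, b6⟩ := d.comms j
  exact vv_comm S d.e0_sq d.e1_sq d.e01 d.e10 (d.e0_comm d.fn d.kn d.k'n)
    (d.e0_comm d.fn' d.kn' d.k'n') (d.e0_comm a1 a3 a5) (d.e0_comm a2 a4 a6)
    (d.e1_comm d.fn d.kn d.k'n) (d.e1_comm d.fn' d.kn' d.k'n') (d.e1_comm b1 b3 b5)
    (d.e1_comm b2 b4 b6)

theorem u0_dg (S : Stein x) (i : ι) : DG x (d.e0 * (1 + d.n * d.n')) (d.u0 x i) (d.c i) := by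
  obtain ⟨a1, a2, a3, a4, a5, a6⟩ := d.comms i
  refine ⟨_, Act.vv S _ _ _ _ _ _ _, ?_⟩
  rw [vm_val (mul_one 1) d.e0_sq d.nn (d.e0_comm d.fn d.kn d.k'n) (d.e0_comm d.fn' d.kn' d.k'n')
    (d.e0_comm a1 a3 a5) (d.e0_comm a2 a4 a6) (Units.mul_inv _) (Units.inv_mul _)
    (d.cn i) (d.cn' i)]
  simp only [one_mul, mul_one, mul_assoc]

theorem u1_dg (S : Stein x) (i : ι) : DG x (d.e1 * (1 + d.n * d.n')) (d.u1 x i) (d.c i) := by
  obtain ⟨a1, a2, a3, a4, a5, a6⟩ := d.comms i
  refine ⟨_, Act.vv S _ _ _ _ _ _ _, ?_⟩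
  rw [vm_val (mul_one 1) d.e1_sq d.nn (d.e1_comm d.fn d.kn d.k'n) (d.e1_comm d.fn' d.kn' d.k'n')
    (d.e1_comm a1 a3 a5) (d.e1_comm a2 a4 a6) (Units.mul_inv _) (Units.inv_mul _)
    (d.cn i) (d.cn' i)]
  simp only [one_mul, mul_one, mul_assoc]

theorem a_act (S : Stein x) (i : ι) : Act x 0 1 (d.a x i) 1 := by
  obtain ⟨a1, a2, a3, a4, a5, a6⟩ := d.comms i
  have l1 : ∀ y, d.f * (d.f * y) = d.f * y := fun y => by rw [← mul_assoc, d.ff]
  have l2 : ∀ y, d.k * (d.f * y) = d.f * (d.k * y) := fun y => by
    rw [← mul_assoc, ← d.fk.eq, mul_assoc]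
  have l3 : ∀ y, d.k' * (d.f * y) = d.f * (d.k' * y) := fun y => by
    rw [← mul_assoc, ← d.fk'.eq, mul_assoc]
  have l4 : ∀ y, d.k' * (d.k * y) = y := fun y => by rw [← mul_assoc, d.kk, one_mul]
  have l5 : ∀ y, d.n * (d.f * y) = d.f * (d.n * y) := fun y => by
    rw [← mul_assoc, ← d.fn.eq, mul_assoc]
  have l6 : ∀ y, d.n' * (d.f * y) = d.f * (d.n' * y) := fun y => by
    rw [← mul_assoc, ← d.fn'.eq, mul_assoc]
  have l7 : ∀ y, d.n' * (d.n * y) = y := fun y => by rw [← mul_assoc, d.nn, one_mul]
  have l8 : ∀ y, d.n * (d.k * y) = d.k * (d.n * y) := fun y => by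
    rw [← mul_assoc, ← d.kn.eq, mul_assoc]
  have l9 : ∀ y, d.n * (d.k' * y) = d.k' * (d.n * y) := fun y => by
    rw [← mul_assoc, ← d.k'n.eq, mul_assoc]
  have l10 : ∀ y, d.n' * (d.k * y) = d.k * (d.n' * y) := fun y => by
    rw [← mul_assoc, ← d.kn'.eq, mul_assoc]
  have l11 : ∀ y, d.n' * (d.k' * y) = d.k' * (d.n' * y) := fun y => by
    rw [← mul_assoc, ← d.k'n'.eq, mul_assoc]
  have l12 : ∀ y, d.k * ((d.c i : R) * y) = d.c i * (d.k * y) := fun y => by
    rw [← mul_assoc, a3.eq, mul_assoc]
  have l13 : ∀ y, d.k' * ((d.c i : R) * y) = d.c i * (d.k' * y) := fun y => by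
    rw [← mul_assoc, a5.eq, mul_assoc]
  have l14 : ∀ y, d.f * ((d.c i : R) * y) = d.c i * (d.f * y) := fun y => by
    rw [← mul_assoc, a1.eq, mul_assoc]
  have l15 : ∀ y, d.n * ((d.c i : R) * y) = d.c i * (d.n * y) := fun y => by
    rw [← mul_assoc, ← (d.cn i).eq, mul_assoc]
  have l16 : ∀ y, d.n' * ((d.c i : R) * y) = d.c i * (d.n' * y) := fun y => by
    rw [← mul_assoc, ← (d.cn' i).eq, mul_assoc]
  have t1 := d.k'n.eq
  have t2 := d.k'n'.eq
  have f0 : d.f * d.e0 = d.e0 := by rw [e0, l1]
  have f0' : d.e0 * d.f = d.e0 := by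
    rw [(d.e0_comm (Commute.refl _) d.fk.symm d.fk'.symm).eq, f0]
  have f1 : d.f * d.e1 = d.e1 := by rw [e1, l1]
  have f1' : d.e1 * d.f = d.e1 := by
    rw [(d.e1_comm (Commute.refl _) d.fk.symm d.fk'.symm).eq, f1]
  have g0 := sg_vv (e := d.e0) (n := d.n) (n' := d.n') (c' := ((d.c i)⁻¹ : Rˣ)) S d.ff d.kk
    d.fk d.fk' f0 f0' a1
  have g1 := sg_vv (e := d.e1) (n := d.n) (n' := d.n') (c' := ((d.c i)⁻¹ : Rˣ)) S d.ff d.kk
    d.fk d.fk' f1 f1' a1
  have ha : d.a x i = vv x d.k d.k' d.e0 d.n d.n' (d.c i) ((d.c i)⁻¹ : Rˣ) *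
      vv x d.k d.k' d.e1 d.n d.n' (d.c i) ((d.c i)⁻¹ : Rˣ) * (d.u1 x i)⁻¹ := by
    rw [← g0, ← g1, a, u0, u1]; group
  have h0 := vm_val (a := d.k) (a' := d.k') d.kk d.e0_sq d.nn (d.e0_comm d.fn d.kn d.k'n)
    (d.e0_comm d.fn' d.kn' d.k'n') (d.e0_comm a1 a3 a5) (d.e0_comm a2 a4 a6) (Units.mul_inv _)
    (Units.inv_mul _) (d.cn i) (d.cn' i)
  have h1 := vm_val (a := d.k) (a' := d.k') d.kk d.e1_sq d.nn (d.e1_comm d.fn d.kn d.k'n)
    (d.e1_comm d.fn' d.kn' d.k'n') (d.e1_comm a1 a3 a5) (d.e1_comm a2 a4 a6) (Units.mul_inv _)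
    (Units.inv_mul _) (d.cn i) (d.cn' i)
  have h2 := vm_val (a := (1 : R)) (a' := (1 : R)) (mul_one 1) d.e1_sq d.nn
    (d.e1_comm d.fn d.kn d.k'n)
    (d.e1_comm d.fn' d.kn' d.k'n') (d.e1_comm a1 a3 a5) (d.e1_comm a2 a4 a6) (Units.mul_inv _)
    (Units.inv_mul _) (d.cn i) (d.cn' i)
  have key : vm d.k d.k' d.e0 d.n d.n' (d.c i) ((d.c i)⁻¹ : Rˣ) *
      vm d.k d.k' d.e1 d.n d.n' (d.c i) ((d.c i)⁻¹ : Rˣ) =
      vm 1 1 d.e1 d.n d.n' (d.c i) ((d.c i)⁻¹ : Rˣ) := by
    apply Units.ext
    rw [Units.val_mul, h0, h1, h2]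
    ext p q
    fin_cases p <;> fin_cases q
    · simp [Matrix.mul_apply, Fin.sum_univ_two, mul_add, add_mul, mul_assoc, e0, e1,
        l1, l2, l3, l4, l5, l6, l7, l8, l9, l10, l11, l12, l13, l14, l15, l16, ← t1, ← t2]
      ch2
    · simp [Matrix.mul_apply, Fin.sum_univ_two]
    · simp [Matrix.mul_apply, Fin.sum_univ_two]
    · simp [Matrix.mul_apply, Fin.sum_univ_two]
  have A := ((Act.vv S d.k d.k' d.e0 d.n d.n' (d.c i) ((d.c i)⁻¹ : Rˣ)).mul
    (Act.vv S d.k d.k' d.e1 d.n d.n' (d.c i) ((d.c i)⁻¹ : Rˣ))).mul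
    (Act.vv S 1 1 d.e1 d.n d.n' (d.c i) ((d.c i)⁻¹ : Rˣ)).inv
  rw [key, mul_inv_cancel] at A
  rw [ha]
  exact A

theorem a_central (S : Stein x) (hg : Gen x) (i : ι) (h : G) : Commute (d.a x i) h :=
  (d.a_act S i).central S hg (by decide) h

omit [Ch2 R] in
theorem f_e0 : d.f * d.e0 = d.e0 := by rw [e0, ← mul_assoc, d.ff]

omit [Ch2 R] in
theorem f_e1 : d.f * d.e1 = d.e1 := by rw [e1, ← mul_assoc, d.ff]

theorem kill (S : Stein x) (hg : Gen x) (r : FreeGroup ι)
    (hr : (FreeGroup.lift d.c r : R) * d.f = d.f) : FreeGroup.lift (d.V x) r = 1 := by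
  have cm : ∀ i, Commute (1 + d.n * d.n') (d.c i : R) := fun i =>
    (Commute.one_left _).add_left (((d.cn i).symm).mul_left (d.cn' i).symm)
  have m0 : Commute d.e0 (1 + d.n * d.n') :=
    (Commute.one_right _).add_right ((d.e0_comm d.fn d.kn d.k'n).mul_right
      (d.e0_comm d.fn' d.kn' d.k'n'))
  have m1 : Commute d.e1 (1 + d.n * d.n') :=
    (Commute.one_right _).add_right ((d.e1_comm d.fn d.kn d.k'n).mul_right
      (d.e1_comm d.fn' d.kn' d.k'n'))
  have mm : (1 + d.n * d.n') * (1 + d.n * d.n') = 1 + d.n * d.n' := by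
    have l7 : ∀ y, d.n' * (d.n * y) = y := fun y => by rw [← mul_assoc, d.nn, one_mul]
    simp only [mul_add, add_mul, mul_one, one_mul, mul_assoc, l7]
    ch2
  have q0 : (d.e0 * (1 + d.n * d.n')) * (d.e0 * (1 + d.n * d.n')) = d.e0 * (1 + d.n * d.n') := by
    rw [mul_assoc, ← mul_assoc _ d.e0, ← m0.eq, mul_assoc, mm, ← mul_assoc, d.e0_sq]
  have q1 : (d.e1 * (1 + d.n * d.n')) * (d.e1 * (1 + d.n * d.n')) = d.e1 * (1 + d.n * d.n') := by
    rw [mul_assoc, ← mul_assoc _ d.e1, ← m1.eq, mul_assoc, mm, ← mul_assoc, d.e1_sq]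
  have c0 : ∀ i, Commute (d.c i : R) (d.e0 * (1 + d.n * d.n')) := fun i => by
    obtain ⟨a1, a2, a3, a4, a5, a6⟩ := d.comms i
    exact (d.e0_comm a1 a3 a5).symm.mul_right (cm i).symm
  have c1 : ∀ i, Commute (d.c i : R) (d.e1 * (1 + d.n * d.n')) := fun i => by
    obtain ⟨a1, a2, a3, a4, a5, a6⟩ := d.comms i
    exact (d.e1_comm a1 a3 a5).symm.mul_right (cm i).symm
  have r0 : (FreeGroup.lift d.c r : R) * (d.e0 * (1 + d.n * d.n')) =
      d.e0 * (1 + d.n * d.n') := by
    rw [← d.f_e0, mul_assoc d.f, ← mul_assoc, hr]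
  have r1 : (FreeGroup.lift d.c r : R) * (d.e1 * (1 + d.n * d.n')) =
      d.e1 * (1 + d.n * d.n') := by
    rw [← d.f_e1, mul_assoc d.f, ← mul_assoc, hr]
  -- the two copies of the relator are central
  have z0 : ∀ h, Commute (FreeGroup.lift (d.u0 x) r) h :=
    (((DG.lift q0 c0 (d.u0_dg S) r).2).eq_one r0).central S hg (by decide)
  have z1 : ∀ h, Commute (FreeGroup.lift (d.u1 x) r) h :=
    (((DG.lift q1 c1 (d.u1_dg S) r).2).eq_one r1).central S hg (by decide)
  have k1 : FreeGroup.lift (fun i => d.u0 x i * d.u1 x i) r =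
      FreeGroup.lift (d.u0 x) r * FreeGroup.lift (d.u1 x) r :=
    lift_mul (fun i j => d.u01_comm S i j) r
  have k2 : FreeGroup.lift (fun i => d.a x i * d.u1 x i) r =
      FreeGroup.lift (d.a x) r * FreeGroup.lift (d.u1 x) r :=
    lift_mul (fun i j => d.a_central S hg i _) r
  have k3 : FreeGroup.lift (fun i => d.a x i * d.u1 x i) r =
      FreeGroup.lift (fun i => d.u0 x i * d.u1 x i) r := by
    have : (fun i => d.a x i * d.u1 x i) = (fun i => sg x d.f d.k d.k' * (d.u0 x i * d.u1 x i) *
        (sg x d.f d.k d.k')⁻¹) := by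
      funext i; rw [a, inv_mul_cancel_right]
    rw [this, lift_conj, k1]
    have := (z0 (sg x d.f d.k d.k')).mul_left (z1 (sg x d.f d.k d.k'))
    rw [← this.eq, mul_inv_cancel_right]
  have k4 : FreeGroup.lift (d.u0 x) r = FreeGroup.lift (d.a x) r := by
    rw [k1, k2] at k3; exact (mul_right_cancel k3).symm
  have k5 : FreeGroup.lift (fun i => d.V x i * d.a x i) r =
      FreeGroup.lift (d.V x) r * FreeGroup.lift (d.a x) r :=
    lift_mul (fun i j => (d.a_central S hg j _).symm) r
  have k6 : (fun i => d.V x i * d.a x i) = d.u0 x := by funext i; rw [V, inv_mul_cancel_right]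
  rw [k6, k4] at k5
  exact (right_eq_mul.1 k5)

theorem inj (S : Stein x) (hg : Gen x) (r : FreeGroup ι) (hr : FreeGroup.lift (d.V x) r = 1) :
    x 0 2 (d.eps + (FreeGroup.lift d.c r : R) * d.eps) = 1 := by
  have cm : ∀ i, Commute (1 + d.n * d.n') (d.c i : R) := fun i =>
    (Commute.one_left _).add_left (((d.cn i).symm).mul_left (d.cn' i).symm)
  have m0 : Commute d.e0 (1 + d.n * d.n') :=
    (Commute.one_right _).add_right ((d.e0_comm d.fn d.kn d.k'n).mul_right
      (d.e0_comm d.fn' d.kn' d.k'n'))
  have mm : (1 + d.n * d.n') * (1 + d.n * d.n') = 1 + d.n * d.n' := by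
    have l7 : ∀ y, d.n' * (d.n * y) = y := fun y => by rw [← mul_assoc, d.nn, one_mul]
    simp only [mul_add, add_mul, mul_one, one_mul, mul_assoc, l7]
    ch2
  have q0 : (d.e0 * (1 + d.n * d.n')) * (d.e0 * (1 + d.n * d.n')) = d.e0 * (1 + d.n * d.n') := by
    rw [mul_assoc, ← mul_assoc _ d.e0, ← m0.eq, mul_assoc, mm, ← mul_assoc, d.e0_sq]
  have c0 : ∀ i, Commute (d.c i : R) (d.e0 * (1 + d.n * d.n')) := fun i => by
    obtain ⟨a1, a2, a3, a4, a5, a6⟩ := d.comms i
    exact (d.e0_comm a1 a3 a5).symm.mul_right (cm i).symm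
  have k5 : FreeGroup.lift (fun i => d.V x i * d.a x i) r =
      FreeGroup.lift (d.V x) r * FreeGroup.lift (d.a x) r :=
    lift_mul (fun i j => (d.a_central S hg j _).symm) r
  have k6 : (fun i => d.V x i * d.a x i) = d.u0 x := by funext i; rw [V, inv_mul_cancel_right]
  rw [k6, hr, one_mul] at k5
  have hA : Act x 0 1 (FreeGroup.lift (d.a x) r) 1 := by
    clear k5 hr
    induction r using FreeGroup.induction_on with
    | C1 => simpa using Act.one
    | of i => simpa using d.a_act S i
    | inv_of i _ => simpa using (d.a_act S i).inv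
    | mul a b ha hb => simpa using ha.mul hb
  obtain ⟨M, hM, hM'⟩ := (DG.lift q0 c0 (d.u0_dg S) r).2
  have e1 := hM.col 2 (by decide) (by decide) 1 0
  rw [k5, hA.col 2 (by decide) (by decide) 1 0, hM'] at e1
  simp only [Units.val_one, one_apply_eq, one_mul, mul_zero, add_zero, ne_eq, zero_ne_one,
    not_false_eq_true, one_apply_ne, one_ne_zero, mul_one, zero_mul, S.zero (i := 1) (j := 2)
    (by decide)] at e1
  simp only [cons_val', cons_val_zero, cons_val_fin_one, of_apply, cons_val_one,
    S.zero (i := 1) (j := 2) (by decide), mul_one] at e1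
  rw [add_assoc, S.add _ _ _ _ (by decide)] at e1
  exact (left_eq_mul.1 e1)

end Data

end Crest.Agent.R185.Univ
end

-- ▼ part R185/U6
section

/-!
# R185 / UNIV (6): a finitely presented ring of characteristic 2 (definition of the relations)
-/

set_option autoImplicit false
set_option linter.unusedSimpArgs false

namespace Crest.Agent.R185.Univ

/-- tape letters -/
inductive Ltr
  | one | pos | neg | sep
  deriving DecidableEq

instance : Fintype Ltr := ⟨{.one, .pos, .neg, .sep}, by intro x; cases x <;> decide⟩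

/-- ring generators: push, pop (two stacks), counters up and down, `g`, `g'`, `D`, `th` -/
inductive Gn
  | P (b : Bool) (a : Ltr)
  | Q (b : Bool) (a : Ltr)
  | C (c : Fin 4)
  | C' (c : Fin 4)
  | g | g' | D | th
  deriving DecidableEq, Fintype

/-- names of the ring relations -/
inductive RI
  | qp (b : Bool) (a a' : Ltr)
  | pp (a a' : Ltr)
  | pq (a a' : Ltr)
  | qp' (a a' : Ltr)
  | qq (a a' : Ltr)
  | cc (c : Fin 4)
  | cP (c : Fin 4) (b : Bool) (a : Ltr)
  | cQ (c : Fin 4) (b : Bool) (a : Ltr)
  | c'P (c : Fin 4) (b : Bool) (a : Ltr)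
  | c'Q (c : Fin 4) (b : Bool) (a : Ltr)
  | c1 (c c' : Fin 4)
  | c2 (c c' : Fin 4)
  | c3 (c c' : Fin 4)
  | gg
  | gg'
  | gt (a : Ltr)
  | gt' (a : Ltr)
  | gL (b : Bool)
  | gI (c : Fin 4)
  | guw
  | gk (c : Fin 4)
  | gk' (c : Fin 4)
  | Du
  | Du'
  | Dt
  | DL
  | DR
  | tu
  | tw (a : Ltr)
  | Dp
  | Dn
  deriving Fintype

open Gn Ltr

/-- a single letter as a polynomial -/
def o (x : Gn) : Poly Gn := [[x]]

/-- the polynomial `1 + ∑ P b a Q b a` -/
def omT (b : Bool) : Poly Gn :=
  [[]] ++ [[P b one, Q b one]] ++ [[P b pos, Q b pos]] ++ [[P b neg, Q b neg]] ++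
    [[P b sep, Q b sep]]

/-- the polynomial `1 + C c C' c` -/
def omC (c : Fin 4) : Poly Gn := [[]] ++ [[C c, C' c]]

/-- commutation -/
def com (p q : Poly Gn) : Poly Gn × Poly Gn := (pmul p q, pmul q p)

/-- moving a letter from right to left -/
def tt (a : Ltr) : Poly Gn := pmul (o (P false a)) (o (Q true a))

/-- moving a letter from left to right -/
def tt' (a : Ltr) : Poly Gn := pmul (o (P true a)) (o (Q false a))

/-- the ring relations -/
def relP : RI → Poly Gn × Poly Gn
  | .qp b a a' => (pmul (o (Q b a)) (o (P b a')), if a = a' then [[]] else [])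
  | .pp a a' => com (o (P false a)) (o (P true a'))
  | .pq a a' => com (o (P false a)) (o (Q true a'))
  | .qp' a a' => com (o (Q false a)) (o (P true a'))
  | .qq a a' => com (o (Q false a)) (o (Q true a'))
  | .cc c => (pmul (o (C' c)) (o (C c)), [[]])
  | .cP c b a => com (o (C c)) (o (P b a))
  | .cQ c b a => com (o (C c)) (o (Q b a))
  | .c'P c b a => com (o (C' c)) (o (P b a))
  | .c'Q c b a => com (o (C' c)) (o (Q b a))
  | .c1 c c' => if c = c' then ([], []) else com (o (C c)) (o (C c'))
  | .c2 c c' => if c = c' then ([], []) else com (o (C c)) (o (C' c'))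
  | .c3 c c' => if c = c' then ([], []) else com (o (C' c)) (o (C' c'))
  | .gg => (pmul (o g) (o g'), [[]])
  | .gg' => (pmul (o g') (o g), [[]])
  | .gt a => com (o g) (tt a)
  | .gt' a => com (o g) (tt' a)
  | .gL b => com (o g) (omT b)
  | .gI c => if c = 0 ∨ c = 1 then com (o g) (pmul (o (C c)) (o (C' c))) else ([], [])
  | .guw => com (o g) (pmul (o (C 0)) (o (C' 1)))
  | .gk c => if c = 2 ∨ c = 3 then com (o g) (o (C c)) else ([], [])
  | .gk' c => if c = 2 ∨ c = 3 then com (o g) (o (C' c)) else ([], [])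
  | .Du => com (o D) (o (C 0))
  | .Du' => com (o D) (o (C' 0))
  | .Dt => com (o D) (tt one)
  | .DL => (pmul (o D) (o (P false sep)), o (P false sep))
  | .DR => (pmul (o D) (o (P true sep)), o (P true sep))
  | .tu => com (o th) (pmul (o (C 0)) (tt one))
  | .tw a => if a = one then ([], []) else
      (pmul (o th) (pmul (omC 0) (pmul (omC 1) (o (P false a)))),
        pmul (omC 0) (pmul (omC 1) (o (P false a))))
  | .Dp => (pmul (o D) (pmul (tt pos) (o th)), pmul (tt pos) (pmul (o g) (pmul (o D) (o th))))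
  | .Dn => (pmul (o D) (pmul (tt neg) (o th)), pmul (tt neg) (pmul (o g') (pmul (o D) (o th))))

section ring

variable {S : Type*} [Ring S] (v : Gn → S)

/-- `1 + ∑ P b a Q b a` -/
def wT (b : Bool) : S :=
  1 + v (P b one) * v (Q b one) + v (P b pos) * v (Q b pos) + v (P b neg) * v (Q b neg) +
    v (P b sep) * v (Q b sep)

/-- `1 + C c C' c` -/
def wC (c : Fin 4) : S := 1 + v (C c) * v (C' c)

/-- move right to left -/
def T (a : Ltr) : S := v (P false a) * v (Q true a)

/-- move left to right -/
def T' (a : Ltr) : S := v (P true a) * v (Q false a)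

/-- the relations, in a ring -/
structure RR : Prop where
  qp : ∀ b a a', v (Q b a) * v (P b a') = if a = a' then 1 else 0
  pp : ∀ a a', Commute (v (P false a)) (v (P true a'))
  pq : ∀ a a', Commute (v (P false a)) (v (Q true a'))
  qp' : ∀ a a', Commute (v (Q false a)) (v (P true a'))
  qq : ∀ a a', Commute (v (Q false a)) (v (Q true a'))
  cc : ∀ c, v (C' c) * v (C c) = 1
  cP : ∀ c b a, Commute (v (C c)) (v (P b a))
  cQ : ∀ c b a, Commute (v (C c)) (v (Q b a))
  c'P : ∀ c b a, Commute (v (C' c)) (v (P b a))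
  c'Q : ∀ c b a, Commute (v (C' c)) (v (Q b a))
  c1 : ∀ c c', c ≠ c' → Commute (v (C c)) (v (C c'))
  c2 : ∀ c c', c ≠ c' → Commute (v (C c)) (v (C' c'))
  c3 : ∀ c c', c ≠ c' → Commute (v (C' c)) (v (C' c'))
  gg : v g * v g' = 1
  gg' : v g' * v g = 1
  gt : ∀ a, Commute (v g) (T v a)
  gt' : ∀ a, Commute (v g) (T' v a)
  gL : ∀ b, Commute (v g) (wT v b)
  gI : ∀ c, c = 0 ∨ c = 1 → Commute (v g) (v (C c) * v (C' c))
  guw : Commute (v g) (v (C 0) * v (C' 1))
  gk : ∀ c, c = 2 ∨ c = 3 → Commute (v g) (v (C c))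
  gk' : ∀ c, c = 2 ∨ c = 3 → Commute (v g) (v (C' c))
  Du : Commute (v D) (v (C 0))
  Du' : Commute (v D) (v (C' 0))
  Dt : Commute (v D) (T v one)
  DL : v D * v (P false sep) = v (P false sep)
  DR : v D * v (P true sep) = v (P true sep)
  tu : Commute (v th) (v (C 0) * T v one)
  tw : ∀ a, a ≠ one → v th * (wC v 0 * (wC v 1 * v (P false a))) = wC v 0 * (wC v 1 * v (P false a))
  Dp : v D * (T v pos * v th) = T v pos * (v g * (v D * v th))
  Dn : v D * (T v neg * v th) = T v neg * (v g' * (v D * v th))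

@[simp] theorem ev_o (x : Gn) : evalP v (o x) = v x := by simp [evalP, o]
@[simp] theorem ev_one : evalP v ([[]] : Poly Gn) = 1 := by simp [evalP]
@[simp] theorem ev_omT (b : Bool) : evalP v (omT b) = wT v b := by
  simp [evalP, omT, wT, add_assoc]
@[simp] theorem ev_omC (c : Fin 4) : evalP v (omC c) = wC v c := by
  simp [evalP, omC, wC]
@[simp] theorem ev_tt (a : Ltr) : evalP v (tt a) = T v a := by
  rw [tt, evalP_pmul, ev_o, ev_o, T]
@[simp] theorem ev_tt' (a : Ltr) : evalP v (tt' a) = T' v a := by
  rw [tt', evalP_pmul, ev_o, ev_o, T']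

theorem ev_com {p q : Poly Gn} : evalP v (com p q).1 = evalP v (com p q).2 ↔
    Commute (evalP v p) (evalP v q) := by
  rw [com, evalP_pmul, evalP_pmul]; rfl

theorem RR_iff : (∀ i, evalP v (relP i).1 = evalP v (relP i).2) ↔ RR v := by
  constructor
  · intro h
    refine ⟨?_, ?_, ?_, ?_, ?_, ?_, ?_, ?_, ?_, ?_, ?_, ?_, ?_, ?_, ?_, ?_, ?_, ?_, ?_, ?_, ?_, ?_,
      ?_, ?_, ?_, ?_, ?_, ?_, ?_, ?_, ?_⟩
    · intro b a a'
      have := h (.qp b a a')
      simp only [relP, evalP_pmul, ev_o] at this
      rw [this]; split_ifs <;> simp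
    · intro a a'; simpa [relP, ev_com] using h (.pp a a')
    · intro a a'; simpa [relP, ev_com] using h (.pq a a')
    · intro a a'; simpa [relP, ev_com] using h (.qp' a a')
    · intro a a'; simpa [relP, ev_com] using h (.qq a a')
    · intro c; simpa [relP, evalP_pmul] using h (.cc c)
    · intro c b a; simpa [relP, ev_com] using h (.cP c b a)
    · intro c b a; simpa [relP, ev_com] using h (.cQ c b a)
    · intro c b a; simpa [relP, ev_com] using h (.c'P c b a)
    · intro c b a; simpa [relP, ev_com] using h (.c'Q c b a)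
    · intro c c' hc; simpa [relP, ev_com, hc] using h (.c1 c c')
    · intro c c' hc; simpa [relP, ev_com, hc] using h (.c2 c c')
    · intro c c' hc; simpa [relP, ev_com, hc] using h (.c3 c c')
    · simpa [relP, evalP_pmul] using h .gg
    · simpa [relP, evalP_pmul] using h .gg'
    · intro a; simpa [relP, ev_com] using h (.gt a)
    · intro a; simpa [relP, ev_com] using h (.gt' a)
    · intro b; simpa [relP, ev_com] using h (.gL b)
    · intro c hc; simpa only [relP, if_pos hc, ev_com, evalP_pmul, ev_o] using h (.gI c)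
    · simpa [relP, ev_com, evalP_pmul] using h .guw
    · intro c hc; simpa only [relP, if_pos hc, ev_com, evalP_pmul, ev_o] using h (.gk c)
    · intro c hc; simpa only [relP, if_pos hc, ev_com, evalP_pmul, ev_o] using h (.gk' c)
    · simpa [relP, ev_com, evalP_pmul] using h .Du
    · simpa [relP, ev_com, evalP_pmul] using h .Du'
    · simpa [relP, ev_com, evalP_pmul] using h .Dt
    · simpa [relP, ev_com, evalP_pmul] using h .DL
    · simpa [relP, ev_com, evalP_pmul] using h .DR
    · simpa [relP, ev_com, evalP_pmul] using h .tu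
    · intro a ha; simpa [relP, ev_com, evalP_pmul, ha] using h (.tw a)
    · simpa [relP, ev_com, evalP_pmul] using h .Dp
    · simpa [relP, ev_com, evalP_pmul] using h .Dn
  · intro h i
    cases i with
    | qp b a a' =>
      have := h.qp b a a'
      simp only [relP, evalP_pmul, ev_o]
      rw [this]; split_ifs <;> simp
    | pp a a' => simpa [relP, ev_com] using h.pp a a'
    | pq a a' => simpa [relP, ev_com] using h.pq a a'
    | qp' a a' => simpa [relP, ev_com] using h.qp' a a'
    | qq a a' => simpa [relP, ev_com] using h.qq a a'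
    | cc c => simpa [relP, evalP_pmul] using h.cc c
    | cP c b a => simpa [relP, ev_com] using h.cP c b a
    | cQ c b a => simpa [relP, ev_com] using h.cQ c b a
    | c'P c b a => simpa [relP, ev_com] using h.c'P c b a
    | c'Q c b a => simpa [relP, ev_com] using h.c'Q c b a
    | c1 c c' =>
      by_cases hc : c = c'
      · simp [relP, hc]
      · simpa [relP, ev_com, hc] using h.c1 c c' hc
    | c2 c c' =>
      by_cases hc : c = c'
      · simp [relP, hc]
      · simpa [relP, ev_com, hc] using h.c2 c c' hc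
    | c3 c c' =>
      by_cases hc : c = c'
      · simp [relP, hc]
      · simpa [relP, ev_com, hc] using h.c3 c c' hc
    | gg => simpa [relP, evalP_pmul] using h.gg
    | gg' => simpa [relP, evalP_pmul] using h.gg'
    | gt a => simpa [relP, ev_com] using h.gt a
    | gt' a => simpa [relP, ev_com] using h.gt' a
    | gL b => simpa [relP, ev_com] using h.gL b
    | gI c =>
      by_cases hc : c = 0 ∨ c = 1
      · simpa only [relP, if_pos hc, ev_com, evalP_pmul, ev_o] using h.gI c hc
      · simp only [relP, if_neg hc]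
    | guw => simpa [relP, ev_com, evalP_pmul] using h.guw
    | gk c =>
      by_cases hc : c = 2 ∨ c = 3
      · simpa only [relP, if_pos hc, ev_com, evalP_pmul, ev_o] using h.gk c hc
      · simp only [relP, if_neg hc]
    | gk' c =>
      by_cases hc : c = 2 ∨ c = 3
      · simpa only [relP, if_pos hc, ev_com, evalP_pmul, ev_o] using h.gk' c hc
      · simp only [relP, if_neg hc]
    | Du => simpa [relP, ev_com, evalP_pmul] using h.Du
    | Du' => simpa [relP, ev_com, evalP_pmul] using h.Du'
    | Dt => simpa [relP, ev_com, evalP_pmul] using h.Dt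
    | DL => simpa [relP, ev_com, evalP_pmul] using h.DL
    | DR => simpa [relP, ev_com, evalP_pmul] using h.DR
    | tu => simpa [relP, ev_com, evalP_pmul] using h.tu
    | tw a =>
      by_cases ha : a = one
      · simp [relP, ha]
      · simpa [relP, ev_com, evalP_pmul, ha] using h.tw a ha
    | Dp => simpa [relP, ev_com, evalP_pmul] using h.Dp
    | Dn => simpa [relP, ev_com, evalP_pmul] using h.Dn

end ring

end Crest.Agent.R185.Univ
private theorem rz_a9fc835639 : type_of% @_root_.Crest.Agent.R185.Univ.relP.eq_1 := @_root_.Crest.Agent.R185.Univ.relP.eq_1 -- L86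
end

-- ▼ part R185/U7
section

/-!
# R185 / UNIV (7): consequences of the ring relations
-/

set_option autoImplicit false
set_option linter.unusedSimpArgs false

namespace Crest.Agent.R185.Univ

open Gn Ltr

variable {S : Type*} [Ring S] (v : Gn → S)

/-- pushing a word on the left stack -/
def pl (L : List Ltr) : S := (L.map (fun a => v (P false a))).prod
/-- pushing a word on the right stack -/
def pr (L : List Ltr) : S := (L.map (fun a => v (P true a))).prod
/-- popping a word from the right stack -/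
def qr : List Ltr → S
  | [] => 1
  | a :: L => qr L * v (Q true a)

/-- both stacks and the counters `I`, `J` are empty -/
def Om : S := wT v false * (wT v true * (wC v 0 * wC v 1))

/-- the state with given stacks -/
def St (L R : List Ltr) : S := pl v L * (pr v R * Om v)

/-- `g` or its inverse -/
def hg (b : Bool) : S := if b then v g else v g'

/-- the action of the `i`-th generator -/
def gam (b : Bool) (i : ℕ) : S := v (C' 0) ^ i * (hg v b * v (C 0) ^ i)

/-- the action of a word -/
def zz : List (ℕ × Bool) → S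
  | [] => 1
  | (i, b) :: w => gam v b i * zz w

/-- projection on `R = π` -/
def EE (π : List Ltr) : S := pr v π * (wT v true * qr v π)

/-- projection on `L = [], R = π, I = J = 0` -/
def ff (π : List Ltr) : S := wT v false * EE v π * (wC v 0 * wC v 1)

variable {v}

section basic

variable (h : RR v)
include h

theorem RR.hg_comm {y : S} (hy : Commute (v g) y) (b : Bool) : Commute (hg v b) y := by
  cases b with
  | true => exact hy
  | false =>
    change v g' * y = y * v g'
    calc v g' * y = v g' * (y * (v g * v g')) := by rw [h.gg, mul_one]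
      _ = v g' * ((v g * y) * v g') := by rw [hy.eq, mul_assoc]
      _ = (v g' * v g) * y * v g' := by simp only [mul_assoc]
      _ = y * v g' := by rw [h.gg', one_mul]

theorem RR.hg_mul (b : Bool) : hg v b * hg v (!b) = 1 := by
  cases b with
  | true => exact h.gg
  | false => exact h.gg'

theorem RR.hu (b : Bool) (i : ℕ) :
    hg v b * v (C 0) ^ i = v (C 0) ^ i * (v (C' 1) ^ i * (hg v b * v (C 1) ^ i)) := by
  have e1 : v (C' 1) ^ i * v (C 1) ^ i = 1 := pow_mul_pow_eq_one i (h.cc 1)
  have c : Commute (v (C 0)) (v (C' 1)) := h.c2 0 1 (by decide)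
  have e2 : (v (C 0) * v (C' 1)) ^ i = v (C 0) ^ i * v (C' 1) ^ i := c.mul_pow i
  have e3 := ((h.hg_comm h.guw b).pow_right i).eq
  calc hg v b * v (C 0) ^ i = hg v b * (v (C 0) ^ i * (v (C' 1) ^ i * v (C 1) ^ i)) := by
        rw [e1, mul_one]
    _ = (hg v b * (v (C 0) * v (C' 1)) ^ i) * v (C 1) ^ i := by rw [e2]; simp only [mul_assoc]
    _ = _ := by rw [e3, e2]; simp only [mul_assoc]

theorem RR.gam_mul (b : Bool) (i : ℕ) : gam v b i * gam v (!b) i = 1 := by
  have e1 : v (C' 0) ^ i * v (C 0) ^ i = 1 := pow_mul_pow_eq_one i (h.cc 0)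
  have l1 : ∀ y, v (C' 0) ^ i * (v (C 0) ^ i * y) = y := fun y => by
    rw [← mul_assoc, e1, one_mul]
  calc gam v b i * gam v (!b) i
      = v (C' 0) ^ i * (hg v b * (v (C 0) ^ i * (v (C' 0) ^ i *
          (hg v (!b) * v (C 0) ^ i)))) := by simp only [gam, mul_assoc]
    _ = v (C' 0) ^ i * (hg v b * (hg v (!b) * v (C 0) ^ i)) := by
        rw [h.hu (!b) i, l1]
    _ = 1 := by rw [← mul_assoc (hg v b), h.hg_mul, one_mul, e1]

theorem RR.gam_comm {y : S} (h1 : Commute (v g) y) (h2 : Commute (v (C 0)) y)
    (h3 : Commute (v (C' 0)) y) (b : Bool) (i : ℕ) : Commute (gam v b i) y :=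
  (h3.pow_left i).mul_left ((h.hg_comm h1 b).mul_left (h2.pow_left i))

theorem RR.zz_comm {y : S} (h1 : Commute (v g) y) (h2 : Commute (v (C 0)) y)
    (h3 : Commute (v (C' 0)) y) (w : List (ℕ × Bool)) : Commute (zz v w) y := by
  induction w with
  | nil => exact Commute.one_left y
  | cons p w ih => exact (h.gam_comm h1 h2 h3 p.2 p.1).mul_left ih

variable [Ch2 S]

theorem RR.wC_u (c : Fin 4) : wC v c * v (C c) = 0 := by
  rw [wC, add_mul, mul_assoc, h.cc, one_mul, mul_one]; ch2


theorem RR.wC_sq (c : Fin 4) : wC v c * wC v c = wC v c := by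
  nth_rw 2 [wC]
  rw [mul_add, ← mul_assoc, h.wC_u, mul_one, zero_mul, add_zero]

omit [Ch2 S] in
theorem RR.g_wC (c : Fin 4) (hc : c = 0 ∨ c = 1) : Commute (v g) (wC v c) :=
  (Commute.one_right _).add_right (h.gI c hc)

omit [Ch2 S] in
theorem RR.gam_wI (b : Bool) (i : ℕ) : Commute (gam v b i) (wC v 0) := by
  have e1 : v (C' 0) ^ i * v (C 0) ^ i = 1 := pow_mul_pow_eq_one i (h.cc 0)
  have cuw : Commute (v (C 0)) (v (C' 1)) := h.c2 0 1 (by decide)
  have cuw2 : Commute (v (C' 0)) (v (C' 1)) := h.c3 0 1 (by decide)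
  have cw : Commute (v (C 1)) (wC v 0) :=
    (Commute.one_right _).add_right ((h.c1 1 0 (by decide)).mul_right (h.c2 1 0 (by decide)))
  have cw' : Commute (v (C' 1)) (wC v 0) :=
    (Commute.one_right _).add_right ((h.c2 0 1 (by decide)).symm.mul_right (h.c3 1 0 (by decide)))
  have hh : Commute (hg v b) (wC v 0) := h.hg_comm (h.g_wC 0 (Or.inl rfl)) b
  -- `gam = w'^i h w^i`-like form
  have e2 : gam v b i = v (C' 0) ^ i * (v (C 0) ^ i * (v (C' 1) ^ i * (hg v b * v (C 1) ^ i))) := by
    rw [gam, h.hu]
  rw [e2, ← mul_assoc, e1, one_mul]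
  exact (cw'.pow_left i).mul_left (hh.mul_left (cw.pow_left i))

omit [Ch2 S] in
theorem RR.gam_wJ (b : Bool) (i : ℕ) : Commute (gam v b i) (wC v 1) :=
  h.gam_comm (h.g_wC 1 (Or.inr rfl))
    ((Commute.one_right _).add_right ((h.c1 0 1 (by decide)).mul_right (h.c2 0 1 (by decide))))
    ((Commute.one_right _).add_right ((h.c2 1 0 (by decide)).symm.mul_right (h.c3 0 1 (by decide))))
    b i

end basic

section tape

variable (h : RR v)

/-- commutes with all tape operations -/
def TC (v : Gn → S) (y : S) : Prop := ∀ b a, Commute y (v (P b a)) ∧ Commute y (v (Q b a))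

theorem TC.wT {y : S} (hy : TC v y) (b : Bool) : Commute y (wT v b) := by
  have k : ∀ a, Commute y (v (P b a) * v (Q b a)) := fun a =>
    (hy b a).1.mul_right (hy b a).2
  exact ((((Commute.one_right y).add_right (k Ltr.one)).add_right (k pos)).add_right (k neg)).add_right
    (k sep)

theorem TC.pl {y : S} (hy : TC v y) (L : List Ltr) : Commute y (pl v L) := by
  induction L with
  | nil => exact Commute.one_right y
  | cons a L ih =>
    rw [Univ.pl, List.map_cons, List.prod_cons]; exact (hy false a).1.mul_right ih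

theorem TC.pr {y : S} (hy : TC v y) (L : List Ltr) : Commute y (pr v L) := by
  induction L with
  | nil => exact Commute.one_right y
  | cons a L ih =>
    rw [Univ.pr, List.map_cons, List.prod_cons]; exact (hy true a).1.mul_right ih

theorem TC.qr {y : S} (hy : TC v y) (L : List Ltr) : Commute y (qr v L) := by
  induction L with
  | nil => exact Commute.one_right y
  | cons a L ih => exact ih.mul_right (hy true a).2

theorem TC.T {y : S} (hy : TC v y) (a : Ltr) : Commute y (T v a) :=
  (hy false a).1.mul_right (hy true a).2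

theorem TC.T' {y : S} (hy : TC v y) (a : Ltr) : Commute y (T' v a) :=
  (hy true a).1.mul_right (hy false a).2

theorem TC.EE {y : S} (hy : TC v y) (π : List Ltr) : Commute y (EE v π) :=
  (hy.pr π).mul_right ((hy.wT true).mul_right (hy.qr π))

theorem TC.mul {y z : S} (hy : TC v y) (hz : TC v z) : TC v (y * z) := fun b a =>
  ⟨(hy b a).1.mul_left (hz b a).1, (hy b a).2.mul_left (hz b a).2⟩

theorem TC.pow {y : S} (hy : TC v y) (n : ℕ) : TC v (y ^ n) := fun b a =>
  ⟨(hy b a).1.pow_left n, (hy b a).2.pow_left n⟩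

theorem TC.one_add {y : S} (hy : TC v y) : TC v (1 + y) := fun b a =>
  ⟨(Commute.one_left _).add_left (hy b a).1, (Commute.one_left _).add_left (hy b a).2⟩

/-- commutes with all operations on the right stack -/
def RC (v : Gn → S) (y : S) : Prop := ∀ a, Commute y (v (P true a)) ∧ Commute y (v (Q true a))

theorem RC.mul {y z : S} (hy : RC v y) (hz : RC v z) : RC v (y * z) := fun a =>
  ⟨(hy a).1.mul_left (hz a).1, (hy a).2.mul_left (hz a).2⟩

theorem RC.add {y z : S} (hy : RC v y) (hz : RC v z) : RC v (y + z) := fun a =>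
  ⟨(hy a).1.add_left (hz a).1, (hy a).2.add_left (hz a).2⟩

theorem RC.one : RC v (1 : S) := fun _ => ⟨Commute.one_left _, Commute.one_left _⟩

theorem RC.wT {y : S} (hy : RC v y) : Commute y (wT v true) := by
  have k : ∀ a, Commute y (v (P true a) * v (Q true a)) := fun a =>
    (hy a).1.mul_right (hy a).2
  exact ((((Commute.one_right y).add_right (k Ltr.one)).add_right (k pos)).add_right (k neg)).add_right
    (k sep)

theorem RC.pr {y : S} (hy : RC v y) (L : List Ltr) : Commute y (pr v L) := by
  induction L with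
  | nil => exact Commute.one_right y
  | cons a L ih =>
    rw [Univ.pr, List.map_cons, List.prod_cons]; exact (hy a).1.mul_right ih

theorem RC.qr {y : S} (hy : RC v y) (L : List Ltr) : Commute y (qr v L) := by
  induction L with
  | nil => exact Commute.one_right y
  | cons a L ih => exact ih.mul_right (hy a).2

theorem RC.EE {y : S} (hy : RC v y) (π : List Ltr) : Commute y (EE v π) :=
  (hy.pr π).mul_right (hy.wT.mul_right (hy.qr π))

theorem pl_cons (a : Ltr) (L : List Ltr) : pl v (a :: L) = v (P false a) * pl v L := by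
  rw [pl, List.map_cons, List.prod_cons]; rfl

theorem pr_cons (a : Ltr) (L : List Ltr) : pr v (a :: L) = v (P true a) * pr v L := by
  rw [pr, List.map_cons, List.prod_cons]; rfl

include h

theorem RR.tc (c : Fin 4) : TC v (v (C c)) := fun b a => ⟨h.cP c b a, h.cQ c b a⟩
theorem RR.tc' (c : Fin 4) : TC v (v (C' c)) := fun b a => ⟨h.c'P c b a, h.c'Q c b a⟩
theorem RR.tcw (c : Fin 4) : TC v (wC v c) := ((h.tc c).mul (h.tc' c)).one_add
theorem RR.rcP (a : Ltr) : RC v (v (P false a)) := fun a' => ⟨h.pp a a', h.pq a a'⟩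
theorem RR.rcQ (a : Ltr) : RC v (v (Q false a)) := fun a' => ⟨h.qp' a a', h.qq a a'⟩
theorem RR.rc_wT : RC v (wT v false) := by
  have k : ∀ a, RC v (v (P false a) * v (Q false a)) := fun a => (h.rcP a).mul (h.rcQ a)
  exact (((RC.one.add (k Ltr.one)).add (k pos)).add (k neg)).add (k sep)
theorem RR.rc_pl (L : List Ltr) : RC v (pl v L) := by
  induction L with
  | nil => exact RC.one
  | cons a L ih => rw [pl_cons]; exact (h.rcP a).mul ih

theorem RR.qr_pr (π : List Ltr) : qr v π * pr v π = 1 := by
  induction π with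
  | nil => simp [qr, pr]
  | cons a π ih =>
    rw [pr_cons, qr, mul_assoc, ← mul_assoc (v (Q true a)), h.qp, if_pos rfl, one_mul, ih]

theorem RR.EE_cons (a : Ltr) (π : List Ltr) : EE v (a :: π) = T' v a * (EE v π * T v a) := by
  have c1 := ((h.rcQ a).EE π).eq
  have c2 : v (Q false a) * v (P false a) = 1 := by rw [h.qp, if_pos rfl]
  calc EE v (a :: π) = v (P true a) * (EE v π * v (Q true a)) := by
        simp only [EE, pr_cons, qr, mul_assoc]
    _ = v (P true a) * (EE v π * (v (Q false a) * v (P false a) * v (Q true a))) := by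
        rw [c2, one_mul]
    _ = v (P true a) * ((EE v π * v (Q false a)) * (v (P false a) * v (Q true a))) := by
        simp only [mul_assoc]
    _ = _ := by rw [← c1]; simp only [T', T, mul_assoc]

theorem RR.g_EE (π : List Ltr) : Commute (v g) (EE v π) := by
  induction π with
  | nil => simpa [EE, pr, qr] using h.gL true
  | cons a π ih => rw [h.EE_cons]; exact (h.gt' a).mul_right (ih.mul_right (h.gt a))

theorem RR.g_ff (π : List Ltr) : Commute (v g) (wT v false * EE v π) :=
  (h.gL false).mul_right (h.g_EE π)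

theorem RR.gam_ff (b : Bool) (i : ℕ) (π : List Ltr) : Commute (gam v b i) (ff v π) :=
  (h.gam_comm (h.g_ff π) (((h.tc 0).wT false).mul_right ((h.tc 0).EE π))
    (((h.tc' 0).wT false).mul_right ((h.tc' 0).EE π)) b i).mul_right
    ((h.gam_wI b i).mul_right (h.gam_wJ b i))

/-- `ff` commutes with the counters `K` and `N` -/
theorem RR.cn_ff (c : Fin 4) (hc : c = 2 ∨ c = 3) (π : List Ltr) : Commute (v (C c)) (ff v π) := by
  have n0 : c ≠ 0 := by rcases hc with rfl | rfl <;> decide
  have n1 : c ≠ 1 := by rcases hc with rfl | rfl <;> decide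
  refine (((h.tc c).wT false).mul_right ((h.tc c).EE π)).mul_right (Commute.mul_right ?_ ?_)
  · exact (Commute.one_right _).add_right ((h.c1 c 0 n0).mul_right (h.c2 c 0 n0))
  · exact (Commute.one_right _).add_right ((h.c1 c 1 n1).mul_right (h.c2 c 1 n1))

theorem RR.cn'_ff (c : Fin 4) (hc : c = 2 ∨ c = 3) (π : List Ltr) :
    Commute (v (C' c)) (ff v π) := by
  have n0 : c ≠ 0 := by rcases hc with rfl | rfl <;> decide
  have n1 : c ≠ 1 := by rcases hc with rfl | rfl <;> decide
  refine (((h.tc' c).wT false).mul_right ((h.tc' c).EE π)).mul_right (Commute.mul_right ?_ ?_)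
  · exact (Commute.one_right _).add_right ((h.c2 0 c n0.symm).symm.mul_right (h.c3 c 0 n0))
  · exact (Commute.one_right _).add_right ((h.c2 1 c n1.symm).symm.mul_right (h.c3 c 1 n1))

theorem RR.gam_cn (b : Bool) (i : ℕ) (c : Fin 4) (hc : c = 2 ∨ c = 3) :
    Commute (gam v b i) (v (C c)) ∧ Commute (gam v b i) (v (C' c)) := by
  have n0 : (0 : Fin 4) ≠ c := by rcases hc with rfl | rfl <;> decide
  exact ⟨h.gam_comm (h.gk c hc) (h.c1 0 c n0) (h.c2 c 0 n0.symm).symm b i,
    h.gam_comm (h.gk' c hc) (h.c2 0 c n0) (h.c3 0 c n0) b i⟩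

theorem RR.gam_T (b : Bool) (i : ℕ) (a : Ltr) : Commute (gam v b i) (T v a) :=
  h.gam_comm (h.gt a) ((h.tc 0).T a) ((h.tc' 0).T a) b i

theorem RR.zz_T (w : List (ℕ × Bool)) (a : Ltr) : Commute (zz v w) (T v a) :=
  h.zz_comm (h.gt a) ((h.tc 0).T a) ((h.tc' 0).T a) w

theorem RR.zz_T' (w : List (ℕ × Bool)) (a : Ltr) : Commute (zz v w) (T' v a) :=
  h.zz_comm (h.gt' a) ((h.tc 0).T' a) ((h.tc' 0).T' a) w

variable [Ch2 S]

theorem RR.wT_sq (b : Bool) : wT v b * wT v b = wT v b := by
  have k : ∀ a a' y, v (Q b a) * (v (P b a') * y) = if a = a' then y else 0 := by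
    intro a a' y; rw [← mul_assoc, h.qp]; split_ifs <;> simp
  simp only [wT, mul_add, add_mul, mul_one, one_mul, mul_assoc, k]
  simp only [if_true, reduceCtorEq, if_false, mul_zero, add_zero, zero_add]
  ch2

theorem RR.EE_sq (π : List Ltr) : EE v π * EE v π = EE v π := by
  calc EE v π * EE v π = pr v π * (wT v true * ((qr v π * pr v π) * (wT v true * qr v π))) := by
        simp only [EE, mul_assoc]
    _ = pr v π * ((wT v true * wT v true) * qr v π) := by rw [h.qr_pr, one_mul, mul_assoc]
    _ = _ := by rw [h.wT_sq, EE]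

theorem RR.ff_sq (π : List Ltr) : ff v π * ff v π = ff v π := by
  have c1 : Commute (wT v false) (EE v π) := h.rc_wT.EE π
  have c2 : Commute (wC v 0 * wC v 1) (wT v false * EE v π) :=
    (((h.tcw 0).mul (h.tcw 1)).wT false).mul_right (((h.tcw 0).mul (h.tcw 1)).EE π)
  have c3 : Commute (wC v 0) (wC v 1) := by
    have k0 : Commute (v (C 0)) (wC v 1) := (Commute.one_right _).add_right
      ((h.c1 0 1 (by decide)).mul_right (h.c2 0 1 (by decide)))
    have k1 : Commute (v (C' 0)) (wC v 1) := (Commute.one_right _).add_right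
      ((h.c2 1 0 (by decide)).symm.mul_right (h.c3 0 1 (by decide)))
    exact (Commute.one_left _).add_left (k0.mul_left k1)
  have s1 : (wT v false * EE v π) * (wT v false * EE v π) = wT v false * EE v π := by
    calc _ = wT v false * ((EE v π * wT v false) * EE v π) := by simp only [mul_assoc]
      _ = (wT v false * wT v false) * (EE v π * EE v π) := by rw [← c1.eq]; simp only [mul_assoc]
      _ = _ := by rw [h.wT_sq, h.EE_sq]
  have s2 : (wC v 0 * wC v 1) * (wC v 0 * wC v 1) = wC v 0 * wC v 1 := by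
    calc _ = wC v 0 * ((wC v 1 * wC v 0) * wC v 1) := by simp only [mul_assoc]
      _ = (wC v 0 * wC v 0) * (wC v 1 * wC v 1) := by rw [← c3.eq]; simp only [mul_assoc]
      _ = _ := by rw [h.wC_sq, h.wC_sq]
  calc ff v π * ff v π = (wT v false * EE v π) * ((wC v 0 * wC v 1) * (wT v false * EE v π)) *
        (wC v 0 * wC v 1) := by simp only [ff, mul_assoc]
    _ = ((wT v false * EE v π) * (wT v false * EE v π)) * ((wC v 0 * wC v 1) *
        (wC v 0 * wC v 1)) := by rw [c2.eq]; simp only [mul_assoc]
    _ = ff v π := by rw [s1, s2, ff]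

end tape

section relator

variable (h : RR v)
include h

theorem RR.T_St (a : Ltr) (L R : List Ltr) : T v a * St v L (a :: R) = St v (a :: L) R := by
  have c1 := ((h.rc_pl L) a).2.eq
  have c2 : v (Q true a) * v (P true a) = 1 := by rw [h.qp, if_pos rfl]
  calc T v a * St v L (a :: R)
      = v (P false a) * ((v (Q true a) * pl v L) * (v (P true a) * (pr v R * Om v))) := by
        simp only [T, St, pr_cons, mul_assoc]
    _ = v (P false a) * (pl v L * ((v (Q true a) * v (P true a)) * (pr v R * Om v))) := by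
        rw [← c1]; simp only [mul_assoc]
    _ = _ := by rw [c2, one_mul, St, pl_cons, mul_assoc]

theorem RR.T'_St (a : Ltr) (L R : List Ltr) : T' v a * St v (a :: L) R = St v L (a :: R) := by
  have c1 := ((h.rc_pl L) a).1.eq
  have c2 : v (Q false a) * v (P false a) = 1 := by rw [h.qp, if_pos rfl]
  calc T' v a * St v (a :: L) R
      = v (P true a) * ((v (Q false a) * v (P false a)) * (pl v L * (pr v R * Om v))) := by
        simp only [T', St, pl_cons, mul_assoc]
    _ = (v (P true a) * pl v L) * (pr v R * Om v) := by rw [c2, one_mul, mul_assoc]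
    _ = _ := by rw [← c1, St, pr_cons]; simp only [mul_assoc]

theorem RR.T_one_pow (i : ℕ) (L R : List Ltr) :
    T v one ^ i * St v L (List.replicate i one ++ R) = St v (List.replicate i one ++ L) R := by
  induction i generalizing L with
  | zero => simp
  | succ i ih =>
    have : List.replicate (i + 1) one ++ L = List.replicate i one ++ (one :: L) := by
      rw [List.replicate_succ']; simp
    rw [this, ← ih, pow_succ, mul_assoc, List.replicate_succ, List.cons_append, h.T_St]

theorem RR.th_St {a : Ltr} (ha : a ≠ one) (L R : List Ltr) :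
    v th * St v (a :: L) R = St v (a :: L) R := by
  have tcw := (h.tcw 0).mul (h.tcw 1)
  have e : St v (a :: L) R =
      (wC v 0 * (wC v 1 * v (P false a))) * (pl v L * (pr v R * (wT v false * wT v true))) := by
    have c : Commute (wC v 0 * wC v 1)
        (v (P false a) * (pl v L * (pr v R * (wT v false * wT v true)))) :=
      (tcw false a).1.mul_right ((tcw.pl L).mul_right ((tcw.pr R).mul_right
        ((tcw.wT false).mul_right (tcw.wT true))))
    calc St v (a :: L) R = (v (P false a) * (pl v L * (pr v R * (wT v false * wT v true)))) *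
          (wC v 0 * wC v 1) := by simp only [St, Om, pl_cons, mul_assoc]
      _ = _ := by rw [← c.eq]; simp only [mul_assoc]
  rw [e, ← mul_assoc, h.tw a ha]

theorem RR.D_sepL (L R : List Ltr) : v D * St v (sep :: L) R = St v (sep :: L) R := by
  have : St v (sep :: L) R = v (P false sep) * (pl v L * (pr v R * Om v)) := by
    simp only [St, pl_cons, mul_assoc]
  rw [this, ← mul_assoc, h.DL]

theorem RR.D_sepR (L R : List Ltr) : v D * St v L (sep :: R) = St v L (sep :: R) := by
  have c1 := ((h.rc_pl L) sep).1.eq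
  have : St v L (sep :: R) = v (P true sep) * (pl v L * (pr v R * Om v)) := by
    rw [← mul_assoc, ← c1]; simp only [St, pr_cons, mul_assoc]
  rw [this, ← mul_assoc, h.DR]

/-- the sign letter -/
def sgn (b : Bool) : Ltr := if b then pos else neg

omit [Ring S] h in
theorem sgn_ne (b : Bool) : sgn b ≠ one := by cases b <;> decide

theorem RR.Dsgn (b : Bool) :
    v D * (T v (sgn b) * v th) = T v (sgn b) * (hg v b * (v D * v th)) := by
  cases b with
  | true => exact h.Dp
  | false => exact h.Dn

theorem RR.step {a : Ltr} (ha : a ≠ one) (L R : List Ltr) (i : ℕ) (b : Bool) {Z : S}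
    (hZ : ∀ a, Commute Z (T v a))
    (hD : v D * St v (a :: L) (List.replicate i one ++ sgn b :: R) =
      Z * St v (a :: L) (List.replicate i one ++ sgn b :: R)) :
    v D * St v (sgn b :: (List.replicate i one ++ a :: L)) R =
      (gam v b i * Z) * St v (sgn b :: (List.replicate i one ++ a :: L)) R := by
  set X := St v (a :: L) (List.replicate i one ++ sgn b :: R) with hX
  have hth : v th * X = X := h.th_St ha _ _
  have hY : St v (sgn b :: (List.replicate i one ++ a :: L)) R =
      T v (sgn b) * (T v one ^ i * X) := by rw [hX, h.T_one_pow, h.T_St]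
  set te := T v (sgn b)
  set t1 := T v one with ht1
  set u := v (C 0) with hu
  set u' := v (C' 0) with hu'
  have e1 : u' ^ i * u ^ i = 1 := pow_mul_pow_eq_one i (h.cc 0)
  have cut1 : Commute u t1 := (h.tc 0).T one
  have cut1' : Commute u' t1 := (h.tc' 0).T one
  have cute' : Commute u' te := (h.tc' 0).T _
  have cute : Commute u te := (h.tc 0).T _
  have e2 : (u * t1) ^ i = u ^ i * t1 ^ i := cut1.mul_pow i
  have cD : Commute (v D) ((u * t1) ^ i) := ((h.Du).mul_right h.Dt).pow_right i
  have cth : Commute (v th) ((u * t1) ^ i) := h.tu.pow_right i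
  have cte : Commute te (hg v b) := (h.hg_comm (h.gt _) b).symm
  have ct1 : Commute (t1 ^ i) (hg v b) := ((h.hg_comm (h.gt _) b).pow_right i).symm
  have cut : Commute (u ^ i) (t1 ^ i) := cut1.pow_pow i i
  have cD' : Commute (u' ^ i) (v D) := (h.Du'.pow_right i).symm
  rw [hY]
  -- main computation
  have m1 : v D * (te * (t1 ^ i * X)) = u' ^ i * (v D * (te * ((u * t1) ^ i * X))) := by
    calc v D * (te * (t1 ^ i * X)) = v D * (te * ((u' ^ i * u ^ i) * (t1 ^ i * X))) := by
          rw [e1, one_mul]
      _ = v D * ((te * u' ^ i) * ((u ^ i * t1 ^ i) * X)) := by simp only [mul_assoc]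
      _ = (v D * u' ^ i) * (te * ((u * t1) ^ i * X)) := by
          rw [← (cute'.pow_left i).eq, e2]; simp only [mul_assoc]
      _ = _ := by rw [← cD'.eq]; simp only [mul_assoc]
  have m2 : v D * (te * ((u * t1) ^ i * X)) = te * (hg v b * ((u * t1) ^ i * (Z * X))) := by
    calc v D * (te * ((u * t1) ^ i * X)) = v D * (te * ((u * t1) ^ i * (v th * X))) := by rw [hth]
      _ = (v D * (te * v th)) * ((u * t1) ^ i * X) := by
          rw [← mul_assoc ((u * t1) ^ i) (v th), ← cth.eq]; simp only [mul_assoc]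
      _ = te * (hg v b * (v D * ((v th * (u * t1) ^ i) * X))) := by
          rw [h.Dsgn b]; simp only [mul_assoc]; rfl
      _ = te * (hg v b * (v D * ((u * t1) ^ i * X))) := by
          rw [cth.eq, mul_assoc _ (v th), hth]
      _ = te * (hg v b * ((u * t1) ^ i * (v D * X))) := by
          rw [← mul_assoc (v D), cD.eq, mul_assoc]
      _ = _ := by rw [hD]
  rw [m1, m2]
  have cZ1 : Commute Z (t1 ^ i) := (hZ _).pow_right i
  have cZe : Commute Z te := hZ _
  calc u' ^ i * (te * (hg v b * ((u * t1) ^ i * (Z * X))))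
      = (u' ^ i * te) * (hg v b * (u ^ i * (t1 ^ i * (Z * X)))) := by
        rw [e2]; simp only [mul_assoc]
    _ = te * (u' ^ i * (hg v b * (u ^ i * (t1 ^ i * (Z * X))))) := by
        rw [(cute'.pow_left i).eq, mul_assoc]
    _ = (te * gam v b i) * ((t1 ^ i * Z) * X) := by simp only [gam, mul_assoc]; rfl
    _ = gam v b i * (te * (Z * (t1 ^ i * X))) := by
        rw [← (h.gam_T b i _).eq, ← cZ1.eq]; simp only [mul_assoc]; rfl
    _ = gam v b i * Z * (te * (t1 ^ i * X)) := by
        rw [← mul_assoc te, ← cZe.eq]; simp only [mul_assoc]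

/-- code of a word -/
def enc : List (ℕ × Bool) → List Ltr
  | [] => []
  | (i, b) :: w => enc w ++ (List.replicate i one ++ [sgn b])

omit [Ring S] h in
theorem enc_rev_head (w : List (ℕ × Bool)) (a : Ltr) (ha : a ≠ one) (L : List Ltr) :
    ∃ a' L', a' ≠ one ∧ (enc w).reverse ++ a :: L = a' :: L' := by
  cases w with
  | nil => exact ⟨a, L, ha, rfl⟩
  | cons p w =>
    obtain ⟨i, b⟩ := p
    refine ⟨sgn b, List.replicate i one ++ ((enc w).reverse ++ a :: L), sgn_ne b, ?_⟩
    simp [enc]

theorem RR.segment (w : List (ℕ × Bool)) (L R : List Ltr)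
    (hD : v D * St v (sep :: L) (enc w ++ R) = St v (sep :: L) (enc w ++ R)) :
    v D * St v ((enc w).reverse ++ sep :: L) R =
      zz v w * St v ((enc w).reverse ++ sep :: L) R := by
  induction w generalizing R with
  | nil => simpa [enc, zz] using hD
  | cons p w ih =>
    obtain ⟨i, b⟩ := p
    obtain ⟨a', L', ha', hL'⟩ := enc_rev_head w sep (by decide) L
    have e : enc ((i, b) :: w) ++ R = enc w ++ (List.replicate i one ++ sgn b :: R) := by
      simp [enc]
    rw [e] at hD
    have h1 := ih _ hD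
    rw [hL'] at h1
    have h2 := h.step ha' L' R i b (h.zz_T w) h1
    have e2 : (enc ((i, b) :: w)).reverse ++ sep :: L =
        sgn b :: (List.replicate i one ++ a' :: L') := by
      rw [← hL']; simp [enc]
    rw [e2, h2, zz]

theorem RR.seg_rel (w : List (ℕ × Bool)) (L R : List Ltr) :
    zz v w * St v ((enc w).reverse ++ sep :: L) (sep :: R) =
      St v ((enc w).reverse ++ sep :: L) (sep :: R) := by
  rw [← h.segment w L (sep :: R) (h.D_sepL _ _), h.D_sepR]

theorem RR.transport (w : List (ℕ × Bool)) (L R : List Ltr)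
    (hw : zz v w * St v L R = St v L R) :
    zz v w * St v [] (L.reverse ++ R) = St v [] (L.reverse ++ R) := by
  induction L generalizing R with
  | nil => exact hw
  | cons a L ih =>
    have := ih (a :: R) (by
      rw [← h.T'_St, ← mul_assoc, (h.zz_T' w a).eq, mul_assoc, hw])
    simpa using this

theorem RR.ff_eq (π : List Ltr) : ff v π = St v [] π * qr v π := by
  have c1 : Commute (wC v 0 * wC v 1) (qr v π) := ((h.tcw 0).mul (h.tcw 1)).qr π
  have c2 : Commute (wT v false) (pr v π) := h.rc_wT.pr π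
  calc ff v π = (wT v false * pr v π) * (wT v true * (qr v π * (wC v 0 * wC v 1))) := by
        simp only [ff, EE, mul_assoc]
    _ = _ := by
        rw [← c1.eq, c2.eq]
        simp only [St, Om, pl, List.map_nil, List.prod_nil, one_mul, mul_assoc]

/-- the relators hold in the corner -/
theorem RR.relator (w : List (ℕ × Bool)) (L R : List Ltr) :
    zz v w * ff v (L.reverse ++ (sep :: (enc w ++ sep :: R))) =
      ff v (L.reverse ++ (sep :: (enc w ++ sep :: R))) := by
  have h1 := h.transport w _ _ (h.seg_rel w L R)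
  have e : ((enc w).reverse ++ sep :: L).reverse ++ sep :: R =
      L.reverse ++ (sep :: (enc w ++ sep :: R)) := by simp
  rw [e] at h1
  rw [h.ff_eq, ← mul_assoc, h1]

end relator

end Crest.Agent.R185.Univ
private theorem rz_143dfa915f : type_of% @_root_.Crest.Agent.R185.Univ.enc.eq_def := @_root_.Crest.Agent.R185.Univ.enc.eq_def -- L476
private theorem rz_1c71529aeb : type_of% @_root_.Crest.Agent.R185.Univ.enc.eq_1 := @_root_.Crest.Agent.R185.Univ.enc.eq_1 -- L476
private theorem rz_7778ed9683 : type_of% @_root_.Crest.Agent.R185.Univ.qr.eq_def := @_root_.Crest.Agent.R185.Univ.qr.eq_def -- L21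
private theorem rz_84ade3f3e0 : type_of% @_root_.Crest.Agent.R185.Univ.qr.eq_1 := @_root_.Crest.Agent.R185.Univ.qr.eq_1 -- L21
private theorem rz_35f0fd3702 : type_of% @_root_.Crest.Agent.R185.Univ.zz.eq_def := @_root_.Crest.Agent.R185.Univ.zz.eq_def -- L38
private theorem rz_53c92b721b : type_of% @_root_.Crest.Agent.R185.Univ.zz.eq_1 := @_root_.Crest.Agent.R185.Univ.zz.eq_1 -- L38
end

-- ▼ part R185/U8
section

/-!
# R185 / UNIV (8): a model of the ring relations
-/

set_option autoImplicit false
set_option linter.unusedSimpArgs false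

namespace Crest.Agent.R185.Univ

open Gn Ltr

section op

variable {Y : Type*}

/-- the operator of a partial map -/
noncomputable def op (f : Y → Option Y) : Module.End (ZMod 2) (Y →₀ ZMod 2) :=
  Finsupp.linearCombination (ZMod 2) (fun y => (f y).elim 0 (fun z => Finsupp.single z 1))

theorem op_single (f : Y → Option Y) (y : Y) :
    op f (Finsupp.single y 1) = (f y).elim 0 (fun z => Finsupp.single z 1) := by
  simp [op]

theorem end_ext {A B : Module.End (ZMod 2) (Y →₀ ZMod 2)}
    (h : ∀ y, A (Finsupp.single y 1) = B (Finsupp.single y 1)) : A = B := by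
  apply Finsupp.lhom_ext
  intro y c
  have : (Finsupp.single y c : Y →₀ ZMod 2) = c • Finsupp.single y 1 := by
    rw [Finsupp.smul_single, smul_eq_mul, mul_one]
  rw [this, map_smul, map_smul, h]

theorem op_mul (f g : Y → Option Y) : op f * op g = op (fun y => (g y).bind f) := by
  apply end_ext
  intro y
  rw [Module.End.mul_apply, op_single, op_single]
  cases g y with
  | none => simp
  | some z => simp [op_single]

theorem op_one : op (fun y : Y => some y) = 1 := by
  apply end_ext
  intro y
  rw [op_single]; rfl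

theorem op_zero : op (fun _ : Y => none) = 0 := by
  apply end_ext
  intro y
  rw [op_single]; rfl

theorem op_comm {f g : Y → Option Y} (h : ∀ y, (g y).bind f = (f y).bind g) :
    Commute (op f) (op g) := by
  rw [commute_iff_eq, op_mul, op_mul]
  congr 1; funext y; exact h y

instance : Ch2 (Module.End (ZMod 2) (Y →₀ ZMod 2)) := ⟨fun r => by
  ext y z
  simp [CharTwo.add_self_eq_zero]⟩

end op

/-- configurations -/
@[ext] structure Cf (M : Type*) where
  s : Bool → List Ltr
  n : Fin 4 → ℕ
  m : M

variable {M : Type*} [Group M]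

/-- number of ones on top -/
def run : List Ltr → ℕ
  | one :: L => run L + 1
  | _ => 0

/-- the value of the left tape -/
def val (ρ : ℕ → M) : List Ltr → M
  | [] => 1
  | sep :: _ => 1
  | one :: L => val ρ L
  | pos :: L => ρ (run L) * val ρ L
  | neg :: L => (ρ (run L))⁻¹ * val ρ L

theorem val_one (L : List Ltr) : val (fun _ => (1 : M)) L = 1 := by
  induction L with
  | nil => rfl
  | cons a L ih => cases a <;> simp [val, ih]

/-- good texts -/
def Good (gen : ℕ → M) (π : List Ltr) : Prop := ∀ L R, π = L.reverse ++ sep :: R → val gen L = 1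

open Classical in
/-- the generator attached to a text -/
noncomputable def rho (gen : ℕ → M) (π : List Ltr) : ℕ → M := if Good gen π then gen else fun _ => 1

theorem val_rho (gen : ℕ → M) (L R : List Ltr) :
    val (rho gen (L.reverse ++ sep :: R)) L = 1 := by
  unfold rho
  split_ifs with h
  · exact h L R rfl
  · exact val_one L

/-- the text of a configuration -/
def Cf.text (y : Cf M) : List Ltr := (y.s false).reverse ++ y.s true

open Function (update)

/-- push -/
def push (b : Bool) (a : Ltr) (y : Cf M) : Option (Cf M) :=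
  some { y with s := update y.s b (a :: y.s b) }
/-- pop -/
def pop (b : Bool) (a : Ltr) (y : Cf M) : Option (Cf M) :=
  if (y.s b).head? = some a then some { y with s := update y.s b (y.s b).tail } else none
/-- increment -/
def inc (c : Fin 4) (y : Cf M) : Option (Cf M) :=
  some { y with n := update y.n c (y.n c + 1) }
/-- decrement -/
def dec (c : Fin 4) (y : Cf M) : Option (Cf M) :=
  if y.n c = 0 then none else some { y with n := update y.n c (y.n c - 1) }
/-- `g` -/
noncomputable def gop (gen : ℕ → M) (b : Bool) (y : Cf M) : Option (Cf M) :=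
  some { y with m := (if b then rho gen y.text (y.n 0 + y.n 1)
    else (rho gen y.text (y.n 0 + y.n 1))⁻¹) * y.m }
/-- `D` -/
noncomputable def Dop (gen : ℕ → M) (y : Cf M) : Option (Cf M) :=
  some { y with m := val (rho gen y.text) (y.s false) * y.m }
/-- `th` -/
def thop (y : Cf M) : Option (Cf M) :=
  if y.n 1 = 0 ∧ y.n 0 = run (y.s false) then some y else none

/-- the model -/
noncomputable def vM (gen : ℕ → M) : Gn → Module.End (ZMod 2) (Cf M →₀ ZMod 2)
  | .P b a => op (push b a)
  | .Q b a => op (pop b a)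
  | .C c => op (inc c)
  | .C' c => op (dec c)
  | .g => op (gop gen true)
  | .g' => op (gop gen false)
  | .D => op (Dop gen)
  | .th => op thop

variable (gen : ℕ → M)

theorem vM_wT (b : Bool) :
    wT (vM gen) b = op (fun y => if y.s b = [] then some y else none) := by
  have k : ∀ a (y : Cf M), (pop b a y).bind (push b a) =
      if (y.s b).head? = some a then some y else none := by
    intro a y
    unfold pop
    split_ifs with h
    · simp only [Option.bind_some, push, Function.update_self, Function.update_idem]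
      have e : a :: (y.s b).tail = y.s b := List.cons_head?_tail h
      rw [e, Function.update_eq_self]
    · rfl
  apply end_ext
  intro y
  simp only [wT, vM, op_mul, k, LinearMap.add_apply, op_single, Module.End.one_apply]
  cases hL : y.s b with
  | nil => simp
  | cons a L =>
    cases a <;> simp [← two_smul (ZMod 2), show (2 : ZMod 2) = 0 from rfl]

theorem vM_wC (c : Fin 4) :
    wC (vM gen) c = op (fun y => if y.n c = 0 then some y else none) := by
  have k : ∀ (y : Cf M), (dec c y).bind (inc c) = if y.n c = 0 then none else some y := by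
    intro y
    unfold dec
    split_ifs with h
    · rfl
    · simp only [Option.bind_some, inc, Function.update_self, Function.update_idem]
      have e : y.n c - 1 + 1 = y.n c := by omega
      rw [e, Function.update_eq_self]
  apply end_ext
  intro y
  simp only [wC, vM, op_mul, k, LinearMap.add_apply, op_single, Module.End.one_apply]
  by_cases hL : y.n c = 0
  · simp [hL]
  · simp [hL, ← two_smul (ZMod 2), show (2 : ZMod 2) = 0 from rfl]

omit [Group M] in
theorem m_qp (b : Bool) (a a' : Ltr) (y : Cf M) : (push b a' y).bind (pop b a) =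
    if a = a' then some y else none := by
  simp only [push, Option.bind_some, pop, Function.update_self, List.head?_cons, Option.some.injEq,
    List.tail_cons, Function.update_idem, Function.update_eq_self]
  by_cases h : a = a'
  · subst h; simp
  · simp [h, Ne.symm h]

theorem upd_tf (f : Bool → List Ltr) (x y : List Ltr) :
    update (update f true x) false y = update (update f false y) true x :=
  Function.update_comm (by decide) _ _ _

omit [Group M] in
theorem m_cc (c : Fin 4) (y : Cf M) : (inc c y).bind (dec c) = some y := by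
  simp [inc, dec]

omit [Group M] in
theorem m_T (a : Ltr) (y : Cf M) : (pop true a y).bind (push false a) =
    if (y.s true).head? = some a then
      some { y with s := update (update y.s true (y.s true).tail) false (a :: y.s false) }
    else none := by
  unfold pop
  split_ifs with h
  · simp [push]
  · rfl

omit [Group M] in
theorem m_T' (a : Ltr) (y : Cf M) : (pop false a y).bind (push true a) =
    if (y.s false).head? = some a then
      some { y with s := update (update y.s false (y.s false).tail) true (a :: y.s true) }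
    else none := by
  unfold pop
  split_ifs with h
  · simp [push]
  · rfl

theorem vM_T (a : Ltr) : T (vM gen) a = op (fun y => if (y.s true).head? = some a then
      some { y with s := update (update y.s true (y.s true).tail) false (a :: y.s false) }
    else none) := by
  rw [T]; simp only [vM, op_mul, m_T]

theorem vM_T' (a : Ltr) : T' (vM gen) a = op (fun y => if (y.s false).head? = some a then
      some { y with s := update (update y.s false (y.s false).tail) true (a :: y.s true) }
    else none) := by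
  rw [T']; simp only [vM, op_mul, m_T']

/-- `g` commutes with partial maps preserving the text and `I + J` -/
theorem g_comm_of (b : Bool) (f : Cf M → Option (Cf M))
    (hf : ∀ y m, f { y with m := m } = (f y).map (fun z => { z with m := m }))
    (hf' : ∀ y z, f y = some z → z.text = y.text ∧ z.n 0 + z.n 1 = y.n 0 + y.n 1 ∧ z.m = y.m) :
    Commute (op (gop gen b)) (op f) := by
  apply op_comm
  intro y
  have e := hf y ((if b = true then rho gen y.text (y.n 0 + y.n 1)
    else (rho gen y.text (y.n 0 + y.n 1))⁻¹) * y.m)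
  have e' : (gop gen b y).bind f = f (Cf.mk y.s y.n ((if b = true then
      rho gen y.text (y.n 0 + y.n 1) else (rho gen y.text (y.n 0 + y.n 1))⁻¹) * y.m)) := rfl
  rw [e', e]
  cases hz : f y with
  | none => rfl
  | some z =>
    obtain ⟨h1, h2, h3⟩ := hf' y z hz
    simp only [Option.bind_some, Option.map_some, gop, h1, h2, h3]

omit [Group M] in
theorem m_ic (c : Fin 4) (y : Cf M) :
    (dec c y).bind (inc c) = if y.n c = 0 then none else some y := by
  unfold dec
  split_ifs with h
  · rfl
  · simp only [Option.bind_some, inc, Function.update_self, Function.update_idem]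
    have e : y.n c - 1 + 1 = y.n c := by omega
    rw [e, Function.update_eq_self]

/-- `D` commutes with partial maps preserving the text and the value -/
theorem D_comm_of (f : Cf M → Option (Cf M))
    (hf : ∀ y m, f { y with m := m } = (f y).map (fun z => { z with m := m }))
    (hf' : ∀ y z, f y = some z → z.text = y.text ∧
      (∀ ρ : ℕ → M, val ρ (z.s false) = val ρ (y.s false)) ∧ z.m = y.m) :
    Commute (op (Dop gen)) (op f) := by
  apply op_comm
  intro y
  have e := hf y (val (rho gen y.text) (y.s false) * y.m)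
  have e' : (Dop gen y).bind f =
    f (Cf.mk y.s y.n (val (rho gen y.text) (y.s false) * y.m)) := rfl
  rw [e', e]
  cases hz : f y with
  | none => rfl
  | some z =>
    obtain ⟨h1, h2, h3⟩ := hf' y z hz
    simp only [Option.bind_some, Option.map_some, Dop, h1, h2, h3]

theorem run_cons {a : Ltr} (ha : a ≠ one) (L : List Ltr) : run (a :: L) = 0 := by
  cases a <;> first | exact absurd rfl ha | rfl

omit [Group M] in
theorem text_T {y : Cf M} {a : Ltr} (h : (y.s true).head? = some a) :
    Cf.text ({ y with s := update (update y.s true (y.s true).tail) false (a :: y.s false) } : Cf M)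
      = y.text := by
  have e : a :: (y.s true).tail = y.s true := List.cons_head?_tail h
  conv_rhs => rw [Cf.text, ← e]
  simp [Cf.text]

theorem vM_RR : RR (vM gen) := by
  constructor
  case qp =>
    intro b a a'
    simp only [vM, op_mul, m_qp]
    split_ifs with h
    · exact op_one
    · exact op_zero
  case pp =>
    intro a a'
    apply op_comm; intro y
    simp [push, upd_tf]
  case pq =>
    intro a a'
    apply op_comm; intro y
    simp only [push, pop, Option.bind_some]
    by_cases h : (y.s true).head? = some a' <;> simp [h, upd_tf, push]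
  case qp' =>
    intro a a'
    apply op_comm; intro y
    simp only [push, pop, Option.bind_some]
    by_cases h : (y.s false).head? = some a <;> simp [h, upd_tf, push]
  case qq =>
    intro a a'
    apply op_comm; intro y
    simp only [push, pop, Option.bind_some]
    by_cases h : (y.s false).head? = some a <;> by_cases h' : (y.s true).head? = some a' <;>
      simp [h, h', upd_tf, pop]
  case cc =>
    intro c
    simp only [vM, op_mul, m_cc]
    exact op_one
  case cP =>
    intro c b a
    apply op_comm; intro y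
    simp [push, inc]
  case cQ =>
    intro c b a
    apply op_comm; intro y
    simp only [pop, inc, Option.bind_some]
    by_cases h : (y.s b).head? = some a <;> simp [h, inc]
  case c'P =>
    intro c b a
    apply op_comm; intro y
    simp only [push, dec, Option.bind_some]
    by_cases h : y.n c = 0 <;> simp [h, push]
  case c'Q =>
    intro c b a
    apply op_comm; intro y
    simp only [pop, dec]
    by_cases h : (y.s b).head? = some a <;> by_cases h' : y.n c = 0 <;> simp [h, h', pop, dec]
  case c1 =>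
    intro c c' hc
    apply op_comm; intro y
    simp only [inc, Option.bind_some, Option.some.injEq, Cf.mk.injEq, true_and, and_true]
    rw [Function.update_of_ne hc, Function.update_of_ne hc.symm, Function.update_comm hc]
  case c2 =>
    intro c c' hc
    apply op_comm; intro y
    simp only [inc, dec, Option.bind_some, Function.update_of_ne hc.symm]
    by_cases h : y.n c' = 0
    · simp [h]
    · simp only [h, if_false, Option.bind_some, Function.update_of_ne hc, Function.update_comm hc,
        inc]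
  case c3 =>
    intro c c' hc
    apply op_comm; intro y
    simp only [dec]
    by_cases h : y.n c = 0 <;> by_cases h' : y.n c' = 0 <;>
      simp [h, h', Function.update_of_ne hc, Function.update_of_ne hc.symm, dec]
    exact (Function.update_comm hc _ _ _).symm
  case gg =>
    have : ∀ y : Cf M, (gop gen false y).bind (gop gen true) = some y := by
      intro y; simp [gop, Cf.text]
    simp only [vM, op_mul, this]; exact op_one
  case gg' =>
    have : ∀ y : Cf M, (gop gen true y).bind (gop gen false) = some y := by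
      intro y; simp [gop, Cf.text]
    simp only [vM, op_mul, this]; exact op_one
  case gt =>
    intro a
    rw [vM_T]
    apply g_comm_of
    · intro y m
      split_ifs with h <;> rfl
    · intro y z
      split_ifs with h
      · intro hz
        obtain rfl := Option.some.inj hz
        refine ⟨?_, rfl, rfl⟩
        have e : a :: (y.s true).tail = y.s true := List.cons_head?_tail h
        conv_rhs => rw [Cf.text, ← e]
        simp [Cf.text]
      · intro hz; cases hz
  case gt' =>
    intro a
    rw [vM_T']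
    apply g_comm_of
    · intro y m
      split_ifs with h <;> rfl
    · intro y z
      split_ifs with h
      · intro hz
        obtain rfl := Option.some.inj hz
        refine ⟨?_, rfl, rfl⟩
        have e : a :: (y.s false).tail = y.s false := List.cons_head?_tail h
        conv_rhs => rw [Cf.text, ← e]
        simp [Cf.text]
      · intro hz; cases hz
  case gL =>
    intro b
    rw [vM_wT]
    apply g_comm_of
    · intro y m
      split_ifs with h <;> rfl
    · intro y z
      split_ifs with h
      · intro hz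
        obtain rfl := Option.some.inj hz
        exact ⟨rfl, rfl, rfl⟩
      · intro hz; cases hz
  case gI =>
    intro c hc
    simp only [vM, op_mul, m_ic]
    apply g_comm_of
    · intro y m
      split_ifs with h <;> rfl
    · intro y z
      split_ifs with h
      · intro hz; cases hz
      · intro hz
        obtain rfl := Option.some.inj hz
        exact ⟨rfl, rfl, rfl⟩
  case guw =>
    simp only [vM, op_mul]
    apply g_comm_of
    · intro y m
      simp only [dec, inc]
      split_ifs with h <;> rfl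
    · intro y z
      simp only [dec]
      split_ifs with h
      · intro hz; cases hz
      · intro hz
        obtain rfl := Option.some.inj hz
        refine ⟨rfl, ?_, rfl⟩
        simp
        omega
  case gk =>
    intro c hc
    have n0 : (0 : Fin 4) ≠ c := by rcases hc with rfl | rfl <;> decide
    have n1 : (1 : Fin 4) ≠ c := by rcases hc with rfl | rfl <;> decide
    apply g_comm_of
    · intro y m; rfl
    · intro y z hz
      obtain rfl := Option.some.inj hz
      exact ⟨rfl, by simp [n0, n1], rfl⟩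
  case gk' =>
    intro c hc
    have n0 : (0 : Fin 4) ≠ c := by rcases hc with rfl | rfl <;> decide
    have n1 : (1 : Fin 4) ≠ c := by rcases hc with rfl | rfl <;> decide
    apply g_comm_of
    · intro y m
      simp only [dec]
      split_ifs with h <;> rfl
    · intro y z
      simp only [dec]
      split_ifs with h
      · intro hz; cases hz
      · intro hz
        obtain rfl := Option.some.inj hz
        exact ⟨rfl, by simp [n0, n1], rfl⟩
  case Du =>
    apply D_comm_of
    · intro y m; rfl
    · intro y z hz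
      obtain rfl := Option.some.inj hz
      exact ⟨rfl, fun _ => rfl, rfl⟩
  case Du' =>
    apply D_comm_of
    · intro y m
      simp only [dec]
      split_ifs with h <;> rfl
    · intro y z
      simp only [dec]
      split_ifs with h
      · intro hz; cases hz
      · intro hz
        obtain rfl := Option.some.inj hz
        exact ⟨rfl, fun _ => rfl, rfl⟩
  case Dt =>
    rw [vM_T]
    apply D_comm_of
    · intro y m
      split_ifs with h <;> rfl
    · intro y z
      split_ifs with h
      · intro hz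
        obtain rfl := Option.some.inj hz
        refine ⟨?_, ?_, rfl⟩
        · have e : one :: (y.s true).tail = y.s true := List.cons_head?_tail h
          conv_rhs => rw [Cf.text, ← e]
          simp [Cf.text]
        · intro ρ; simp [val]
      · intro hz; cases hz
  case DL =>
    simp only [vM, op_mul]
    congr 1; funext y
    simp [push, Dop, val]
  case DR =>
    simp only [vM, op_mul]
    congr 1; funext y
    simp [push, Dop, val, Cf.text, val_rho]
  case tu =>
    rw [vM_T]
    simp only [vM, op_mul]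
    apply op_comm
    intro y
    by_cases h : (y.s true).head? = some one
    · by_cases h1 : y.n 1 = 0 ∧ y.n 0 = run (y.s false)
      · simp [h, h1, thop, inc, run]
      · have h2 : ¬ (y.n 1 = 0 ∧ y.n 0 + 1 = run (y.s false) + 1) := by
          rintro ⟨a1, a2⟩; exact h1 ⟨a1, by omega⟩
        simp only [h, if_true, Option.bind_some, inc, thop, if_neg h1, Option.bind_none]
        simp only [Function.update_self, run]
        rw [if_neg]
        simpa using h2
    · by_cases h1 : y.n 1 = 0 ∧ y.n 0 = run (y.s false)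
      · simp [h, h1, thop, inc, run]
      · simp [h, h1, thop, inc, run]
  case tw =>
    intro a ha
    rw [vM_wC, vM_wC]
    simp only [vM, op_mul]
    congr 1; funext y
    simp only [push, Option.bind_some]
    by_cases h1 : y.n 1 = 0
    · by_cases h0 : y.n 0 = 0
      · simp [h1, h0, thop, run_cons ha]
      · simp [h1, h0]
    · simp [h1]
  case Dp =>
    rw [vM_T]
    simp only [vM, op_mul]
    congr 1; funext y
    by_cases h1 : y.n 1 = 0 ∧ y.n 0 = run (y.s false)
    · by_cases h : (y.s true).head? = some pos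
      · have ht := text_T h
        have e1 : thop y = some y := if_pos h1
        simp only [e1, Option.bind_some, h, if_true, Dop, gop]
        rw [ht]
        simp [Cf.text, h1, h, val, mul_assoc]
      · have e1 : thop y = some y := if_pos h1
        simp [e1, h, Dop, gop]
    · have e1 : thop y = none := if_neg h1
      simp [e1]
  case Dn =>
    rw [vM_T]
    simp only [vM, op_mul]
    congr 1; funext y
    by_cases h1 : y.n 1 = 0 ∧ y.n 0 = run (y.s false)
    · by_cases h : (y.s true).head? = some neg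
      · have ht := text_T h
        have e1 : thop y = some y := if_pos h1
        simp only [e1, Option.bind_some, h, if_true, Dop, gop]
        rw [ht]
        simp [Cf.text, h1, h, val, mul_assoc]
      · have e1 : thop y = some y := if_pos h1
        simp [e1, h, Dop, gop]
    · have e1 : thop y = none := if_neg h1
      simp [e1]

/-- value of a word -/
def wv : List (ℕ × Bool) → M
  | [] => 1
  | (i, b) :: w => (if b then gen i else (gen i)⁻¹) * wv w

omit [Group M] in
theorem inc_pow (c : Fin 4) (i : ℕ) (y : Cf M) :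
    (op (inc c) ^ i) (Finsupp.single y 1) =
      Finsupp.single { y with n := update y.n c (y.n c + i) } 1 := by
  induction i with
  | zero => simp
  | succ i ih =>
    rw [pow_succ', Module.End.mul_apply, ih, op_single]
    simp [inc, add_assoc]

theorem gam_single (b : Bool) (i : ℕ) (y : Cf M) :
    gam (vM gen) b i (Finsupp.single y 1) =
      Finsupp.single { y with m := (if b then rho gen y.text (y.n 0 + i + y.n 1)
        else (rho gen y.text (y.n 0 + i + y.n 1))⁻¹) * y.m } 1 := by
  have e1 : (vM gen (C' 0)) ^ i * (vM gen (C 0)) ^ i = 1 :=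
    pow_mul_pow_eq_one i ((vM_RR gen).cc 0)
  have e2 : hg (vM gen) b ((vM gen (C 0) ^ i) (Finsupp.single y 1)) =
      (vM gen (C 0) ^ i) (Finsupp.single { y with
        m := (if b then rho gen y.text (y.n 0 + i + y.n 1)
        else (rho gen y.text (y.n 0 + i + y.n 1))⁻¹) * y.m } 1) := by
    change hg (vM gen) b ((op (inc 0) ^ i) (Finsupp.single y 1)) = (op (inc 0) ^ i) _
    rw [inc_pow, inc_pow]
    have e3 : hg (vM gen) b = op (gop gen b) := by cases b <;> rfl
    rw [e3, op_single]
    simp [gop, Cf.text]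
  have e4 : gam (vM gen) b i (Finsupp.single y 1) = (vM gen (C' 0) ^ i)
      (hg (vM gen) b ((vM gen (C 0) ^ i) (Finsupp.single y 1))) := rfl
  rw [e4, e2, ← Module.End.mul_apply, e1, Module.End.one_apply]

theorem zz_single (w : List (ℕ × Bool)) (y : Cf M) (hy : Good gen y.text) (h0 : y.n 0 = 0)
    (h1 : y.n 1 = 0) :
    zz (vM gen) w (Finsupp.single y 1) = Finsupp.single { y with m := wv gen w * y.m } 1 := by
  induction w with
  | nil => simp [zz, wv]
  | cons p w ih =>
    obtain ⟨i, b⟩ := p
    rw [zz, Module.End.mul_apply, ih, gam_single]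
    have : rho gen y.text = gen := by rw [rho, if_pos hy]
    simp only [h0, h1, zero_add, add_zero, wv]
    have e : Cf.text ({ y with m := wv gen w * y.m } : Cf M) = y.text := rfl
    rw [e, this, mul_assoc]

theorem pr_single (π : List Ltr) (y : Cf M) :
    pr (vM gen) π (Finsupp.single y 1) =
      Finsupp.single { y with s := update y.s true (π ++ y.s true) } 1 := by
  induction π with
  | nil => simp [pr]
  | cons a π ih =>
    rw [pr_cons, Module.End.mul_apply, ih]
    change op (push true a) _ = _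
    rw [op_single]
    simp [push]

theorem qr_single (π : List Ltr) (l : List Ltr) (s : Bool → List Ltr) (n : Fin 4 → ℕ) (m : M)
    (hs : s true = π ++ l) :
    qr (vM gen) π (Finsupp.single ⟨s, n, m⟩ 1) =
      Finsupp.single ⟨update s true l, n, m⟩ 1 := by
  induction π generalizing s with
  | nil =>
    have : update s true l = s := by rw [← (show s true = l from hs), Function.update_eq_self]
    simp [qr, this]
  | cons a π ih =>
    rw [qr, Module.End.mul_apply]
    have e : vM gen (Q true a) (Finsupp.single (⟨s, n, m⟩ : Cf M) 1) =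
        Finsupp.single ⟨update s true (π ++ l), n, m⟩ 1 := by
      change op (pop true a) _ = _
      rw [op_single]
      simp [pop, hs]
    rw [e, ih (update s true (π ++ l)) (by simp)]
    simp

theorem wC_single (c : Fin 4) (y : Cf M) (hy : y.n c = 0) :
    wC (vM gen) c (Finsupp.single y 1) = Finsupp.single y 1 := by
  rw [vM_wC, op_single, if_pos hy]; rfl

theorem wT_single (b : Bool) (y : Cf M) (hy : y.s b = []) :
    wT (vM gen) b (Finsupp.single y 1) = Finsupp.single y 1 := by
  rw [vM_wT, op_single, if_pos hy]; rfl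

/-- the base configuration -/
def y0 (π : List Ltr) (m : M) : Cf M := ⟨fun b => if b then π else [], fun _ => 0, m⟩

theorem ff_single (π : List Ltr) (m : M) :
    ff (vM gen) π (Finsupp.single (y0 π m) 1) = Finsupp.single (y0 π m) 1 := by
  have e : ff (vM gen) π (Finsupp.single (y0 π m) 1) =
    wT (vM gen) false (pr (vM gen) π (wT (vM gen) true (qr (vM gen) π (wC (vM gen) 0
      (wC (vM gen) 1 (Finsupp.single (y0 π m) 1)))))) := rfl
  rw [e, wC_single gen 1 _ rfl, wC_single gen 0 _ rfl]
  have e1 := qr_single gen π [] (y0 π m).s (y0 π m).n (y0 π m).m (by simp [y0])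
  have e2 : (⟨(y0 π m).s, (y0 π m).n, (y0 π m).m⟩ : Cf M) = y0 π m := rfl
  rw [e2] at e1
  rw [e1, wT_single gen true _ (by simp), pr_single]
  have e3 : update (update (y0 π m).s true []) true
      (π ++ update (y0 π m).s true [] true) = (y0 π m).s := by
    simp only [Function.update_self, List.append_nil, Function.update_idem]
    exact Function.update_eq_self true (y0 π m).s
  have e4 : (Cf.mk (update (update (y0 π m).s true []) true
      (π ++ update (y0 π m).s true [] true)) (y0 π m).n (y0 π m).m) = y0 π m := by rw [e3]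
  change wT (vM gen) false (Finsupp.single (Cf.mk (update (update (y0 π m).s true []) true
      (π ++ update (y0 π m).s true [] true)) (y0 π m).n (y0 π m).m) 1) = _
  rw [e4, wT_single gen false _ rfl]

/-- a text containing all relators -/
def textOf : List (List (ℕ × Bool)) → List Ltr
  | [] => [sep]
  | w :: ws => sep :: (enc w ++ textOf ws)

theorem textOf_mem {w : List (ℕ × Bool)} {ws : List (List (ℕ × Bool))} (hw : w ∈ ws) :
    ∃ L R : List Ltr, textOf ws = L.reverse ++ (sep :: (enc w ++ sep :: R)) := by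
  induction ws with
  | nil => simp at hw
  | cons w' ws ih =>
    rcases List.mem_cons.1 hw with rfl | hw
    · refine ⟨[], (textOf ws).tail, ?_⟩
      have : ∀ ws, textOf ws = sep :: (textOf ws).tail := by
        intro ws; cases ws <;> rfl
      rw [textOf, ← this]; rfl
    · obtain ⟨L, R, h⟩ := ih hw
      refine ⟨L ++ ((enc w').reverse ++ [sep]), R, ?_⟩
      rw [textOf, h]; simp

theorem val_rep (i : ℕ) (X : List Ltr) : val gen (List.replicate i one ++ X) = val gen X := by
  induction i with
  | zero => rfl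
  | succ i ih => rw [List.replicate_succ, List.cons_append, val, ih]

theorem run_rep (i : ℕ) (X : List Ltr) : run (List.replicate i one ++ X) = i + run X := by
  induction i with
  | zero => simp
  | succ i ih => rw [List.replicate_succ, List.cons_append, run, ih]; omega

theorem val_enc (w : List (ℕ × Bool)) (L : List Ltr) :
    val gen ((enc w).reverse ++ sep :: L) = wv gen w := by
  induction w with
  | nil => rfl
  | cons p w ih =>
    obtain ⟨i, b⟩ := p
    have e : (enc ((i, b) :: w)).reverse ++ sep :: L =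
        sgn b :: (List.replicate i one ++ ((enc w).reverse ++ sep :: L)) := by simp [enc]
    obtain ⟨a', L', ha', hL'⟩ := enc_rev_head w sep (by decide) L
    have hr : run ((enc w).reverse ++ sep :: L) = 0 := by rw [hL', run_cons ha']
    rw [e, wv]
    cases b with
    | true =>
      change gen (run _) * val gen _ = _
      rw [run_rep, hr, val_rep, ih]; rfl
    | false =>
      change (gen (run _))⁻¹ * val gen _ = _
      rw [run_rep, hr, val_rep, ih]; rfl

theorem sep_enc (w : List (ℕ × Bool)) : sep ∉ enc w := by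
  induction w with
  | nil => simp [enc]
  | cons p w ih =>
    obtain ⟨i, b⟩ := p
    have : sep ≠ sgn b := by cases b <;> decide
    simp [enc, ih, this]

theorem textOf_split (ws : List (List (ℕ × Bool))) (A R : List Ltr)
    (h : textOf ws = A ++ sep :: R) :
    A = [] ∨ ∃ w ∈ ws, ∃ A', A = A' ++ sep :: enc w := by
  induction ws generalizing A with
  | nil =>
    left
    have := congrArg List.length h
    simp [textOf] at this
    exact List.length_eq_zero_iff.1 (by omega)
  | cons w ws ih =>
    cases A with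
    | nil => exact Or.inl rfl
    | cons a A =>
      right
      rw [textOf, List.cons_append] at h
      obtain ⟨rfl, h2⟩ := List.cons.inj h
      have key : ∀ B, A = enc w ++ B → textOf ws = B ++ sep :: R →
          ∃ w' ∈ w :: ws, ∃ A', sep :: A = A' ++ sep :: enc w' := by
        intro B hB hB'
        rcases ih B hB' with rfl | ⟨w', hw', A', rfl⟩
        · exact ⟨w, List.mem_cons_self, [], by simp [hB]⟩
        · exact ⟨w', List.mem_cons_of_mem _ hw', sep :: (enc w ++ A'), by simp [hB]⟩
      rcases List.append_eq_append_iff.1 h2 with ⟨B, hB, hB'⟩ | ⟨B, hB, hB'⟩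
      · exact key B hB hB'
      · cases B with
        | nil =>
          refine key [] ?_ ?_
          · simpa using hB.symm
          · simpa using hB'.symm
        | cons c B =>
          obtain ⟨rfl, _⟩ := List.cons.inj hB'
          exact absurd (by rw [hB]; simp) (sep_enc w)

theorem good_textOf (ws : List (List (ℕ × Bool))) (h : ∀ w ∈ ws, wv gen w = 1) :
    Good gen (textOf ws) := by
  intro L R hLR
  rcases textOf_split ws _ R hLR with h0 | ⟨w, hw, A', hA⟩
  · have : L = [] := by simpa using h0
    rw [this]; rfl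
  · have : L = (enc w).reverse ++ sep :: A'.reverse := by
      rw [← List.reverse_reverse L, hA]; simp
    rw [this, val_enc, h w hw]

end Crest.Agent.R185.Univ
private theorem rz_7fdf890ad2 : type_of% @_root_.Crest.Agent.R185.Univ.run.eq_def := @_root_.Crest.Agent.R185.Univ.run.eq_def -- L72
private theorem rz_e87ea0ac4e : type_of% @_root_.Crest.Agent.R185.Univ.run.eq_1 := @_root_.Crest.Agent.R185.Univ.run.eq_1 -- L72
private theorem rz_0934202504 : type_of% @_root_.Crest.Agent.R185.Univ.textOf.eq_def := @_root_.Crest.Agent.R185.Univ.textOf.eq_def -- L664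
private theorem rz_3d2a105ca1 : type_of% @_root_.Crest.Agent.R185.Univ.textOf.eq_1 := @_root_.Crest.Agent.R185.Univ.textOf.eq_1 -- L664
private theorem rz_f4fdc15a61 : type_of% @_root_.Crest.Agent.R185.Univ.vM.eq_1 := @_root_.Crest.Agent.R185.Univ.vM.eq_1 -- L132
private theorem rz_f1581199a2 : type_of% @_root_.Crest.Agent.R185.Univ.val.eq_def := @_root_.Crest.Agent.R185.Univ.val.eq_def -- L77
private theorem rz_dedc804952 : type_of% @_root_.Crest.Agent.R185.Univ.val.eq_1 := @_root_.Crest.Agent.R185.Univ.val.eq_1 -- L77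
private theorem rz_69520d647b : type_of% @_root_.Crest.Agent.R185.Univ.wv.eq_def := @_root_.Crest.Agent.R185.Univ.wv.eq_def -- L557
private theorem rz_06315d523e : type_of% @_root_.Crest.Agent.R185.Univ.wv.eq_1 := @_root_.Crest.Agent.R185.Univ.wv.eq_1 -- L557
end

-- ▼ part R185/U9
section

/-!
# R185 / UNIV (9): the universal group
-/

set_option autoImplicit false
set_option linter.unusedSimpArgs false

namespace Crest.Agent.R185.Univ

open scoped commutatorElement
open Matrix

section elem

variable {S : Type*} [Ring S] [Ch2 S]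

instance : Ch2 (Matrix (Fin 5) (Fin 5) S) := ⟨fun A => by
  ext i j; exact two_self _⟩

theorem el_aux {i j : Fin 5} (h : i ≠ j) (r : S) :
    (1 + single i j r) * (1 + single i j r) = (1 : Matrix (Fin 5) (Fin 5) S) := by
  rw [mul_add, add_mul, add_mul, single_mul_single_of_ne _ _ _ _ h.symm]
  simp only [one_mul, mul_one, add_zero]
  rw [add_assoc, two_self, add_zero]

/-- elementary matrix -/
def el (i j : Fin 5) (r : S) : (Matrix (Fin 5) (Fin 5) S)ˣ :=
  if h : i ≠ j then ⟨1 + single i j r, 1 + single i j r, el_aux h r, el_aux h r⟩ else 1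

theorem el_val {i j : Fin 5} (h : i ≠ j) (r : S) : (el i j r).1 = 1 + single i j r := by
  rw [el, dif_pos h]

theorem el_inj {i j : Fin 5} (h : i ≠ j) {r s : S} (e : el i j r = el i j s) : r = s := by
  have h1 := congrArg Units.val e
  rw [el_val h, el_val h] at h1
  have h2 := congrFun (congrFun h1 i) j
  simpa [Matrix.add_apply, h] using h2

theorem comm_of_eq {G : Type*} [Group G] {a b c : G} (h : a * b = c * (b * a)) : ⁅a, b⁆ = c := by
  rw [commutatorElement_def, h]; group

theorem el_stein : Stein (el (S := S)) where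
  two := two_self
  add i j r s h := by
    apply Units.ext
    rw [Units.val_mul, el_val h, el_val h, el_val h, single_add, mul_add, add_mul, add_mul,
      single_mul_single_of_ne _ _ _ _ h.symm]
    simp only [one_mul, mul_one, add_zero]
    rw [add_assoc]
  comm i j k l r s h1 h2 h3 h4 := by
    apply Units.ext
    rw [Units.val_mul, Units.val_mul, el_val h1, el_val h2, mul_add, add_mul, add_mul, mul_add,
      add_mul, add_mul, single_mul_single_of_ne _ _ _ _ h3, single_mul_single_of_ne _ _ _ _ h4.symm]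
    simp only [one_mul, mul_one, add_zero]
    abel
  mul i j k r s h1 h2 h3 := by
    apply comm_of_eq
    apply Units.ext
    rw [Units.val_mul, Units.val_mul, Units.val_mul, el_val h1, el_val h2, el_val h3]
    have e1 : (single j k s * single i j r : Matrix (Fin 5) (Fin 5) S) = 0 :=
      single_mul_single_of_ne _ _ _ _ h3.symm _
    have e2 : (single i k (r * s) * single i j r : Matrix (Fin 5) (Fin 5) S) = 0 :=
      single_mul_single_of_ne _ _ _ _ h3.symm _
    have e3 : (single i k (r * s) * single j k s : Matrix (Fin 5) (Fin 5) S) = 0 :=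
      single_mul_single_of_ne _ _ _ _ h2.symm _
    have e4 : (single i j r * single j k s : Matrix (Fin 5) (Fin 5) S) = single i k (r * s) :=
      single_mul_single_same _ _ _ _ _
    simp only [mul_add, add_mul, one_mul, mul_one, e1, e2, e3, e4, add_zero]
    abel

end elem

section family

variable {G : Type*} [Group G] {R : Type*} [Ring R] {x : Fin 5 → Fin 5 → R → G} {X : Type*}

theorem Stein.base (S : Stein x) (v : X → R) : Base (fun i j (a : Option X) => x i j (a.elim 1 v)) where
  sq i j a h := S.sq _ h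
  comm i j k l a b h1 h2 h3 h4 := S.comm _ _ _ _ _ _ h1 h2 h3 h4
  mulr i j k a h1 h2 h3 := by
    have := S.mul i j k (a.elim 1 v) 1 h1 h2 h3
    rwa [mul_one] at this
  mull i j k a h1 h2 h3 := by
    have := S.mul i j k 1 (a.elim 1 v) h1 h2 h3
    rwa [one_mul] at this

theorem Stein.W (S : Stein x) (v : X → R) (w : List X) {i j : Fin 5} (h : i ≠ j) :
    Univ.W (fun i j (a : Option X) => x i j (a.elim 1 v)) w i j = x i j (w.map v).prod := by
  induction w generalizing i j with
  | nil => rfl
  | cons a w ih =>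
    obtain ⟨h1, h2⟩ := ax_ne i j
    rw [Univ.W, ih h2, List.map_cons, List.prod_cons]
    exact S.mul _ _ _ _ _ h1 h2 h

theorem Stein.psi (S : Stein x) (v : X → R) (p : Poly X) {i j : Fin 5} (h : i ≠ j) :
    Univ.psi (fun i j (a : Option X) => x i j (a.elim 1 v)) i j p = x i j (evalP v p) := by
  induction p with
  | nil => simp [S.zero h]
  | cons w p ih => rw [psi_cons, S.W v w h, ih, evalP_cons, S.add _ _ _ _ h]

end family

/-- group generators -/
abbrev Lt := Fin 5 × Fin 5 × Option Gn

/-- group generators, in the free group -/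
def fx (i j : Fin 5) (a : Option Gn) : FreeGroup Lt := FreeGroup.of (i, j, a)

/-- relators -/
def rsq (p : Lt) : FreeGroup Lt :=
  if p.1 = p.2.1 then fx p.1 p.2.1 p.2.2 else fx p.1 p.2.1 p.2.2 * fx p.1 p.2.1 p.2.2
/-- relators -/
def rcm (p : Lt × Lt) : FreeGroup Lt :=
  if p.1.1 ≠ p.1.2.1 ∧ p.2.1 ≠ p.2.2.1 ∧ p.1.2.1 ≠ p.2.1 ∧ p.1.1 ≠ p.2.2.1 then
    ⁅fx p.1.1 p.1.2.1 p.1.2.2, fx p.2.1 p.2.2.1 p.2.2.2⁆ else 1
/-- relators -/
def rmr (p : Fin 5 × Fin 5 × Fin 5 × Option Gn) : FreeGroup Lt :=
  if p.1 ≠ p.2.1 ∧ p.2.1 ≠ p.2.2.1 ∧ p.1 ≠ p.2.2.1 then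
    ⁅fx p.1 p.2.1 p.2.2.2, fx p.2.1 p.2.2.1 none⁆ * (fx p.1 p.2.2.1 p.2.2.2)⁻¹ else 1
/-- relators -/
def rml (p : Fin 5 × Fin 5 × Fin 5 × Option Gn) : FreeGroup Lt :=
  if p.1 ≠ p.2.1 ∧ p.2.1 ≠ p.2.2.1 ∧ p.1 ≠ p.2.2.1 then
    ⁅fx p.1 p.2.1 none, fx p.2.1 p.2.2.1 p.2.2.2⁆ * (fx p.1 p.2.2.1 p.2.2.2)⁻¹ else 1
/-- relators -/
def rrg (p : Fin 5 × Fin 5 × RI) : FreeGroup Lt :=
  if p.1 ≠ p.2.1 then
    psi fx p.1 p.2.1 (relP p.2.2).1 * (psi fx p.1 p.2.1 (relP p.2.2).2)⁻¹ else 1

/-- all relators -/
def grels : Set (FreeGroup Lt) :=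
  Set.range rsq ∪ Set.range rcm ∪ Set.range rmr ∪ Set.range rml ∪ Set.range rrg

theorem grels_finite : grels.Finite :=
  ((((Set.finite_range _).union (Set.finite_range _)).union (Set.finite_range _)).union
    (Set.finite_range _)).union (Set.finite_range _)

theorem grels_iff {H : Type*} [Group H] (φ : FreeGroup Lt →* H) : (∀ r ∈ grels, φ r = 1) ↔
    (Base (fun i j a => φ (fx i j a)) ∧ (∀ i a, φ (fx i i a) = 1) ∧
      ∀ r i j, i ≠ j → psi (fun i j a => φ (fx i j a)) i j (relP r).1 =
        psi (fun i j a => φ (fx i j a)) i j (relP r).2) := by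
  constructor
  · intro h
    refine ⟨⟨?_, ?_, ?_, ?_⟩, ?_, ?_⟩
    · intro i j a hij
      have := h (rsq (i, j, a)) (by simp [grels])
      simpa [rsq, hij] using this
    · intro i j k l a b h1 h2 h3 h4
      have := h (rcm ((i, j, a), (k, l, b))) (by simp [grels])
      rw [rcm, if_pos ⟨h1, h2, h3, h4⟩, map_commutatorElement] at this
      exact commutatorElement_eq_one_iff_commute.1 this
    · intro i j k a h1 h2 h3
      have := h (rmr (i, j, k, a)) (by simp [grels])
      rw [rmr, if_pos ⟨h1, h2, h3⟩, map_mul, map_commutatorElement, map_inv,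
        mul_inv_eq_one] at this
      exact this
    · intro i j k a h1 h2 h3
      have := h (rml (i, j, k, a)) (by simp [grels])
      rw [rml, if_pos ⟨h1, h2, h3⟩, map_mul, map_commutatorElement, map_inv,
        mul_inv_eq_one] at this
      exact this
    · intro i a
      have := h (rsq (i, i, a)) (by simp [grels])
      simpa [rsq] using this
    · intro r i j hij
      have := h (rrg (i, j, r)) (by simp [grels])
      rw [rrg, if_pos hij, map_mul, map_inv, mul_inv_eq_one, map_psi, map_psi] at this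
      exact this
  · rintro ⟨hB, hD, hR⟩ r hr
    rcases hr with (((⟨p, rfl⟩ | ⟨p, rfl⟩) | ⟨p, rfl⟩) | ⟨p, rfl⟩) | ⟨p, rfl⟩
    · obtain ⟨i, j, a⟩ := p
      by_cases h : i = j
      · subst h; simpa [rsq] using hD i a
      · simpa [rsq, h] using hB.sq i j a h
    · obtain ⟨⟨i, j, a⟩, k, l, b⟩ := p
      rw [rcm]
      split_ifs with h
      · rw [map_commutatorElement]
        exact commutatorElement_eq_one_iff_commute.2 (hB.comm _ _ _ _ _ _ h.1 h.2.1 h.2.2.1 h.2.2.2)
      · exact map_one φ
    · obtain ⟨i, j, k, a⟩ := p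
      rw [rmr]
      split_ifs with h
      · rw [map_mul, map_commutatorElement, map_inv, mul_inv_eq_one]
        exact hB.mulr _ _ _ _ h.1 h.2.1 h.2.2
      · exact map_one φ
    · obtain ⟨i, j, k, a⟩ := p
      rw [rml]
      split_ifs with h
      · rw [map_mul, map_commutatorElement, map_inv, mul_inv_eq_one]
        exact hB.mull _ _ _ _ h.1 h.2.1 h.2.2
      · exact map_one φ
    · obtain ⟨i, j, r⟩ := p
      rw [rrg]
      split_ifs with h
      · rw [map_mul, map_inv, mul_inv_eq_one, map_psi, map_psi]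
        exact hR r i j h
      · exact map_one φ

/-- the universal group -/
abbrev UG : Type := PresentedGroup grels

theorem UG_fp : Group.IsFinitelyPresented UG := by
  have : Finite grels := grels_finite
  infer_instance

/-- generators of the universal group -/
def ux (i j : Fin 5) (a : Option Gn) : UG := PresentedGroup.mk grels (fx i j a)

theorem UG_facts : Base ux ∧ (∀ i a, ux i i a = 1) ∧
    ∀ r i j, i ≠ j → psi ux i j (relP r).1 = psi ux i j (relP r).2 := by
  refine (grels_iff (PresentedGroup.mk grels)).1 ?_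
  intro r hr
  exact PresentedGroup.mk_eq_one_iff.2 (Subgroup.subset_normalClosure hr)

end Crest.Agent.R185.Univ
end

-- ▼ part R185/U10

/-!
# R185 / UNIV (10): a finitely presented group containing every finitely presented group
-/

set_option autoImplicit false
set_option linter.unusedSimpArgs false

namespace Crest.Agent.R185.Univ

open scoped commutatorElement
open Matrix

/-- the coordinate ring of the universal group -/
instance : Ring (Crd ux) := Crd.ring UG_facts.1

theorem crd_stein : Stein (Crd.st ux) := Crd.stein UG_facts.1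

instance : Ch2 (Crd ux) := ⟨crd_stein.two⟩

theorem crd_RR : RR (Crd.gen ux) := by
  refine (RR_iff _).1 (fun i => ?_)
  have e1 := Crd.evalP_gen UG_facts.1 (relP i).1
  have e2 := Crd.evalP_gen UG_facts.1 (relP i).2
  rw [e1, e2]
  exact Crd.mk_eq.2 (fun a b hab => UG_facts.2.2 i a b hab)

theorem crd_Gen : Gen (Crd.st ux) := by
  have h := PresentedGroup.closure_range_of grels
  refine top_le_iff.1 ?_
  have h' : Subgroup.closure (Set.range (PresentedGroup.of (rels := grels))) ≤
      Subgroup.closure {g : UG | ∃ i j r, i ≠ j ∧ g = Crd.st ux i j r} := by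
    rw [Subgroup.closure_le]
    rintro _ ⟨⟨i, j, a⟩, rfl⟩
    by_cases hij : i = j
    · subst hij
      have : (PresentedGroup.of (rels := grels) (i, i, a) : UG) = 1 := UG_facts.2.1 i a
      rw [this]
      exact Subgroup.one_mem _
    · refine Subgroup.subset_closure ?_
      cases a with
      | none =>
        refine ⟨i, j, Crd.mk ux [[]], hij, ?_⟩
        rw [Crd.st_mk hij]
        simp [psi, W]; rfl
      | some a =>
        refine ⟨i, j, Crd.mk ux [[a]], hij, ?_⟩
        rw [Crd.st_mk hij]
        simp only [psi, List.map_cons, List.map_nil, List.prod_cons, List.prod_nil, mul_one]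
        rw [UG_facts.1.W_single a hij]; rfl
  exact h.symm.le.trans h'

section compare

variable {S : Type*} [Ring S] [Ch2 S] {v : Gn → S} (h : RR v)

theorem comp_aux (h : RR v) (r : FreeGroup Lt) (hr : r ∈ grels) :
    FreeGroup.lift (fun p : Lt => el p.1 p.2.1 (p.2.2.elim 1 v)) r = 1 := by
  revert r
  rw [grels_iff]
  have e : (fun i j a => FreeGroup.lift (fun p : Lt => el p.1 p.2.1 (p.2.2.elim 1 v)) (fx i j a)) =
      (fun i j (a : Option Gn) => el i j (a.elim 1 v)) := by
    funext i j a; simp [fx]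
  rw [e]
  refine ⟨el_stein.base v, ?_, ?_⟩
  · intro i a
    simp [fx, el]
  · intro r i j hij
    rw [el_stein.psi v _ hij, el_stein.psi v _ hij, (RR_iff v).2 h r]

/-- the comparison homomorphism -/
noncomputable def Th (h : RR v) : UG →* (Matrix (Fin 5) (Fin 5) S)ˣ :=
  PresentedGroup.toGroup (f := fun p : Lt => el p.1 p.2.1 (p.2.2.elim 1 v)) (comp_aux h)

theorem Th_ux (i j : Fin 5) (a : Option Gn) : Th h (ux i j a) = el i j (a.elim 1 v) :=
  PresentedGroup.toGroup.of (comp_aux h)

theorem Th_psi (p : Poly Gn) {i j : Fin 5} (hij : i ≠ j) :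
    Th h (psi ux i j p) = el i j (evalP v p) := by
  rw [map_psi, ← el_stein.psi v p hij]
  congr 1; funext i j a; exact Th_ux h i j a

/-- the comparison of rings -/
noncomputable def rbar (h : RR v) : Crd ux →+* S where
  toFun := Quotient.lift (s := crdSetoid ux) (evalP v)
    (fun p q (hpq : ∀ i j, i ≠ j → psi ux i j p = psi ux i j q) => by
      have h1 := congrArg (Th h) (hpq 0 1 (by decide))
      rw [Th_psi h p (by decide), Th_psi h q (by decide)] at h1
      exact el_inj (by decide) h1)
  map_one' := by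
    change evalP v [[]] = 1
    simp
  map_mul' := by
    intro a b
    obtain ⟨a, rfl⟩ := Crd.mk_surj a; obtain ⟨b, rfl⟩ := Crd.mk_surj b
    exact evalP_pmul v a b
  map_zero' := rfl
  map_add' := by
    intro a b
    obtain ⟨a, rfl⟩ := Crd.mk_surj a; obtain ⟨b, rfl⟩ := Crd.mk_surj b
    exact evalP_append v a b

theorem rbar_mk (p : Poly Gn) : rbar h (Crd.mk ux p) = evalP v p := rfl

theorem rbar_gen (a : Gn) : rbar h (Crd.gen ux a) = v a := by
  rw [Crd.gen, rbar_mk]; simp [evalP]

theorem rbar_zero_of {r : Crd ux} (hr : Crd.st ux 0 2 r = 1) : rbar h r = 0 := by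
  obtain ⟨p, rfl⟩ := Crd.mk_surj r
  have h1 := congrArg (Th h) hr
  rw [Crd.st_mk (by decide), Th_psi h p (by decide), map_one] at h1
  rw [rbar_mk]
  refine el_inj (i := 0) (j := 2) (by decide) ?_
  rw [h1, el_stein.zero (by decide)]

end compare

section natural

variable {R S : Type*} [Ring R] [Ring S] (f : R →+* S) {v : Gn → R} {v' : Gn → S}
  (hv : ∀ a, f (v a) = v' a)
include hv

theorem map_gam (b : Bool) (i : ℕ) : f (gam v b i) = gam v' b i := by
  cases b <;> simp [gam, hg, hv]

theorem map_zz (w : List (ℕ × Bool)) : f (zz v w) = zz v' w := by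
  induction w with
  | nil => simp [zz]
  | cons p w ih => rw [zz, map_mul, ih, map_gam f hv]; rfl

theorem map_wT (b : Bool) : f (wT v b) = wT v' b := by simp [wT, hv]

theorem map_wC (c : Fin 4) : f (wC v c) = wC v' c := by simp [wC, hv]

theorem map_pr (L : List Ltr) : f (pr v L) = pr v' L := by
  induction L with
  | nil => simp [pr]
  | cons a L ih => rw [pr_cons, map_mul, ih, hv, pr_cons]

theorem map_qr (L : List Ltr) : f (qr v L) = qr v' L := by
  induction L with
  | nil => simp [qr]
  | cons a L ih => rw [qr, map_mul, ih, hv]; rfl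

theorem map_ff (π : List Ltr) : f (ff v π) = ff v' π := by
  simp [ff, EE, map_wT f hv, map_wC f hv, map_pr f hv, map_qr f hv]

end natural

section data

variable {R : Type*} [Ring R] [Ch2 R] {v : Gn → R} (h : RR v)

/-- the unit of a generator -/
def cu (h : RR v) (i : ℕ) : Rˣ := ⟨gam v true i, gam v false i, h.gam_mul true i, h.gam_mul false i⟩

/-- the swindle data -/
def dat (h : RR v) (m : ℕ) (π : List Ltr) : Data R (Fin m) where
  f := ff v π
  k := v (.C 2)
  k' := v (.C' 2)
  n := v (.C 3)
  n' := v (.C' 3)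
  c i := cu h i
  ff := h.ff_sq π
  kk := h.cc 2
  nn := h.cc 3
  fk := (h.cn_ff 2 (by decide) π).symm
  fk' := (h.cn'_ff 2 (by decide) π).symm
  fn := (h.cn_ff 3 (by decide) π).symm
  fn' := (h.cn'_ff 3 (by decide) π).symm
  kn := h.c1 2 3 (by decide)
  kn' := h.c2 2 3 (by decide)
  k'n := (h.c2 3 2 (by decide)).symm
  k'n' := h.c3 2 3 (by decide)
  cf i := h.gam_ff true i π
  ck i := (h.gam_cn true i 2 (by decide)).1
  ck' i := (h.gam_cn true i 2 (by decide)).2
  cn i := (h.gam_cn true i 3 (by decide)).1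
  cn' i := (h.gam_cn true i 3 (by decide)).2

/-- forget the bound of the indices -/
def wd {m : ℕ} (L : List (Fin m × Bool)) : List (ℕ × Bool) := L.map (fun p => (p.1.val, p.2))

omit [Ch2 R] in
theorem lift_zz {m : ℕ} (L : List (Fin m × Bool)) :
    ((FreeGroup.lift (fun i : Fin m => cu h i) (FreeGroup.mk L) : Rˣ) : R) = zz v (wd L) := by
  rw [FreeGroup.lift_mk]
  induction L with
  | nil => rfl
  | cons p L ih =>
    obtain ⟨i, b⟩ := p
    rw [List.map_cons, List.prod_cons, Units.val_mul, ih]
    cases b <;> rfl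

end data

theorem lift_wv {M : Type*} [Group M] {m : ℕ} (gen : ℕ → M) (L : List (Fin m × Bool)) :
    FreeGroup.lift (fun i : Fin m => gen i) (FreeGroup.mk L) = wv gen (wd L) := by
  rw [FreeGroup.lift_mk]
  induction L with
  | nil => rfl
  | cons p L ih =>
    obtain ⟨i, b⟩ := p
    rw [List.map_cons, List.prod_cons, ih]
    cases b <;> rfl

theorem embed_presented {m : ℕ} (s : Set (FreeGroup (Fin m))) (hs : s.Finite) :
    ∃ φ : PresentedGroup s →* UG, Function.Injective φ := by
  classical
  set ws : List (List (ℕ × Bool)) := hs.toFinset.toList.map (fun r => wd r.toWord) with hws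
  have hmem : ∀ r ∈ s, wd r.toWord ∈ ws := fun r hr => by
    rw [hws]; exact List.mem_map.2 ⟨r, by simpa using hr, rfl⟩
  set π := textOf ws with hπ
  set d := dat crd_RR m π with hd
  have hkill : ∀ r ∈ s, FreeGroup.lift (d.V (Crd.st ux)) r = 1 := by
    intro r hr
    refine d.kill crd_stein crd_Gen r ?_
    have e1 : ((FreeGroup.lift d.c r : (Crd ux)ˣ) : Crd ux) = zz (Crd.gen ux) (wd r.toWord) := by
      have := lift_zz crd_RR r.toWord
      rwa [FreeGroup.mk_toWord] at this
    obtain ⟨L, R, hLR⟩ := textOf_mem (hmem r hr)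
    rw [e1]
    change _ * ff (Crd.gen ux) π = ff (Crd.gen ux) π
    rw [hπ, hLR]
    exact crd_RR.relator _ L R
  refine ⟨PresentedGroup.toGroup (f := d.V (Crd.st ux)) hkill, ?_⟩
  rw [injective_iff_map_eq_one]
  intro g hg
  induction g using PresentedGroup.induction_on with
  | _ r =>
  have hr : FreeGroup.lift (d.V (Crd.st ux)) r = 1 := hg
  have h1 := d.inj crd_stein crd_Gen r hr
  -- the model
  set gen : ℕ → PresentedGroup s := fun i => if h : i < m then PresentedGroup.of ⟨i, h⟩ else 1
    with hgen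
  have hM : RR (vM gen) := vM_RR gen
  have h2 := rbar_zero_of hM h1
  have hgm : FreeGroup.lift (fun i : Fin m => gen i) = PresentedGroup.mk s := by
    ext i; simp [hgen]; rfl
  have e1 : ((FreeGroup.lift d.c r : (Crd ux)ˣ) : Crd ux) = zz (Crd.gen ux) (wd r.toWord) := by
    have := lift_zz crd_RR r.toWord
    rwa [FreeGroup.mk_toWord] at this
  have e2 : d.eps = ff (Crd.gen ux) π * wC (Crd.gen ux) 2 * wC (Crd.gen ux) 3 := rfl
  have hv := rbar_gen hM
  rw [e1, e2] at h2
  simp only [map_add, map_mul, map_zz _ hv, map_ff _ hv, map_wC _ hv] at h2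
  have hgood : Good gen (textOf ws) := by
    apply good_textOf
    intro w hw
    rw [hws] at hw
    obtain ⟨q, hq, rfl⟩ := List.mem_map.1 hw
    have hq' : q ∈ s := by simpa using hq
    have := lift_wv gen q.toWord
    rw [FreeGroup.mk_toWord, hgm] at this
    rw [← this]
    exact PresentedGroup.mk_eq_one_iff.2 (Subgroup.subset_normalClosure hq')
  have h3 := congrArg (fun A : Module.End (ZMod 2) (Cf (PresentedGroup s) →₀ ZMod 2) =>
    A (Finsupp.single (y0 π 1) 1)) h2
  simp only [LinearMap.add_apply, Module.End.mul_apply, LinearMap.zero_apply] at h3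
  rw [wC_single gen 3 _ rfl, wC_single gen 2 _ rfl, ff_single, zz_single gen _ _ (by
    rw [hπ]; simpa [Cf.text, y0] using hgood) rfl rfl] at h3
  have h4 := eq_neg_of_add_eq_zero_left h3
  rw [← Finsupp.single_neg, show (-1 : ZMod 2) = 1 from rfl] at h4
  have h5 := Finsupp.single_left_injective (one_ne_zero (α := ZMod 2)) h4
  have h6 := congrArg Cf.m h5
  have h7 : (1 : PresentedGroup s) = wv gen (wd r.toWord) * 1 := h6
  rw [mul_one, ← lift_wv gen r.toWord, FreeGroup.mk_toWord, hgm] at h7
  exact h7.symm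

/-- **Higman's universal group.** -/
theorem exists_universal_fp : ∃ (U : Type) (_ : Group U), Group.IsFinitelyPresented U ∧
    ∀ (G : Type) [Group G], Group.IsFinitelyPresented G → ∃ f : G →* U, Function.Injective f := by
  refine ⟨UG, inferInstance, UG_fp, ?_⟩
  intro G _ hG
  obtain ⟨m, s, hs, ⟨e⟩⟩ := Group.IsFinitelyPresented.exists_mulEquiv_presentedGroup (G := G)
  obtain ⟨φ, hφ⟩ := embed_presented s hs
  exact ⟨φ.comp e.toMonoidHom, hφ.comp e.injective⟩

end Crest.Agent.R185.Univ
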