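import Crest.Agent.R185.Wu3
import Crest.Agent.R185.Null11
import Crest.Agent.R185.Hot4
import Crest.Agent.R185.Hur6
import Crest.Agent.R185.Base3
import Crest.Agent.R185.Bld1
import Crest.Agent.R185.Att2
import Crest.Agent.R185.Lev1
import Crest.Agent.R185.Null2
import Crest.Agent.R185.U10

-- ▼ part R185/Wu4
section

/-!
# R185 / W(U) (4): the rook certificate kills, and the torus is null in all degrees
-/

set_option autoImplicit false

namespace Crest.Agent.R185.Wu

open Crest.Agent.R185.Null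

/-- **A rook certificate kills `β` after a partially contracted map.** -/
theorem Rook.null {G H K : Type} [Group G] [Group H] [Group K] (R : Rook H K) {φ : G →* H} {n : ℕ}
    (hφ : PC φ n) (hn : n ≠ 0) : IsNull (R.β.comp φ) n := by
  refine rook_null hφ hn (m := 3) R.v R.row R.col (rowHom R.v R.row) ?_ (colHom R.v R.col) ?_
    R.β R.rβ R.cβ R.s ?_ ?_
  · intro i x
    rw [rowHom_apply]
    simp [List.ofFn_succ, mul_assoc, Fin.succ]
  · intro j x
    rw [colHom_apply]
    simp [List.ofFn_succ, mul_assoc, Fin.succ]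
  · intro i x
    rw [rowHom_apply]
    exact R.sr i x
  · intro j x
    rw [colHom_apply]
    exact R.sc j x

/-- telescope with the weaker degree-zero hypothesis -/
theorem exists_pow_null' {U : Type} [Group U] (ψ : U →* U) (h0 : IsNull ψ 0)
    (h : ∀ n, n ≠ 0 → ∀ φ : U →* U, PC φ n → IsNull (ψ.comp φ) n) :
    ∀ n, ∃ N : ℕ, IsNull (ipow ψ N) n := by
  have key : ∀ n, (∃ N : ℕ, PC (ipow ψ N) n) := by
    intro n
    induction n with
    | zero => exact ⟨0, PC.zero _⟩
    | succ n ih =>
      obtain ⟨N, hN⟩ := ih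
      rcases eq_or_ne n 0 with rfl | hn
      · exact ⟨N + 1, PC.succ hN h0⟩
      · refine ⟨(N + 1) + N, ?_⟩
        rw [ipow_add]
        exact PC.succ hN (h n hn _ hN)
  intro n
  rcases eq_or_ne n 0 with rfl | hn
  · refine ⟨1, ?_⟩
    rw [ipow_one]
    exact h0
  · obtain ⟨N, hN⟩ := key n
    exact ⟨N + 1, h n hn _ hN⟩

end Crest.Agent.R185.Wu
end

-- ▼ part R185/Hur7
section

/-!
# Row 185, T6: chains of ordered simplices; one step of the null-homotopy
-/

set_option autoImplicit false
set_option linter.unusedSectionVars false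

open Set Metric Topology
open Crest.Agent.R185.Bld

local notation "I" => unitInterval

namespace Crest.Agent.R185.Hur

section chains

variable (V : Type)

/-- chains on ordered tuples -/
abbrev Chn (k : ℕ) : Type := (Fin (k + 1) → V) →₀ ℤ

variable {V}

/-- boundary of a tuple -/
noncomputable def ddt {k : ℕ} (v : Fin (k + 2) → V) : Chn V k :=
  ∑ j : Fin (k + 2), ((-1 : ℤ) ^ (j : ℕ)) • Finsupp.single (v ∘ j.succAbove) (1 : ℤ)

/-- the boundary -/
noncomputable def dd (k : ℕ) : Chn V (k + 1) →ₗ[ℤ] Chn V k :=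
  Finsupp.linearCombination ℤ ddt

theorem dd_single {k : ℕ} (v : Fin (k + 2) → V) : dd k (Finsupp.single v 1) = ddt v := by
  simp [dd]

theorem map_ddt {M : Type*} [AddCommGroup M] {k : ℕ} (f : Chn V k →ₗ[ℤ] M) (v : Fin (k + 2) → V) :
    f (ddt v) = ∑ j : Fin (k + 2), ((-1 : ℤ) ^ (j : ℕ)) • f (Finsupp.single (v ∘ j.succAbove) 1) := by
  unfold ddt
  rw [map_sum]
  simp only [map_smul]

theorem comp_succAbove_swap {k : ℕ} (v : Fin (k + 3) → V) (i : Fin (k + 3)) (j : Fin (k + 2)) :
    (v ∘ i.succAbove) ∘ j.succAbove =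
      (v ∘ (i.succAbove j).succAbove) ∘ (j.predAbove i).succAbove := by
  funext l
  simp only [Function.comp_apply]
  rw [Fin.succAbove_succAbove_succAbove_predAbove]

theorem dd_ddt {k : ℕ} (v : Fin (k + 3) → V) : dd k (ddt v) = 0 := by
  rw [map_ddt]
  simp only [dd_single]
  unfold ddt
  simp only [Finset.smul_sum, smul_smul]
  rw [← Finset.sum_product']
  refine Finset.sum_involution (fun p _ => (p.1.succAbove p.2, p.2.predAbove p.1)) ?_ ?_ ?_ ?_
  · rintro ⟨i, j⟩ _
    dsimp only
    rw [← comp_succAbove_swap, ← add_smul, ← pow_add, ← pow_add,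
      Fin.neg_one_pow_succAbove_add_predAbove, add_neg_cancel, zero_smul]
  · rintro ⟨i, j⟩ _ _ h
    exact Fin.succAbove_ne i j (Prod.ext_iff.1 h).1
  · intro _ _
    exact Finset.mem_product.2 ⟨Finset.mem_univ _, Finset.mem_univ _⟩
  · rintro ⟨i, j⟩ _
    dsimp only
    rw [Fin.succAbove_succAbove_predAbove, Fin.predAbove_predAbove_succAbove]

/-- two linear maps agreeing on the basis elements of a set agree on the chains supported there -/
theorem lin_eq_zero {M : Type*} [AddCommGroup M] {B : Type*} (f : (B →₀ ℤ) →ₗ[ℤ] M) (s : Set B)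
    (h : ∀ x ∈ s, f (Finsupp.single x 1) = 0) (c : B →₀ ℤ) (hc : c ∈ Finsupp.supported ℤ ℤ s) :
    f c = 0 := by
  classical
  have hc' : ↑c.support ⊆ s := (Finsupp.mem_supported ℤ c).1 hc
  rw [← Finsupp.sum_single c, Finsupp.sum, map_sum]
  refine Finset.sum_eq_zero fun x hx => ?_
  have : (Finsupp.single x (c x) : B →₀ ℤ) = c x • Finsupp.single x 1 := by simp
  rw [this, map_smul, h x (hc' hx), smul_zero]

end chains

variable {V : Type} {W : Type*} [TopologicalSpace W] {ℓ : V → ℕ} {k : ℕ}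

/-- **The inductive step.** -/
theorem step_null [Nontrivial (Fin (k + 1))] (K K1 : Cx V) (hKK : K.s ⊆ K1.s)
    (hK1 : Lev K1 ℓ) (J : C((sk (k + 1 + 2) K1).R, W)) (w : W)
    (hJ : (J.comp (inc (sk_sub K1 (Nat.le_add_right (k + 1) 2)))).Homotopic
      (ContinuousMap.const _ w))
    (f : (Fin (k + 1) → V) → Chn V (k + 1))
    (hf : ∀ s : Fin (k + 2) → V, Os K ℓ s → ∃ b ∈ Finsupp.supported ℤ ℤ {t | Os K1 ℓ t},
      dd (k + 1) b = Finsupp.single s 1 -
        ∑ j : Fin (k + 2), ((-1 : ℤ) ^ (j : ℕ)) • f (s ∘ j.succAbove)) :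
    ∃ H : C((sk (k + 2) K).R, C(I, W)),
      (∀ (p : (sk (k + 2) K).R) (q : (sk (k + 1 + 2) K1).R), p.m = q.m → H p 0 = J q) ∧
      ∀ p, H p 1 = w := by
  classical
  obtain ⟨κ, hκ0, hκ⟩ := normalise K1 ℓ hK1 (k + 1) J w hJ
  let A := Additive (HomotopyGroup (Fin (k + 1)) W w)
  let Cc : Chn V (k + 1) →ₗ[ℤ] A :=
    Finsupp.linearCombination ℤ (fun v => (Additive.ofMul (oc ℓ κ hκ v) : A))
  have hCs : ∀ v, Cc (Finsupp.single v 1) = Additive.ofMul (oc ℓ κ hκ v) := fun v => by
    simp [Cc]
  have hC0 : ∀ b ∈ Finsupp.supported ℤ ℤ {t : Fin (k + 3) → V | Os K1 ℓ t},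
      Cc (dd (k + 1) b) = 0 := by
    intro b hb
    refine lin_eq_zero (Cc.comp (dd (k + 1))) _ (fun t ht => ?_) b hb
    rw [LinearMap.comp_apply, dd_single, map_ddt]
    simp only [hCs]
    have := oc_boundary κ hκ t ht
    have h2 := congrArg Additive.ofMul this
    rw [ofMul_prod, ofMul_one] at h2
    simpa only [ofMul_zpow] using h2
  let lam : (Fin (k + 1) → V) → HomotopyGroup (Fin (k + 1)) W w := fun r =>
    Additive.toMul (Cc (f r))
  obtain ⟨H, hH0, hH1⟩ := fill_prisms K K1 hKK hK1 κ hκ lam (by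
    intro s hs
    obtain ⟨b, hb, hbs⟩ := hf s hs
    have h1 := hC0 b hb
    rw [hbs, map_sub, sub_eq_zero, hCs, map_sum] at h1
    simp only [map_smul] at h1
    apply Additive.ofMul.injective
    rw [h1, ofMul_prod]
    simp only [ofMul_zpow]
    rfl)
  -- compose the homotopies
  have hsub : (sk (k + 2) K).s ⊆ (sk (k + 1 + 2) K1).s := fun s hs =>
    ⟨hKK hs.1, hs.2.trans (Nat.le_succ _)⟩
  have h2 : (J.comp (inc hsub)).Homotopic (ContinuousMap.const _ w) := by
    refine ContinuousMap.Homotopic.trans (g := κ.comp (inc hsub))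
      (ContinuousMap.Homotopic.comp hκ0 (ContinuousMap.Homotopic.refl _)) ?_
    rw [homotopic_iff]
    exact ⟨H, fun p => hH0 p _ rfl, hH1⟩
  obtain ⟨H', h3, h4⟩ := (homotopic_iff _ _).1 h2
  refine ⟨H', fun p q hpq => ?_, h4⟩
  rw [h3]
  show J _ = J _
  congr 1
  exact Cx.R.ext_m hpq

end Crest.Agent.R185.Hur
end

-- ▼ part R185/Base4
section

/-!
# Row 185, BASE, part 4: `JF` in degrees `≤ 2` and the null-homotopy of the 1-skeleton
-/

set_option autoImplicit false
set_option linter.unusedSectionVars false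

open Set Topology Metric
open Crest.Agent.R185.Att Crest.Agent.R185.Bld

namespace Crest.Agent.R185.Base

section cx

variable {V : Type} {K : Cx V} {W : Type*} [TopologicalSpace W] {φ : C(K.R, W)} {w : W}

include w in
/-- circles are filled -/
theorem Triv.fill2 (T : Triv φ w) (f : C(S 2, K.R)) : ∃ g : C(D 2, W), ∀ s, g (sd 2 s) = φ (f s) := by
  refine fill_circle (φ.comp f) ?_
  have h := T.loop (cpath.map f.continuous)
  rw [← Path.Homotopic.Quotient.mk_map, ← Path.Homotopic.Quotient.mk_refl,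
    Path.Homotopic.Quotient.eq] at h
  exact h

include w in
/-- pairs of points are joined -/
theorem Triv.joined (T : Triv φ w) (p : K.R) : Joined w (φ p) := by
  obtain ⟨v, hv⟩ := p.exists_pos
  obtain ⟨γ, -⟩ := Path.Homotopic.Quotient.mk_surjective (T.Qv v p hv)
  exact ⟨γ⟩

/-- two points of `S 1` are filled if joined -/
theorem fill_pair {W : Type*} [TopologicalSpace W] (f : C(S 1, W)) (h : ∀ s t, Joined (f s) (f t)) :
    ∃ g : C(D 1, W), ∀ s, g (sd 1 s) = f s := by
  have hm : ‖(fun _ => -1 : Fin 1 → ℝ)‖ = 1 := by simp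
  have hp : ‖(fun _ => 1 : Fin 1 → ℝ)‖ = 1 := by simp
  let a : S 1 := ⟨fun _ => -1, mem_sphere_zero_iff_norm.2 hm⟩
  let b : S 1 := ⟨fun _ => 1, mem_sphere_zero_iff_norm.2 hp⟩
  obtain ⟨γ⟩ := h a b
  refine ⟨⟨fun x => γ.extend ((x.1 0 + 1) / 2), ?_⟩, fun s => ?_⟩
  · refine γ.continuous_extend.comp ?_
    have : Continuous fun x : D 1 => (x : Fin 1 → ℝ) 0 := (continuous_apply 0).comp continuous_subtype_val
    exact (this.add continuous_const).div_const 2
  · have hs : ‖(s : Fin 1 → ℝ)‖ = 1 := s.norm_eq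
    have hs' : |(s : Fin 1 → ℝ) 0| = 1 := by
      have : (s : Fin 1 → ℝ) = fun _ => (s : Fin 1 → ℝ) 0 := by
        funext i; fin_cases i; rfl
      rw [this] at hs
      simpa using hs
    rcases (abs_eq zero_le_one).1 hs' with h1 | h1
    · have hsb : s = b := by
        apply Subtype.ext; funext i; fin_cases i; exact h1
      subst hsb
      show γ.extend ((1 + 1) / 2) = f b
      norm_num
    · have hsa : s = a := by
        apply Subtype.ext; funext i; fin_cases i; exact h1
      subst hsa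
      show γ.extend ((-1 + 1) / 2) = f a
      norm_num

end cx

section grp

variable {G : Type} [Group G]

/-- **BASE**: `JF` for `n ≤ 2` for a finitely presented group. -/
theorem jf_base (hG : Group.IsFinitelyPresented G) (F : Finset G) (L : ℕ) :
    ∃ (F' : Finset G) (L' : ℕ), F ⊆ F' ∧ L ≤ L' ∧
      (∀ n ≤ 2, ∀ k, ∀ f : C(S n, MJ F L k), ∃ g : C(D n, MJ F' L' L'),
        ∀ s, (g (sd n s)).m = (f s).m) ∧
      (∀ p q : MJ F' L' L', (∃ k, ∃ p' q' : MJ F L k, p'.m = p.m ∧ q'.m = q.m) → Joined p q) := by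
  obtain ⟨F', hF, hsub, w, hT⟩ := exists_triv G hG F L
  refine ⟨F', L + 3, hF, by omega, ?_, ?_⟩
  · intro n hn k f
    obtain ⟨T⟩ := hT k
    interval_cases n
    · have : IsEmpty (S 0) := by
        constructor
        rintro ⟨x, hx⟩
        rw [mem_sphere_zero_iff_norm] at hx
        have hx0 : x = 0 := Subsingleton.elim _ _
        rw [hx0, norm_zero] at hx
        exact zero_ne_one hx
      exact ⟨ContinuousMap.const _ w, fun s => isEmptyElim s⟩
    · obtain ⟨g, hg⟩ := fill_pair ((inc (hsub k)).comp f) (fun s t => (T.joined (f s)).symm.trans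
        (T.joined (f t)))
      exact ⟨g, fun s => by rw [hg s]; rfl⟩
    · obtain ⟨g, hg⟩ := T.fill2 f
      exact ⟨g, fun s => by rw [hg s]; rfl⟩
  · rintro p q ⟨k, p', q', hp, hq⟩
    obtain ⟨T⟩ := hT k
    have h1 : inc (hsub k) p' = p := Cx.R.ext_m hp
    have h2 : inc (hsub k) q' = q := Cx.R.ext_m hq
    rw [← h1, ← h2]
    exact (T.joined p').symm.trans (T.joined q')

end grp

local notation "I" => unitInterval

/-- Filling a box with prescribed side, bottom and top. -/
theorem box_fill' {W W' : Type*} [TopologicalSpace W] [TopologicalSpace W'] {n : ℕ} (j : C(W, W'))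
    (hW : ∀ v : C(S (n + 1), W), ∃ g : C(D (n + 1), W'), ∀ s, g (sd (n + 1) s) = j (v s))
    (u : C(S n × I, W)) (a b : C(D n, W)) (ha : ∀ s, u (s, 0) = a (sd n s))
    (hb : ∀ s, u (s, 1) = b (sd n s)) :
    ∃ e : C(D n × I, W'), (∀ s t, e (sd n s, t) = j (u (s, t))) ∧ (∀ x, e (x, 0) = j (a x)) ∧
      ∀ x, e (x, 1) = j (b x) := by
  classical
  let v : S (n + 1) → W := fun y =>
    if h : ‖(tl n (sd _ y) : Fin n → ℝ)‖ = 1 then
      u (⟨tl n (sd _ y), mem_sphere_zero_iff_norm.2 h⟩, tau n (sd _ y))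
    else if tau n (sd _ y) = 0 then a (tl n (sd _ y)) else b (tl n (sd _ y))
  let A : Fin 3 → Set (S (n + 1)) := ![{y | ‖(tl n (sd _ y) : Fin n → ℝ)‖ = 1},
    {y | tau n (sd _ y) = 0}, {y | tau n (sd _ y) = 1}]
  have hv0 : ∀ y ∈ A 0, ∀ s : S n, (s : Fin n → ℝ) = tl n (sd _ y) →
      v y = u (s, tau n (sd _ y)) := by
    intro y hy s hs
    have hy' : ‖(tl n (sd _ y) : Fin n → ℝ)‖ = 1 := hy
    simp only [v]
    rw [dif_pos hy']
    congr 2
    exact Subtype.ext hs.symm
  have hv1 : ∀ y ∈ A 1, v y = a (tl n (sd _ y)) := by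
    intro y hy
    have hy' : tau n (sd _ y) = 0 := hy
    simp only [v]
    split_ifs with h
    · rw [hy', ha]; rfl
    · rfl
  have hv2 : ∀ y ∈ A 2, v y = b (tl n (sd _ y)) := by
    intro y hy
    have hy' : tau n (sd _ y) = 1 := hy
    simp only [v]
    split_ifs with h h2
    · rw [hy', hb]; rfl
    · rw [hy'] at h2; exact absurd h2 one_ne_zero
    · rfl
  have hvc : Continuous v := by
    refine (locallyFinite_of_finite A).continuous ?_ ?_ ?_
    · rw [eq_univ_iff_forall]
      intro y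
      rw [mem_iUnion]
      rcases sphere_cases y with h | h | h
      · exact ⟨0, h⟩
      · exact ⟨1, h⟩
      · exact ⟨2, h⟩
    · have hc1 : Continuous fun y : S (n + 1) => ‖(tl n (sd _ y) : Fin n → ℝ)‖ :=
        (continuous_subtype_val.comp ((tl n).continuous.comp (sd (n + 1)).continuous)).norm
      have hc2 : Continuous fun y : S (n + 1) => tau n (sd _ y) :=
        (tau n).continuous.comp (sd (n + 1)).continuous
      intro i
      fin_cases i
      · exact isClosed_eq hc1 continuous_const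
      · exact isClosed_eq hc2 continuous_const
      · exact isClosed_eq hc2 continuous_const
    · intro i
      fin_cases i
      · rw [continuousOn_iff_continuous_domRestrict]
        let w : A 0 → S n × I := fun y =>
          (⟨tl n (sd _ y.1), mem_sphere_zero_iff_norm.2 y.2⟩, tau n (sd _ y.1))
        have hw : Continuous w := by
          refine Continuous.prodMk (Continuous.subtype_mk ?_ _) ?_
          · exact continuous_subtype_val.comp
              ((tl n).continuous.comp ((sd (n + 1)).continuous.comp continuous_subtype_val))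
          · exact (tau n).continuous.comp ((sd (n + 1)).continuous.comp continuous_subtype_val)
        have : (A 0).domRestrict v = u ∘ w := by
          funext y
          exact hv0 y.1 y.2 _ rfl
        show Continuous ((A 0).domRestrict v)
        rw [this]
        exact u.continuous.comp hw
      · have hc : Continuous fun y : S (n + 1) => a (tl n (sd _ y)) :=
          a.continuous.comp ((tl n).continuous.comp (sd (n + 1)).continuous)
        exact hc.continuousOn.congr fun y hy => hv1 y hy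
      · have hc : Continuous fun y : S (n + 1) => b (tl n (sd _ y)) :=
          b.continuous.comp ((tl n).continuous.comp (sd (n + 1)).continuous)
        exact hc.continuousOn.congr fun y hy => hv2 y hy
  obtain ⟨g, hg⟩ := hW ⟨v, hvc⟩
  have hgv : ∀ (p : D n × I) (h : ‖(p.1 : Fin n → ℝ)‖ = 1 ∨ p.2 = 0 ∨ p.2 = 1),
      g (box n p) = j (v ⟨box n p, mem_sphere_zero_iff_norm.2 (box_mem_sphere p h)⟩) := by
    intro p h
    exact hg ⟨box n p, mem_sphere_zero_iff_norm.2 (box_mem_sphere p h)⟩
  have hsd : ∀ (p : D n × I) (h : ‖(p.1 : Fin n → ℝ)‖ = 1 ∨ p.2 = 0 ∨ p.2 = 1),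
      sd (n + 1) ⟨box n p, mem_sphere_zero_iff_norm.2 (box_mem_sphere p h)⟩ = box n p :=
    fun p h => rfl
  refine ⟨g.comp (box n), ?_, ?_, ?_⟩
  · intro s t
    have h : ‖((sd n s, t) : D n × I).1.1‖ = 1 ∨ t = 0 ∨ t = 1 := Or.inl s.norm_eq
    show g (box n (sd n s, t)) = _
    rw [hgv (sd n s, t) h, hv0 _ ?_ s ?_]
    · rw [hsd (sd n s, t) h, tau_box]
    · show ‖(tl n (sd _ _) : Fin n → ℝ)‖ = 1
      rw [hsd (sd n s, t) h, tl_box]; exact s.norm_eq
    · rw [hsd (sd n s, t) h, tl_box]; rfl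
  · intro x
    have h : ‖(x : Fin n → ℝ)‖ = 1 ∨ (0 : I) = 0 ∨ (0 : I) = 1 := Or.inr (Or.inl rfl)
    show g (box n (x, 0)) = _
    rw [hgv (x, 0) h, hv1 _ ?_, hsd (x, 0) h, tl_box]
    show tau n (sd _ _) = 0
    rw [hsd (x, 0) h, tau_box]
  · intro x
    have h : ‖(x : Fin n → ℝ)‖ = 1 ∨ (1 : I) = 0 ∨ (1 : I) = 1 := Or.inr (Or.inr rfl)
    show g (box n (x, 1)) = _
    rw [hgv (x, 1) h, hv2 _ ?_, hsd (x, 1) h, tl_box]
    show tau n (sd _ _) = 1
    rw [hsd (x, 1) h, tau_box]


end Crest.Agent.R185.Base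
end

-- ▼ part R185/Base5
section

/-!
# Row 185, BASE, part 5: `TN₁`: the 1-skeleton of the Milnor model of a finitely presented group is
null-homotopic in the model at a larger scale.
-/

set_option autoImplicit false
set_option linter.unusedSectionVars false

open Set Topology Metric
open Crest.Agent.R185.Att Crest.Agent.R185.Bld

namespace Crest.Agent.R185.Base

local notation "I" => unitInterval

section cx

variable {V : Type} {K : Cx V}

theorem eq_vert {p : K.R} {v : V} (hv : {v} ∈ K.s) (h : p.m.support ⊆ {v}) : p = Cx.vert v hv := by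
  classical
  have h1 := p.sum_eq h
  rw [Finset.sum_singleton] at h1
  apply Cx.R.ext
  intro x
  show p x = (Finsupp.single v (1 : ℝ)) x
  by_cases hx : x = v
  · subst hx; simp [h1]
  · rw [Finsupp.single_eq_of_ne hx]
    by_contra h2
    exact hx (Finset.mem_singleton.1 (h (Cx.R.mem_support.2 h2)))

/-- the coordinate `2 p(b) - 1` -/
noncomputable def psi (b : V) (p : K.R) : D 1 := ⟨fun _ => 2 * p b - 1, by
  rw [mem_closedBall_zero_iff, pi_norm_le_iff_of_nonneg zero_le_one]
  intro i
  rw [Real.norm_eq_abs, abs_le]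
  constructor <;> linarith [p.nn b, p.le_one b]⟩

theorem continuous_psi (b : V) : Continuous (psi b : K.R → D 1) := by
  apply Continuous.subtype_mk
  refine continuous_pi fun _ => ?_
  exact (continuous_const.mul (Cx.continuous_eval b)).sub continuous_const

theorem tau_psi (b : V) (p : K.R) : ((tau 0 (psi b p) : I) : ℝ) = p b := by
  show (2 * p b - 1 + 1) / 2 = p b
  ring

theorem mix_psi {a b : V} (hab : a ≠ b) (ha : {a} ∈ K.s) (hb : {b} ∈ K.s) {p : K.R}
    (hp : ∀ x ∈ p.m.support, x = a ∨ x = b)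
    (h : ∀ t : I, ((1 - (t : ℝ)) • (Cx.vert a ha : K.R).m + (t : ℝ) • (Cx.vert b hb : K.R).m).support ∈ K.s) :
    segm (Cx.vert a ha) (Cx.vert b hb) h (tau 0 (psi b p)) = p := by
  classical
  have hs : p.m.support ⊆ {a, b} := fun x hx => by
    rw [Finset.mem_insert, Finset.mem_singleton]; exact hp x hx
  have h1 := p.sum_eq hs
  rw [Finset.sum_pair hab] at h1
  apply Cx.R.ext
  intro x
  show Cx.mix (tau 0 (psi b p)) (Cx.vert a ha) (Cx.vert b hb) _ x = p x
  rw [Cx.mix_apply, tau_psi]
  show (1 - p b) * (Finsupp.single a (1 : ℝ)) x + p b * (Finsupp.single b (1 : ℝ)) x = p x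
  by_cases hxa : x = a
  · subst hxa
    rw [Finsupp.single_eq_same, Finsupp.single_eq_of_ne hab]
    linarith
  · by_cases hxb : x = b
    · subst hxb
      rw [Finsupp.single_eq_same, Finsupp.single_eq_of_ne (Ne.symm hab)]
      linarith
    · rw [Finsupp.single_eq_of_ne hxa, Finsupp.single_eq_of_ne hxb]
      have : p x = 0 := by
        by_contra h2
        rcases hp x (Cx.R.mem_support.2 h2) with h3 | h3
        · exact hxa h3
        · exact hxb h3
      rw [this]; ring

/-- maps out of `K.R × I` are glued along the closed faces -/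
theorem continuous_of_face_prod {X W : Type*} [TopologicalSpace X] [TopologicalSpace W]
    {f : K.R × X → W} (h : ∀ σ ∈ K.s, ContinuousOn f (K.face σ ×ˢ univ)) : Continuous f := by
  have h1 : LocallyFinite fun σ : K.s => (Prod.fst : K.R × X → K.R) ⁻¹' K.face σ.1 :=
    Cx.locallyFinite_face.preimage_continuous continuous_fst
  refine h1.continuous ?_ (fun σ => (Cx.isClosed_face σ.1).preimage continuous_fst) fun σ => ?_
  · rw [← preimage_iUnion, Cx.iUnion_face, preimage_univ]
  · have : (Prod.fst : K.R × X → K.R) ⁻¹' K.face σ.1 = K.face σ.1 ×ˢ univ := by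
      ext p; simp
    rw [this]
    exact h σ.1 σ.2

end cx

section grp

variable {G : Type} [Group G]

/-- the inclusion of the 1-skeleton is null-homotopic at a larger scale -/
theorem tn1 (hG : Group.IsFinitelyPresented G) (F : Finset G) (L : ℕ) :
    ∃ (F' : Finset G) (L' : ℕ), F ⊆ F' ∧ L ≤ L' ∧ ∃ (w : MJ F' L' L') (H : C(MJ F L 2 × I, MJ F' L' L')),
      (∀ p, (H (p, 0)).m = p.m) ∧ ∀ p, H (p, 1) = w := by
  classical
  obtain ⟨F₁, hF₁, hsub₁, w₁, hT₁⟩ := exists_triv G hG F L
  obtain ⟨F₂, L₂, hF₂, hL₂, hJ₂, -⟩ := jf_base hG F₁ (L + 3)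
  obtain ⟨T⟩ := hT₁ 2
  have hL12 : L + 3 ≤ L₂ := hL₂
  have hsub₂ : (mil F₁ (L + 3) (L + 3)).s ⊆ (mil F₂ L₂ L₂).s := mil_mono hF₂ hL12 hL12
  let j₁ := inc (hsub₁ 2)
  let j₂ := inc hsub₂
  have hfill : ∀ v : C(S 2, MJ F₁ (L + 3) (L + 3)), ∃ g : C(D 2, MJ F₂ L₂ L₂), ∀ s,
      g (sd 2 s) = j₂ (v s) := by
    intro v
    obtain ⟨g, hg⟩ := hJ₂ 2 le_rfl (L + 3) v
    exact ⟨g, fun s => Cx.R.ext_m (hg s)⟩
  -- paths
  have hπ : ∀ p : MJ F L 2, Nonempty (Path (j₁ p) w₁) := fun p => (T.joined p).symm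
  let π : ∀ v (hv : {v} ∈ (mil F L 2).s), Path (j₁ (Cx.vert v hv)) w₁ := fun v hv => (hπ _).some
  let K := mil F L 2
  have key : ∀ σ ∈ K.s, σ.Nonempty → ∃ f : K.R × I → MJ F₂ L₂ L₂,
      ContinuousOn f (K.face σ ×ˢ univ) ∧ (∀ p ∈ K.face σ, f (p, 0) = j₂ (j₁ p)) ∧
      (∀ p ∈ K.face σ, f (p, 1) = j₂ w₁) ∧
      (∀ v (hv : {v} ∈ K.s), v ∈ σ → ∀ t, f (Cx.vert v hv, t) = j₂ (π v hv t)) := by
    intro σ hσ hne
    have hc : σ.card ≤ 2 := hσ.2.2
    have hc0 : 0 < σ.card := Finset.card_pos.2 hne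
    rcases (by omega : σ.card = 1 ∨ σ.card = 2) with hc1 | hc2
    · obtain ⟨v, rfl⟩ := Finset.card_eq_one.1 hc1
      have hp : ∀ p ∈ K.face {v}, p = Cx.vert v hσ := fun p hp => eq_vert hσ hp
      refine ⟨fun q => j₂ (π v hσ q.2), ?_, ?_, ?_, ?_⟩
      · exact (by fun_prop : Continuous fun q : K.R × I => j₂ (π v hσ q.2)).continuousOn
      · intro p hp'
        rw [hp p hp']
        show j₂ (π v hσ 0) = _
        rw [(π v hσ).source]
      · intro p hp'
        show j₂ (π v hσ 1) = _
        rw [(π v hσ).target]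
      · intro v' hv' hmem t
        rw [Finset.mem_singleton] at hmem
        subst hmem
        rfl
    · obtain ⟨a, b, hab, rfl⟩ := Finset.card_eq_two.1 hc2
      have hsa : {a} ∈ K.s := K.down hσ (by simp) (by simp)
      have hsb : {b} ∈ K.s := K.down hσ (by simp) (by simp)
      have hseg := face_join (K := K) (p := Cx.vert a hsa) (q := Cx.vert b hsb) hσ
        (vert_mem_face _ (by simp)) (vert_mem_face _ (by simp))
      let bot : C(D 1, MJ F₁ (L + 3) (L + 3)) := ⟨fun x => j₁ (segm _ _ hseg (tau 0 x)), by fun_prop⟩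
      let u : C(S 1 × I, MJ F₁ (L + 3) (L + 3)) :=
        ⟨fun q => if (q.1 : Fin 1 → ℝ) 0 < 0 then π a hsa q.2 else π b hsb q.2, by
          have hS : ∀ s : S 1, |(s : Fin 1 → ℝ) 0| = 1 := by
            intro s
            have hs : ‖(s : Fin 1 → ℝ)‖ = 1 := s.norm_eq
            have : (s : Fin 1 → ℝ) = fun _ => (s : Fin 1 → ℝ) 0 := by
              funext i; fin_cases i; rfl
            rw [this] at hs
            simpa using hs
          have hc : Continuous fun q : S 1 × I => (q.1 : Fin 1 → ℝ) 0 :=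
            (continuous_apply 0).comp (continuous_subtype_val.comp continuous_fst)
          refine Continuous.if ?_ (by fun_prop) (by fun_prop)
          intro q hq
          exfalso
          have hcl : IsClopen {q : S 1 × I | (q.1 : Fin 1 → ℝ) 0 < 0} := by
            refine ⟨?_, isOpen_lt hc continuous_const⟩
            have : {q : S 1 × I | (q.1 : Fin 1 → ℝ) 0 < 0} =
                {q : S 1 × I | (q.1 : Fin 1 → ℝ) 0 ≤ -1} := by
              ext q
              simp only [mem_ofPred_eq]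
              constructor
              · intro h
                rcases (abs_eq zero_le_one).1 (hS q.1) with h1 | h1 <;> linarith
              · intro h; linarith
            rw [this]
            exact isClosed_le hc continuous_const
          rw [hcl.frontier_eq] at hq
          exact hq⟩
      obtain ⟨e, he1, he2, he3⟩ := box_fill' j₂ hfill u bot (ContinuousMap.const _ w₁) (by
        intro s
        have hs : |(s : Fin 1 → ℝ) 0| = 1 := by
          have hs : ‖(s : Fin 1 → ℝ)‖ = 1 := s.norm_eq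
          have : (s : Fin 1 → ℝ) = fun _ => (s : Fin 1 → ℝ) 0 := by
            funext i; fin_cases i; rfl
          rw [this] at hs
          simpa using hs
        show (if (s : Fin 1 → ℝ) 0 < 0 then π a hsa 0 else π b hsb 0) =
          j₁ (segm _ _ hseg (tau 0 (sd 1 s)))
        rcases (abs_eq zero_le_one).1 hs with h1 | h1
        · have ht : tau 0 (sd 1 s) = 1 := by
            apply Subtype.ext
            show ((s : Fin 1 → ℝ) 0 + 1) / 2 = 1
            rw [h1]; norm_num
          rw [if_neg (by rw [h1]; norm_num), ht, (π b hsb).source, (segm _ _ hseg).target]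
        · have ht : tau 0 (sd 1 s) = 0 := by
            apply Subtype.ext
            show ((s : Fin 1 → ℝ) 0 + 1) / 2 = 0
            rw [h1]; norm_num
          rw [if_pos (by rw [h1]; norm_num), ht, (π a hsa).source, (segm _ _ hseg).source]) (by
        intro s
        show (if (s : Fin 1 → ℝ) 0 < 0 then π a hsa 1 else π b hsb 1) = w₁
        split_ifs
        · exact (π a hsa).target
        · exact (π b hsb).target)
      have hface : ∀ p ∈ K.face {a, b}, ∀ x ∈ p.m.support, x = a ∨ x = b := by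
        intro p hp x hx
        have := hp hx
        rwa [Finset.mem_insert, Finset.mem_singleton] at this
      refine ⟨fun q => e (psi b q.1, q.2), ?_, ?_, ?_, ?_⟩
      · exact (e.continuous.comp (((continuous_psi b).comp continuous_fst).prodMk
          continuous_snd)).continuousOn
      · intro p hp
        show e (psi b p, 0) = _
        rw [he2]
        show j₂ (j₁ (segm _ _ hseg (tau 0 (psi b p)))) = _
        rw [mix_psi hab hsa hsb (hface p hp) hseg]
      · intro p hp
        show e (psi b p, 1) = _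
        rw [he3]
        rfl
      · intro v hv hmem t
        rw [Finset.mem_insert, Finset.mem_singleton] at hmem
        have hm : ‖(fun _ => -1 : Fin 1 → ℝ)‖ = 1 := by simp
        have hp : ‖(fun _ => 1 : Fin 1 → ℝ)‖ = 1 := by simp
        rcases hmem with rfl | rfl
        · have h1 : psi b (Cx.vert v hv : K.R) = sd 1 ⟨fun _ => -1, mem_sphere_zero_iff_norm.2 hm⟩ := by
            apply Subtype.ext
            funext i
            show 2 * (Finsupp.single v (1 : ℝ)) b - 1 = -1
            rw [Finsupp.single_eq_of_ne (Ne.symm hab)]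
            ring
          show e (psi b _, t) = _
          rw [h1, he1]
          show j₂ (if (-1 : ℝ) < 0 then π v hsa t else π b hsb t) = _
          rw [if_pos (by norm_num)]
        · have h1 : psi v (Cx.vert v hv : K.R) = sd 1 ⟨fun _ => 1, mem_sphere_zero_iff_norm.2 hp⟩ := by
            apply Subtype.ext
            funext i
            show 2 * (Finsupp.single v (1 : ℝ)) v - 1 = 1
            rw [Finsupp.single_eq_same]
            ring
          show e (psi v _, t) = _
          rw [h1, he1]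
          show j₂ (if (1 : ℝ) < 0 then π a hsa t else π v hsb t) = _
          rw [if_neg (by norm_num)]
  have : Nonempty (MJ F₂ L₂ L₂) := ⟨j₂ w₁⟩
  choose! f hf1 hf2 hf3 hf4 using key
  let H : K.R × I → MJ F₂ L₂ L₂ := fun q => f q.1.m.support q
  have hH : ∀ σ ∈ K.s, σ.Nonempty → ∀ q ∈ K.face σ ×ˢ (univ : Set I), H q = f σ q := by
    rintro σ hσ hne ⟨p, t⟩ ⟨hp, -⟩
    have hp' : p.m.support ⊆ σ := hp
    by_cases h : p.m.support = σ
    · show f p.m.support (p, t) = _
      rw [h]
    · have hss : p.m.support ⊂ σ := Finset.ssubset_iff_subset_ne.2 ⟨hp', h⟩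
      have h1 : p.m.support.card < σ.card := Finset.card_lt_card hss
      have h2 : 0 < p.m.support.card := Finset.card_pos.2 p.nonempty
      have h3 : σ.card ≤ 2 := hσ.2.2
      obtain ⟨v, hv⟩ := Finset.card_eq_one.1 (by omega : p.m.support.card = 1)
      have hvs : {v} ∈ K.s := hv ▸ p.mem
      have hpv : p = Cx.vert v hvs := eq_vert hvs (by rw [hv])
      have hvσ : v ∈ σ := hp' (by rw [hv]; exact Finset.mem_singleton_self v)
      show f p.m.support (p, t) = _
      rw [hv, hpv, hf4 {v} hvs (Finset.singleton_nonempty v) v hvs (Finset.mem_singleton_self v),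
        hf4 σ hσ hne v hvs hvσ]
  have hHc : Continuous H := by
    refine continuous_of_face_prod fun σ hσ => ?_
    rcases σ.eq_empty_or_nonempty with rfl | hne
    · have : K.face ∅ ×ˢ (univ : Set I) = ∅ := by
        ext ⟨p, t⟩
        simp only [mem_prod, mem_univ, and_true, mem_empty_iff_false, iff_false]
        intro hp
        have hp' : p.m.support ⊆ ∅ := hp
        obtain ⟨v, hv⟩ := p.nonempty
        exact Finset.notMem_empty v (hp' hv)
      rw [this]
      exact continuousOn_empty _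
    · exact (hf1 σ hσ hne).congr (hH σ hσ hne)
  refine ⟨F₂, L₂, hF₁.trans hF₂, by omega, j₂ w₁, ⟨H, hHc⟩, fun p => ?_, fun p => ?_⟩
  · show (f p.m.support (p, 0)).m = p.m
    rw [hf2 _ p.mem p.nonempty p Subset.rfl]
    rfl
  · show f p.m.support (p, 1) = _
    rw [hf3 _ p.mem p.nonempty p Subset.rfl]

end grp

end Crest.Agent.R185.Base
end

-- ▼ part R185/Bld2
section

/-!
# Row 185, BUILDER, part 2: the action on the model, extension over simplices
-/

set_option autoImplicit false
set_option linter.unusedSectionVars false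

open Set Metric Topology
open Crest.Agent.R185.Att

namespace Crest.Agent.R185.Bld

noncomputable section

section action

variable {G : Type} [Group G]

/-- translate of a finite set of vertices -/
def tr (g : G) : (G × ℕ) ≃ (G × ℕ) where
  toFun a := (g * a.1, a.2)
  invFun a := (g⁻¹ * a.1, a.2)
  left_inv a := by simp
  right_inv a := by simp

@[simp] theorem tr_apply (g : G) (a : G × ℕ) : tr g a = (g * a.1, a.2) := rfl
@[simp] theorem tr_symm_apply (g : G) (a : G × ℕ) : (tr g).symm a = (g⁻¹ * a.1, a.2) := rfl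

theorem tr_mem {F : Finset G} {L k : ℕ} (g : G) {σ : Finset (G × ℕ)} (h : σ ∈ (mil F L k).s) :
    σ.map (tr g).toEmbedding ∈ (mil F L k).s := by
  refine ⟨?_, ?_, ?_⟩
  · intro a ha b hb
    obtain ⟨a', ha', rfl⟩ := Finset.mem_map.1 ha
    obtain ⟨b', hb', rfl⟩ := Finset.mem_map.1 hb
    obtain ⟨h1, h2⟩ := h.1 a' ha' b' hb'
    simp only [Equiv.toEmbedding_apply, tr_apply]
    refine ⟨?_, fun h3 => ?_⟩
    · rw [mul_inv_rev, mul_assoc, inv_mul_cancel_left]; exact h1
    · rw [h2 h3]
  · intro a ha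
    obtain ⟨a', ha', rfl⟩ := Finset.mem_map.1 ha
    exact h.2.1 a' ha'
  · rw [Finset.card_map]; exact h.2.2

variable {F : Finset G} {L k : ℕ}

/-- translate of a measure -/
def mv (g : G) (p : MJ F L k) : MJ F L k where
  m := p.m.embDomain (tr g).toEmbedding
  nn v := by
    by_cases hv : v ∈ range (tr g)
    · obtain ⟨w, rfl⟩ := hv
      rw [← Equiv.coe_toEmbedding, Finsupp.embDomain_apply_self]; exact p.nn w
    · rw [Finsupp.embDomain_of_notMem_range _ _ _ hv]
  tot := by
    rw [Finsupp.sum_embDomain]; exact p.tot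
  mem := by
    rw [Finsupp.support_embDomain]; exact tr_mem g p.mem

theorem mv_apply (g : G) (p : MJ F L k) (v : G × ℕ) : mv g p v = p (g⁻¹ * v.1, v.2) := by
  have h : v = (tr g).toEmbedding (g⁻¹ * v.1, v.2) := by simp
  show p.m.embDomain (tr g).toEmbedding v = _
  conv_lhs => rw [h]
  exact Finsupp.embDomain_apply_self _ _ _

theorem mv_support (g : G) (p : MJ F L k) :
    (mv g p).m.support = p.m.support.map (tr g).toEmbedding := Finsupp.support_embDomain _ _

instance : MulAction G (MJ F L k) where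
  smul := mv
  one_smul p := Cx.R.ext fun v => by
    show mv 1 p v = _
    rw [mv_apply]; simp
  mul_smul g h p := Cx.R.ext fun v => by
    show mv (g * h) p v = mv g (mv h p) v
    rw [mv_apply, mv_apply, mv_apply, mul_inv_rev, mul_assoc]

theorem smul_apply (g : G) (p : MJ F L k) (v : G × ℕ) : (g • p) v = p (g⁻¹ * v.1, v.2) := mv_apply g p v

theorem smul_support (g : G) (p : MJ F L k) :
    (g • p).m.support = p.m.support.map (tr g).toEmbedding := mv_support g p

instance : ContinuousConstSMul G (MJ F L k) where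
  continuous_const_smul g := by
    rw [Cx.continuous_iff_eval]
    intro v
    simp only [smul_apply]
    exact Cx.continuous_eval _

/-- inclusion of models -/
def mi {F' : Finset G} {L' k' : ℕ} (hF : F ⊆ F') (hL : L ≤ L') (hk : k ≤ k') :
    C(MJ F L k, MJ F' L' k') :=
  ⟨Cx.R.incl (mil_mono hF hL hk), Cx.continuous_incl _⟩

@[simp] theorem mi_m {F' : Finset G} {L' k' : ℕ} (hF : F ⊆ F') (hL : L ≤ L') (hk : k ≤ k')
    (p : MJ F L k) : (mi hF hL hk p).m = p.m := rfl

theorem mi_apply {F' : Finset G} {L' k' : ℕ} (hF : F ⊆ F') (hL : L ≤ L') (hk : k ≤ k')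
    (p : MJ F L k) (v : G × ℕ) : mi hF hL hk p v = p v := rfl

theorem mi_smul {F' : Finset G} {L' k' : ℕ} (hF : F ⊆ F') (hL : L ≤ L') (hk : k ≤ k')
    (g : G) (p : MJ F L k) : mi hF hL hk (g • p) = g • mi hF hL hk p :=
  Cx.R.ext fun v => by
    rw [mi_apply, smul_apply, smul_apply, mi_apply]


/-! ### the base element of a simplex -/

/-- group element of the vertex of lowest level -/
def bs (σ : Finset (G × ℕ)) : G := by
  classical
  exact if h : σ.Nonempty then (Classical.choose (σ.exists_min_image (fun a => a.2) h)).1 else 1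

theorem bs_spec {σ : Finset (G × ℕ)} (h : σ.Nonempty) :
    ∃ l, (bs σ, l) ∈ σ ∧ ∀ a ∈ σ, l ≤ a.2 := by
  classical
  have h1 := Classical.choose_spec (σ.exists_min_image (fun a => a.2) h)
  refine ⟨(Classical.choose (σ.exists_min_image (fun a => a.2) h)).2, ?_, h1.2⟩
  unfold bs
  rw [dif_pos h]
  exact h1.1

theorem bs_unique {σ : Finset (G × ℕ)} (hσ : σ ∈ (mil F L k).s) {g : G} {l : ℕ} (h : (g, l) ∈ σ)
    (hl : ∀ a ∈ σ, l ≤ a.2) : bs σ = g := by
  obtain ⟨l', h1, h2⟩ := bs_spec ⟨_, h⟩
  have h3 : l = l' := le_antisymm (hl _ h1) (h2 _ h)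
  subst h3
  exact congrArg Prod.fst ((hσ.1 _ h1 _ h).2 rfl)

theorem bs_map {σ : Finset (G × ℕ)} (hσ : σ ∈ (mil F L k).s) (hne : σ.Nonempty) (g : G) :
    bs (σ.map (tr g).toEmbedding) = g * bs σ := by
  obtain ⟨l, h1, h2⟩ := bs_spec hne
  refine bs_unique (tr_mem g hσ) (l := l) (Finset.mem_map.2 ⟨_, h1, rfl⟩) ?_
  intro a ha
  obtain ⟨a', ha', rfl⟩ := Finset.mem_map.1 ha
  exact h2 a' ha'

/-- the simplices of maximal size with base `1` -/
def top1 (F : Finset G) (L k : ℕ) : Set (Finset (G × ℕ)) :=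
  {σ | σ ∈ (mil F L (k + 1)).s ∧ σ.card = k + 1 ∧ bs σ = 1}

theorem finite_top1 (F : Finset G) (L k : ℕ) : (top1 F L k).Finite := by
  classical
  refine ((F ×ˢ Finset.range L).powerset.finite_toSet).subset ?_
  rintro σ ⟨h1, h2, h3⟩
  simp only [SetLike.mem_coe, Finset.mem_powerset]
  have hne : σ.Nonempty := Finset.card_pos.1 (by omega)
  obtain ⟨l, h4, h5⟩ := bs_spec hne
  intro a ha
  rw [Finset.mem_product]
  refine ⟨?_, Finset.mem_range.2 (h1.2.1 a ha)⟩
  have := (h1.1 _ h4 _ ha).1
  rw [h3] at this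
  simpa using this

instance (F : Finset G) (L k : ℕ) : Finite (top1 F L k) := (finite_top1 F L k).to_subtype

end action

/-! ### extension over the simplices of the next dimension -/

section extend

variable {G : Type} [Group G] {F : Finset G} {L k : ℕ}

/-- chosen boundary sphere of a simplex with `k+1` vertices -/
theorem exists_data (σ : Finset (G × ℕ)) (hσ : σ ∈ (mil F L (k + 1)).s) (hc : σ.card = k + 1) :
    ∃ (θ : C(S k, MJ F L k)) (ψ : MJ F L (k + 1) → D k), (∀ s, (θ s).m.support ⊂ σ) ∧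
      ContinuousOn ψ ((mil F L (k + 1)).face σ) ∧
      ∀ p : MJ F L (k + 1), p.m.support ⊂ σ → ∃ s, ψ p = sd k s ∧ (θ s).m = p.m := by
  refine exists_simplexData hc (mil F L (k + 1)) (mil F L k) ?_
  intro τ hτ hne
  have h1 := (mil F L (k + 1)).down hσ hτ.1 hne
  refine ⟨h1.1, h1.2.1, ?_⟩
  have := Finset.card_lt_card hτ
  omega

/-- the boundary sphere -/
def th (σ : Finset (G × ℕ)) (hσ : σ ∈ (mil F L (k + 1)).s) (hc : σ.card = k + 1) :
    C(S k, MJ F L k) := Classical.choose (exists_data σ hσ hc)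

/-- the coordinates -/
def ps (σ : Finset (G × ℕ)) (hσ : σ ∈ (mil F L (k + 1)).s) (hc : σ.card = k + 1) :
    MJ F L (k + 1) → D k := Classical.choose (Classical.choose_spec (exists_data σ hσ hc))

theorem th_ps_spec (σ : Finset (G × ℕ)) (hσ : σ ∈ (mil F L (k + 1)).s) (hc : σ.card = k + 1) :
    (∀ s, (th σ hσ hc s).m.support ⊂ σ) ∧
      ContinuousOn (ps σ hσ hc) ((mil F L (k + 1)).face σ) ∧
      ∀ p : MJ F L (k + 1), p.m.support ⊂ σ → ∃ s, ps σ hσ hc p = sd k s ∧
        (th σ hσ hc s).m = p.m :=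
  Classical.choose_spec (Classical.choose_spec (exists_data σ hσ hc))

/-- **Extension over the next simplices.**  `r` is an equivariant map on the part of the model with at
most `k` vertices per simplex, `j` an equivariant map of `G`-spaces, and the spheres `r ∘ th σ` of the
simplices with base `1` are filled after `j`; then `j ∘ r` extends equivariantly. -/
theorem extend_r {X X' : Type} [TopologicalSpace X] [MulAction G X]
    [TopologicalSpace X'] [MulAction G X'] [ContinuousConstSMul G X']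
    (r : C(MJ F L k, X)) (hr : ∀ (g : G) p, r (g • p) = g • r p)
    (j : C(X, X')) (hj : ∀ (g : G) x, j (g • x) = g • j x)
    (e : ∀ σ : top1 F L k, C(D k, X'))
    (he : ∀ (σ : top1 F L k) s, e σ (sd k s) = j (r (th σ.1 σ.2.1 σ.2.2.1 s))) :
    ∃ r' : C(MJ F L (k + 1), X'), (∀ (g : G) p, r' (g • p) = g • r' p) ∧
      ∀ p, r' (mi (Finset.Subset.refl F) le_rfl (Nat.le_succ k) p) = j (r p) := by
  classical
  -- small points
  have hsmall : ∀ p : MJ F L (k + 1), p.m.support.card ≤ k → p.m.support ∈ (mil F L k).s :=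
    fun p hp => ⟨p.mem.1, p.mem.2.1, hp⟩
  let down : ∀ p : MJ F L (k + 1), p.m.support.card ≤ k → MJ F L k := fun p hp =>
    ⟨p.m, p.nn, p.tot, hsmall p hp⟩
  have hcard : ∀ p : MJ F L (k + 1), ¬ p.m.support.card ≤ k → p.m.support.card = k + 1 :=
    fun p hp => le_antisymm p.mem.2.2 (by omega)
  -- normalised simplex of a big point
  have hnorm : ∀ σ : Finset (G × ℕ), σ ∈ (mil F L (k + 1)).s → σ.card = k + 1 →
      σ.map (tr (bs σ)⁻¹).toEmbedding ∈ top1 F L k := by
    intro σ h1 h2
    refine ⟨tr_mem _ h1, by rw [Finset.card_map, h2], ?_⟩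
    rw [bs_map h1 (Finset.card_pos.1 (by omega)), inv_mul_cancel]
  -- the value on a closed simplex
  let val : ∀ σ : Finset (G × ℕ), σ ∈ (mil F L (k + 1)).s → σ.card = k + 1 →
      MJ F L (k + 1) → X' := fun σ h1 h2 p =>
    bs σ • e ⟨_, hnorm σ h1 h2⟩ (ps _ (hnorm σ h1 h2).1 (hnorm σ h1 h2).2.1 ((bs σ)⁻¹ • p))
  let r' : MJ F L (k + 1) → X' := fun p =>
    if h : p.m.support.card ≤ k then j (r (down p h)) else val p.m.support p.mem (hcard p h) p
  have hr1 : ∀ (p : MJ F L (k + 1)) (h : p.m.support.card ≤ k), r' p = j (r (down p h)) :=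
    fun p h => dif_pos h
  have hr2 : ∀ (p : MJ F L (k + 1)) (h : ¬ p.m.support.card ≤ k),
      r' p = val p.m.support p.mem (hcard p h) p := fun p h => dif_neg h
  -- on the boundary of a closed simplex
  have hval : ∀ (σ : Finset (G × ℕ)) (h1 : σ ∈ (mil F L (k + 1)).s) (h2 : σ.card = k + 1)
      (p : MJ F L (k + 1)), p.m.support ⊆ σ → val σ h1 h2 p = r' p := by
    intro σ h1 h2 p hp
    by_cases hpc : p.m.support.card ≤ k
    · rw [hr1 p hpc]
      have h3 : ((bs σ)⁻¹ • p).m.support ⊂ σ.map (tr (bs σ)⁻¹).toEmbedding := by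
        rw [smul_support]
        refine Finset.map_ssubset_map.2 (Finset.ssubset_iff_subset_ne.2 ⟨hp, fun h => ?_⟩)
        rw [h] at hpc; omega
      obtain ⟨s, hs1, hs2⟩ := (th_ps_spec _ (hnorm σ h1 h2).1 (hnorm σ h1 h2).2.1).2.2 _ h3
      simp only [val]
      rw [hs1, he, ← hj, ← hr]
      congr 2
      apply Cx.R.ext
      intro v
      rw [smul_apply]
      have h4 : ∀ w, th _ (hnorm σ h1 h2).1 (hnorm σ h1 h2).2.1 s w = ((bs σ)⁻¹ • p) w :=
        fun w => DFunLike.congr_fun hs2 w
      rw [h4, smul_apply]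
      show p ((bs σ)⁻¹⁻¹ * ((bs σ)⁻¹ * v.1), v.2) = p v
      rw [inv_inv, mul_inv_cancel_left]
    · have h3 : p.m.support = σ := by
        refine Finset.eq_of_subset_of_card_le hp ?_
        rw [h2, hcard p hpc]
      subst h3
      exact (hr2 p hpc).symm
  have hcont : Continuous r' := by
    refine Cx.continuous_of_face fun σ hσ => ?_
    by_cases hc : σ.card ≤ k
    · -- small face
      have h1 : ∀ p ∈ (mil F L (k + 1)).face σ, p.m.support.card ≤ k := fun p hp =>
        (Finset.card_le_card hp).trans hc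
      rw [continuousOn_iff_continuous_domRestrict]
      have h2 : ((mil F L (k + 1)).face σ).domRestrict r' =
          fun p : (mil F L (k + 1)).face σ => j (r (down p.1 (h1 p.1 p.2))) := by
        funext p
        exact hr1 p.1 (h1 p.1 p.2)
      rw [h2]
      refine j.continuous.comp (r.continuous.comp ?_)
      rw [Cx.continuous_iff_eval]
      intro v
      show Continuous fun x : (mil F L (k + 1)).face σ => x.1 v
      exact (Cx.continuous_eval v).comp continuous_subtype_val
    · have hc' : σ.card = k + 1 := le_antisymm hσ.2.2 (by omega)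
      have h3 : ContinuousOn (val σ hσ hc') ((mil F L (k + 1)).face σ) := by
        refine ContinuousOn.const_smul ?_ _
        refine (e _).continuous.comp_continuousOn ?_
        refine (th_ps_spec _ (hnorm σ hσ hc').1 (hnorm σ hσ hc').2.1).2.1.comp
          (continuous_const_smul _).continuousOn ?_
        intro p hp
        show ((bs σ)⁻¹ • p).m.support ⊆ _
        rw [smul_support]
        exact Finset.map_subset_map.2 hp
      exact h3.congr fun p hp => (hval σ hσ hc' p hp).symm
  refine ⟨⟨r', hcont⟩, ?_, ?_⟩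
  · intro g p
    show r' (g • p) = g • r' p
    by_cases hpc : p.m.support.card ≤ k
    · have h1 : (g • p).m.support.card ≤ k := by rw [smul_support, Finset.card_map]; exact hpc
      rw [hr1 p hpc, hr1 _ h1, ← hj, ← hr]
      congr 2
    · have hc := hcard p hpc
      have hg : (g • p).m.support = p.m.support.map (tr g).toEmbedding := smul_support g p
      have hm := tr_mem g p.mem
      have hcm : (p.m.support.map (tr g).toEmbedding).card = k + 1 := by rw [Finset.card_map, hc]
      rw [← hval _ hm hcm (g • p) hg.le, ← hval _ p.mem hc p (Finset.Subset.refl _)]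
      simp only [val]
      have hb : bs (p.m.support.map (tr g).toEmbedding) = g * bs p.m.support :=
        bs_map p.mem p.nonempty g
      have h5 : (p.m.support.map (tr g).toEmbedding).map
          (tr (bs (p.m.support.map (tr g).toEmbedding))⁻¹).toEmbedding =
          p.m.support.map (tr (bs p.m.support)⁻¹).toEmbedding := by
        rw [hb, Finset.map_map]
        congr 1
        ext v <;> simp [mul_assoc]
      have h6 : (bs (p.m.support.map (tr g).toEmbedding))⁻¹ • g • p = (bs p.m.support)⁻¹ • p := by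
        rw [hb, mul_inv_rev, smul_smul, inv_mul_cancel_right]
      have h7 : ∀ (τ τ' : Finset (G × ℕ)) (h : τ ∈ top1 F L k) (h' : τ' ∈ top1 F L k),
          τ = τ' → ∀ q, e ⟨τ, h⟩ (ps _ h.1 h.2.1 q) = e ⟨τ', h'⟩ (ps _ h'.1 h'.2.1 q) := by
        intro τ τ' h h' heq q
        subst heq
        rfl
      rw [h6, h7 _ _ _ (hnorm p.m.support p.mem hc) h5, hb, mul_smul]
  · intro p
    have h1 : (mi (Finset.Subset.refl F) le_rfl (Nat.le_succ k) p).m.support.card ≤ k := p.mem.2.2
    show r' _ = _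
    rw [hr1 _ h1]
    rfl

/-- equivariant maps of the model to a space with fillings -/
theorem exists_r {X : Type} [TopologicalSpace X] [MulAction G X] [ContinuousConstSMul G X]
    (n : ℕ) (hX : ∀ k < n, ∀ f : C(S k, X), ∃ g : C(D k, X), ∀ s, g (sd k s) = f s)
    (F : Finset G) (L : ℕ) :
    ∃ r : C(MJ F L n, X), ∀ (g : G) p, r (g • p) = g • r p := by
  induction n with
  | zero =>
    have : ∀ p : MJ F L 0, False := by
      intro p
      have h1 := p.mem.2.2
      have h2 := Finset.card_pos.2 p.nonempty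
      omega
    refine ⟨⟨fun p => (this p).elim, ?_⟩, fun g p => (this p).elim⟩
    rw [continuous_def]
    intro U _
    convert isOpen_empty
    ext p
    exact (this p).elim
  | succ n ih =>
    obtain ⟨r, hr⟩ := ih (fun k hk => hX k (hk.trans n.lt_succ_self))
    choose e he using fun σ : top1 F L n => hX n n.lt_succ_self (r.comp (th σ.1 σ.2.1 σ.2.2.1))
    obtain ⟨r', hr', -⟩ := extend_r r hr (ContinuousMap.id X) (fun _ _ => rfl) e he
    exact ⟨r', hr'⟩

end extend

end

end Crest.Agent.R185.Bld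
end

-- ▼ part R185/Bld3
section

/-!
# Row 185, BUILDER, part 3: equivariant maps to the model; pushing into the skeleton
-/

set_option autoImplicit false
set_option linter.unusedSectionVars false

open Set Metric Topology
open Crest.Agent.R185.Att

namespace Crest.Agent.R185.Bld

noncomputable section

/-! ### the map to the model -/

section smap

variable {G : Type} [Group G]

theorem vert1_mem (F : Finset G) (h1 : (1 : G) ∈ F) (L k : ℕ) (hk : 1 ≤ k) :
    ({((1 : G), L)} : Finset (G × ℕ)) ∈ (mil F (L + 1) k).s := by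
  refine ⟨?_, ?_, ?_⟩
  · intro a ha b hb
    rw [Finset.mem_singleton] at ha hb
    subst ha; subst hb
    simpa using h1
  · intro a ha
    rw [Finset.mem_singleton] at ha
    subst ha
    exact L.lt_succ_self
  · simpa using hk

/-- enlarge the scale so that `T` becomes a simplex-wise admissible set -/
theorem exists_scale (F : Finset G) (T : Finset (G × ℕ)) :
    ∃ F' : Finset G, F ⊆ F' ∧ (1 : G) ∈ F' ∧ ∀ a ∈ T, ∀ b ∈ T, a.1⁻¹ * b.1 ∈ F' := by
  classical
  refine ⟨F ∪ {1} ∪ (T ×ˢ T).image fun p => p.1.1⁻¹ * p.2.1, ?_, ?_, ?_⟩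
  · intro g hg
    simp [hg]
  · simp
  · intro a ha b hb
    refine Finset.mem_union_right _ (Finset.mem_image.2 ⟨(a, b), ?_, rfl⟩)
    exact Finset.mem_product.2 ⟨ha, hb⟩

/-- **Coning with a new level**: an equivariant map to the model extends over attached cells. -/
theorem smap_step {n : ℕ} (X : GSp G) (c : Cells X n) {F : Finset G} {L : ℕ}
    (s : C(X.Z, MJ F L n)) (hs : ∀ (g : G) z, s (g • z) = g • s z) :
    ∃ (F' : Finset G) (L' : ℕ) (s' : C((X.att c).Z, MJ F' L' (n + 1))),
      ∀ (g : G) z, s' (g • z) = g • s' z := by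
  classical
  choose T hT using fun i : c.C => Cx.exists_support (s.comp (c.φ i))
  have : Fintype c.C := Fintype.ofFinite _
  let TT : Finset (G × ℕ) := insert ((1 : G), L) (Finset.univ.biUnion T)
  obtain ⟨F', hF, h1, hF'⟩ := exists_scale F TT
  have hle : ∀ i x, (s (c.φ i x)).m.support ⊆ TT := fun i x =>
    (hT i x).trans ((Finset.subset_biUnion_of_mem T (Finset.mem_univ i)).trans
      (Finset.subset_insert _ _))
  have hk : 1 ≤ n + 1 := by omega
  let v0 : MJ F' (L + 1) (n + 1) := Cx.vert ((1 : G), L) (vert1_mem F' h1 L (n + 1) hk)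
  have hv0 : v0.m.support = {((1 : G), L)} := Finsupp.support_single _ one_ne_zero
  have hmem : ∀ i x, (s (c.φ i x)).m.support ∪ v0.m.support ∈ (mil F' (L + 1) (n + 1)).s := by
    intro i x
    rw [hv0]
    have hp := (s (c.φ i x)).mem
    have hsub := hle i x
    refine ⟨?_, ?_, ?_⟩
    · intro a ha b hb
      have haT : a ∈ TT := by
        rcases Finset.mem_union.1 ha with h | h
        · exact hsub h
        · rw [Finset.mem_singleton.1 h]; exact Finset.mem_insert_self _ _
      have hbT : b ∈ TT := by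
        rcases Finset.mem_union.1 hb with h | h
        · exact hsub h
        · rw [Finset.mem_singleton.1 h]; exact Finset.mem_insert_self _ _
      refine ⟨hF' a haT b hbT, fun hab => ?_⟩
      rcases Finset.mem_union.1 ha with h | h
      · rcases Finset.mem_union.1 hb with h' | h'
        · exact (hp.1 a h b h').2 hab
        · have := hp.2.1 a h
          rw [Finset.mem_singleton.1 h'] at hab
          simp only at hab
          omega
      · rcases Finset.mem_union.1 hb with h' | h'
        · have := hp.2.1 b h'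
          rw [Finset.mem_singleton.1 h] at hab
          simp only at hab
          omega
        · rw [Finset.mem_singleton.1 h, Finset.mem_singleton.1 h']
    · intro a ha
      rcases Finset.mem_union.1 ha with h | h
      · exact (hp.2.1 a h).trans L.lt_succ_self
      · rw [Finset.mem_singleton.1 h]; exact L.lt_succ_self
    · exact (Finset.card_union_le _ _).trans (by
        rw [Finset.card_singleton]
        exact Nat.succ_le_succ hp.2.2)
  have hfill : ∀ i : c.C, ∃ g : C(D n, MJ F' (L + 1) (n + 1)), ∀ x, (g (sd n x)).m = (s (c.φ i x)).m := by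
    intro i
    let H : C(S n × unitInterval, MJ F' (L + 1) (n + 1)) :=
      ⟨fun p => Cx.mix p.2 (s (c.φ i p.1)) v0 (Cx.mix_support_mem _ _ _ (hmem i p.1)), by
        rw [Cx.continuous_iff_eval]
        intro v
        simp only [Cx.mix_apply]
        have h1 : Continuous fun p : S n × unitInterval => s (c.φ i p.1) v :=
          (Cx.continuous_eval v).comp (s.continuous.comp ((c.φ i).continuous.comp continuous_fst))
        have h2 : Continuous fun p : S n × unitInterval => ((p.2 : unitInterval) : ℝ) :=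
          continuous_subtype_val.comp continuous_snd
        exact ((continuous_const.sub h2).mul h1).add (h2.mul continuous_const)⟩
    obtain ⟨g, hg⟩ := fill_of_homotopy H (ContinuousMap.const _ v0) (by
      intro x
      apply Cx.R.ext
      intro v
      show (1 - ((1 : unitInterval) : ℝ)) * _ + ((1 : unitInterval) : ℝ) * _ = _
      simp)
    refine ⟨g, fun x => ?_⟩
    rw [hg]
    ext v
    show (1 - ((0 : unitInterval) : ℝ)) * _ + ((0 : unitInterval) : ℝ) * _ = _
    simp
  choose e he using hfill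
  obtain ⟨s', h1', h2', h3'⟩ := exists_glueG (φ := c.φ)
    ((mi hF (Nat.le_succ L) (Nat.le_succ n)).comp s)
    (fun (g : G) (z : X.Z) => by
      show mi hF (Nat.le_succ L) (Nat.le_succ n) (s (g • z)) = _
      rw [hs, mi_smul]; rfl)
    e (fun i x => Cx.R.ext_m (he i x))
  exact ⟨F', L + 1, s', h3'⟩

end smap

/-! ### hat functions of the Kuhn triangulation -/

section hat

variable {n : ℕ}

/-- norm of the positive part -/
def pp (u : Fin n → ℝ) : ℝ := ‖fun i => max (u i) 0‖

theorem continuous_pp : Continuous (pp : (Fin n → ℝ) → ℝ) :=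
  continuous_norm.comp (continuous_pi fun i => (continuous_apply i).max continuous_const)

theorem pp_nonneg (u : Fin n → ℝ) : 0 ≤ pp u := norm_nonneg _

theorem le_pp (u : Fin n → ℝ) (i : Fin n) : u i ≤ pp u := by
  have h := norm_le_pi_norm (fun i => max (u i) 0) i
  rw [Real.norm_of_nonneg (le_max_right _ _)] at h
  exact (le_max_left _ _).trans h

theorem pp_of_nonpos {u : Fin n → ℝ} (h : ∀ i, u i ≤ 0) : pp u = 0 := by
  unfold pp
  rw [norm_eq_zero]
  funext i
  exact max_eq_right (h i)

theorem pp_lt {u : Fin n → ℝ} {r : ℝ} (hr : 0 < r) (h : ∀ i, u i < r) : pp u < r := by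
  unfold pp
  rw [pi_norm_lt_iff hr]
  intro i
  rw [Real.norm_of_nonneg (le_max_right _ _)]
  exact max_lt (h i) hr

/-- hat function at the lattice point `v`, in the variable `y = N x` -/
def hat (v : Fin n → ℤ) (y : Fin n → ℝ) : ℝ :=
  max 0 (1 - pp (fun i => y i - v i) - pp (fun i => (v i : ℝ) - y i))

theorem continuous_hat (v : Fin n → ℤ) : Continuous (hat v) := by
  refine continuous_const.max ((continuous_const.sub ?_).sub ?_)
  · exact continuous_pp.comp (continuous_pi fun i => (continuous_apply i).sub continuous_const)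
  · exact continuous_pp.comp (continuous_pi fun i => continuous_const.sub (continuous_apply i))

theorem hat_nonneg (v : Fin n → ℤ) (y : Fin n → ℝ) : 0 ≤ hat v y := le_max_left _ _

theorem hat_pos {v : Fin n → ℤ} {y : Fin n → ℝ} (h : 0 < hat v y) (i j : Fin n) :
    (y i - v i) + ((v j : ℝ) - y j) < 1 := by
  have h1 : 0 < 1 - pp (fun i => y i - v i) - pp (fun i => (v i : ℝ) - y i) := by
    rcases lt_max_iff.1 h with h | h
    · exact absurd h (lt_irrefl _)
    · exact h
  have h2 := le_pp (fun i => y i - v i) i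
  have h3 := le_pp (fun i => (v i : ℝ) - y i) j
  linarith

theorem hat_pos1 {v : Fin n → ℤ} {y : Fin n → ℝ} (h : 0 < hat v y) (i : Fin n) :
    y i - v i < 1 ∧ (v i : ℝ) - y i < 1 := by
  have h1 : 0 < 1 - pp (fun i => y i - v i) - pp (fun i => (v i : ℝ) - y i) := by
    rcases lt_max_iff.1 h with h | h
    · exact absurd h (lt_irrefl _)
    · exact h
  have h2 := le_pp (fun i => y i - v i) i
  have h3 := le_pp (fun i => (v i : ℝ) - y i) i
  have h4 := pp_nonneg (fun i => y i - v i)
  have h5 := pp_nonneg (fun i => (v i : ℝ) - y i)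
  constructor <;> linarith

theorem exists_hat_pos (y : Fin n → ℝ) : 0 < hat (fun i => ⌊y i⌋) y := by
  unfold hat
  rw [lt_max_iff]
  right
  have h1 : pp (fun i => y i - (⌊y i⌋ : ℤ)) < 1 := pp_lt one_pos fun i => by
    linarith [Int.lt_floor_add_one (y i)]
  have h2 : pp (fun i => ((⌊y i⌋ : ℤ) : ℝ) - y i) = 0 := pp_of_nonpos fun i => by
    linarith [Int.floor_le (y i)]
  rw [h2]; linarith

/-- the lattice points with positive hat function form a chain -/
theorem hat_chain {v w : Fin n → ℤ} {y : Fin n → ℝ} (hv : 0 < hat v y) (hw : 0 < hat w y) :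
    v ≤ w ∨ w ≤ v := by
  by_contra hcon
  push Not at hcon
  obtain ⟨h1, h2⟩ := hcon
  rw [Pi.le_def] at h1 h2
  push Not at h1 h2
  obtain ⟨i, hi⟩ := h1
  obtain ⟨j, hj⟩ := h2
  have h3 := hat_pos hv j i
  have h4 := hat_pos hw i j
  have h5 : (w i : ℝ) + 1 ≤ v i := by exact_mod_cast hi
  have h6 : (v j : ℝ) + 1 ≤ w j := by exact_mod_cast hj
  linarith

theorem hat_near {v w : Fin n → ℤ} {y : Fin n → ℝ} (hv : 0 < hat v y) (hw : 0 < hat w y)
    (i : Fin n) : w i ≤ v i + 1 := by
  have h1 := (hat_pos1 hv i).1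
  have h2 := (hat_pos1 hw i).2
  have h3 : (w i : ℝ) < v i + 2 := by linarith
  have h4 : w i < v i + 2 := by exact_mod_cast h3
  omega

/-- multiplicity of the hat functions -/
theorem hat_card (A : Finset (Fin n → ℤ)) (y : Fin n → ℝ) (h : ∀ v ∈ A, 0 < hat v y) :
    A.card ≤ n + 1 := by
  classical
  rcases A.eq_empty_or_nonempty with rfl | hne
  · simp
  obtain ⟨v0, hv0, hmin⟩ := A.exists_min_image (fun v => ∑ i, v i) hne
  have hinj : Set.InjOn (fun v : Fin n → ℤ => ∑ i, v i) A := by
    intro v hv w hw hvw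
    simp only at hvw
    rcases hat_chain (h v hv) (h w hw) with h1 | h1
    · funext i
      by_contra hne'
      have h2 : ∑ i, v i < ∑ i, w i :=
        Finset.sum_lt_sum (fun i _ => h1 i) ⟨i, Finset.mem_univ i, lt_of_le_of_ne (h1 i) hne'⟩
      omega
    · funext i
      by_contra hne'
      have h2 : ∑ i, w i < ∑ i, v i :=
        Finset.sum_lt_sum (fun i _ => h1 i) ⟨i, Finset.mem_univ i, lt_of_le_of_ne (h1 i) (Ne.symm hne')⟩
      omega
  rw [← Finset.card_image_of_injOn hinj]
  have hsub : A.image (fun v : Fin n → ℤ => ∑ i, v i) ⊆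
      Finset.Icc (∑ i, v0 i) (∑ i, v0 i + n) := by
    intro m hm
    obtain ⟨v, hv, rfl⟩ := Finset.mem_image.1 hm
    rw [Finset.mem_Icc]
    refine ⟨hmin v hv, ?_⟩
    calc ∑ i, v i ≤ ∑ i, (v0 i + 1) := Finset.sum_le_sum fun i _ => hat_near (h v0 hv0) (h v hv) i
      _ = ∑ i, v0 i + n := by simp [Finset.sum_add_distrib]
  refine (Finset.card_le_card hsub).trans ?_
  rw [Int.card_Icc]
  omega

/-- **Pushing into the skeleton**: a map of the `n`-cube to a complex can be replaced by one with values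
in the `n`-skeleton, with smaller supports. -/
theorem push_skel {V : Type} {K K' : Cx V} (β : C(D n, K.R))
    (hK' : ∀ τ ∈ K.s, τ.card ≤ n + 1 → τ ∈ K'.s) :
    ∃ lam : C(D n, K'.R), ∀ x, (lam x).m.support ⊆ (β x).m.support := by
  classical
  -- Lebesgue number
  obtain ⟨δ, hδ, hleb⟩ := lebesgue_number_lemma_of_metric (isCompact_univ (X := D n))
    (c := fun v : V => {x : D n | 0 < β x v})
    (fun v => (Cx.isOpen_star v).preimage β.continuous) (fun x _ => by
      obtain ⟨v, hv⟩ := (β x).exists_pos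
      exact mem_iUnion.2 ⟨v, hv⟩)
  obtain ⟨N, hN⟩ := exists_nat_gt (2 / δ)
  have hN0 : (0 : ℝ) < N := lt_trans (by positivity) hN
  have hNδ : 2 / (N : ℝ) < δ := by
    rw [div_lt_iff₀ hN0]
    rw [div_lt_iff₀ hδ] at hN
    linarith
  let yy : D n → Fin n → ℝ := fun x => (N : ℝ) • (x : Fin n → ℝ)
  have hyy : Continuous yy := (continuous_const_smul (N : ℝ)).comp continuous_subtype_val
  have hw : ∀ v : Fin n → ℤ, ∃ w : V, ∀ x : D n, 0 < hat v (yy x) → 0 < β x w := by
    intro v
    by_cases hex : ∃ x : D n, 0 < hat v (yy x)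
    · obtain ⟨x0, hx0⟩ := hex
      obtain ⟨w, hw⟩ := hleb x0 (mem_univ _)
      refine ⟨w, fun x hx => ?_⟩
      refine hw ?_
      rw [mem_ball, Subtype.dist_eq, dist_pi_lt_iff hδ]
      intro i
      rw [Real.dist_eq, abs_lt]
      have h1 := hat_pos1 hx i
      have h2 := hat_pos1 hx0 i
      simp only [yy, Pi.smul_apply, smul_eq_mul] at h1 h2
      have h3 : (N : ℝ) * ((x : Fin n → ℝ) i - (x0 : Fin n → ℝ) i) < 2 := by linarith
      have h4 : -2 < (N : ℝ) * ((x : Fin n → ℝ) i - (x0 : Fin n → ℝ) i) := by linarith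
      constructor
      · have : -(2 / (N : ℝ)) < (x : Fin n → ℝ) i - (x0 : Fin n → ℝ) i := by
          rw [neg_lt_iff_pos_add, ← sub_lt_iff_lt_add'] 
          rw [zero_sub, neg_lt_iff_pos_add]
          by_contra hcon
          push Not at hcon
          have h5 : (N : ℝ) * ((x : Fin n → ℝ) i - (x0 : Fin n → ℝ) i) ≤ (N : ℝ) * (-(2 / N)) :=
            mul_le_mul_of_nonneg_left (by linarith) hN0.le
          rw [mul_neg, mul_div_cancel₀ _ hN0.ne'] at h5
          linarith
        linarith
      · have : (x : Fin n → ℝ) i - (x0 : Fin n → ℝ) i < 2 / (N : ℝ) := by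
          rw [lt_div_iff₀ hN0]; linarith
        linarith
    · obtain ⟨w, -⟩ := (β ⟨0, by simp⟩).exists_pos
      exact ⟨w, fun x hx => absurd ⟨x, hx⟩ hex⟩
  choose w hw using hw
  -- the relevant lattice points
  let Lt : Finset (Fin n → ℤ) := Fintype.piFinset fun _ => Finset.Icc (-(N : ℤ) - 1) (N + 1)
  have hLt : ∀ (v : Fin n → ℤ) (x : D n), 0 < hat v (yy x) → v ∈ Lt := by
    intro v x hx
    rw [Fintype.mem_piFinset]
    intro i
    have h1 := hat_pos1 hx i
    simp only [yy, Pi.smul_apply, smul_eq_mul] at h1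
    have h2 := (norm_le_pi_norm (x : Fin n → ℝ) i).trans x.norm_le
    rw [Real.norm_eq_abs, abs_le] at h2
    have h3 : (N : ℝ) * (x : Fin n → ℝ) i ≤ N := by nlinarith
    have h4 : -(N : ℝ) ≤ (N : ℝ) * (x : Fin n → ℝ) i := by nlinarith
    rw [Finset.mem_Icc]
    constructor
    · have : (-(N : ℝ) - 1) < v i + 0 := by linarith [h1.1]
      have : (-(N : ℤ) - 1 : ℤ) < v i := by exact_mod_cast (by linarith : (-(N : ℝ) - 1) < v i)
      omega
    · have : (v i : ℝ) < N + 1 := by linarith [h1.2]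
      have : v i < (N : ℤ) + 1 := by exact_mod_cast this
      omega
  let tot : D n → ℝ := fun x => ∑ v ∈ Lt, hat v (yy x)
  have htotc : Continuous tot := continuous_finsetSum _ fun v _ => (continuous_hat v).comp hyy
  have htot : ∀ x, 0 < tot x := by
    intro x
    refine Finset.sum_pos' (fun v _ => hat_nonneg _ _) ⟨_, hLt _ x (exists_hat_pos (yy x)),
      exists_hat_pos (yy x)⟩
  let mu : D n → V →₀ ℝ := fun x => ∑ v ∈ Lt, Finsupp.single (w v) (hat v (yy x) / tot x)
  have hmu : ∀ x u, mu x u = ∑ v ∈ Lt, if w v = u then hat v (yy x) / tot x else 0 := by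
    intro x u
    simp only [mu, Finsupp.finsetSum_apply, Finsupp.single_apply]
  have hsup : ∀ x u, mu x u ≠ 0 → ∃ v ∈ Lt, 0 < hat v (yy x) ∧ w v = u := by
    intro x u hu
    rw [hmu] at hu
    obtain ⟨v, hv, hv'⟩ := Finset.exists_ne_zero_of_sum_ne_zero hu
    by_cases h1 : w v = u
    · refine ⟨v, hv, lt_of_le_of_ne (hat_nonneg _ _) fun h2 => hv' ?_, h1⟩
      rw [← h2, zero_div]; simp
    · exact absurd (if_neg h1) hv'
  have htotmu : ∀ x, ((mu x).sum fun _ a => a) = 1 := by
    intro x
    simp only [mu]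
    rw [← Finsupp.sum_finsetSum_index (fun _ => rfl) (fun _ _ _ => rfl)]
    simp only [Finsupp.sum_single_index]
    rw [← Finset.sum_div, div_self (htot x).ne']
  have hsub : ∀ x, (mu x).support ⊆ (β x).m.support := by
    intro x u hu
    obtain ⟨v, -, h1, rfl⟩ := hsup x u (Finsupp.mem_support_iff.1 hu)
    exact Cx.R.mem_support'.2 (hw v x h1)
  have hcard : ∀ x, (mu x).support.card ≤ n + 1 := by
    intro x
    have h1 : (mu x).support ⊆ (Lt.filter fun v => 0 < hat v (yy x)).image w := by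
      intro u hu
      obtain ⟨v, h1, h2, h3⟩ := hsup x u (Finsupp.mem_support_iff.1 hu)
      exact Finset.mem_image.2 ⟨v, Finset.mem_filter.2 ⟨h1, h2⟩, h3⟩
    refine (Finset.card_le_card h1).trans (Finset.card_image_le.trans ?_)
    exact hat_card _ (yy x) fun v hv => (Finset.mem_filter.1 hv).2
  have hne : ∀ x, (mu x).support.Nonempty := by
    intro x
    rw [Finset.nonempty_iff_ne_empty]
    intro h
    rw [Finsupp.support_eq_empty] at h
    have := htotmu x
    rw [h, Finsupp.sum_zero_index] at this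
    exact zero_ne_one this
  let lam : D n → K'.R := fun x =>
    { m := mu x
      nn := fun u => by
        rw [hmu]
        refine Finset.sum_nonneg fun v _ => ?_
        split_ifs
        · exact div_nonneg (hat_nonneg _ _) (htot x).le
        · exact le_rfl
      tot := htotmu x
      mem := hK' _ (K.down (β x).mem (hsub x) (hne x)) (hcard x) }
  refine ⟨⟨lam, ?_⟩, hsub⟩
  rw [Cx.continuous_iff_eval]
  intro u
  have : (fun x => lam x u) = fun x => ∑ v ∈ Lt, if w v = u then hat v (yy x) / tot x else 0 := by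
    funext x
    exact hmu x u
  rw [this]
  refine continuous_finsetSum _ fun v _ => ?_
  split_ifs
  · exact ((continuous_hat v).comp hyy).div htotc fun x => (htot x).ne'
  · exact continuous_const

end hat

/-- fillings can be pushed into the skeleton, keeping the boundary -/
theorem fill_skel {G : Type} [Group G] {n : ℕ} {F F' : Finset G} {L L' : ℕ}
    (f : C(S n, MJ F L n)) (β : C(D n, MJ F' L' L')) (h : ∀ s, (β (sd n s)).m = (f s).m) :
    ∃ g : C(D n, MJ F' L' (n + 1)), ∀ s, (g (sd n s)).m = (f s).m := by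
  classical
  obtain ⟨lam, hlam⟩ := push_skel (K' := mil F' L' (n + 1)) β
    (fun τ hτ hc => ⟨hτ.1, hτ.2.1, hc⟩)
  have hmem : ∀ s, (f s).m.support ∪ (lam (sd n s)).m.support ∈ (mil F' L' (n + 1)).s := by
    intro s
    have h1 : (f s).m.support ∪ (lam (sd n s)).m.support = (f s).m.support := by
      apply Finset.union_eq_left.2
      rw [← h s]; exact hlam _
    rw [h1]
    have h2 := (β (sd n s)).mem
    rw [h s] at h2
    exact ⟨h2.1, h2.2.1, (f s).mem.2.2.trans (Nat.le_succ n)⟩
  let H : C(S n × unitInterval, MJ F' L' (n + 1)) :=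
    ⟨fun p => Cx.mix p.2 (f p.1) (lam (sd n p.1)) (Cx.mix_support_mem _ _ _ (hmem p.1)), by
      rw [Cx.continuous_iff_eval]
      intro v
      simp only [Cx.mix_apply]
      have h1 : Continuous fun p : S n × unitInterval => f p.1 v :=
        (Cx.continuous_eval v).comp (f.continuous.comp continuous_fst)
      have h2 : Continuous fun p : S n × unitInterval => ((p.2 : unitInterval) : ℝ) :=
        continuous_subtype_val.comp continuous_snd
      have h3 : Continuous fun p : S n × unitInterval => lam (sd n p.1) v :=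
        (Cx.continuous_eval v).comp (lam.continuous.comp ((sd n).continuous.comp continuous_fst))
      exact ((continuous_const.sub h2).mul h1).add (h2.mul h3)⟩
  obtain ⟨g, hg⟩ := fill_of_homotopy H lam (by
    intro x
    apply Cx.R.ext
    intro v
    show (1 - ((1 : unitInterval) : ℝ)) * _ + ((1 : unitInterval) : ℝ) * _ = _
    simp)
  refine ⟨g, fun x => ?_⟩
  rw [hg]
  ext v
  show (1 - ((0 : unitInterval) : ℝ)) * _ + ((0 : unitInterval) : ℝ) * _ = _
  simp

end

end Crest.Agent.R185.Bld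
end

-- ▼ part R185/Cell1
section

/-!
# Row 185, block T3: cellular approximation, one stage

`avoid_zero`: a continuous map `ℝ^k → ℝ^m`, `k < m`, can be moved by less than `ε` off the origin.
`push_down`: for `K` compact, embedded in `ℝ^k`, `k < m`, every `f : C(K, GAtt G φ)` is homotopic
rel `{y | f y ∈ range inZ}` to a map into `Z`.
-/

set_option autoImplicit false
set_option linter.unusedSectionVars false

open Set Metric Topology
open scoped unitInterval Manifold ContDiff

namespace Crest.Agent.R185.Cell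
open Crest.Agent.R185.Att

/-- small perturbation off the origin -/
theorem avoid_zero {k m : ℕ} {t : Set (Fin k → ℝ)} (ht : dimH t < m)
    (U : C(Fin k → ℝ, Fin m → ℝ)) {ε : ℝ} (hε : 0 < ε) :
    ∃ g : C(Fin k → ℝ, Fin m → ℝ), (∀ x, ‖g x - U x‖ < ε) ∧ ∀ x ∈ t, g x ≠ 0 := by
  obtain ⟨g, hg⟩ := exists_contMDiffMap_forall_mem_convex_of_local_const (n := 1)
    𝓘(ℝ, Fin k → ℝ) (t := fun x => ball (U x) (ε / 2)) (fun x => convex_ball _ _) (by
      intro x
      refine ⟨U x, ?_⟩
      have h1 : ∀ᶠ y in 𝓝 x, dist (U y) (U x) < ε / 2 :=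
        (U.continuous.continuousAt (x := x)).eventually (ball_mem_nhds _ (half_pos hε))
      filter_upwards [h1] with y hy
      rwa [mem_ball, dist_comm])
  have hgc : ContDiff ℝ 1 g := g.contMDiff.contDiff
  have hd : Dense (g '' t)ᶜ := hgc.contDiffOn.dense_compl_image_of_dimH_lt_finrank convex_univ
    (subset_univ t) (by simpa using ht)
  obtain ⟨z, hz1, hz2⟩ := hd.exists_mem_open (isOpen_ball (x := (0 : Fin m → ℝ)) (ε := ε / 2))
    ⟨0, mem_ball_self (half_pos hε)⟩
  refine ⟨⟨fun x => g x - z, hgc.continuous.sub continuous_const⟩, fun x => ?_, fun x hx h => ?_⟩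
  · have h1 : ‖g x - U x‖ < ε / 2 := by
      have := hg x
      rwa [mem_ball, dist_eq_norm] at this
    have h2 : ‖z‖ < ε / 2 := mem_ball_zero_iff.1 hz2
    calc ‖(g x - z) - U x‖ = ‖(g x - U x) - z‖ := by congr 1; abel
      _ ≤ ‖g x - U x‖ + ‖z‖ := norm_sub_le _ _
      _ < ε := by linarith
  · exact hz1 ⟨x, hx, sub_eq_zero.1 h⟩

section

variable {G : Type} [Group G] {Z : Type} [TopologicalSpace Z] [MulAction G Z]
  [ContinuousConstSMul G Z] {m : ℕ} {C : Type} {φ : C → C(S m, Z)}

/-- radius: `1` on `Z`, the norm in the open cells -/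
noncomputable def nu (p : GAtt G φ) : ℝ := Sum.elim (fun _ => 1) (fun q => ‖(q.2.2 : Fin m → ℝ)‖) p

@[simp] theorem nu_inZ (z : Z) : nu (inZ φ z : GAtt G φ) = 1 := rfl
@[simp] theorem nu_inB (g : G) (c : C) (x : B m) : nu (inB φ g c x) = ‖(x : Fin m → ℝ)‖ := rfl

theorem nu_chr (g : G) (c : C) (x : D m) : nu (chr φ g c x) = ‖(x : Fin m → ℝ)‖ := by
  induction x using D.cases' with
  | hB x => rw [chr_bd]; rfl
  | hS x => rw [chr_sd, nu_inZ, sd_coe, x.norm_eq]

theorem continuous_nu : Continuous (nu : GAtt G φ → ℝ) := by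
  rw [Att.continuous_iff]
  refine ⟨continuous_const, fun g c => ?_⟩
  have : (nu ∘ chr φ g c) = fun x : D m => ‖(x : Fin m → ℝ)‖ := funext fun x => nu_chr g c x
  rw [this]
  exact continuous_norm.comp continuous_subtype_val

theorem nu_eq_one {p : GAtt G φ} : nu p = 1 ↔ p ∈ range (inZ φ) := by
  induction p using GAtt.cases' with
  | hZ z => simp
  | hB g c x =>
    rw [nu_inB]
    constructor
    · intro h; exact absurd h (ne_of_lt x.norm_lt)
    · rintro ⟨z, hz⟩; exact absurd hz inZ_ne_inB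

theorem nu_lt_one {p : GAtt G φ} : nu p < 1 ↔ ∃ g c x, p = inB φ g c x := by
  induction p using GAtt.cases' with
  | hZ z => simp
  | hB g c x =>
    rw [nu_inB]
    exact ⟨fun _ => ⟨g, c, x, rfl⟩, fun _ => x.norm_lt⟩


/-- the cell index of a point (junk on `Z`) -/
def idx (p : GAtt G φ) : Option (G × C) := Sum.elim (fun _ => none) (fun q => some (q.1, q.2.1)) p

/-- the coordinate of a point in an open cell (junk on `Z`) -/
def coo (p : GAtt G φ) : Fin m → ℝ := Sum.elim (fun _ => 0) (fun q => (q.2.2 : Fin m → ℝ)) p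

@[simp] theorem idx_inB (g : G) (c : C) (x : B m) : idx (inB φ g c x) = some (g, c) := rfl
@[simp] theorem coo_inB (g : G) (c : C) (x : B m) : coo (inB φ g c x) = (x : Fin m → ℝ) := rfl

theorem coo_continuousAt {p : GAtt G φ} (hp : nu p < 1) : ContinuousAt (coo : GAtt G φ → _) p := by
  obtain ⟨g, c, x, rfl⟩ := nu_lt_one.1 hp
  rw [ContinuousAt, Filter.tendsto_def]
  intro V hV
  rw [coo_inB] at hV
  obtain ⟨W, hWV, hW, hxW⟩ := _root_.mem_nhds_iff.1 hV
  have h1 : IsOpen (inB φ g c '' (Subtype.val ⁻¹' W : Set (B m))) :=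
    isOpen_inB_image (hW.preimage continuous_subtype_val)
  refine Filter.mem_of_superset (h1.mem_nhds ⟨x, hxW, rfl⟩) ?_
  rintro _ ⟨y, hy, rfl⟩
  exact hWV hy



/-- replace the coordinate of a point in an open cell -/
noncomputable def repl (p : GAtt G φ) (x : Fin m → ℝ) : GAtt G φ := by
  classical
  exact Sum.elim (fun z => inZ φ z)
    (fun q => if h : ‖x‖ < 1 then inB φ q.1 q.2.1 ⟨x, mem_ball_zero_iff.2 h⟩ else inB φ q.1 q.2.1 q.2.2) p

theorem repl_inB (g : G) (c : C) (y : B m) {x : Fin m → ℝ} (h : ‖x‖ < 1) :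
    repl (inB φ g c y) x = inB φ g c ⟨x, mem_ball_zero_iff.2 h⟩ := by
  show dite _ _ _ = _
  exact dif_pos h

theorem repl_coo (p : GAtt G φ) : repl p (coo p) = p := by
  induction p using GAtt.cases' with
  | hZ z => rfl
  | hB g c x => rw [coo_inB, repl_inB g c x x.norm_lt]

theorem nu_repl {p : GAtt G φ} (hp : nu p < 1) {x : Fin m → ℝ} (h : ‖x‖ < 1) :
    nu (repl p x) = ‖x‖ := by
  obtain ⟨g, c, y, rfl⟩ := nu_lt_one.1 hp
  rw [repl_inB g c y h, nu_inB]

/-- continuity of the replacement along a map -/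
theorem repl_continuousAt {T : Type*} [TopologicalSpace T] {a : T → GAtt G φ} {u : T → Fin m → ℝ}
    {t : T} (ha : ContinuousAt a t) (hu : ContinuousAt u t) (hp : nu (a t) < 1) (hx : ‖u t‖ < 1) :
    ContinuousAt (fun s => repl (a s) (u s)) t := by
  obtain ⟨g, c, y, hy⟩ := nu_lt_one.1 hp
  have e1 : ∀ᶠ s in 𝓝 t, ∃ y', a s = inB φ g c y' := by
    have h1 : IsOpen (inB φ g c '' (univ : Set (B m))) := isOpen_inB_image isOpen_univ
    have h2 : inB φ g c '' univ ∈ 𝓝 (a t) := by rw [hy]; exact h1.mem_nhds ⟨y, trivial, rfl⟩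
    filter_upwards [ha h2]
    rintro s ⟨y', -, hy'⟩
    exact ⟨y', hy'.symm⟩
  have e2 : ∀ᶠ s in 𝓝 t, ‖u s‖ < 1 := hu.norm.eventually (Iio_mem_nhds hx)
  -- a globally defined comparison map
  have hch : ContinuousAt (fun s => chr φ g c ⟨(max 1 ‖u s‖)⁻¹ • u s, by
      rw [mem_closedBall_zero_iff, norm_smul, norm_inv, Real.norm_of_nonneg
        (le_trans zero_le_one (le_max_left _ _))]
      rw [inv_mul_le_one₀ (lt_of_lt_of_le zero_lt_one (le_max_left _ _))]
      exact le_max_right _ _⟩) t := by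
    refine (continuous_chr g c).continuousAt.comp ?_
    refine IsInducing.subtypeVal.continuousAt_iff.2 ?_
    refine ContinuousAt.smul (f := fun s => (max 1 ‖u s‖)⁻¹) ?_ hu
    refine ContinuousAt.inv₀ (continuousAt_const.max hu.norm) ?_
    exact ne_of_gt (lt_of_lt_of_le zero_lt_one (le_max_left _ _))
  refine hch.congr ?_
  filter_upwards [e1, e2] with s hs1 hs2
  obtain ⟨y', hy'⟩ := hs1
  rw [hy', repl_inB g c y' hs2, ← chr_bd]
  congr 1
  apply Subtype.ext
  simp [max_eq_left hs2.le]

/-! ### step 1: avoid the centres -/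

/-- cut-off -/
noncomputable def lam (r : ℝ) : ℝ := max 0 (min 1 (3 - 4 * r))

theorem continuous_lam : Continuous lam := by unfold lam; fun_prop

theorem lam_nonneg (r : ℝ) : 0 ≤ lam r := le_max_left _ _
theorem lam_le_one (r : ℝ) : lam r ≤ 1 := max_le zero_le_one (min_le_left _ _)
theorem lam_eq_one {r : ℝ} (h : r ≤ 1 / 2) : lam r = 1 := by
  unfold lam
  rw [min_eq_left (by linarith), max_eq_right zero_le_one]
theorem lam_eq_zero {r : ℝ} (h : 3 / 4 ≤ r) : lam r = 0 := by
  unfold lam
  rw [max_eq_left]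
  exact (min_le_right _ _).trans (by linarith)

theorem norm_coo {p : GAtt G φ} (hp : nu p < 1) : ‖coo p‖ = nu p := by
  obtain ⟨g, c, x, rfl⟩ := nu_lt_one.1 hp
  rfl

theorem repl_of_nu {p : GAtt G φ} (hp : nu p = 1) (x : Fin m → ℝ) : repl p x = p := by
  obtain ⟨z, rfl⟩ := nu_eq_one.1 hp
  rfl

theorem nu_le_one (p : GAtt G φ) : nu p ≤ 1 := by
  induction p using GAtt.cases' with
  | hZ z => simp
  | hB g c x => exact x.norm_lt.le

theorem avoid_centres {k : ℕ} {K : Type*} [TopologicalSpace K] [CompactSpace K]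
    {e : K → (Fin k → ℝ)} (he : IsClosedEmbedding e) (hK : dimH (range e) < m)
    (f : C(K, GAtt G φ)) :
    ∃ f₁ : C(K, GAtt G φ), (∀ y, 0 < nu (f₁ y)) ∧
      Nonempty (ContinuousMap.HomotopyRel f f₁ {y | f y ∈ range (inZ φ)}) := by
  -- the compact part where we modify `f`
  let A : Set K := {y | nu (f y) ≤ 3 / 4}
  have hA : IsClosed A := isClosed_le (continuous_nu.comp f.continuous) continuous_const
  have hlt : ∀ y ∈ A, nu (f y) < 1 := fun y hy => lt_of_le_of_lt hy (by norm_num)
  let u : C(A, Fin m → ℝ) := ⟨fun y => coo (f y), by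
    rw [continuous_iff_continuousAt]
    intro y
    exact ContinuousAt.comp (g := coo) (f := fun y : A => f y) (coo_continuousAt (hlt y y.2))
      (f.continuous.comp continuous_subtype_val).continuousAt⟩
  have heA : IsClosedEmbedding (fun y : A => e y) := he.comp hA.isClosedEmbedding_subtypeVal
  obtain ⟨U, hU⟩ := u.exists_extension heA
  have hU' : ∀ y (hy : y ∈ A), U (e y) = coo (f y) := fun y hy =>
    congrArg (fun w : C(A, Fin m → ℝ) => w ⟨y, hy⟩) hU
  obtain ⟨g, hg1, hg2⟩ := avoid_zero hK U (ε := 1 / 8) (by norm_num)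
  -- the new coordinate
  let v : I × K → Fin m → ℝ := fun q =>
    coo (f q.2) + ((q.1 : ℝ) * lam (nu (f q.2))) • (g (e q.2) - coo (f q.2))
  have hv0 : ∀ q : I × K, 3 / 4 ≤ nu (f q.2) → v q = coo (f q.2) := by
    intro q hq
    simp only [v, lam_eq_zero hq, mul_zero, zero_smul, add_zero]
  have hdist : ∀ q : I × K, q.2 ∈ A → ‖v q - coo (f q.2)‖ ≤ 1 / 8 := by
    intro q hq
    simp only [v, add_sub_cancel_left, norm_smul]
    have h1 : ‖g (e q.2) - coo (f q.2)‖ ≤ 1 / 8 := by rw [← hU' q.2 hq]; exact (hg1 _).le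
    have h2 : ‖(q.1 : ℝ) * lam (nu (f q.2))‖ ≤ 1 := by
      rw [Real.norm_of_nonneg (mul_nonneg q.1.2.1 (lam_nonneg _))]
      exact mul_le_one₀ q.1.2.2 (lam_nonneg _) (lam_le_one _)
    calc _ ≤ 1 * (1 / 8) := mul_le_mul h2 h1 (norm_nonneg _) zero_le_one
      _ = 1 / 8 := one_mul _
  have hv1 : ∀ q : I × K, nu (f q.2) < 1 → ‖v q‖ < 1 := by
    intro q hq
    by_cases h : nu (f q.2) ≤ 3 / 4
    · have h1 := hdist q h
      have h2 : ‖coo (f q.2)‖ ≤ 3 / 4 := by rw [norm_coo hq]; exact h
      calc ‖v q‖ = ‖(v q - coo (f q.2)) + coo (f q.2)‖ := by rw [sub_add_cancel]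
        _ ≤ ‖v q - coo (f q.2)‖ + ‖coo (f q.2)‖ := norm_add_le _ _
        _ < 1 := by linarith
    · rw [hv0 q (not_le.1 h).le, norm_coo hq]; exact hq
  let F : I × K → GAtt G φ := fun q => repl (f q.2) (v q)
  have hF : Continuous F := by
    rw [continuous_iff_continuousAt]
    intro q
    by_cases h : nu (f q.2) < 1
    · have hc : ContinuousAt (fun q : I × K => coo (f q.2)) q :=
        ContinuousAt.comp (g := coo) (f := fun q : I × K => f q.2) (coo_continuousAt h)
          (f.continuous.comp continuous_snd).continuousAt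
      have hl : ContinuousAt (fun q : I × K => lam (nu (f q.2))) q :=
        (continuous_lam.comp (continuous_nu.comp (f.continuous.comp continuous_snd))).continuousAt
      have hge : ContinuousAt (fun q : I × K => g (e q.2)) q :=
        (g.continuous.comp (he.continuous.comp continuous_snd)).continuousAt
      have ht : ContinuousAt (fun q : I × K => (q.1 : ℝ)) q :=
        (continuous_subtype_val.comp continuous_fst).continuousAt
      refine repl_continuousAt (a := fun q : I × K => f q.2) (u := v)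
        (f.continuous.comp continuous_snd).continuousAt ?_ h (hv1 q h)
      exact hc.add ((ht.mul hl).smul (hge.sub hc))
    · have h34 : 3 / 4 < nu (f q.2) := lt_of_lt_of_le (by norm_num) (not_lt.1 h)
      have he : ∀ᶠ q' in 𝓝 q, 3 / 4 < nu (f q'.2) :=
        (continuous_nu.comp (f.continuous.comp continuous_snd)).continuousAt.eventually
          (Ioi_mem_nhds h34)
      have hf : ContinuousAt (fun q' : I × K => f q'.2) q :=
        (f.continuous.comp continuous_snd).continuousAt
      refine hf.congr ?_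
      filter_upwards [he] with q' hq'
      show f q'.2 = repl (f q'.2) (v q')
      rw [hv0 q' hq'.le, repl_coo]
  refine ⟨⟨fun y => F (1, y), hF.comp (by fun_prop)⟩, ?_, ⟨⟨⟨⟨F, hF⟩, ?_, ?_⟩, ?_⟩⟩⟩
  · intro y
    show 0 < nu (repl (f y) (v (1, y)))
    rcases lt_or_eq_of_le (nu_le_one (f y)) with h | h
    · rw [nu_repl h (hv1 (1, y) h)]
      by_cases h12 : nu (f y) ≤ 1 / 2
      · have : v (1, y) = g (e y) := by
          simp only [v, lam_eq_one h12, mul_one, Icc.coe_one, one_smul]
          abel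
        rw [this]
        exact norm_pos_iff.2 (hg2 _ ⟨y, rfl⟩)
      · by_cases h34 : nu (f y) ≤ 3 / 4
        · have h1 := hdist (1, y) h34
          have h2 : ‖coo (f y)‖ = nu (f y) := norm_coo h
          have h3 : ‖coo (f y)‖ ≤ ‖v (1, y)‖ + ‖v (1, y) - coo (f y)‖ := by
            calc ‖coo (f y)‖ = ‖v (1, y) - (v (1, y) - coo (f y))‖ := by rw [sub_sub_cancel]
              _ ≤ _ := norm_sub_le _ _
          linarith
        · rw [hv0 (1, y) (not_le.1 h34).le, norm_coo h]
          linarith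
    · rw [repl_of_nu h, h]; exact zero_lt_one
  · intro y
    show repl (f y) (v (0, y)) = f y
    have : v (0, y) = coo (f y) := by simp [v]
    rw [this, repl_coo]
  · intro y; rfl
  · intro t y hy
    exact repl_of_nu (nu_eq_one.2 hy) _

/-! ### step 2: push radially -/

/-- the radial scaling of the ball -/
noncomputable def scl (ε : ℝ) (t : I) (x : D m) : D m :=
  ⟨((1 - (t : ℝ)) + t * (max ε ‖(x : Fin m → ℝ)‖)⁻¹) • (x : Fin m → ℝ), by
    have hx := x.norm_le
    have hm0 : 0 ≤ (max ε ‖(x : Fin m → ℝ)‖)⁻¹ :=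
      inv_nonneg.2 ((norm_nonneg _).trans (le_max_right _ _))
    have h1 : (max ε ‖(x : Fin m → ℝ)‖)⁻¹ * ‖(x : Fin m → ℝ)‖ ≤ 1 := by
      rcases (norm_nonneg (x : Fin m → ℝ)).eq_or_lt with h | h
      · rw [← h, mul_zero]; exact zero_le_one
      · rw [inv_mul_le_one₀ (lt_of_lt_of_le h (le_max_right _ _))]
        exact le_max_right _ _
    rw [mem_closedBall_zero_iff, norm_smul, Real.norm_of_nonneg (add_nonneg
      (sub_nonneg.2 t.2.2) (mul_nonneg t.2.1 hm0)), add_mul, mul_assoc]
    have ht0 := t.2.1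
    have ht1 := t.2.2
    nlinarith [mul_le_mul_of_nonneg_left hx (sub_nonneg.2 ht1),
      mul_le_mul_of_nonneg_left h1 ht0]⟩

theorem continuous_scl {ε : ℝ} (hε : 0 < ε) :
    Continuous (fun q : D m × I => scl ε q.2 q.1) := by
  refine Continuous.subtype_mk ?_ _
  have h1 : Continuous fun q : D m × I => max ε ‖(q.1 : Fin m → ℝ)‖ := by fun_prop
  have h2 : ∀ q : D m × I, max ε ‖(q.1 : Fin m → ℝ)‖ ≠ 0 := fun q =>
    ne_of_gt (lt_of_lt_of_le hε (le_max_left _ _))
  have h3 := h1.inv₀ h2
  fun_prop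

theorem scl_zero (ε : ℝ) (x : D m) : scl ε 0 x = x := by
  apply Subtype.ext; simp [scl]

theorem scl_sd {ε : ℝ} (hε : ε ≤ 1) (t : I) (x : S m) : scl ε t (sd m x) = sd m x := by
  apply Subtype.ext
  simp [scl, x.norm_eq, max_eq_right hε]

theorem norm_scl_one {ε : ℝ} (hε : 0 < ε) {x : D m} (hx : ε ≤ ‖(x : Fin m → ℝ)‖) :
    ‖((scl ε 1 x : D m) : Fin m → ℝ)‖ = 1 := by
  have h : 0 < ‖(x : Fin m → ℝ)‖ := hε.trans_le hx
  simp only [scl, Icc.coe_one, sub_self, one_mul, zero_add, max_eq_right hx, norm_smul, norm_inv,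
    norm_norm]
  exact inv_mul_cancel₀ h.ne'

/-- the radial push -/
noncomputable def psh (φ : C → C(S m, Z)) (ε : ℝ) (p : GAtt G φ) (t : I) : GAtt G φ :=
  Sum.elim (fun z => inZ φ z) (fun q => chr φ q.1 q.2.1 (scl ε t (bd m q.2.2))) p

theorem psh_inZ (ε : ℝ) (z : Z) (t : I) : psh φ ε (inZ φ z : GAtt G φ) t = inZ φ z := rfl

theorem psh_chr {ε : ℝ} (hε : ε ≤ 1) (g : G) (c : C) (x : D m) (t : I) :
    psh φ ε (chr φ g c x) t = chr φ g c (scl ε t x) := by
  induction x using D.cases' with
  | hB x => rw [chr_bd]; rfl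
  | hS x => rw [scl_sd hε, chr_sd, psh_inZ]

theorem continuous_psh {ε : ℝ} (hε : 0 < ε) (hε1 : ε ≤ 1) :
    Continuous (fun q : GAtt G φ × I => psh φ ε q.1 q.2) := by
  rw [continuous_prod_iff]
  constructor
  · exact continuous_inZ.comp continuous_fst
  · intro g c
    have : (fun p : D m × I => psh φ ε (chr φ g c p.1) p.2) =
        chr φ g c ∘ (fun q : D m × I => scl ε q.2 q.1) := by
      funext p; exact psh_chr hε1 g c p.1 p.2
    rw [this]
    exact (continuous_chr g c).comp (continuous_scl hε)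

theorem psh_zero (ε : ℝ) (p : GAtt G φ) : psh φ ε p 0 = p := by
  induction p using GAtt.cases' with
  | hZ z => rfl
  | hB g c x =>
    show chr φ g c (scl ε 0 (bd m x)) = _
    rw [scl_zero, chr_bd]

theorem psh_one {ε : ℝ} (hε : 0 < ε) {p : GAtt G φ} (hp : ε ≤ nu p) :
    psh φ ε p 1 ∈ range (inZ φ) := by
  induction p using GAtt.cases' with
  | hZ z => exact ⟨z, rfl⟩
  | hB g c x =>
    show chr φ g c (scl ε 1 (bd m x)) ∈ _
    rw [← nu_eq_one, nu_chr]
    exact norm_scl_one hε hp

theorem continuous_psh_comp {ε : ℝ} (hε : 0 < ε) (hε1 : ε ≤ 1) {K : Type*} [TopologicalSpace K]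
    (f₁ : C(K, GAtt G φ)) : Continuous (fun q : I × K => psh φ ε (f₁ q.2) q.1) := by
  have hg : Continuous (fun q : I × K => (f₁ q.2, q.1)) :=
    (f₁.continuous.comp continuous_snd).prodMk continuous_fst
  have h := (continuous_psh (φ := φ) (G := G) hε hε1).comp hg
  exact h

/-- **cellular approximation, one stage.**  `K` compact, embedded in some `ℝ^k` as a set of
Hausdorff dimension `< m`: maps `K → GAtt` (cells of dimension `m`) are homotopic, rel the preimage
of the old space, to maps into the old space. -/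
theorem push_down {k : ℕ} {K : Type*} [TopologicalSpace K] [CompactSpace K]
    {e : K → (Fin k → ℝ)} (he : IsClosedEmbedding e) (hK : dimH (range e) < m)
    (f : C(K, GAtt G φ)) :
    ∃ f' : C(K, Z), Nonempty (ContinuousMap.HomotopyRel f
      ((⟨inZ φ, continuous_inZ⟩ : C(Z, GAtt G φ)).comp f') {y | f y ∈ range (inZ φ)}) := by
  obtain ⟨f₁, h1, ⟨H1⟩⟩ := avoid_centres he hK f
  -- a lower bound for the radius
  obtain ⟨ε, hε0, hε1, hε⟩ : ∃ ε : ℝ, 0 < ε ∧ ε ≤ 1 ∧ ∀ y, ε ≤ nu (f₁ y) := by
    rcases isEmpty_or_nonempty K with hK | hK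
    · exact ⟨1, zero_lt_one, le_rfl, fun y => (hK.false y).elim⟩
    · obtain ⟨y, hy⟩ := isCompact_univ.exists_isMinOn univ_nonempty
        (continuous_nu.comp f₁.continuous).continuousOn
      exact ⟨nu (f₁ y), h1 y, nu_le_one _, fun z => hy.2 (mem_univ z)⟩
  let H2 : I × K → GAtt G φ := fun q => psh φ ε (f₁ q.2) q.1
  have hH2 : Continuous H2 := continuous_psh_comp hε0 hε1 f₁
  have hr : ∀ y, H2 (1, y) ∈ range (inZ φ) := fun y => psh_one hε0 (hε y)
  have hemb : IsClosedEmbedding (inZ φ : Z → GAtt G φ) := isClosedEmbedding_inZ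
  choose z hz using hr
  have hzc : Continuous z := by
    rw [hemb.isEmbedding.continuous_iff]
    have : (inZ φ ∘ z) = fun y => H2 (1, y) := funext hz
    rw [this]
    exact hH2.comp (by fun_prop)
  let f' : C(K, Z) := ⟨z, hzc⟩
  let j : C(Z, GAtt G φ) := ⟨inZ φ, continuous_inZ⟩
  have hfix : ∀ (t : I) (y : K), y ∈ {y | f y ∈ range (inZ φ)} → H2 (t, y) = f₁ y := by
    intro t y hy
    have h2 : f₁ y = f y := by
      rw [← H1.eq_snd 1 hy]
      exact H1.eq_fst 1 hy
    show psh φ ε (f₁ y) t = f₁ y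
    rw [h2]
    obtain ⟨w, hw⟩ := hy
    rw [← hw]
    exact psh_inZ ε w t
  let Hh : ContinuousMap.Homotopy f₁ (j.comp f') :=
    { toFun := H2
      continuous_toFun := hH2
      map_zero_left := fun y => psh_zero ε _
      map_one_left := fun y => (hz y).symm }
  let Hr : ContinuousMap.HomotopyRel f₁ (j.comp f') {y | f y ∈ range (inZ φ)} :=
    { toHomotopy := Hh
      prop' := fun t y hy => hfix t y hy }
  exact ⟨f', ⟨H1.trans Hr⟩⟩

/-! ### dimension of balls and spheres -/


theorem lipschitz_insertNth {k : ℕ} (i : Fin (k + 1)) (s : ℝ) :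
    LipschitzWith 1 (fun x : Fin k → ℝ => (Fin.insertNth (α := fun _ => ℝ) i s x)) := by
  refine LipschitzWith.of_dist_le_mul fun x y => ?_
  rw [NNReal.coe_one, one_mul, dist_pi_le_iff dist_nonneg]
  intro j
  refine Fin.succAboveCases i ?_ (fun l => ?_) j
  · simp
  · simpa using dist_le_pi_dist x y l

theorem dimH_sphere_lt {k d : ℕ} (h : k ≤ d) (hd : 0 < d) :
    dimH (sphere (0 : Fin k → ℝ) 1) < d := by
  cases k with
  | zero =>
    have : sphere (0 : Fin 0 → ℝ) 1 = ∅ := by
      ext x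
      have hx : ‖x‖ = 0 := by rw [Subsingleton.elim x 0, norm_zero]
      rw [mem_sphere_zero_iff_norm, hx]
      simp
    rw [this, dimH_empty]
    exact_mod_cast hd
  | succ k =>
    have hsub : sphere (0 : Fin (k + 1) → ℝ) 1 ⊆ ⋃ q : Fin (k + 1) × Bool,
        range (fun x : Fin k → ℝ =>
          (Fin.insertNth (α := fun _ => ℝ) q.1 (if q.2 then 1 else -1) x)) := by
      intro x hx
      have hx1 : ‖x‖ = 1 := mem_sphere_zero_iff_norm.1 hx
      have : ∃ i, ‖x i‖ = 1 := by
        by_contra hcon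
        push Not at hcon
        have h2 : ∀ i, ‖x i‖ < 1 := fun i =>
          lt_of_le_of_ne (hx1 ▸ norm_le_pi_norm x i) (hcon i)
        have := (pi_norm_lt_iff zero_lt_one).2 h2
        linarith
      obtain ⟨i, hi⟩ := this
      have hx' : x = Fin.insertNth (α := fun _ => ℝ) i (x i) (fun j => x (i.succAbove j)) := by
        funext j
        refine Fin.succAboveCases i ?_ (fun l => ?_) j <;> simp
      rw [Real.norm_eq_abs, abs_eq zero_le_one] at hi
      rcases hi with hi | hi
      · exact mem_iUnion.2 ⟨(i, true), _, by rw [if_pos rfl]; conv_rhs => rw [hx', hi]⟩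
      · exact mem_iUnion.2 ⟨(i, false), _, by rw [if_neg Bool.false_ne_true]; conv_rhs => rw [hx', hi]⟩
    refine lt_of_le_of_lt (dimH_mono hsub) ?_
    rw [dimH_iUnion]
    refine lt_of_le_of_lt (iSup_le fun q => (lipschitz_insertNth q.1 _).dimH_range_le) ?_
    rw [Real.dimH_univ_pi_fin]
    exact_mod_cast h


/-- spheres `S k = ∂ D k`, `k ≤ d` -/
theorem push_sphere {k d : ℕ} (hkd : k ≤ d) {C : Type} {φ : C → C(S d, Z)} (f : C(S k, GAtt G φ)) :
    ∃ f' : C(S k, Z), Nonempty (ContinuousMap.HomotopyRel f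
      ((⟨inZ φ, continuous_inZ⟩ : C(Z, GAtt G φ)).comp f') {y | f y ∈ range (inZ φ)}) := by
  rcases Nat.eq_zero_or_pos d with rfl | hd
  · obtain rfl : k = 0 := Nat.le_zero.1 hkd
    have hE : IsEmpty (S 0) := ⟨fun x => by
      have := x.norm_eq
      rw [Subsingleton.elim (x : Fin 0 → ℝ) 0, norm_zero] at this
      exact zero_ne_one this⟩
    refine ⟨⟨fun x => (hE.false x).elim, ?_⟩, ⟨?_⟩⟩
    · exact continuous_iff_continuousAt.2 fun x => (hE.false x).elim
    · have : f = (⟨inZ φ, continuous_inZ⟩ : C(Z, GAtt G φ)).comp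
          ⟨fun x => (hE.false x).elim, continuous_iff_continuousAt.2 fun x => (hE.false x).elim⟩ :=
        ContinuousMap.ext fun x => (hE.false x).elim
      exact this ▸ ContinuousMap.HomotopyRel.refl f _
  · refine push_down (e := Subtype.val) isClosed_sphere.isClosedEmbedding_subtypeVal ?_ f
    rw [Subtype.range_val]
    exact dimH_sphere_lt hkd hd

/-- the form wanted by the builder -/
theorem compress {k d : ℕ} (hkd : k ≤ d) {C : Type} {φ : C → C(S d, Z)} (α : C(S k, GAtt G φ)) :
    ∃ β : C(S k, Z), ContinuousMap.Homotopic α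
      ((⟨inZ φ, continuous_inZ⟩ : C(Z, GAtt G φ)).comp β) := by
  obtain ⟨β, ⟨H⟩⟩ := push_sphere hkd α
  exact ⟨β, ⟨H.toHomotopy⟩⟩

end

end Crest.Agent.R185.Cell
end

-- ▼ part R185/Bld4
section

/-!
# Row 185, BUILDER, part 4: the construction of the classifying complex
-/

set_option autoImplicit false
set_option linter.unusedSectionVars false

open Set Metric Topology
open Crest.Agent.R185.Att
open Crest.Agent.R197 (OrbSep)

namespace Crest.Agent.R185.Bld

local notation "I" => unitInterval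

/-- the boundary sphere of a box, and what its fillings give -/
theorem box_sphere {W : Type*} [TopologicalSpace W] {n : ℕ}
    (u : C(S n × I, W)) (a b : C(D n, W)) (ha : ∀ s, u (s, 0) = a (sd n s))
    (hb : ∀ s, u (s, 1) = b (sd n s)) :
    ∃ v : C(S (n + 1), W), ∀ {W' : Type} [TopologicalSpace W'] (j : C(W, W')) (g : C(D (n + 1), W')),
      (∀ y, g (sd (n + 1) y) = j (v y)) →
      ∃ e : C(D n × I, W'), (∀ s t, e (sd n s, t) = j (u (s, t))) ∧ (∀ x, e (x, 0) = j (a x)) ∧
        ∀ x, e (x, 1) = j (b x) := by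
  classical
  let v : S (n + 1) → W := fun y =>
    if h : ‖(tl n (sd _ y) : Fin n → ℝ)‖ = 1 then
      u (⟨tl n (sd _ y), mem_sphere_zero_iff_norm.2 h⟩, tau n (sd _ y))
    else if tau n (sd _ y) = 0 then a (tl n (sd _ y)) else b (tl n (sd _ y))
  let A : Fin 3 → Set (S (n + 1)) := ![{y | ‖(tl n (sd _ y) : Fin n → ℝ)‖ = 1},
    {y | tau n (sd _ y) = 0}, {y | tau n (sd _ y) = 1}]
  have hv0 : ∀ y ∈ A 0, ∀ s : S n, (s : Fin n → ℝ) = tl n (sd _ y) →
      v y = u (s, tau n (sd _ y)) := by
    intro y hy s hs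
    have hy' : ‖(tl n (sd _ y) : Fin n → ℝ)‖ = 1 := hy
    simp only [v]
    rw [dif_pos hy']
    congr 2
    exact Subtype.ext hs.symm
  have hv1 : ∀ y ∈ A 1, v y = a (tl n (sd _ y)) := by
    intro y hy
    have hy' : tau n (sd _ y) = 0 := hy
    simp only [v]
    split_ifs with h
    · rw [hy', ha]; rfl
    · rfl
  have hv2 : ∀ y ∈ A 2, v y = b (tl n (sd _ y)) := by
    intro y hy
    have hy' : tau n (sd _ y) = 1 := hy
    simp only [v]
    split_ifs with h h2
    · rw [hy', hb]; rfl
    · rw [hy'] at h2; exact absurd h2 one_ne_zero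
    · rfl
  have hvc : Continuous v := by
    refine (locallyFinite_of_finite A).continuous ?_ ?_ ?_
    · rw [eq_univ_iff_forall]
      intro y
      rw [mem_iUnion]
      rcases sphere_cases y with h | h | h
      · exact ⟨0, h⟩
      · exact ⟨1, h⟩
      · exact ⟨2, h⟩
    · have hc1 : Continuous fun y : S (n + 1) => ‖(tl n (sd _ y) : Fin n → ℝ)‖ :=
        (continuous_subtype_val.comp ((tl n).continuous.comp (sd (n + 1)).continuous)).norm
      have hc2 : Continuous fun y : S (n + 1) => tau n (sd _ y) :=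
        (tau n).continuous.comp (sd (n + 1)).continuous
      intro i
      fin_cases i
      · exact isClosed_eq hc1 continuous_const
      · exact isClosed_eq hc2 continuous_const
      · exact isClosed_eq hc2 continuous_const
    · intro i
      fin_cases i
      · rw [continuousOn_iff_continuous_domRestrict]
        let w : A 0 → S n × I := fun y =>
          (⟨tl n (sd _ y.1), mem_sphere_zero_iff_norm.2 y.2⟩, tau n (sd _ y.1))
        have hw : Continuous w := by
          refine Continuous.prodMk (Continuous.subtype_mk ?_ _) ?_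
          · exact continuous_subtype_val.comp
              ((tl n).continuous.comp ((sd (n + 1)).continuous.comp continuous_subtype_val))
          · exact (tau n).continuous.comp ((sd (n + 1)).continuous.comp continuous_subtype_val)
        have : (A 0).domRestrict v = u ∘ w := by
          funext y
          exact hv0 y.1 y.2 _ rfl
        show Continuous ((A 0).domRestrict v)
        rw [this]
        exact u.continuous.comp hw
      · have hc : Continuous fun y : S (n + 1) => a (tl n (sd _ y)) :=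
          a.continuous.comp ((tl n).continuous.comp (sd (n + 1)).continuous)
        exact hc.continuousOn.congr fun y hy => hv1 y hy
      · have hc : Continuous fun y : S (n + 1) => b (tl n (sd _ y)) :=
          b.continuous.comp ((tl n).continuous.comp (sd (n + 1)).continuous)
        exact hc.continuousOn.congr fun y hy => hv2 y hy
  refine ⟨⟨v, hvc⟩, fun {W'} _ j g hg => ?_⟩
  have hgv : ∀ (p : D n × I) (h : ‖(p.1 : Fin n → ℝ)‖ = 1 ∨ p.2 = 0 ∨ p.2 = 1),
      g (box n p) = j (v ⟨box n p, mem_sphere_zero_iff_norm.2 (box_mem_sphere p h)⟩) := by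
    intro p h
    exact hg ⟨box n p, mem_sphere_zero_iff_norm.2 (box_mem_sphere p h)⟩
  have hsd : ∀ (p : D n × I) (h : ‖(p.1 : Fin n → ℝ)‖ = 1 ∨ p.2 = 0 ∨ p.2 = 1),
      sd (n + 1) ⟨box n p, mem_sphere_zero_iff_norm.2 (box_mem_sphere p h)⟩ = box n p :=
    fun p h => rfl
  refine ⟨g.comp (box n), ?_, ?_, ?_⟩
  · intro s t
    have h : ‖((sd n s, t) : D n × I).1.1‖ = 1 ∨ t = 0 ∨ t = 1 := Or.inl s.norm_eq
    show g (box n (sd n s, t)) = _
    rw [hgv (sd n s, t) h, hv0 _ ?_ s ?_]
    · rw [hsd (sd n s, t) h, tau_box]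
    · show ‖(tl n (sd _ _) : Fin n → ℝ)‖ = 1
      rw [hsd (sd n s, t) h, tl_box]; exact s.norm_eq
    · rw [hsd (sd n s, t) h, tl_box]; rfl
  · intro x
    have h : ‖(x : Fin n → ℝ)‖ = 1 ∨ (0 : I) = 0 ∨ (0 : I) = 1 := Or.inr (Or.inl rfl)
    show g (box n (x, 0)) = _
    rw [hgv (x, 0) h, hv1 _ ?_, hsd (x, 0) h, tl_box]
    show tau n (sd _ _) = 0
    rw [hsd (x, 0) h, tau_box]
  · intro x
    have h : ‖(x : Fin n → ℝ)‖ = 1 ∨ (1 : I) = 0 ∨ (1 : I) = 1 := Or.inr (Or.inr rfl)
    show g (box n (x, 1)) = _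
    rw [hgv (x, 1) h, hv2 _ ?_, hsd (x, 1) h, tl_box]
    show tau n (sd _ _) = 1
    rw [hsd (x, 1) h, tau_box]

/-- homotopic maps of a sphere extend simultaneously -/
theorem ext_of_homotopic {W : Type*} [TopologicalSpace W] {m : ℕ} {α β : C(S m, W)}
    (h : ContinuousMap.Homotopic α β) (hβ : ∃ g : C(D m, W), ∀ s, g (sd m s) = β s) :
    ∃ g : C(D m, W), ∀ s, g (sd m s) = α s := by
  obtain ⟨H⟩ := h
  obtain ⟨w, hw⟩ := hβ
  obtain ⟨g, hg⟩ := fill_of_homotopy
    ⟨fun p : S m × I => H (p.2, p.1), H.continuous.comp continuous_swap⟩ w (fun s => by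
      show H (1, s) = _
      rw [H.apply_one, hw])
  exact ⟨g, fun s => (hg s).trans (H.apply_zero s)⟩

section hom

variable {G : Type} [Group G]

/-- inclusion of a `G`-space in an attachment -/
def ai {X : GSp G} {m : ℕ} (c : Cells X m) : C(X.Z, (X.att c).Z) := ⟨inZ c.φ, continuous_inZ⟩

/-- characteristic maps of an attachment -/
noncomputable def ac {X : GSp G} {m : ℕ} (c : Cells X m) (g : G) (i : c.C) : C(D m, (X.att c).Z) :=
  ⟨chr c.φ g i, continuous_chr g i⟩

theorem ac_sd {X : GSp G} {m : ℕ} (c : Cells X m) (g : G) (i : c.C) (x : S m) :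
    ac c g i (sd m x) = ai c (g • c.φ i x) := chr_sd g i x

theorem ac_sd1 {X : GSp G} {m : ℕ} (c : Cells X m) (i : c.C) (x : S m) :
    ac c 1 i (sd m x) = ai c (c.φ i x) := by rw [ac_sd, one_smul]

theorem smul_ac {X : GSp G} {m : ℕ} (c : Cells X m) (g h : G) (i : c.C) (x : D m) :
    g • ac c h i x = ac c (g * h) i x := smul_chr g h i x

theorem ac_eq {X : GSp G} {m : ℕ} (c : Cells X m) (g : G) (i : c.C) (x : D m) :
    ac c g i x = g • ac c 1 i x := by rw [smul_ac, mul_one]


@[elab_as_elim] theorem att_cases {X : GSp G} {m : ℕ} {c : Cells X m}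
    {motive : (X.att c).Z → Prop} (hZ : ∀ z, motive (ai c z))
    (hB : ∀ g i x, motive (ac c g i x)) (p : (X.att c).Z) : motive p :=
  GAtt.cases' (φ := c.φ) (motive := motive) hZ (fun g i x => by
    have := hB g i (bd m x)
    have e : ac c g i (bd m x) = inB c.φ g i x := chr_bd g i x
    rw [e] at this; exact this) p

theorem att_glueG {X : GSp G} {m : ℕ} (c : Cells X m) {W : Type*} [TopologicalSpace W]
    [MulAction G W] [ContinuousConstSMul G W] (f : C(X.Z, W))
    (hf : ∀ (g : G) z, f (g • z) = g • f z) (e : c.C → C(D m, W))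
    (h : ∀ i s, e i (sd m s) = f (c.φ i s)) :
    ∃ F : C((X.att c).Z, W), (∀ z, F (ai c z) = f z) ∧ (∀ g i x, F (ac c g i x) = g • e i x) ∧
      ∀ (g : G) p, F (g • p) = g • F p :=
  exists_glueG (φ := c.φ) f hf e h

/-- any two equivariant maps to a space with fillings are equivariantly homotopic -/
def HomP (n : ℕ) (X : GSp G) : Prop :=
  ∀ W : GSp G, Fill n W.Z → ∀ a b : C(X.Z, W.Z), (∀ (g : G) z, a (g • z) = g • a z) →
    (∀ (g : G) z, b (g • z) = g • b z) →
    ∃ h : C(X.Z, C(I, W.Z)), (∀ (g : G) z, h (g • z) = g • h z) ∧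
      ∀ z, h z 0 = a z ∧ h z 1 = b z

theorem homP_emp : HomP 0 (GSp.emp G) := by
  intro W _ a b _ _
  refine ⟨⟨fun z => Empty.elim z, ?_⟩, fun g z => Empty.elim z, fun z => Empty.elim z⟩
  rw [continuous_def]; intro U _
  convert isOpen_empty
  ext z; exact Empty.elim z

theorem homP_step {n : ℕ} {X : GSp G} (h : HomP n X) (c : Cells X n) : HomP (n + 1) (X.att c) := by
  intro W hW a b ha hb
  obtain ⟨h0, h0e, h0h⟩ := h W (hW.mono (Nat.le_succ n)) (a.comp (ai c)) (b.comp (ai c))
    (fun g z => ha g (ai c z)) (fun g z => hb g (ai c z))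
  have h1 : ∀ i : c.C, ∃ e : C(D n × I, W.Z),
      (∀ s t, e (sd n s, t) = h0 (c.φ i s) t) ∧ (∀ x, e (x, 0) = a (ac c 1 i x)) ∧
      ∀ x, e (x, 1) = b (ac c 1 i x) := by
    intro i
    have hcont : Continuous fun s : S n => h0 (c.φ i s) := h0.continuous.comp (c.φ i).continuous
    obtain ⟨e, he1, he2, he3⟩ := box_fill hW
      ((⟨fun s : S n => h0 (c.φ i s), hcont⟩ : C(S n, C(I, W.Z))).uncurry)
      (a.comp (ac c 1 i)) (b.comp (ac c 1 i))
      (fun s => by
        show h0 (c.φ i s) 0 = a (ac c 1 i (sd n s))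
        rw [(h0h _).1, ac_sd1]; rfl)
      (fun s => by
        show h0 (c.φ i s) 1 = b (ac c 1 i (sd n s))
        rw [(h0h _).2, ac_sd1]; rfl)
    exact ⟨e, he1, he2, he3⟩
  choose e he1 he2 he3 using h1
  obtain ⟨H, hH1, hH2, hH3⟩ := att_glueG c h0 h0e (fun i => (e i).curry) (by
    intro i s
    ext t
    exact he1 i s t)
  refine ⟨H, hH3, ?_⟩
  intro z
  induction z using att_cases with
  | hZ z =>
    rw [hH1]
    exact h0h z
  | hB g i x =>
    rw [hH2]
    have e2 : a (ac c g i x) = g • a (ac c 1 i x) := by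
      rw [ac_eq c g i x]; exact ha g _
    have e3 : b (ac c g i x) = g • b (ac c 1 i x) := by
      rw [ac_eq c g i x]; exact hb g _
    constructor
    · refine Eq.trans ?_ e2.symm
      rw [← he2]; rfl
    · refine Eq.trans ?_ e3.symm
      rw [← he3]; rfl

end hom

section step

variable {G : Type} [Group G]

/-- **The inductive step.** -/
theorem build_step (hJ : JF G) {n : ℕ} (X₀ : GSp G) (c : Cells X₀ n)
    (hFill : Fill n (X₀.att c).Z) (hHom : HomP n X₀) (hsep : OrbSep G (X₀.att c).Z)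
    (hs : ∃ (F : Finset G) (L : ℕ) (s : C((X₀.att c).Z, MJ F L (n + 1))),
      ∀ (g : G) z, s (g • z) = g • s z) :
    ∃ d : Cells (X₀.att c) (n + 1), Fill (n + 1) ((X₀.att c).att d).Z ∧
      HomP (n + 1) (X₀.att c) ∧ OrbSep G ((X₀.att c).att d).Z ∧
      ∃ (F : Finset G) (L : ℕ) (s : C(((X₀.att c).att d).Z, MJ F L (n + 2))),
        ∀ (g : G) z, s (g • z) = g • s z := by
  classical
  obtain ⟨F, L, s, hs⟩ := hs
  obtain ⟨F', L', hJ'⟩ := hJ (n + 1) F L
  let F'' := F ∪ F'
  let L'' := max L L'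
  have hF1 : F ⊆ F'' := Finset.subset_union_left
  have hF2 : F' ⊆ F'' := Finset.subset_union_right
  obtain ⟨r, hr⟩ := exists_r (X := (X₀.att c).Z) (n + 1)
    (fun k hk => hFill k (Nat.lt_succ_iff.1 hk)) F'' L''
  let s'' : C((X₀.att c).Z, MJ F'' L'' (n + 1)) := (mi hF1 (le_max_left L L') le_rfl).comp s
  have hs'' : ∀ (g : G) z, s'' (g • z) = g • s'' z := by
    intro g z
    show mi hF1 (le_max_left L L') le_rfl (s (g • z)) = _
    rw [hs, mi_smul]; rfl
  let R : C((X₀.att c).Z, (X₀.att c).Z) := r.comp s''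
  have hR : ∀ (g : G) z, R (g • z) = g • R z := by
    intro g z
    show r (s'' (g • z)) = _
    rw [hs'', hr]; rfl
  -- the homotopy on `X₀`
  obtain ⟨h0, h0e, h0h⟩ := hHom (X₀.att c) hFill (ai c) (R.comp (ai c)) (fun g z => rfl)
    (fun g z => hR g (ai c z))
  -- the spheres over the `n`-cells
  have hbox : ∀ i : c.C, ∃ v : C(S (n + 1), (X₀.att c).Z), ∀ {W' : Type} [TopologicalSpace W']
      (j : C((X₀.att c).Z, W')) (g : C(D (n + 1), W')), (∀ y, g (sd (n + 1) y) = j (v y)) →
      ∃ e : C(D n × I, W'), (∀ x t, e (sd n x, t) = j (h0 (c.φ i x) t)) ∧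
        (∀ x, e (x, 0) = j (ac c 1 i x)) ∧ ∀ x, e (x, 1) = j (R (ac c 1 i x)) := by
    intro i
    have hcont : Continuous fun s : S n => h0 (c.φ i s) := h0.continuous.comp (c.φ i).continuous
    exact box_sphere ((⟨fun s : S n => h0 (c.φ i s), hcont⟩ : C(S n, C(I, (X₀.att c).Z))).uncurry)
      (ac c 1 i) (R.comp (ac c 1 i))
      (fun s => by
        show h0 (c.φ i s) 0 = ac c 1 i (sd n s)
        rw [(h0h _).1, ac_sd1])
      (fun s => by
        show h0 (c.φ i s) 1 = R (ac c 1 i (sd n s))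
        rw [(h0h _).2, ac_sd1]; rfl)
  choose v hv using hbox
  -- the new cells
  let d : Cells (X₀.att c) (n + 1) :=
    { C := top1 F'' L'' (n + 1) ⊕ c.C
      φ := Sum.elim (fun σ => r.comp (th σ.1 σ.2.1 σ.2.2.1)) v }
  refine ⟨d, ?_, homP_step hHom c, orbSep (φ := d.φ) hsep, smap_step (X₀.att c) d s hs⟩
  have hj : ∀ (g : G) z, ai d (g • z) = g • ai d z := fun g z => rfl
  -- extension of `r`
  obtain ⟨r', -, hr'⟩ := extend_r (X' := ((X₀.att c).att d).Z) r hr (ai d) hj
    (fun σ => ac d 1 (Sum.inl σ)) (fun σ x => ac_sd1 d (Sum.inl σ) x)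
  -- the homotopy `j ≃ j R`
  have hcell : ∀ i : c.C, ∃ e : C(D n × I, ((X₀.att c).att d).Z),
      (∀ x t, e (sd n x, t) = ai d (h0 (c.φ i x) t)) ∧
      (∀ x, e (x, 0) = ai d (ac c 1 i x)) ∧ ∀ x, e (x, 1) = ai d (R (ac c 1 i x)) := by
    intro i
    exact hv i (ai d) (ac d 1 (Sum.inr i)) (fun y => ac_sd1 d (Sum.inr i) y)
  choose e he1 he2 he3 using hcell
  let jh0 : C(X₀.Z, C(I, ((X₀.att c).att d).Z)) := ⟨fun z => (ai d).comp (h0 z),
    (ContinuousMap.continuous_postcomp (ai d)).comp h0.continuous⟩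
  obtain ⟨H, hH1, hH2, -⟩ := att_glueG c jh0
    (fun (g : G) z => by
      ext t
      show ai d (h0 (g • z) t) = g • ai d (h0 z t)
      rw [h0e]; rfl)
    (fun i => (e i).curry) (by
      intro i x
      ext t
      exact he1 i x t)
  have hHh : ∀ z : (X₀.att c).Z, H z 0 = ai d z ∧ H z 1 = ai d (R z) := by
    intro z
    induction z using att_cases with
    | hZ z =>
      rw [hH1]
      exact ⟨congrArg (ai d) (h0h z).1, congrArg (ai d) (h0h z).2⟩
    | hB g i x =>
      rw [hH2]
      have e2 : ai d (ac c g i x) = g • ai d (ac c 1 i x) := by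
        rw [ac_eq c g i x]; exact hj g _
      have e3 : ai d (R (ac c g i x)) = g • ai d (R (ac c 1 i x)) := by
        rw [ac_eq c g i x]
        exact (congrArg (ai d) (hR g _)).trans (hj g _)
      constructor
      · refine Eq.trans ?_ e2.symm
        rw [← he2]; rfl
      · refine Eq.trans ?_ e3.symm
        rw [← he3]; rfl
  -- fillings
  intro m hm α
  have : T2Space (X₀.att c).Z := t2_of_orbSep hsep
  obtain ⟨β, hβ⟩ := Crest.Agent.R185.Cell.compress (Z := (X₀.att c).Z) (φ := d.φ) hm α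
  refine ext_of_homotopic hβ ?_
  rcases Nat.lt_or_ge m (n + 1) with hmn | hmn
  · obtain ⟨w, hw⟩ := hFill m (Nat.lt_succ_iff.1 hmn) β
    exact ⟨(ai d).comp w, fun x => congrArg (ai d) (hw x)⟩
  · have hmn' : m = n + 1 := le_antisymm hm hmn
    subst hmn'
    -- homotopy from `jβ` to `jRβ`
    have hhom : ContinuousMap.Homotopic ((ai d).comp β) ((ai d).comp (R.comp β)) := by
      refine ⟨⟨⟨fun p => H (β p.2) p.1, ?_⟩, fun x => (hHh (β x)).1, fun x => (hHh (β x)).2⟩⟩
      have h1 : Continuous fun p : I × S (n + 1) => (H (β p.2), p.1) :=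
        (H.continuous.comp (β.continuous.comp continuous_snd)).prodMk continuous_fst
      exact ContinuousEval.continuous_eval.comp h1
    refine ext_of_homotopic hhom ?_
    obtain ⟨g1, hg1⟩ := hJ' (s.comp β)
    obtain ⟨g2, hg2⟩ := fill_skel (s.comp β) g1 hg1
    refine ⟨r'.comp ((mi hF2 (le_max_right L L') le_rfl).comp g2), fun x => ?_⟩
    show r' (mi hF2 (le_max_right L L') le_rfl (g2 (sd (n + 1) x))) = ai d (R (β x))
    have h1 : mi hF2 (le_max_right L L') le_rfl (g2 (sd (n + 1) x)) =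
        mi (Finset.Subset.refl F'') le_rfl (Nat.le_succ (n + 1)) (s'' (β x)) :=
      Cx.R.ext_m (hg2 x)
    rw [h1, hr']
    rfl

end step

section final

variable {G : Type} [Group G]

/-- the inductive property of the stages -/
def PP (G : Type) [Group G] : ℕ → GSp G → Prop
  | 0, X => X = GSp.emp G
  | n + 1, X => ∃ (X₀ : GSp G) (c : Cells X₀ n), X = X₀.att c ∧ Fill n X.Z ∧ HomP n X₀ ∧
      OrbSep G X.Z ∧ ∃ (F : Finset G) (L : ℕ) (s : C(X.Z, MJ F L (n + 1))),
        ∀ (g : G) z, s (g • z) = g • s z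

theorem pp_zero : ∃ c : Cells (GSp.emp G) 0, PP G 1 ((GSp.emp G).att c) := by
  let c : Cells (GSp.emp G) 0 := ⟨Unit, fun _ => ⟨fun s => absurd s.norm_eq (by
    have : (s : Fin 0 → ℝ) = 0 := Subsingleton.elim _ _
    rw [this, norm_zero]; exact zero_ne_one), by
      rw [continuous_def]; intro U _
      convert isOpen_empty
      ext s
      exact absurd s.norm_eq (by
        have : (s : Fin 0 → ℝ) = 0 := Subsingleton.elim _ _
        rw [this, norm_zero]; exact zero_ne_one)⟩⟩
  refine ⟨c, GSp.emp G, c, rfl, ?_, homP_emp, ?_, ?_⟩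
  · intro m hm f
    obtain rfl := Nat.le_zero.1 hm
    refine ⟨ContinuousMap.const _ (chr c.φ 1 () ⟨0, by simp⟩), fun s => absurd s.norm_eq (by
        have : (s : Fin 0 → ℝ) = 0 := Subsingleton.elim _ _
        rw [this, norm_zero]; exact zero_ne_one)⟩
  · exact orbSep (φ := c.φ) (fun z => Empty.elim z)
  · let s0 : C((GSp.emp G).Z, MJ (∅ : Finset G) 0 0) := ⟨fun z => Empty.elim z, by
      rw [continuous_def]; intro U _
      convert isOpen_empty
      ext z; exact Empty.elim z⟩
    exact smap_step (GSp.emp G) c s0 (fun g z => Empty.elim z)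

theorem pp_step (hJ : JF G) (n : ℕ) (X : GSp G) (hX : PP G n X) :
    ∃ c : Cells X n, PP G (n + 1) (X.att c) := by
  cases n with
  | zero =>
    have : X = GSp.emp G := hX
    subst this
    exact pp_zero
  | succ n =>
    obtain ⟨X₀, c, rfl, h1, h2, h3, h4⟩ := hX
    obtain ⟨d, hd1, hd2, hd3, hd4⟩ := build_step hJ X₀ c h1 h2 h3 h4
    exact ⟨d, X₀.att c, d, rfl, hd1, hd2, hd3, hd4⟩

/-- **The builder.** -/
theorem build : BuildTarget := by
  intro G _ hJ
  classical
  let F : ∀ (m : ℕ) (X : GSp G), Cells X m := fun m X =>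
    if h : PP G m X then Classical.choose (pp_step hJ m X h) else Cells.none X m
  have hP : ∀ n, PP G n (tower F n) := by
    intro n
    induction n with
    | zero => rfl
    | succ n ih =>
      have h1 : F n (tower F n) = Classical.choose (pp_step hJ n (tower F n) ih) := dif_pos ih
      show PP G (n + 1) ((tower F n).att (F n (tower F n)))
      rw [h1]
      exact Classical.choose_spec (pp_step hJ n (tower F n) ih)
  refine final_of_stages F fun N m f => ?_
  obtain ⟨-, -, -, hfill, -⟩ := hP (max N m + 1)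
  obtain ⟨i, hi, -⟩ := exists_inc F (show N ≤ max N m + 1 by omega)
  obtain ⟨g, hg⟩ := hfill m (le_max_right N m) (i.comp f)
  exact ⟨max N m + 1, by omega, g, fun s => by rw [hg]; exact hi _⟩

end final

end Crest.Agent.R185.Bld
end

-- ▼ part R185/Hur8
section

/-!
# Row 185, T6: `TNull G` and finite presentability give `JF G`
-/

set_option autoImplicit false
set_option linter.unusedSectionVars false

open Set Metric Topology
open Crest.Agent.R185.Att
open Crest.Agent.R185.Bld

local notation "I" => unitInterval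

namespace Crest.Agent.R185.Hur

variable {G : Type} [Group G]

/-- ordered simplices of scale `(F, L)` in the Milnor model -/
def sim (F : Finset G) (L : ℕ) (q : ℕ) : Set (Fin (q + 1) → G × ℕ) :=
  {v | StrictMono (fun i => (v i).2) ∧ (∀ i, (v i).2 < L) ∧ ∀ i j, (v i).1⁻¹ * (v j).1 ∈ F}

/-- chains of scale `(F, L)` -/
def ChS (F : Finset G) (L : ℕ) (q : ℕ) : Submodule ℤ (Chn (G × ℕ) q) :=
  Finsupp.supported ℤ ℤ (sim F L q)

/-- (reduced) cycles -/
def Cyc {V : Type} : ∀ q : ℕ, Chn V q → Prop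
  | 0, z => (z.sum fun _ a => a) = 0
  | q + 1, z => dd q z = 0

variable (G) in
/-- **the chain level hypothesis**: cycles of scale `(F, L)` bound at scale `(F', L')` -/
def TNull : Prop := ∀ (n : ℕ) (F : Finset G) (L : ℕ), ∃ (F' : Finset G) (L' : ℕ),
  ∀ z ∈ ChS F L n, Cyc n z → ∃ b ∈ ChS F' L' (n + 1), dd n b = z

theorem sim_mono {F F' : Finset G} {L L' : ℕ} (hF : F ⊆ F') (hL : L ≤ L') {q : ℕ} :
    sim F L q ⊆ sim F' L' q := fun _ h =>
  ⟨h.1, fun i => (h.2.1 i).trans_le hL, fun i j => hF (h.2.2 i j)⟩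

theorem ChS_mono {F F' : Finset G} {L L' : ℕ} (hF : F ⊆ F') (hL : L ≤ L') {q : ℕ} :
    ChS F L q ≤ ChS F' L' q := Finsupp.supported_mono (sim_mono hF hL)

theorem sim_face {F : Finset G} {L : ℕ} {q : ℕ} {v : Fin (q + 2) → G × ℕ} (h : v ∈ sim F L (q + 1))
    (j : Fin (q + 2)) : v ∘ j.succAbove ∈ sim F L q :=
  ⟨h.1.comp (Fin.strictMono_succAbove j), fun _ => h.2.1 _, fun _ _ => h.2.2 _ _⟩

theorem single_mem_ChS {F : Finset G} {L : ℕ} {q : ℕ} {v : Fin (q + 1) → G × ℕ}
    (h : v ∈ sim F L q) (a : ℤ) : Finsupp.single v a ∈ ChS F L q :=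
  Finsupp.single_mem_supported ℤ a h

/-- partial contractions -/
theorem contr (hT : TNull G) (q : ℕ) (F : Finset G) (L : ℕ) : ∃ (F' : Finset G) (L' : ℕ)
    (f : (Fin (q + 1) → G × ℕ) → Chn (G × ℕ) (q + 1)), ∀ s ∈ sim F L (q + 1),
      (Finsupp.single s 1 - ∑ j : Fin (q + 2), ((-1 : ℤ) ^ (j : ℕ)) • f (s ∘ j.succAbove)) ∈
        ChS F' L' (q + 1) ∧
      dd q (Finsupp.single s 1 - ∑ j : Fin (q + 2), ((-1 : ℤ) ^ (j : ℕ)) • f (s ∘ j.succAbove)) = 0 := by
  classical
  induction q with
  | zero =>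
    obtain ⟨F', L', h⟩ := hT 0 (insert 1 F) (max L 1)
    let r0 : Fin 1 → G × ℕ := fun _ => (1, 0)
    have hex : ∀ r : Fin (0 + 1) → G × ℕ, r ∈ sim F L 0 → ∃ b ∈ ChS F' L' 1,
        dd 0 b = Finsupp.single r 1 - Finsupp.single r0 1 := by
      intro r hr
      apply h
      · refine Submodule.sub_mem _ (single_mem_ChS (sim_mono (Finset.subset_insert _ _)
          (le_max_left _ _) hr) _) (single_mem_ChS ⟨?_, ?_, ?_⟩ _)
        · intro i j hij
          have := i.2; have := j.2
          rw [Fin.lt_def] at hij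
          omega
        · intro i; exact lt_of_lt_of_le zero_lt_one (le_max_right _ _)
        · intro i j
          show (1 : G)⁻¹ * 1 ∈ _
          simp
      · show (Finsupp.sum _ fun _ a => a) = 0
        rw [Finsupp.sum_sub_index (fun _ _ _ => rfl), Finsupp.sum_single_index rfl,
          Finsupp.sum_single_index rfl, sub_self]
    choose! f hf1 hf2 using hex
    refine ⟨F ∪ F', max L L', f, fun s hs => ⟨?_, ?_⟩⟩
    · refine Submodule.sub_mem _ (single_mem_ChS (sim_mono Finset.subset_union_left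
        (le_max_left _ _) hs) _) (Submodule.sum_mem _ fun j _ => Submodule.smul_mem _ _ ?_)
      exact ChS_mono Finset.subset_union_right (le_max_right _ _) (hf1 _ (sim_face hs j))
    · rw [map_sub, dd_single, map_sum]
      simp only [map_smul]
      rw [Finset.sum_congr rfl fun j _ => by rw [hf2 _ (sim_face hs j)]]
      unfold ddt
      simp only [smul_sub]
      rw [Finset.sum_sub_distrib, sub_sub_cancel, Fin.sum_univ_two]
      simp
  | succ q ih =>
    obtain ⟨F1, L1, f1, hf1⟩ := ih
    obtain ⟨F', L', h⟩ := hT (q + 1) F1 L1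
    have hex : ∀ s : Fin (q + 1 + 1) → G × ℕ, s ∈ sim F L (q + 1) → ∃ b ∈ ChS F' L' (q + 2),
        dd (q + 1) b = Finsupp.single s 1 -
          ∑ j : Fin (q + 2), ((-1 : ℤ) ^ (j : ℕ)) • f1 (s ∘ j.succAbove) := fun s hs =>
      h _ (hf1 s hs).1 (hf1 s hs).2
    choose! f hf2 hf3 using hex
    refine ⟨F ∪ F', max L L', f, fun t ht => ⟨?_, ?_⟩⟩
    · refine Submodule.sub_mem _ (single_mem_ChS (sim_mono Finset.subset_union_left
        (le_max_left _ _) ht) _) (Submodule.sum_mem _ fun j _ => Submodule.smul_mem _ _ ?_)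
      exact ChS_mono Finset.subset_union_right (le_max_right _ _) (hf2 _ (sim_face ht j))
    · rw [map_sub, dd_single, map_sum]
      simp only [map_smul]
      rw [Finset.sum_congr rfl fun j _ => by rw [hf3 _ (sim_face ht j)]]
      simp only [smul_sub]
      rw [Finset.sum_sub_distrib]
      have e1 : ∑ j : Fin (q + 3), ((-1 : ℤ) ^ (j : ℕ)) • Finsupp.single (t ∘ j.succAbove) (1 : ℤ) =
          ddt t := rfl
      rw [e1, sub_sub_cancel]
      -- the double sum vanishes
      let Ff : Chn (G × ℕ) q →ₗ[ℤ] Chn (G × ℕ) (q + 1) := Finsupp.linearCombination ℤ f1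
      have hFf : ∀ v, Ff (Finsupp.single v 1) = f1 v := fun v => by simp [Ff]
      have h0 : (Ff.comp (dd q)) (ddt t) = 0 := by rw [LinearMap.comp_apply, dd_ddt, map_zero]
      rw [map_ddt (Ff.comp (dd q))] at h0
      simp only [LinearMap.comp_apply, dd_single, map_ddt, hFf] at h0
      exact h0

/-! ### the model as a levelled complex -/

theorem lev_mil (F : Finset G) (L k : ℕ) : Lev (mil F L k) Prod.snd :=
  fun _ hs a ha b hb h => (hs.1 a ha b hb).2 h

theorem os_of_sim {F : Finset G} {L k q : ℕ} (hq : q + 1 ≤ k) {v : Fin (q + 1) → G × ℕ}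
    (h : v ∈ sim F L q) : Os (mil F L k) Prod.snd v := by
  classical
  refine ⟨h.1, fun s _ hv => ⟨?_, ?_, ?_⟩⟩
  · intro a ha b hb
    obtain ⟨i, rfl⟩ := hv a ha
    obtain ⟨j, rfl⟩ := hv b hb
    exact ⟨h.2.2 i j, fun hij => congrArg v (h.1.injective hij)⟩
  · intro a ha
    obtain ⟨i, rfl⟩ := hv a ha
    exact h.2.1 i
  · refine (Finset.card_le_card (t := Finset.univ.image v) fun a ha => ?_).trans
      (Finset.card_image_le.trans (by simpa using hq))
    obtain ⟨i, hi⟩ := hv a ha
    simp only [Finset.mem_image, Finset.mem_univ, true_and]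
    exact ⟨i, hi⟩

theorem sim_of_os {F : Finset G} {L k q : ℕ} {v : Fin (q + 1) → G × ℕ}
    (h : Os (mil F L k) Prod.snd v) : v ∈ sim F L q := by
  classical
  have h1 : Finset.univ.image v ∈ (mil F L k).s :=
    h.2 _ ⟨v 0, by simp⟩ fun a ha => by simpa using ha
  exact ⟨h.1, fun i => h1.2.1 _ (by simp), fun i j => (h1.1 _ (by simp) _ (by simp)).1⟩

/-- null-homotopies of the `(n+1)`-skeleta (at most `n+2` vertices) -/
theorem tn_all (hG : Group.IsFinitelyPresented G) (hT : TNull G) (n : ℕ) : ∀ (F : Finset G) (L : ℕ),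
    ∃ (F' : Finset G) (L' : ℕ) (hs : (mil F L (n + 2)).s ⊆ (mil F' L' L').s) (w : MJ F' L' L'),
      (inc hs).Homotopic (ContinuousMap.const _ w) := by
  classical
  induction n with
  | zero =>
    intro F L
    obtain ⟨F', L', hF, hL, w, H, h0, h1⟩ := Base.tn1 hG F L
    refine ⟨F', max L' 2, fun s hs => ⟨fun a ha b hb => ⟨hF (hs.1 a ha b hb).1, (hs.1 a ha b hb).2⟩,
      fun a ha => (hs.2.1 a ha).trans_le (hL.trans (le_max_left _ _)),
      hs.2.2.trans (le_max_right _ _)⟩, ?_⟩
    have hsub : (mil F' L' L').s ⊆ (mil F' (max L' 2) (max L' 2)).s :=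
      mil_mono (Finset.Subset.refl _) (le_max_left _ _) (le_max_left _ _)
    refine ⟨inc hsub w, ⟨⟨⟨fun p => inc hsub (H (p.2, p.1)), by fun_prop⟩, fun p => ?_, fun p => ?_⟩⟩⟩
    · apply Cx.R.ext_m
      exact h0 p
    · show inc hsub (H (p, 1)) = _
      rw [h1]; rfl
  | succ n ih =>
    intro F L
    obtain ⟨F1, L1, f, hf⟩ := contr hT (n + 1) F L
    obtain ⟨F2, L2, h2⟩ := hT (n + 2) F1 L1
    let F3 := F ∪ F2
    let L3 := max L L2
    obtain ⟨F4, L4, hs4, w, hw⟩ := ih F3 L3
    let F5 := F3 ∪ F4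
    let L5 := max L3 (max L4 (n + 4))
    let K := mil F L (n + 3)
    let K1 := mil F3 L3 (n + 4)
    have hKK : K.s ⊆ K1.s := mil_mono Finset.subset_union_left (le_max_left _ _) (by omega)
    have h15 : K1.s ⊆ (mil F5 L5 L5).s := mil_mono Finset.subset_union_left (le_max_left _ _)
      ((le_max_right _ _).trans (le_max_right _ _))
    have h45 : (mil F4 L4 L4).s ⊆ (mil F5 L5 L5).s := mil_mono Finset.subset_union_right
      ((le_max_left _ _).trans (le_max_right _ _)) ((le_max_left _ _).trans (le_max_right _ _))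
    have hsk : (sk (n + 1 + 1 + 2) K1).s ⊆ K1.s := fun s hs => hs.1
    let J : C((sk (n + 1 + 1 + 2) K1).R, MJ F5 L5 L5) := inc (hsk.trans h15)
    have hJ : (J.comp (inc (sk_sub K1 (Nat.le_add_right (n + 1 + 1) 2)))).Homotopic
        (ContinuousMap.const _ (inc h45 w)) := by
      have hsub : (sk (n + 1 + 1) K1).s ⊆ (mil F3 L3 (n + 2)).s := fun s hs =>
        ⟨hs.1.1, hs.1.2.1, hs.2⟩
      have h5 : ((inc h45).comp ((inc hs4).comp (inc hsub))).Homotopic
          ((inc h45).comp ((ContinuousMap.const _ w).comp (inc hsub))) :=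
        ContinuousMap.Homotopic.comp (ContinuousMap.Homotopic.refl _)
          (ContinuousMap.Homotopic.comp hw (ContinuousMap.Homotopic.refl _))
      exact h5
    obtain ⟨H, H0, H1⟩ := step_null (ℓ := Prod.snd) (k := n + 1) K K1 hKK (lev_mil _ _ _) J
      (inc h45 w) hJ f (by
        intro s hs
        have hs' : s ∈ sim F L (n + 2) := sim_of_os hs
        obtain ⟨b, hb, hbs⟩ := h2 _ (hf s hs').1 (hf s hs').2
        refine ⟨b, ?_, hbs⟩
        have hb' : b ∈ ChS F3 L3 (n + 3) := ChS_mono Finset.subset_union_right (le_max_right _ _) hb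
        exact Finsupp.supported_mono (fun t ht => os_of_sim le_rfl ht) hb')
    refine ⟨F5, L5, hKK.trans h15, inc h45 w, ?_⟩
    have hsub : K.s ⊆ (sk (n + 1 + 2) K).s := fun s hs => ⟨hs, hs.2.2⟩
    rw [homotopic_iff]
    refine ⟨H.comp (inc hsub), fun p => ?_, fun p => H1 _⟩
    have hsub3 : K.s ⊆ (sk (n + 1 + 1 + 2) K1).s := fun s hs =>
      ⟨hKK hs, hs.2.2.trans (by omega)⟩
    exact H0 (inc hsub p) (inc hsub3 p) rfl

/-- **TNTarget** -/
theorem jf_of_tnull (hG : Group.IsFinitelyPresented G) (hT : TNull G) : JF G := by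
  intro n F L
  obtain ⟨F', L', hs, w, hw⟩ := tn_all hG hT n F L
  refine ⟨F', L', fun f => ?_⟩
  have hsub : (mil F L n).s ⊆ (mil F L (n + 2)).s :=
    mil_mono (Finset.Subset.refl _) le_rfl (by omega)
  have h1 : ((inc hs).comp ((inc hsub).comp f)).Homotopic
      ((ContinuousMap.const _ w).comp ((inc hsub).comp f)) :=
    ContinuousMap.Homotopic.comp hw (ContinuousMap.Homotopic.refl _)
  obtain ⟨g, hg⟩ := ext_of_homotopic h1 ⟨ContinuousMap.const _ w, fun s => rfl⟩
  exact ⟨g, fun s => by rw [hg]; rfl⟩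

end Crest.Agent.R185.Hur
end

-- ▼ part R185/Lev2
section

/-!
# Row 185, levelled chains, part 2: chains on tuples; nullness of the identity (`Null2`) implies the
hypothesis `Hur.TNull` of block T6.
-/

set_option autoImplicit false
set_option linter.unusedSectionVars false

namespace Crest.Agent.R185.Lev

open Finsupp Crest.Agent.R185.Null

section tuples

variable {α : Type}

/-- boundary of chains on tuples -/
noncomputable def dF {k : ℕ} : ((Fin (k + 1) → α) →₀ ℤ) →ₗ[ℤ] ((Fin k → α) →₀ ℤ) :=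
  Finsupp.linearCombination ℤ fun v => ∑ i : Fin (k + 1), (-1 : ℤ) ^ (i : ℕ) • single (v ∘ i.succAbove) 1

theorem dF_single {k : ℕ} (v : Fin (k + 1) → α) :
    dF (single v 1) = ∑ i : Fin (k + 1), (-1 : ℤ) ^ (i : ℕ) • single (v ∘ i.succAbove) 1 := by
  simp [dF]

/-- tuples to lists -/
noncomputable def lo {k : ℕ} : ((Fin k → α) →₀ ℤ) →ₗ[ℤ] Ch α := Finsupp.lmapDomain ℤ ℤ List.ofFn

@[simp] theorem lo_single {k : ℕ} (v : Fin k → α) (n : ℤ) :
    lo (single v n) = single (List.ofFn v) n := by simp [lo]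

theorem lo_inj {k : ℕ} : Function.Injective (lo : ((Fin k → α) →₀ ℤ) → Ch α) :=
  Finsupp.mapDomain_injective List.ofFn_injective

theorem dl_ofFn {k : ℕ} (v : Fin (k + 1) → α) :
    dl (List.ofFn v) = ∑ i : Fin (k + 1), (-1 : ℤ) ^ (i : ℕ) • single (List.ofFn (v ∘ i.succAbove)) 1 := by
  induction k with
  | zero =>
    simp [dl_cons]
  | succ k ih =>
    rw [List.ofFn_succ, Fin.sum_univ_succ]
    have h1 : dl (v 0 :: List.ofFn fun i => v i.succ) =
        single (List.ofFn fun i => v i.succ) 1 - pre (v 0) (dl (List.ofFn fun i => v i.succ)) := rfl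
    rw [h1, ih (fun i => v i.succ), map_sum]
    have h2 : ∀ i : Fin (k + 1), pre (v 0) ((-1 : ℤ) ^ (i : ℕ) •
        single (List.ofFn ((fun i => v i.succ) ∘ i.succAbove)) 1) =
        (-1 : ℤ) ^ (i : ℕ) • single (List.ofFn (v ∘ i.succ.succAbove)) 1 := by
      intro i
      rw [map_smul, pre_single, List.ofFn_succ (f := v ∘ i.succ.succAbove)]
      simp only [Function.comp_apply, Fin.succ_succAbove_zero, Fin.succ_succAbove_succ]
      rfl
    simp only [h2]
    simp only [Fin.val_zero, pow_zero, one_smul, Fin.val_succ, pow_succ, mul_neg, mul_one, neg_smul,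
      Finset.sum_neg_distrib]
    rw [sub_eq_add_neg]
    congr 1

theorem lo_dF {k : ℕ} (z : (Fin (k + 1) → α) →₀ ℤ) : lo (dF z) = Dl (lo z) := by
  have : (lo (α := α)).comp (dF (k := k)) = Dl.comp lo := lin_ext fun v => by
    simp only [LinearMap.comp_apply, dF_single, lo_single, Dl_single, one_smul, dl_ofFn, map_sum,
      map_smul]
  exact LinearMap.congr_fun this z

end tuples

section null

variable {G : Type} [Group G]

theorem srt_ofFn {k : ℕ} {v : Fin k → G × ℕ} (h : StrictMono fun i => (v i).2) :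
    Srt (List.ofFn v) := by
  unfold Srt
  rw [List.pairwise_ofFn]
  intro i j hij
  exact h hij

/-- the finite set of normalised lists -/
theorem finite_lists (F : Finset G) (L k : ℕ) :
    {x : (J G).X | x.1.length = k ∧ ∀ a ∈ x.1, a.1 ∈ F ∧ a.2 < L}.Finite := by
  classical
  have h1 : {x : List (G × ℕ) | x.length = k ∧ ∀ a ∈ x, a ∈ F ×ˢ Finset.range L}.Finite := by
    have := List.finite_length_eq (F ×ˢ Finset.range L : Finset (G × ℕ)) k
    refine (this.image (List.map Subtype.val)).subset ?_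
    rintro x ⟨hx, hx'⟩
    refine ⟨x.attachWith (fun a => a ∈ F ×ˢ Finset.range L) hx', ?_, ?_⟩
    · simpa using hx
    · exact List.attachWith_map_subtype_val hx'
  refine (h1.preimage (f := fun x : (J G).X => x.1) (fun a _ b _ h => Subtype.ext h)).subset ?_
  rintro x ⟨hx, hx'⟩
  refine ⟨hx, fun a ha => ?_⟩
  rw [Finset.mem_product, Finset.mem_range]
  exact hx' a ha

theorem EJ_eq_sum (c : (J G).X →₀ ℤ) (hc : c ∈ (J G).Dg 0) : (J G).E c = c.sum fun _ a => a := by
  show Finsupp.linearCombination ℤ jep c = _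
  rw [Finsupp.linearCombination_apply]
  refine Finsupp.sum_congr fun x hx => ?_
  have h1 : x.1.length = 1 := len_of_mem hc hx
  simp [jep, h1]

theorem tnull_of_bac (h : ∀ n, BAc (J G).toPCx n) : Hur.TNull G := by
  classical
  intro n F L
  obtain ⟨T', hT', hT⟩ := h n _ (finite_lists F L (n + 1))
  let F' : Finset G := hT'.toFinset.biUnion fun x => (x.1.toFinset ×ˢ x.1.toFinset).image
    fun p => p.1.1⁻¹ * p.2.1
  let L' : ℕ := hT'.toFinset.sup fun x => (x.1.map Prod.snd).sum + 1
  refine ⟨F', L', fun z hz h0 => ?_⟩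
  have hz' : ∀ v ∈ z.support, v ∈ Hur.sim F L n := fun v hv => (Finsupp.mem_supported ℤ z).1 hz hv
  have hsrt : ∀ y ∈ (lo z).support, ∃ v ∈ z.support, List.ofFn v = y := by
    intro y hy
    have := Finsupp.mapDomain_support hy
    rw [Finset.mem_image] at this
    exact this
  have hs' : ∀ y ∈ (lo z).support, Srt y ∧ y ≠ [] := by
    intro y hy
    obtain ⟨v, hv, rfl⟩ := hsrt y hy
    refine ⟨srt_ofFn (hz' v hv).1, ?_⟩
    simp
  have hem : em (re (lo z)) = lo z := em_re hs'
  have hside1 : re (lo z) ∈ (J G).Dg n := by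
    refine (Finsupp.mem_supported ℤ _).2 fun x hx => ?_
    obtain ⟨v, hv, hvx⟩ := hsrt x.1 (mem_re.1 hx)
    show x.1.length - 1 = n
    rw [← hvx]
    simp
  have hside2 : re (lo z) ∈ (J G).Bs {x | x.1.length = n + 1 ∧ ∀ a ∈ x.1, a.1 ∈ F ∧ a.2 < L} := by
    refine (Finsupp.mem_supported ℤ _).2 fun x hx => ?_
    obtain ⟨v, hv, hvx⟩ := hsrt x.1 (mem_re.1 hx)
    obtain ⟨h1, h2, h3⟩ := hz' v hv
    refine ⟨(J G).sm (v 0).1⁻¹ x, ⟨?_, ?_⟩, (v 0).1, ?_⟩
    · show (mv _ x.1).length = n + 1
      rw [← hvx]; simp [mv]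
    · intro a ha
      have ha' : a ∈ mv (v 0).1⁻¹ x.1 := ha
      unfold mv at ha'
      rw [List.mem_map] at ha'
      obtain ⟨a', ha', rfl⟩ := ha'
      rw [← hvx, List.mem_ofFn] at ha'
      obtain ⟨i, rfl⟩ := ha'
      exact ⟨h3 0 i, h2 i⟩
    · rw [← (J G).sm_mul, mul_inv_cancel, (J G).sm_one]
  have hside4 : (J G).E (re (lo z)) = 0 := by
    rcases Nat.eq_zero_or_pos n with rfl | hn
    · rw [EJ_eq_sum _ hside1]
      have h1 : (z.sum fun _ a => a) = 0 := h0
      have h2 : ∀ c : JX G →₀ ℤ, (c.sum fun _ a => a) = ((em c).sum fun _ a => a) := by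
        intro c
        show _ = (Finsupp.mapDomain Subtype.val c).sum fun _ a => a
        rw [Finsupp.sum_mapDomain_index (by simp) (by simp)]
      have h3 : ∀ c : (Fin 1 → G × ℕ) →₀ ℤ, (c.sum fun _ a => a) = ((lo c).sum fun _ a => a) := by
        intro c
        show _ = (Finsupp.mapDomain List.ofFn c).sum fun _ a => a
        rw [Finsupp.sum_mapDomain_index (by simp) (by simp)]
      rw [h2, hem, ← h3, h1]
    · exact (J G).E_eq_zero (by omega) hside1
  have hside3 : (J G).D (re (lo z)) = 0 := by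
    cases n with
    | zero => exact (J G).D_zero hside1
    | succ n =>
      apply em_inj
      rw [em_D, hside4, hem, map_zero, zero_smul, sub_zero, ← lo_dF]
      have h1 : dF z = 0 := h0
      rw [h1, map_zero]
  obtain ⟨c, hc1, hc2, hc3⟩ := (J G).mem_Bo.1 (hT ((J G).mem_Cy.2 ⟨hside1, hside2, hside3, hside4⟩))
  -- back to tuples
  have hcl : ∀ y ∈ (em (G := G) c).support, y.length = n + 2 := by
    intro y hy
    obtain ⟨x, hx, rfl⟩ := mem_em hy
    exact len_of_mem hc1 hx
  let b : (Fin (n + 2) → G × ℕ) →₀ ℤ :=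
    Finsupp.comapDomain List.ofFn (em (G := G) c) List.ofFn_injective.injOn
  have hb : lo b = em (G := G) c := by
    refine Finsupp.mapDomain_comapDomain _ List.ofFn_injective _ ?_
    intro y hy
    have hl := hcl y hy
    refine ⟨fun i => y.get (i.cast hl.symm), ?_⟩
    apply List.ext_getElem
    · simp [hl]
    · intro i h1 h2
      rw [List.getElem_ofFn]
      rfl
  refine ⟨b, (Finsupp.mem_supported ℤ b).2 fun v hv => ?_, ?_⟩
  · have hv' : List.ofFn v ∈ (em (G := G) c).support := by
      have hv0 : v ∈ b.support := hv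
      rw [Finsupp.mem_support_iff] at hv0 ⊢
      rwa [Finsupp.comapDomain_apply] at hv0
    obtain ⟨x, hx, hxv⟩ := mem_em hv'
    obtain ⟨y, hy, g, hyx⟩ := (Finsupp.mem_supported ℤ _).1 hc2 hx
    have hxy : x.1 = mv g y.1 := congrArg Subtype.val hyx
    have hmem : ∀ i, ∃ a ∈ y.1, v i = (g * a.1, a.2) := by
      intro i
      have h1 : v i ∈ mv g y.1 := by
        rw [← hxy, hxv, List.mem_ofFn]
        exact ⟨i, rfl⟩
      unfold mv at h1
      rw [List.mem_map] at h1
      obtain ⟨a, ha, ha'⟩ := h1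
      exact ⟨a, ha, ha'.symm⟩
    refine ⟨?_, fun i => ?_, fun i j => ?_⟩
    · have h1 := x.2.1
      rw [hxv] at h1
      unfold Srt at h1
      rw [List.pairwise_ofFn] at h1
      intro i j hij
      exact h1 hij
    · obtain ⟨a, ha, hva⟩ := hmem i
      rw [hva]
      have h1 : (y.1.map Prod.snd).sum + 1 ≤ L' := Finset.le_sup (f := fun x : (J G).X =>
        (x.1.map Prod.snd).sum + 1) (by simpa using hy)
      have h2 : a.2 ≤ (y.1.map Prod.snd).sum :=
        List.single_le_sum (by simp) _ (List.mem_map_of_mem ha)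
      show a.2 < L'
      omega
    · obtain ⟨a, ha, hva⟩ := hmem i
      obtain ⟨a', ha', hva'⟩ := hmem j
      rw [hva, hva']
      simp only [F', Finset.mem_biUnion, Finset.mem_image, Finset.mem_product, List.mem_toFinset]
      refine ⟨y, by simpa using hy, (a, a'), ⟨ha, ha'⟩, ?_⟩
      simp only
      group
  · apply lo_inj
    have h1 : lo (Hur.dd n b) = Dl (lo b) := lo_dF b
    rw [h1, hb]
    have h2 := em_D (G := G) c
    rw [(J G).E_eq_zero (Nat.succ_ne_zero n) hc1, zero_smul, sub_zero, hc3, hem] at h2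
    exact h2.symm

/-- **The passage**: nullness of the identity in all degrees gives block T6's hypothesis. -/
theorem tnull_of_isNull (h : ∀ n, IsNull (MonoidHom.id G) n) : Hur.TNull G :=
  tnull_of_bac fun n => (null_id_iff J_acyclic).1 (h n)

/-- **TOP**: a finitely presented group with null identity has a classifying complex of finite type
as soon as the builder is applied to `JF`. -/
theorem jf_of_isNull (hG : Group.IsFinitelyPresented G) (h : ∀ n, IsNull (MonoidHom.id G) n) :
    Bld.JF G := Hur.jf_of_tnull hG (tnull_of_isNull h)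

end null

end Crest.Agent.R185.Lev
end

-- ▼ part R185/Fin1

/-!
# R185 / FINAL (1): the universal group of type `F∞` (S0279)
-/

set_option autoImplicit false

namespace Crest.Agent.R185.Fin

open Crest.Agent.R185.Null Crest.Agent.R185.Wu

/-- a finitely presented group is `0`-null -/
theorem null0 {G : Type} [Group G] (h : Group.IsFinitelyPresented G) :
    IsNull (MonoidHom.id G) 0 := by
  apply isNull_zero_of_fg
  obtain ⟨S, hSf, hS⟩ := Tor.exists_gen G h
  exact ⟨hSf.toFinset, by rw [Set.Finite.coe_toFinset]; exact hS⟩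

/-- finitely presented + null in all degrees gives a finite type classifying complex -/
theorem finite_type {G : Type} [Group G] (hG : Group.IsFinitelyPresented G)
    (h : ∀ n, IsNull (MonoidHom.id G) n) : Crest.Topology.HasFiniteTypeClassifyingComplex G :=
  Bld.build G (Lev.jf_of_isNull hG h)

/-- **S0279** -/
theorem universal :
    ∃ (H : Type) (_ : Group H), Crest.Topology.HasFiniteTypeClassifyingComplex H ∧
      ∀ (G : Type) [Group G], Group.IsFinitelyPresented G →
        ∃ f : G →* H, Function.Injective f := by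
  obtain ⟨U, _, hU, huniv⟩ := Univ.exists_universal_fp
  obtain ⟨K, _, R, hK, hR⟩ := exists_W U hU
  obtain ⟨j, hj⟩ := huniv K hK
  obtain ⟨Γ, _, ι, t, ht, hΓ, hT⟩ := Tor.exists_torus U hU (j.comp R.β) (hj.comp hR)
  have hpow : ∀ n, ∃ N : ℕ, IsNull (ipow (j.comp R.β) N) n := by
    apply exists_pow_null _ (null0 hU)
    intro n hn φ hφ
    exact (R.null hφ hn).comp j
  have hnull : ∀ n, IsNull (MonoidHom.id Γ) n := fun n =>
    torus_null ι hT.inj t (j.comp R.β) hT.conj ht hT.height_ι hT.height_t hT.form hpow n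
  refine ⟨Γ, inferInstance, finite_type hΓ hnull, ?_⟩
  intro G _ hG
  obtain ⟨f, hf⟩ := huniv G hG
  exact ⟨ι.comp f, hT.inj.comp hf⟩

end Crest.Agent.R185.Fin
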