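import Crest.Agent.R185.QFr2

/-!
# Row 185 (Q2): ordered marked partitions (helper424)

`Cls Γ Y` = charts modulo labels, `List (Cls Γ Y)` carries the action of `QG Γ Y`;
`IsOP x`: `x` is the list of classes of a translate of a cut.  `ole x y`: `y` is an expansion of `x`.
The two statements `FinOrb` and `StabIso` are what is needed for the finiteness properties.
-/

set_option autoImplicit false

namespace Crest.Agent.R185.Q

open Classical

/-- the label setoid -/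
def labS (Γ Y : Type) [Group Γ] [MulAction Γ Y] : Setoid (W Y → W Y) :=
  ⟨Lab Γ, Lab.refl, Lab.symm, Lab.trans⟩

/-- charts modulo labels -/
def Cls (Γ Y : Type) [Group Γ] [MulAction Γ Y] : Type := Quotient (labS Γ Y)

variable {Γ Y : Type} [Group Γ] [MulAction Γ Y]

/-- the class of a chart -/
def cls (Γ : Type) {Y : Type} [Group Γ] [MulAction Γ Y] (f : W Y → W Y) : Cls Γ Y :=
  Quotient.mk (labS Γ Y) f

theorem cls_eq {f g : W Y → W Y} : cls Γ f = cls Γ g ↔ Lab Γ f g := Quotient.eq (r := labS Γ Y)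

theorem cls_ac (f : W Y → W Y) (γ : Γ) : cls Γ (f ∘ ac γ) = cls Γ f :=
  cls_eq.2 (Lab.symm ⟨γ, rfl⟩)

theorem Cls.exists_rep (a : Cls Γ Y) : ∃ f, cls Γ f = a := Quotient.exists_rep a

/-- a representative -/
noncomputable def rep (a : Cls Γ Y) : W Y → W Y := a.exists_rep.choose

@[simp] theorem cls_rep (a : Cls Γ Y) : cls Γ (rep a) = a := a.exists_rep.choose_spec

instance : MulAction (QG Γ Y) (Cls Γ Y) where
  smul g := Quotient.map (fun f => (g.1 : W Y → W Y) ∘ f) (by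
    rintro f f' ⟨γ, rfl⟩
    exact ⟨γ, rfl⟩)
  one_smul a := by
    obtain ⟨f, rfl⟩ := a.exists_rep
    rfl
  mul_smul g h a := by
    obtain ⟨f, rfl⟩ := a.exists_rep
    rfl

theorem smul_cls (g : QG Γ Y) (f : W Y → W Y) : g • cls Γ f = cls Γ ((g.1 : W Y → W Y) ∘ f) := rfl

/-- divisibility of classes -/
def cle (a b : Cls Γ Y) : Prop := ∃ f m, cls Γ f = a ∧ M Γ m ∧ cls Γ (f ∘ m) = b

theorem cle_iff {f : W Y → W Y} {b : Cls Γ Y} :
    cle (cls Γ f) b ↔ ∃ m, M Γ m ∧ cls Γ (f ∘ m) = b := by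
  constructor
  · rintro ⟨f', m, h, hm, rfl⟩
    obtain ⟨γ, rfl⟩ := cls_eq.1 h
    refine ⟨ac γ⁻¹ ∘ m, M.ca _ _ hm, ?_⟩
    have : ((f' ∘ ac γ) ∘ ac γ⁻¹ ∘ m : W Y → W Y) = f' ∘ (ac γ ∘ ac γ⁻¹) ∘ m := rfl
    rw [this, ac_comp_inv]; rfl
  · rintro ⟨m, hm, rfl⟩
    exact ⟨f, m, rfl, hm, rfl⟩

theorem cle_refl (a : Cls Γ Y) : cle a a := by
  obtain ⟨f, rfl⟩ := a.exists_rep
  exact ⟨f, id, rfl, M.one, rfl⟩

theorem cle_trans {a b c : Cls Γ Y} (h : cle a b) (h' : cle b c) : cle a c := by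
  obtain ⟨f, rfl⟩ := a.exists_rep
  obtain ⟨m, hm, rfl⟩ := cle_iff.1 h
  obtain ⟨m', hm', rfl⟩ := cle_iff.1 h'
  exact cle_iff.2 ⟨m ∘ m', hm.comp hm', rfl⟩

theorem cle_smul (g : QG Γ Y) {a b : Cls Γ Y} (h : cle a b) : cle (g • a) (g • b) := by
  obtain ⟨f, rfl⟩ := a.exists_rep
  obtain ⟨m, hm, rfl⟩ := cle_iff.1 h
  exact ⟨(g.1 : W Y → W Y) ∘ f, m, rfl, hm, rfl⟩

/-- the action on lists of classes -/
instance : MulAction (QG Γ Y) (List (Cls Γ Y)) where
  smul g x := x.map (g • ·)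
  one_smul x := by
    change x.map (fun a => (1 : QG Γ Y) • a) = x
    simp
  mul_smul g h x := by
    change x.map (fun a => (g * h) • a) = (x.map (fun a => h • a)).map (fun a => g • a)
    simp [mul_smul]

theorem smul_list (g : QG Γ Y) (x : List (Cls Γ Y)) : g • x = x.map (g • ·) := rfl

theorem length_smul (g : QG Γ Y) (x : List (Cls Γ Y)) : (g • x).length = x.length := by
  rw [smul_list, List.length_map]

/-- `y` is an expansion of `x` -/
def ole (x y : List (Cls Γ Y)) : Prop := ∀ b ∈ y, ∃ a ∈ x, cle a b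

theorem ole_refl (x : List (Cls Γ Y)) : ole x x := fun b hb => ⟨b, hb, cle_refl b⟩

theorem ole_trans (x y z : List (Cls Γ Y)) (h : ole x y) (h' : ole y z) : ole x z := by
  intro c hc
  obtain ⟨b, hb, hbc⟩ := h' c hc
  obtain ⟨a, ha, hab⟩ := h b hb
  exact ⟨a, ha, cle_trans hab hbc⟩

theorem ole_smul (g : QG Γ Y) (x y : List (Cls Γ Y)) (h : ole x y) : ole (g • x) (g • y) := by
  intro b hb
  rw [smul_list, List.mem_map] at hb
  obtain ⟨b, hb, rfl⟩ := hb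
  obtain ⟨a, ha, hab⟩ := h b hb
  exact ⟨g • a, List.mem_map.2 ⟨a, ha, rfl⟩, cle_smul g hab⟩

/-- ordered marked partitions -/
def IsOP (x : List (Cls Γ Y)) : Prop :=
  ∃ (g : QG Γ Y) (L : List (W Y → W Y)), Cut Γ L ∧ x = g • (L.map (cls Γ))

theorem IsOP.smul {x : List (Cls Γ Y)} (h : IsOP x) (g : QG Γ Y) : IsOP (g • x) := by
  obtain ⟨k, L, hL, rfl⟩ := h
  exact ⟨g * k, L, hL, by rw [mul_smul]⟩


/-! ### the two statements -/

/-- finitely many orbits of bounded decreasing lists -/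
def FinOrb (Γ Y : Type) [Group Γ] [MulAction Γ Y] : Prop :=
  ∀ q k : ℕ, ∃ T : Set (List (List (Cls Γ Y))), T.Finite ∧
    ∀ t : List (List (Cls Γ Y)), t.length ≤ k → t.Pairwise (fun a b => ole b a) →
      (∀ x ∈ t, IsOP x ∧ x.length ≤ q) → ∃ g : QG Γ Y, t.map (g • ·) ∈ T

/-- stabilisers of decreasing lists are powers of `Γ` -/
def StabIso (Γ Y : Type) [Group Γ] [MulAction Γ Y] : Prop :=
  ∀ (t : List (List (Cls Γ Y))), t ≠ [] → t.Pairwise (fun a b => ole b a) → (∀ x ∈ t, IsOP x) →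
    ∀ S : Subgroup (QG Γ Y), (∀ g, g ∈ S ↔ ∀ x ∈ t, g • x = x) →
      ∃ s : ℕ, Nonempty (S ≃* (Fin s → Γ))

end Crest.Agent.R185.Q
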