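import Crest.Agent.R185.QFr2
import Crest.Agent.R185.QOP
import Crest.Agent.R185.QTh

-- ▼ part R185/QFr3
section

/-!
# Row 185 (Q2), frames 3: sizes, merges above a coarser frame (helper424)
-/

set_option autoImplicit false

namespace Crest.Agent.R185.Q

open Classical

variable {Γ Y : Type} [Group Γ] [MulAction Γ Y]

/-- choice of the data of `x ≤ y` -/
theorem fle_data {x y : Fr0 Y} (h : fle Γ x y) : ∃ (κ : ℕ → ℕ) (μ : ℕ → W Y → W Y),
    ∀ j ∈ y.1, κ j ∈ x.1 ∧ M Γ (μ j) ∧ y.2 j = x.2 (κ j) ∘ μ j := by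
  choose! κ hκ μ hμ using h
  exact ⟨κ, μ, fun j hj => ⟨hκ j hj, hμ j hj⟩⟩

theorem surjOn_of_data {x y : Fr0 Y} (hx : IsFr Γ x) (hy : IsFr Γ y) {κ : ℕ → ℕ}
    {μ : ℕ → W Y → W Y} (h : ∀ j ∈ y.1, κ j ∈ x.1 ∧ M Γ (μ j) ∧ y.2 j = x.2 (κ j) ∘ μ j) :
    Set.SurjOn κ (y.1 : Set ℕ) (x.1 : Set ℕ) := by
  intro i hi
  obtain ⟨j, hj, v, hv⟩ := hy.cov (x.2 i [])
  refine ⟨j, hj, ?_⟩
  rw [(h j hj).2.2] at hv
  exact (hx.eq_of (h j hj).1 hi hv).1

theorem card_le {x y : Fr0 Y} (hx : IsFr Γ x) (hy : IsFr Γ y) (h : fle Γ x y) :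
    x.1.card ≤ y.1.card := by
  obtain ⟨κ, μ, hd⟩ := fle_data h
  exact Finset.card_le_card_of_surjOn κ (surjOn_of_data hx hy hd)

theorem M.of_surj {m : W Y → W Y} (hm : M Γ m) (hs : Function.Surjective m) :
    ∃ γ : Γ, m = ac γ := by
  rcases hm.tri with h | ⟨y, m', -, rfl⟩ | ⟨y, m', -, rfl⟩
  · exact h
  · obtain ⟨t, ht⟩ := hs (ch y [])
    exact absurd ht (sh_ne_ch y _ _)
  · obtain ⟨t, ht⟩ := hs []
    simp at ht

theorem le_of_card {x y : Fr0 Y} (hx : IsFr Γ x) (hy : IsFr Γ y) (h : fle Γ x y)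
    (hc : y.1.card ≤ x.1.card) : fle Γ y x := by
  obtain ⟨κ, μ, hd⟩ := fle_data h
  have hs := surjOn_of_data hx hy hd
  have hinj : Set.InjOn κ (y.1 : Set ℕ) :=
    Finset.injOn_of_surjOn_of_card_le κ (fun j hj => (hd j hj).1) hs hc
  intro i hi
  obtain ⟨j, hj, rfl⟩ := hs hi
  have hsur : Function.Surjective (μ j) := by
    intro t
    obtain ⟨j', hj', t', ht'⟩ := hy.cov (x.2 (κ j) t)
    have h1 := ht'
    rw [(hd j' hj').2.2] at h1
    have h2 := (hx.eq_of (hd j' hj').1 (hd j hj).1 h1).1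
    have h3 : j' = j := hinj hj' hj h2
    subst h3
    exact ⟨t', (hx.eq_of (hd j' hj').1 (hd j' hj').1 h1).2⟩
  obtain ⟨γ, hγ⟩ := (hd j hj).2.1.of_surj hsur
  refine ⟨j, hj, ac γ⁻¹, M_ac _, ?_⟩
  rw [(hd j hj).2.2, hγ, Function.comp_assoc, ac_comp_inv]; rfl

theorem Rl.exists_lab {L L' : List (W Y → W Y)} (h : Rl Γ L L') {a : W Y → W Y} (ha : a ∈ L) :
    ∃ b ∈ L', Lab Γ a b := by
  obtain ⟨K, h1, h2⟩ := h
  have ha' : a ∈ K := h1.mem_iff.1 ha
  clear h1 ha
  induction h2 with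
  | nil => simp at ha'
  | cons h _ ih =>
    rcases List.mem_cons.1 ha' with rfl | ha'
    · exact ⟨_, List.mem_cons_self, h⟩
    · obtain ⟨b, hb, hb'⟩ := ih ha'
      exact ⟨b, List.mem_cons_of_mem _ hb, hb'⟩

/-- a strictly coarser frame lies below an elementary merge -/
theorem exists_merge {x y : Fr0 Y} (hx : IsFr Γ x) (hy : IsFr Γ y) (h : fle Γ y x)
    (hc : y.1.card < x.1.card) : ∃ e : Mg Γ Y, e.Valid x.1 ∧ fle Γ y (mrg x e) := by
  obtain ⟨κ, μ, hd⟩ := fle_data h
  obtain ⟨j1, hj1, j2, hj2, hne, hκ⟩ : ∃ j1 ∈ x.1, ∃ j2 ∈ x.1, j1 ≠ j2 ∧ κ j1 = κ j2 :=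
    Finset.exists_ne_map_eq_of_card_lt_of_maps_to hc (fun j hj => (hd j hj).1)
  set k := κ j1 with hk
  set J := x.1.filter (fun j => κ j = k) with hJ
  have hJ' : ∀ {j}, j ∈ J.toList → j ∈ x.1 ∧ κ j = k := by
    intro j hj
    rw [Finset.mem_toList, hJ, Finset.mem_filter] at hj
    exact hj
  have hky : k ∈ y.1 := (hd j1 hj1).1
  have hcut : Cut Γ (J.toList.map μ) := by
    refine cut_of_part _ _ rfl ?_ ?_ ?_
    · intro f hf
      obtain ⟨j, hj, rfl⟩ := List.mem_map.1 hf
      exact (hd j (hJ' hj).1).2.1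
    · rw [List.pairwise_map]
      have hnd := J.nodup_toList
      refine (List.Pairwise.and_mem.1 hnd).imp ?_
      rintro a b ⟨ha, hb, hab⟩ s t e
      have h1 := congrFun (hd a (hJ' ha).1).2.2 s
      have h2 := congrFun (hd b (hJ' hb).1).2.2 t
      simp only [Function.comp_apply, (hJ' ha).2, (hJ' hb).2] at h1 h2
      rw [e, ← h2] at h1
      exact hx.dj a (hJ' ha).1 b (hJ' hb).1 hab s t h1
    · intro u
      obtain ⟨j, hj, v, hv⟩ := hx.cov (y.2 k u)
      rw [(hd j hj).2.2] at hv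
      have := hy.eq_of (hd j hj).1 hky hv
      refine ⟨μ j, ?_, v, this.2⟩
      rw [List.mem_map]
      exact ⟨j, by rw [Finset.mem_toList, hJ, Finset.mem_filter]; exact ⟨hj, this.1⟩, rfl⟩
  have h2 : 2 ≤ (J.toList.map μ).length := by
    rw [List.length_map, Finset.length_toList]
    refine Finset.one_lt_card.2 ⟨j1, ?_, j2, ?_, hne⟩
    · rw [hJ, Finset.mem_filter]; exact ⟨hj1, rfl⟩
    · rw [hJ, Finset.mem_filter]; exact ⟨hj2, hκ.symm⟩
  rcases hcut.decomp with ⟨γ, hγ⟩ | ⟨f, B, z, hfB, hRl⟩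
  · rw [hγ] at h2
    simp at h2
  · have hf : M Γ f := hfB.mem_M f (by simp)
    obtain ⟨l1, hl1, α, hα⟩ := hRl.exists_lab (a := f ∘ sh z) (by simp)
    obtain ⟨l2, hl2, β, hβ⟩ := hRl.exists_lab (a := f ∘ ch z) (by simp)
    obtain ⟨p, hp, rfl⟩ := List.mem_map.1 hl1
    obtain ⟨q, hq, rfl⟩ := List.mem_map.1 hl2
    have hpq : p ≠ q := by
      rintro rfl
      rw [hα] at hβ
      have := congrFun hβ []
      simp only [Function.comp_apply, ac_nil] at this
      exact sh_ne_ch z _ _ (hf.inj this)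
    have hpx := (hJ' hp).1
    have hqx := (hJ' hq).1
    have E1 : x.2 p = y.2 k ∘ f ∘ sh z ∘ ac α := by
      rw [(hd p hpx).2.2, hα, (hJ' hp).2]; rfl
    have E2 : x.2 q = y.2 k ∘ f ∘ ch z ∘ ac β := by
      rw [(hd q hqx).2.2, hβ, (hJ' hq).2]; rfl
    refine ⟨⟨p, q, α⁻¹ • z, β⁻¹ * α⟩, ⟨hpx, hqx, hpq⟩, ?_⟩
    intro t ht
    rw [mrg_fst, Finset.mem_erase] at ht
    by_cases htp : t = p
    · subst htp
      refine ⟨k, hky, f ∘ ac α, hf.comp (M_ac _), ?_⟩
      have := mrg_i x (⟨t, q, α⁻¹ • z, β⁻¹ * α⟩ : Mg Γ Y)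
      simp only at this
      rw [this]
      apply mf_unique
      · rw [E1]
        have : ((y.2 k ∘ f ∘ ac α) ∘ sh (α⁻¹ • z) : W Y → W Y) =
          y.2 k ∘ f ∘ (ac α ∘ sh (α⁻¹ • z)) := rfl
        rw [this, ← sh_ac]
      · rw [E2]
        have : ((y.2 k ∘ f ∘ ac α) ∘ ch (α⁻¹ • z) : W Y → W Y) =
          y.2 k ∘ f ∘ (ac α ∘ ch (α⁻¹ • z)) := rfl
        rw [this, ← ch_ac]
        have : ((y.2 k ∘ f ∘ ch z ∘ ac β) ∘ ac (β⁻¹ * α) : W Y → W Y) =
          y.2 k ∘ f ∘ ch z ∘ (ac β ∘ ac (β⁻¹ * α)) := rfl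
        rw [this, ← ac_mul]
        simp
    · rw [mrg_ne _ _ htp]
      exact ⟨κ t, (hd t ht.2).1, μ t, (hd t ht.2).2.1, (hd t ht.2).2.2⟩

end Crest.Agent.R185.Q
end

-- ▼ part R185/QFr4
section

/-!
# Row 185 (Q2), frames 4: the ground lemma and the descending links (helper424)
-/

set_option autoImplicit false

namespace Crest.Agent.R185.Q

open Classical

variable {Γ Y : Type} [Group Γ] [MulAction Γ Y]

/-- frames below `x` -/
def Cn (Γ : Type) {Y : Type} [Group Γ] [MulAction Γ Y] (x : Fr0 Y) : Set (Fr0 Y) :=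
  {y | IsFr Γ y ∧ fle Γ y x}

/-- frames below one of the merges in `A` -/
def DA (x : Fr0 Y) (A : Finset (Mg Γ Y)) : Set (Fr0 Y) :=
  {y | IsFr Γ y ∧ ∃ e ∈ A, fle Γ y (mrg x e)}

theorem DA_insert (x : Fr0 Y) (A : Finset (Mg Γ Y)) (v : Mg Γ Y) :
    DA x (insert v A) = DA x A ∪ Cn Γ (mrg x v) := by
  ext y
  simp only [DA, Cn, Set.mem_ofPred_eq, Set.mem_union, Finset.mem_insert]
  constructor
  · rintro ⟨h1, e, rfl | he, h2⟩
    · exact Or.inr ⟨h1, h2⟩
    · exact Or.inl ⟨h1, e, he, h2⟩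
  · rintro (⟨h1, e, he, h2⟩ | ⟨h1, h2⟩)
    · exact ⟨h1, e, Or.inr he, h2⟩
    · exact ⟨h1, v, Or.inl rfl, h2⟩

theorem DA_singleton (x : Fr0 Y) (v : Mg Γ Y) : DA x {v} = Cn Γ (mrg x v) := by
  ext y
  simp [DA, Cn]

theorem DA_inter [FaithfulSMul Γ Y] {x : Fr0 Y} (hx : IsFr Γ x) {A : Finset (Mg Γ Y)} {v : Mg Γ Y}
    (hA : ∀ e ∈ A, e.Valid x.1) (hv : v.Valid x.1) (hvA : v ∉ A) :
    DA x A ∩ Cn Γ (mrg x v) = DA (mrg x v) (A.filter (fun e => Cmp e v)) := by
  ext y
  simp only [DA, Cn, Set.mem_ofPred_eq, Set.mem_inter_iff, Finset.mem_filter]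
  constructor
  · rintro ⟨⟨h1, e, he, h2⟩, -, h3⟩
    have hne : e ≠ v := fun h => hvA (h ▸ he)
    obtain ⟨h4, h5⟩ := diamond h1 hx (hA e he) hv hne h2 h3
    exact ⟨h1, e, ⟨he, h4⟩, h5⟩
  · rintro ⟨h1, e, ⟨he, hc⟩, h2⟩
    refine ⟨⟨h1, e, he, ?_⟩, h1, ?_⟩
    · rw [mrg_comm hc] at h2
      exact fle_trans _ _ _ h2 (mrg_le (Valid.mrg hv hc))
    · exact fle_trans _ _ _ h2 (mrg_le (Valid.mrg (hA e he) hc.symm))

theorem mem_Cn_self {x : Fr0 Y} (hx : IsFr Γ x) : x ∈ Cn Γ x := ⟨hx, fle_refl x⟩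

section

variable (T : ConTh)

theorem con_Cn {x : Fr0 Y} (hx : IsFr Γ x) (m : ℕ) : T.Con (fle Γ) m (Cn Γ x) :=
  T.cone fle_refl fle_trans _ x (mem_Cn_self hx) (fun _ h => h.2) m

theorem DA_low {x : Fr0 Y} {A : Finset (Mg Γ Y)} {y z : Fr0 Y} (hy : y ∈ DA x A) (hz : IsFr Γ z)
    (h : fle Γ z y) : z ∈ DA x A := by
  obtain ⟨-, e, he, h2⟩ := hy
  exact ⟨hz, e, he, fle_trans _ _ _ h h2⟩

theorem con_glue {x : Fr0 Y} {A : Finset (Mg Γ Y)} {v : Mg Γ Y} (m : ℕ)
    (h1 : T.Con (fle Γ) (m + 1) (DA x A)) (h2 : T.Con (fle Γ) (m + 1) (Cn Γ (mrg x v)))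
    (h3 : T.Con (fle Γ) m (DA x A ∩ Cn Γ (mrg x v))) :
    T.Con (fle Γ) (m + 1) (DA x (insert v A)) := by
  rw [DA_insert]
  refine T.glue fle_refl fle_trans _ _ ?_ ?_ m h1 h2 h3
  · intro a ha b hb h
    exact DA_low ha hb.1 h
  · intro a ha b hb h
    exact ⟨hb.1, fle_trans _ _ _ h ha.2⟩

theorem DA_nonempty {x : Fr0 Y} (hx : IsFr Γ x) {A : Finset (Mg Γ Y)}
    (hA : ∀ e ∈ A, e.Valid x.1) (hne : A.Nonempty) : (DA x A).Nonempty := by
  obtain ⟨e, he⟩ := hne
  exact ⟨mrg x e, hx.mrg (hA e he), e, he, fle_refl _⟩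

/-- cliques -/
def Clq (A : Finset (Mg Γ Y)) : Prop := ∀ e ∈ A, ∀ v ∈ A, e ≠ v → Cmp e v

theorem con_clique [FaithfulSMul Γ Y] : ∀ (n : ℕ) (A : Finset (Mg Γ Y)), A.card = n + 1 →
    ∀ (x : Fr0 Y), IsFr Γ x → (∀ e ∈ A, e.Valid x.1) → Clq A → ∀ m, T.Con (fle Γ) m (DA x A) := by
  intro n
  induction n with
  | zero =>
    intro A hc x hx hA _ m
    obtain ⟨v, rfl⟩ := Finset.card_eq_one.1 hc
    rw [DA_singleton]
    exact con_Cn T (hx.mrg (hA v (by simp))) m
  | succ n ih =>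
    intro A hc x hx hA hq m
    cases m with
    | zero => exact T.zero (DA_nonempty hx hA (Finset.card_pos.1 (by omega)))
    | succ m =>
      obtain ⟨v, hv⟩ := Finset.card_pos.1 (show 0 < A.card by omega)
      have hc' : (A.erase v).card = n + 1 := by
        rw [Finset.card_erase_of_mem hv]; omega
      have hA' : ∀ e ∈ A.erase v, e.Valid x.1 := fun e he => hA e (Finset.mem_of_mem_erase he)
      have hq' : Clq (A.erase v) := fun e he w hw hne =>
        hq e (Finset.mem_of_mem_erase he) w (Finset.mem_of_mem_erase hw) hne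
      have hfil : (A.erase v).filter (fun e => Cmp e v) = A.erase v := by
        apply Finset.filter_true_of_mem
        intro e he
        exact hq e (Finset.mem_of_mem_erase he) v hv (Finset.ne_of_mem_erase he)
      have hxv := hx.mrg (hA v hv)
      have h1 := ih (A.erase v) hc' x hx hA' hq' (m + 1)
      have h3 : T.Con (fle Γ) m (DA x (A.erase v) ∩ Cn Γ (mrg x v)) := by
        rw [DA_inter hx hA' (hA v hv) (Finset.notMem_erase v A), hfil]
        refine ih (A.erase v) hc' _ hxv ?_ hq' m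
        intro e he
        exact Valid.mrg (hA' e he)
          (hq e (Finset.mem_of_mem_erase he) v hv (Finset.ne_of_mem_erase he)).symm
      have := con_glue T m h1 (con_Cn T hxv (m + 1)) h3
      rwa [Finset.insert_erase hv] at this

/-- `D` is a ground for `e`: all but at most two elements of `D` are compatible with `e` -/
def Grd (D : Finset (Mg Γ Y)) (e : Mg Γ Y) : Prop :=
  (D.filter (fun d => ¬ Cmp d e ∧ d ≠ e)).card ≤ 2

/-- the ground lemma -/
theorem con_ground [FaithfulSMul Γ Y] : ∀ (m n : ℕ) (A D : Finset (Mg Γ Y)),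
    (A \ D).card = n → D ⊆ A → Clq D → 2 * m + 1 ≤ D.card → (∀ e ∈ A, Grd D e) →
    ∀ (x : Fr0 Y), IsFr Γ x → (∀ e ∈ A, e.Valid x.1) → T.Con (fle Γ) m (DA x A) := by
  intro m
  induction m with
  | zero =>
    intro n A D _ hDA _ hD _ x hx hA
    exact T.zero (DA_nonempty hx hA ((Finset.card_pos.1 (by omega)).mono hDA))
  | succ m ihm =>
    intro n
    induction n with
    | zero =>
      intro A D hn hDA hq hD hG x hx hA
      have hAD : A = D := by
        rw [Finset.card_eq_zero, Finset.sdiff_eq_empty_iff_subset] at hn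
        exact Finset.Subset.antisymm hn hDA
      subst hAD
      exact con_clique T (A.card - 1) A (by omega) x hx hA hq _
    | succ n ihn =>
      intro A D hn hDA hq hD hG x hx hA
      obtain ⟨v, hv⟩ := Finset.card_pos.1 (show 0 < (A \ D).card by omega)
      rw [Finset.mem_sdiff] at hv
      have hA' : ∀ e ∈ A.erase v, e.Valid x.1 := fun e he => hA e (Finset.mem_of_mem_erase he)
      have hDA' : D ⊆ A.erase v := fun d hd =>
        Finset.mem_erase.2 ⟨fun h => hv.2 (h ▸ hd), hDA hd⟩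
      have hn' : ((A.erase v) \ D).card = n := by
        rw [Finset.erase_sdiff_comm, Finset.card_erase_of_mem (Finset.mem_sdiff.2 hv)]
        omega
      have hxv := hx.mrg (hA v hv.1)
      have h1 := ihn (A.erase v) D hn' hDA' hq hD (fun e he => hG e (Finset.mem_of_mem_erase he))
        x hx hA'
      have h3 : T.Con (fle Γ) m (DA x (A.erase v) ∩ Cn Γ (mrg x v)) := by
        rw [DA_inter hx hA' (hA v hv.1) (Finset.notMem_erase v A)]
        refine ihm _ _ (D.filter (fun e => Cmp e v)) rfl ?_ ?_ ?_ ?_ _ hxv ?_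
        · intro d hd
          rw [Finset.mem_filter] at hd ⊢
          exact ⟨hDA' hd.1, hd.2⟩
        · intro e he w hw hne
          exact hq e (Finset.mem_filter.1 he).1 w (Finset.mem_filter.1 hw).1 hne
        · have h5 := hG v hv.1
          have h6 : D.filter (fun d => ¬ Cmp d v ∧ d ≠ v) = D.filter (fun d => ¬ Cmp d v) := by
            apply Finset.filter_congr
            intro d hd
            constructor
            · exact fun h => h.1
            · exact fun h => ⟨h, fun e => hv.2 (e ▸ hd)⟩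
          unfold Grd at h5
          rw [h6] at h5
          have h7 := Finset.card_filter_add_card_filter_not (s := D) (fun e => Cmp e v)
          omega
        · intro e he
          refine le_trans (Finset.card_le_card ?_) (hG e (Finset.mem_of_mem_erase
            (Finset.mem_filter.1 he).1))
          intro d hd
          rw [Finset.mem_filter] at hd ⊢
          exact ⟨(Finset.mem_filter.1 hd.1).1, hd.2⟩
        · intro e he
          rw [Finset.mem_filter] at he
          exact Valid.mrg (hA' e he.1) he.2.symm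
      have := con_glue T m h1 (con_Cn T hxv (m + 1)) h3
      rwa [Finset.insert_erase hv.1] at this

/-- a ground -/
theorem exists_ground [Nonempty Y] (I : Finset ℕ) (N : ℕ) (hI : 2 * N ≤ I.card) :
    ∃ D : Finset (Mg Γ Y), D.card = N ∧ Clq D ∧ (∀ e ∈ D, e.Valid I) ∧
      ∀ e : Mg Γ Y, Grd D e := by
  obtain ⟨u0⟩ := ‹Nonempty Y›
  obtain ⟨J, hJI, hJ⟩ := Finset.exists_subset_card_eq hI
  let g := J.orderEmbOfFin hJ
  have hg : ∀ a, g a ∈ I := fun a => hJI (J.orderEmbOfFin_mem hJ a)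
  let d : Fin N → Mg Γ Y := fun t => ⟨g ⟨2 * t, by omega⟩, g ⟨2 * t + 1, by omega⟩, u0, 1⟩
  have hd1 : ∀ {s t : Fin N}, (d s).i = (d t).i → s = t := by
    intro s t h
    have := g.injective h
    simp only [Fin.mk.injEq] at this
    ext; omega
  have hd2 : ∀ {s t : Fin N}, (d s).j = (d t).j → s = t := by
    intro s t h
    have := g.injective h
    simp only [Fin.mk.injEq] at this
    ext; omega
  have hd3 : ∀ {s t : Fin N}, (d s).i ≠ (d t).j := by
    intro s t h
    have := g.injective h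
    simp only [Fin.mk.injEq] at this
    omega
  have hdi : Function.Injective d := fun s t h => hd1 (congrArg Mg.i h)
  refine ⟨Finset.univ.image d, ?_, ?_, ?_, ?_⟩
  · rw [Finset.card_image_of_injective _ hdi, Finset.card_univ, Fintype.card_fin]
  · intro e he v hv hne
    rw [Finset.mem_image] at he hv
    obtain ⟨s, -, rfl⟩ := he
    obtain ⟨t, -, rfl⟩ := hv
    have hst : s ≠ t := fun h => hne (by rw [h])
    exact ⟨fun h => hst (hd2 h), hd3, hd3, fun h => absurd (hd1 h) hst⟩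
  · intro e he
    rw [Finset.mem_image] at he
    obtain ⟨s, -, rfl⟩ := he
    exact ⟨hg _, hg _, hd3⟩
  · intro e
    unfold Grd
    -- the bad indices
    have hone : ∀ k : ℕ, (Finset.univ.filter (fun t : Fin N => (d t).i = k ∨ (d t).j = k)).card ≤ 1 := by
      intro k
      rw [Finset.card_le_one]
      intro s hs t ht
      rw [Finset.mem_filter] at hs ht
      rcases hs.2 with h | h <;> rcases ht.2 with h' | h'
      · exact hd1 (h.trans h'.symm)
      · exact absurd (h.trans h'.symm) hd3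
      · exact absurd (h'.trans h.symm) hd3
      · exact hd2 (h.trans h'.symm)
    have hsub : (Finset.univ.image d).filter (fun x => ¬ Cmp x e ∧ x ≠ e) ⊆
        ((Finset.univ.filter (fun t : Fin N => (d t).i = e.i ∨ (d t).j = e.i)) ∪
        (Finset.univ.filter (fun t : Fin N => (d t).i = e.j ∨ (d t).j = e.j))).image d := by
      intro x hx
      rw [Finset.mem_filter, Finset.mem_image] at hx
      obtain ⟨⟨t, -, rfl⟩, hbad, -⟩ := hx
      rw [Finset.mem_image]
      refine ⟨t, ?_, rfl⟩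
      rw [Finset.mem_union, Finset.mem_filter, Finset.mem_filter]
      by_contra hcon
      push Not at hcon
      apply hbad
      obtain ⟨h1, h2⟩ := hcon
      have h1' := h1 (Finset.mem_univ _)
      have h2' := h2 (Finset.mem_univ _)
      exact ⟨h2'.2, h2'.1, fun h => h1'.2 h.symm, fun h => absurd h h1'.1⟩
    refine (Finset.card_le_card hsub).trans (Finset.card_image_le.trans
      ((Finset.card_union_le _ _).trans ?_))
    have := hone e.i
    have := hone e.j
    omega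

/-- the descending link -/
theorem con_lt [FaithfulSMul Γ Y] [Nonempty Y] {x : Fr0 Y} (hx : IsFr Γ x) (m : ℕ)
    (hm : 4 * m + 2 ≤ x.1.card) :
    T.Con (fle Γ) m {y | IsFr Γ y ∧ fle Γ y x ∧ y.1.card < x.1.card} := by
  obtain ⟨D, hD, hq, hval, hG⟩ := exists_ground (Γ := Γ) (Y := Y) x.1 (2 * m + 1) (by omega)
  let ι := {A : Finset (Mg Γ Y) // D ⊆ A ∧ ∀ e ∈ A, e.Valid x.1}
  have : Nonempty ι := ⟨⟨D, Finset.Subset.refl D, hval⟩⟩
  have hU : {y | IsFr Γ y ∧ fle Γ y x ∧ y.1.card < x.1.card} = ⋃ A : ι, DA x A.1 := by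
    ext y
    simp only [Set.mem_ofPred_eq, Set.mem_iUnion, DA]
    constructor
    · rintro ⟨h1, h2, h3⟩
      obtain ⟨e, he, hle⟩ := exists_merge hx h1 h2 h3
      refine ⟨⟨insert e D, Finset.subset_insert _ _, ?_⟩, h1, e, Finset.mem_insert_self _ _, hle⟩
      intro v hv
      rcases Finset.mem_insert.1 hv with rfl | hv
      · exact he
      · exact hval v hv
    · rintro ⟨⟨A, hDA, hA⟩, h1, e, he, hle⟩
      refine ⟨h1, fle_trans _ _ _ hle (mrg_le (hA e he)), ?_⟩
      have h4 := card_le h1 (hx.mrg (hA e he)) hle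
      have h5 := card_mrg (hA e he)
      omega
  rw [hU]
  refine T.union fle_refl fle_trans _ ?_ m ?_
  · rintro ⟨A, hA1, hA2⟩ ⟨B, hB1, hB2⟩
    refine ⟨⟨A ∪ B, hA1.trans Finset.subset_union_left, ?_⟩, ?_, ?_⟩
    · intro e he
      rcases Finset.mem_union.1 he with he | he
      · exact hA2 e he
      · exact hB2 e he
    · rintro y ⟨h1, e, he, h2⟩
      exact ⟨h1, e, Finset.mem_union_left _ he, h2⟩
    · rintro y ⟨h1, e, he, h2⟩
      exact ⟨h1, e, Finset.mem_union_right _ he, h2⟩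
  · rintro ⟨A, hA1, hA2⟩
    exact con_ground T m _ A D rfl hA1 hq (by omega) (fun e _ => hG e) x hx hA2

/-- the frames below `b` of size at most `q` -/
theorem con_Dq [FaithfulSMul Γ Y] [Nonempty Y] {b : Fr0 Y} (hb : IsFr Γ b) (m : ℕ) :
    ∀ (n q : ℕ), b.1.card ≤ q + n → 4 * m + 1 ≤ q →
    T.Con (fle Γ) m {y | IsFr Γ y ∧ fle Γ y b ∧ y.1.card ≤ q} := by
  intro n
  induction n with
  | zero =>
    intro q hq hm
    have hbm : b ∈ {y | IsFr Γ y ∧ fle Γ y b ∧ y.1.card ≤ q} := ⟨hb, fle_refl b, by omega⟩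
    exact T.cone fle_refl fle_trans _ b hbm (fun _ h => h.2.1) m
  | succ n ih =>
    intro q hq hm
    have h1 := ih (q + 1) (by omega) (by omega)
    refine T.morse fle_refl fle_trans _ _ ?_ ?_ m h1 ?_
    · rintro y ⟨h1, h2, h3⟩
      exact ⟨h1, h2, by omega⟩
    · rintro x ⟨h1, h2, h3⟩ hxB y ⟨h4, h5, h6⟩ hxy
      have hxc : x.1.card = q + 1 := by
        by_contra hne
        exact hxB ⟨h1, h2, by omega⟩
      have h7 := card_le h1 h4 hxy
      refine ⟨fun h => ?_, le_of_card h1 h4 hxy (by omega)⟩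
      have := h.2.2
      omega
    · rintro x ⟨h1, h2, h3⟩ hxB
      have hxc : x.1.card = q + 1 := by
        by_contra hne
        exact hxB ⟨h1, h2, by omega⟩
      have h4 := con_lt T h1 m (by omega)
      have h5 : {y | y ∈ {y | IsFr Γ y ∧ fle Γ y b ∧ y.1.card ≤ q} ∧ fle Γ y x} =
          {y | IsFr Γ y ∧ fle Γ y x ∧ y.1.card < x.1.card} := by
        ext y
        simp only [Set.mem_ofPred_eq]
        constructor
        · rintro ⟨⟨a1, a2, a3⟩, a4⟩
          exact ⟨a1, a4, by omega⟩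
        · rintro ⟨a1, a2, a3⟩
          exact ⟨⟨a1, fle_trans _ _ _ a2 h2, by omega⟩, a2⟩
      rw [h5]
      exact h4

end

end Crest.Agent.R185.Q
end

-- ▼ part R185/QOP2
section

/-!
# Row 185 (Q2): ordered marked partitions versus frames, directedness (helper424)
-/

set_option autoImplicit false

namespace Crest.Agent.R185.Q

open Classical

variable {Γ Y : Type} [Group Γ] [MulAction Γ Y]

/-! ### piecewise closure of a right-`M`-closed set -/

/-- functions piecewise in `B` -/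
inductive AdB {Y : Type} (B : (W Y → W Y) → Prop) : (W Y → W Y) → Prop
  | base (f : W Y → W Y) : B f → AdB B f
  | split (y : Y) (f : W Y → W Y) : AdB B (f ∘ sh y) → AdB B (f ∘ ch y) → AdB B f

variable {B : (W Y → W Y) → Prop}

theorem AdB.comp_ac (hB : ∀ f m, B f → M Γ m → B (f ∘ m)) {f : W Y → W Y} (hf : AdB B f) (γ : Γ) :
    AdB B (f ∘ ac γ) := by
  induction hf generalizing γ with
  | base m hm => exact AdB.base _ (hB _ _ hm (M_ac γ))
  | split y f _ _ ih1 ih2 =>
    refine AdB.split (γ⁻¹ • y) _ ?_ ?_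
    · rw [Function.comp_assoc, ← sh_ac]; exact ih1 γ
    · rw [Function.comp_assoc, ← ch_ac]; exact ih2 γ

theorem AdB.comp_sh_ch (hB : ∀ f m, B f → M Γ m → B (f ∘ m)) {f : W Y → W Y} (hf : AdB B f) :
    ∀ z, AdB B (f ∘ sh z) ∧ AdB B (f ∘ ch z) := by
  induction hf with
  | base m hm => exact fun z => ⟨AdB.base _ (hB _ _ hm (M_sh z)), AdB.base _ (hB _ _ hm (M_ch z))⟩
  | split y f h1 h2 ih1 ih2 =>
    intro z
    by_cases hz : z = y
    · subst hz; exact ⟨h1, h2⟩
    · constructor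
      · refine AdB.split y _ ?_ ?_
        · rw [Function.comp_assoc, sh_comm, ← Function.comp_assoc]; exact (ih1 z).1
        · rw [Function.comp_assoc, sh_ch_ne (Ne.symm hz)]; exact h2
      · have := (ih1 z).2
        rw [Function.comp_assoc, sh_ch_ne hz] at this
        exact this

theorem AdB.comp_M (hB : ∀ f m, B f → M Γ m → B (f ∘ m)) {f m : W Y → W Y} (hf : AdB B f)
    (hm : M Γ m) : AdB B (f ∘ m) := by
  induction hm generalizing f with
  | one => exact hf
  | cs y m _ ih => exact ih (f := f ∘ Q.sh y) (hf.comp_sh_ch hB y).1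
  | cc y m _ ih => exact ih (f := f ∘ Q.ch y) (hf.comp_sh_ch hB y).2
  | ca γ m _ ih => exact ih (f := f ∘ Q.ac γ) (hf.comp_ac hB γ)

theorem AdB.exists_cut {g : W Y → W Y} (hg : AdB B g) :
    ∃ L, Cut Γ L ∧ ∀ f ∈ L, B (g ∘ f) := by
  induction hg with
  | base m hm => exact ⟨[id], Cut.one, by simpa using hm⟩
  | split y f _ _ ih1 ih2 =>
    obtain ⟨L1, h1, h1'⟩ := ih1
    obtain ⟨L2, h2, h2'⟩ := ih2
    refine ⟨_, h1.node h2 y, ?_⟩
    intro k hk
    simp only [List.mem_append, List.mem_map] at hk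
    rcases hk with ⟨m, hm, rfl⟩ | ⟨m, hm, rfl⟩
    · exact h1' m hm
    · exact h2' m hm

theorem Cut.adB (hB : ∀ f m, B f → M Γ m → B (f ∘ m)) {L : List (W Y → W Y)} (h : Cut Γ L)
    {g : W Y → W Y} (hg : ∀ f ∈ L, AdB B (g ∘ f)) : AdB B g := by
  induction h with
  | one => exact hg id (by simp)
  | split y f L _ ih =>
    apply ih
    intro f' hf'
    simp only [List.mem_cons] at hf'
    rcases hf' with rfl | hf'
    · exact AdB.split y _ (hg (f' ∘ sh y) List.mem_cons_self)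
        (hg (f' ∘ ch y) (List.mem_cons_of_mem _ List.mem_cons_self))
    · exact hg f' (by simp [hf'])
  | perm _ hp ih => exact ih (fun f hf => hg f (hp.mem_iff.1 hf))
  | label γ f L _ ih =>
    apply ih
    intro f' hf'
    simp only [List.mem_cons] at hf'
    rcases hf' with rfl | hf'
    · have := (hg (f' ∘ ac γ) (by simp)).comp_ac hB γ⁻¹
      rw [Function.comp_assoc, Function.comp_assoc, ac_comp_inv] at this
      exact this
    · exact hg f' (by simp [hf'])

/-- common refinement of two cuts -/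
theorem refine_cuts {L K : List (W Y → W Y)} (hL : Cut Γ L) (hK : Cut Γ K) :
    ∃ C, Cut Γ C ∧ ∀ c ∈ C, (∃ l ∈ L, ∃ m, M Γ m ∧ c = l ∘ m) ∧ (∃ k ∈ K, ∃ m, M Γ m ∧ c = k ∘ m) := by
  let B1 : (W Y → W Y) → Prop := fun f => ∃ k ∈ K, ∃ m, M Γ m ∧ f = k ∘ m
  have hB1 : ∀ f m, B1 f → M Γ m → B1 (f ∘ m) := by
    rintro f m ⟨k, hk, n, hn, rfl⟩ hm
    exact ⟨k, hk, n ∘ m, hn.comp hm, rfl⟩
  let B : (W Y → W Y) → Prop := fun f => (∃ l ∈ L, ∃ m, M Γ m ∧ f = l ∘ m) ∧ B1 f
  have hB : ∀ f m, B f → M Γ m → B (f ∘ m) := by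
    rintro f m ⟨⟨l, hl, n, hn, e⟩, h⟩ hm
    exact ⟨⟨l, hl, n ∘ m, hn.comp hm, by rw [e]; rfl⟩, hB1 f m h hm⟩
  have h1 : AdB B1 (id : W Y → W Y) :=
    hK.adB hB1 (fun k hk => AdB.base _ ⟨k, hk, id, M.one, rfl⟩)
  have h2 : AdB B (id : W Y → W Y) := by
    refine hL.adB hB (fun l hl => ?_)
    obtain ⟨D, hD, hD'⟩ := (h1.comp_M hB1 (hL.mem_M l hl)).exists_cut (Γ := Γ)
    refine hD.adB hB (fun d hd => AdB.base _ ⟨⟨l, hl, d, hD.mem_M d hd, rfl⟩, ?_⟩)
    exact hD' d hd
  obtain ⟨C, hC, hC'⟩ := h2.exists_cut (Γ := Γ)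
  exact ⟨C, hC, fun c hc => hC' c hc⟩

/-! ### partitions into admissible charts -/

theorem perm_mem {g : Equiv.Perm (W Y)} (hg : Adm Γ (g : W Y → W Y)) : g ∈ QG Γ Y := by
  refine ⟨hg, ?_⟩
  obtain ⟨K, hK, hM⟩ := Adm.exists_cut hg
  refine (hK.map_of_M g hM).adm ?_
  intro f hf
  obtain ⟨k, hk, rfl⟩ := List.mem_map.1 hf
  have : (g.symm : W Y → W Y) ∘ (g : W Y → W Y) ∘ k = k := by
    funext t; simp
  rw [this]
  exact Adm.base _ (hK.mem_M k hk)

theorem exists_cut_len [Nonempty Y] (n : ℕ) : ∃ L : List (W Y → W Y), Cut Γ L ∧ L.length = n + 1 := by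
  obtain ⟨y⟩ := ‹Nonempty Y›
  induction n with
  | zero => exact ⟨[id], Cut.one, rfl⟩
  | succ n ih =>
    obtain ⟨L, hL, hl⟩ := ih
    rcases L with _ | ⟨f, L⟩
    · simp at hl
    · exact ⟨_, Cut.split y f L hL, by simp at hl ⊢; omega⟩

/-- lists of admissible injections which partition `W` -/
theorem isOP_of_part [Nonempty Y] {L : List (W Y → W Y)} (h1 : ∀ f ∈ L, Adm Γ f)
    (h2 : ∀ f ∈ L, Function.Injective f) (h3 : L.Pairwise Dj) (h4 : ∀ u, ∃ f ∈ L, ∃ v, f v = u) :
    IsOP (L.map (cls Γ)) := by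
  obtain ⟨f0, hf0, -⟩ := h4 []
  have hlen := List.length_pos_of_mem hf0
  obtain ⟨C, hC, hCl⟩ := exists_cut_len (Γ := Γ) (Y := Y) (L.length - 1)
  have hl : C.length = L.length := by omega
  have hbij : Function.Bijective (fun p : Fin L.length × W Y => L.get p.1 p.2) := by
    constructor
    · rintro ⟨i, u⟩ ⟨j, v⟩ e
      have hdj := List.pairwise_iff_get.1 h3
      rcases lt_trichotomy i j with hij | hij | hij
      · exact absurd e (hdj i j hij _ _)
      · subst hij
        have := (h2 (L.get i) (List.get_mem _ _)) e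
        simp only at this
        rw [this]
      · exact absurd e.symm (hdj j i hij _ _)
    · intro u
      obtain ⟨f, hf, v, hv⟩ := h4 u
      obtain ⟨i, rfl⟩ := List.get_of_mem hf
      exact ⟨⟨i, v⟩, hv⟩
  let e := Equiv.ofBijective _ hC.bij
  let e' := Equiv.ofBijective _ hbij
  let c : Fin C.length × W Y ≃ Fin L.length × W Y :=
    Equiv.prodCongr (finCongr hl) (Equiv.refl _)
  let g : Equiv.Perm (W Y) := e.symm.trans (c.trans e')
  have key : ∀ (i : Fin C.length), (g : W Y → W Y) ∘ C.get i = L.get (finCongr hl i) := by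
    intro i
    funext v
    have h1 : e.symm (C.get i v) = (i, v) := by
      rw [Equiv.symm_apply_eq]; rfl
    simp only [g, Function.comp_apply, Equiv.trans_apply, h1]
    rfl
  have hg : Adm Γ (g : W Y → W Y) := by
    apply hC.adm
    intro f hf
    obtain ⟨i, rfl⟩ := List.get_of_mem hf
    rw [key i]
    exact h1 _ (List.get_mem _ _)
  refine ⟨⟨g, perm_mem hg⟩, C, hC, ?_⟩
  rw [smul_list, List.map_map]
  apply List.ext_get
  · simp [hl]
  · intro n k1 k2
    have := key ⟨n, by simpa using k2⟩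
    simp only [List.get_eq_getElem, List.getElem_map, Function.comp_apply, smul_cls] at this ⊢
    rw [this]
    rfl

/-! ### from lists of classes to frames and back -/

/-- the frame of an ordered marked partition -/
noncomputable def toFr (x : List (Cls Γ Y)) : Fr0 Y :=
  (Finset.range x.length, fun i => rep (x.getD i (cls Γ id)))

/-- the ordered marked partition of a frame -/
noncomputable def ofFr (Γ : Type) {Y : Type} [Group Γ] [MulAction Γ Y] (z : Fr0 Y) :
    List (Cls Γ Y) := z.1.toList.map (fun i => cls Γ (z.2 i))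

theorem toFr_card (x : List (Cls Γ Y)) : (toFr x).1.card = x.length := by simp [toFr]

theorem ofFr_length (z : Fr0 Y) : (ofFr Γ z).length = z.1.card := by simp [ofFr]

theorem toFr_snd (x : List (Cls Γ Y)) {i : ℕ} (h : i < x.length) : cls Γ ((toFr x).2 i) = x[i] := by
  simp [toFr, h]

theorem IsFr.congr {I : Finset ℕ} {F F' : ℕ → W Y → W Y} (h : IsFr Γ (I, F))
    (e : ∀ i ∈ I, Lab Γ (F i) (F' i)) : IsFr Γ (I, F') := by
  refine ⟨?_, ?_, ?_, ?_⟩
  · intro i hi
    obtain ⟨γ, hγ⟩ := e i hi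
    change Adm Γ (F' i)
    rw [hγ]; exact (h.adm i hi).comp_ac γ
  · intro i hi
    obtain ⟨γ, hγ⟩ := e i hi
    change Function.Injective (F' i)
    rw [hγ]; exact (h.inj i hi).comp (ac_inj γ)
  · intro i hi j hj hij a b
    obtain ⟨γ, hγ⟩ := e i hi
    obtain ⟨δ, hδ⟩ := e j hj
    change F' i a ≠ F' j b
    rw [hγ, hδ]; exact h.dj i hi j hj hij _ _
  · intro u
    obtain ⟨i, hi, v, hv⟩ := h.cov u
    obtain ⟨γ, hγ⟩ := e i hi
    obtain ⟨w, rfl⟩ := ac_surj γ v
    refine ⟨i, hi, w, ?_⟩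
    change F' i w = u
    rw [hγ]; exact hv

theorem isFr_toFr {x : List (Cls Γ Y)} (h : IsOP x) : IsFr Γ (toFr x) := by
  obtain ⟨g, L, hL, rfl⟩ := h
  have hlen : (g • (L.map (cls Γ))).length = L.length := by rw [length_smul, List.length_map]
  have h0 : IsFr Γ ((Finset.range L.length, fun i => (g.1 : W Y → W Y) ∘ L.getD i id) : Fr0 Y) := by
    have hget : ∀ i, (hi : i < L.length) → L.getD i id = L.get ⟨i, hi⟩ := by
      intro i hi; simp [hi]
    have hdj := List.pairwise_iff_get.1 hL.dj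
    refine ⟨?_, ?_, ?_, ?_⟩
    · intro i hi
      rw [Finset.mem_range] at hi
      change Adm Γ ((g.1 : W Y → W Y) ∘ L.getD i id)
      rw [hget i hi]
      exact g.2.1.comp_M (hL.mem_M _ (List.get_mem _ _))
    · intro i hi
      rw [Finset.mem_range] at hi
      change Function.Injective ((g.1 : W Y → W Y) ∘ L.getD i id)
      rw [hget i hi]
      exact g.1.injective.comp (hL.mem_M _ (List.get_mem _ _)).inj
    · intro i hi j hj hij a b e
      rw [Finset.mem_range] at hi hj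
      have e' := g.1.injective e
      rw [hget i hi, hget j hj] at e'
      rcases lt_or_gt_of_ne hij with h | h
      · exact hdj ⟨i, hi⟩ ⟨j, hj⟩ h _ _ e'
      · exact hdj ⟨j, hj⟩ ⟨i, hi⟩ h _ _ e'.symm
    · intro u
      obtain ⟨f, hf, v, hv⟩ := hL.cover (g.1.symm u)
      obtain ⟨⟨i, hi⟩, rfl⟩ := List.get_of_mem hf
      refine ⟨i, Finset.mem_range.2 hi, v, ?_⟩
      change g.1 (L.getD i id v) = u
      rw [hget i hi, hv]
      simp
  have h1 := h0.congr (F' := fun i => rep ((g • (L.map (cls Γ))).getD i (cls Γ id))) ?_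
  · unfold toFr
    rw [hlen]
    exact h1
  · intro i hi
    rw [Finset.mem_range] at hi
    rw [← cls_eq, cls_rep]
    simp [smul_list, hi, smul_cls]

theorem isOP_ofFr [Nonempty Y] {z : Fr0 Y} (h : IsFr Γ z) : IsOP (ofFr Γ z) := by
  have : ofFr Γ z = (z.1.toList.map z.2).map (cls Γ) := by
    unfold ofFr
    rw [List.map_map]; rfl
  rw [this]
  apply isOP_of_part
  · intro f hf
    obtain ⟨i, hi, rfl⟩ := List.mem_map.1 hf
    exact h.adm i (Finset.mem_toList.1 hi)
  · intro f hf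
    obtain ⟨i, hi, rfl⟩ := List.mem_map.1 hf
    exact h.inj i (Finset.mem_toList.1 hi)
  · rw [List.pairwise_map]
    refine (List.Pairwise.and_mem.1 z.1.nodup_toList).imp ?_
    rintro a b ⟨ha, hb, hab⟩
    exact h.dj a (Finset.mem_toList.1 ha) b (Finset.mem_toList.1 hb) hab
  · intro u
    obtain ⟨i, hi, v, hv⟩ := h.cov u
    exact ⟨z.2 i, List.mem_map.2 ⟨i, Finset.mem_toList.2 hi, rfl⟩, v, hv⟩

theorem fle_toFr {x y : List (Cls Γ Y)} (h : ole x y) : fle Γ (toFr x) (toFr y) := by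
  intro j hj
  have hj' : j < y.length := by simpa [toFr] using hj
  obtain ⟨a, ha, hab⟩ := h (y[j]) (List.getElem_mem hj')
  obtain ⟨i, hi, rfl⟩ := List.getElem_of_mem ha
  rw [← toFr_snd x hi, ← toFr_snd y hj', cle_iff] at hab
  obtain ⟨m, hm, e⟩ := hab
  obtain ⟨γ, hγ⟩ := cls_eq.1 e
  exact ⟨i, by simpa [toFr] using hi, m ∘ ac γ, hm.comp (M_ac γ), by rw [hγ]; rfl⟩

theorem ole_ofFr {z z' : Fr0 Y} (h : fle Γ z z') : ole (ofFr Γ z) (ofFr Γ z') := by
  intro b hb
  obtain ⟨j, hj, rfl⟩ := List.mem_map.1 hb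
  obtain ⟨i, hi, m, hm, e⟩ := h j (Finset.mem_toList.1 hj)
  exact ⟨cls Γ (z.2 i), List.mem_map.2 ⟨i, Finset.mem_toList.2 hi, rfl⟩, z.2 i, m, rfl, hm,
    by rw [e]⟩

theorem ofFr_toFr_le (x : List (Cls Γ Y)) : ole x (ofFr Γ (toFr x)) := by
  intro b hb
  obtain ⟨j, hj, rfl⟩ := List.mem_map.1 hb
  have hj' : j < x.length := by simpa [toFr] using hj
  rw [toFr_snd x hj']
  exact ⟨x[j], List.getElem_mem hj', cle_refl _⟩

theorem le_ofFr_toFr (x : List (Cls Γ Y)) : ole (ofFr Γ (toFr x)) x := by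
  intro b hb
  obtain ⟨j, hj, rfl⟩ := List.getElem_of_mem hb
  refine ⟨x[j], ?_, cle_refl _⟩
  refine List.mem_map.2 ⟨j, ?_, toFr_snd x hj⟩
  simpa [toFr] using hj

/-! ### directedness -/

theorem IsOP.of_cut {C : List (W Y → W Y)} (hC : Cut Γ C) : IsOP (C.map (cls Γ)) :=
  ⟨1, C, hC, by rw [one_smul]⟩

theorem exists_cut_above {x : List (Cls Γ Y)} (h : IsOP x) :
    ∃ C, Cut Γ C ∧ ole x (C.map (cls Γ)) := by
  obtain ⟨g, L, hL, rfl⟩ := h
  obtain ⟨K, hK, hM⟩ := Adm.exists_cut g.2.1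
  obtain ⟨C0, hC0, hC0'⟩ := refine_cuts hL hK
  refine ⟨C0.map (fun f => (g.1 : W Y → W Y) ∘ f), hC0.map_of_M g.1 ?_, ?_⟩
  · intro f hf
    obtain ⟨-, k, hk, m, hm, rfl⟩ := hC0' f hf
    exact (hM k hk).comp hm
  · intro b hb
    rw [List.map_map] at hb
    obtain ⟨c, hc, rfl⟩ := List.mem_map.1 hb
    obtain ⟨⟨l, hl, m, hm, rfl⟩, -⟩ := hC0' c hc
    refine ⟨g • cls Γ l, List.mem_map.2 ⟨cls Γ l, List.mem_map.2 ⟨l, hl, rfl⟩, rfl⟩, ?_⟩
    exact ⟨(g.1 : W Y → W Y) ∘ l, m, rfl, hm, rfl⟩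

theorem exists_above : ∀ (t : List (List (Cls Γ Y))), (∀ x ∈ t, IsOP x) →
    ∃ C, Cut Γ C ∧ ∀ x ∈ t, ole x (C.map (cls Γ)) := by
  intro t
  induction t with
  | nil => intro _; exact ⟨[id], Cut.one, by simp⟩
  | cons x t ih =>
    intro h
    obtain ⟨C1, hC1, h1⟩ := exists_cut_above (h x List.mem_cons_self)
    obtain ⟨C2, hC2, h2⟩ := ih (fun y hy => h y (List.mem_cons_of_mem _ hy))
    obtain ⟨C, hC, hC'⟩ := refine_cuts hC1 hC2
    have k1 : ole (C1.map (cls Γ)) (C.map (cls Γ)) := by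
      intro b hb
      obtain ⟨c, hc, rfl⟩ := List.mem_map.1 hb
      obtain ⟨⟨l, hl, m, hm, rfl⟩, -⟩ := hC' c hc
      exact ⟨cls Γ l, List.mem_map.2 ⟨l, hl, rfl⟩, l, m, rfl, hm, rfl⟩
    have k2 : ole (C2.map (cls Γ)) (C.map (cls Γ)) := by
      intro b hb
      obtain ⟨c, hc, rfl⟩ := List.mem_map.1 hb
      obtain ⟨-, l, hl, m, hm, rfl⟩ := hC' c hc
      exact ⟨cls Γ l, List.mem_map.2 ⟨l, hl, rfl⟩, l, m, rfl, hm, rfl⟩
    refine ⟨C, hC, ?_⟩
    intro y hy
    rcases List.mem_cons.1 hy with rfl | hy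
    · exact ole_trans _ _ _ h1 k1
    · exact ole_trans _ _ _ (h2 y hy) k2

/-! ### connectivity for ordered marked partitions -/

/-- the ordered marked partitions below `b` of size at most `q` -/
theorem con_OP [FaithfulSMul Γ Y] [Nonempty Y] (T : ConTh) {b : List (Cls Γ Y)} (hb : IsOP b)
    (m q : ℕ) (hq : 4 * m + 1 ≤ q) :
    T.Con ole m {x : List (Cls Γ Y) | IsOP x ∧ ole x b ∧ x.length ≤ q} := by
  have h := con_Dq T (isFr_toFr hb) m ((toFr b).1.card) q (by omega) hq
  refine T.transfer ole_refl ole_trans fle_refl fle_trans _ _ toFr (ofFr Γ) ?_ ?_ ?_ ?_ ?_ m h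
  · rintro x ⟨h1, h2, h3⟩
    exact ⟨isFr_toFr h1, fle_toFr h2, by rw [toFr_card]; exact h3⟩
  · rintro z ⟨h1, h2, h3⟩
    exact ⟨isOP_ofFr h1, ole_trans _ _ _ (ole_ofFr h2) (le_ofFr_toFr b), by
      rw [ofFr_length]; exact h3⟩
  · intro x _ y _ h; exact fle_toFr h
  · intro x _ y _ h; exact ole_ofFr h
  · intro x _; exact ofFr_toFr_le x

end Crest.Agent.R185.Q
end

-- ▼ part R185/QHom
section

/-!
# Row 185 (Q2, P1): the homology theory `homTh` (helper958)
-/

set_option autoImplicit false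

namespace Crest.Agent.R185.QHom

open Crest.Agent.R185.Null Crest.Agent.R185.Q
open Finsupp (single)

variable {O O' : Type}

/-- `n`-chains of decreasing tuples in `A` -/
noncomputable def C (r : O → O → Prop) (A : Set O) (n : ℕ) : Submodule ℤ (O × List O →₀ ℤ) :=
  Finsupp.supported ℤ ℤ (Tup r A) ⊓ Finsupp.supported ℤ ℤ {t : O × List O | t.2.length = n}

theorem C_eq (r : O → O → Prop) (A : Set O) (n : ℕ) :
    C r A n = Finsupp.supported ℤ ℤ (Tup r A ∩ {t : O × List O | t.2.length = n}) := by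
  rw [C, ← Finsupp.supported_inter]

theorem single_mem_C {r : O → O → Prop} {A : Set O} {n : ℕ} {t : O × List O} (h : t ∈ Tup r A)
    (hn : t.2.length = n) (k : ℤ) : single t k ∈ C r A n := by
  rw [C_eq]
  exact Finsupp.single_mem_supported ℤ k ⟨h, hn⟩

theorem C_mono {r : O → O → Prop} {A B : Set O} (h : A ⊆ B) (n : ℕ) : C r A n ≤ C r B n := by
  rw [C_eq, C_eq]
  apply Finsupp.supported_mono
  rintro t ⟨ht, hn⟩
  exact ⟨⟨ht.1, fun a ha => h (ht.2 a ha)⟩, hn⟩

theorem mem_C {r : O → O → Prop} {A : Set O} {n : ℕ} {c : O × List O →₀ ℤ} :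
    c ∈ C r A n ↔ ∀ t ∈ c.support, t ∈ Tup r A ∧ t.2.length = n := by
  rw [C_eq, Finsupp.mem_supported]
  constructor
  · intro h t ht
    exact h ht
  · intro h t ht
    exact h t ht

theorem lin_mem_C {M : Type*} [AddCommGroup M] {r : O → O → Prop} {A : Set O} {n : ℕ}
    (F : (O × List O →₀ ℤ) →ₗ[ℤ] M) (N : Submodule ℤ M)
    (h : ∀ t, t ∈ Tup r A → t.2.length = n → F (single t 1) ∈ N) {c : O × List O →₀ ℤ}
    (hc : c ∈ C r A n) : F c ∈ N := by
  rw [C_eq] at hc
  exact lin_mem_of _ N (fun x hx => h x hx.1 hx.2) c hc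

theorem lin_ext_C {M : Type*} [AddCommGroup M] {r : O → O → Prop} {A : Set O} {n : ℕ}
    (F G : (O × List O →₀ ℤ) →ₗ[ℤ] M)
    (h : ∀ t, t ∈ Tup r A → t.2.length = n → F (single t 1) = G (single t 1))
    {c : O × List O →₀ ℤ} (hc : c ∈ C r A n) : F c = G c := by
  rw [C_eq] at hc
  exact lin_ext_on _ (fun x hx => h x hx.1 hx.2) c hc

/-- faces are sublists -/
theorem sbd_sub (l : List O) (g : O) :
    sbd l g ∈ Finsupp.supported ℤ ℤ {s : O × List O | (s.1 :: s.2).Sublist (g :: l) ∧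
      s.2.length + 1 = l.length} := by
  induction l generalizing g with
  | nil => simp [sbd]
  | cons h l ih =>
    rw [sbd_eq]
    refine Submodule.sub_mem _ (Submodule.sub_mem _ ?_ ?_) ?_
    · exact Finsupp.single_mem_supported ℤ 1 ⟨List.sublist_cons_self _ _, by simp⟩
    · refine lin_mem_of _ _ (fun s hs => ?_) _ (ih h)
      rw [cn_single]
      refine Finsupp.single_mem_supported ℤ 1 ⟨?_, ?_⟩
      · exact hs.1.cons_cons g
      · have := hs.2
        simp only [consX, List.length_cons]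
        omega
    · unfold sep
      by_cases hl : l = []
      · subst hl
        simp only [List.isEmpty_nil, ↓reduceIte, one_smul]
        refine Finsupp.single_mem_supported ℤ 1 ⟨?_, by simp⟩
        exact (List.nil_sublist _).cons_cons g
      · rw [if_neg (by simpa [List.isEmpty_iff] using hl), zero_smul]
        exact Submodule.zero_mem _

theorem tup_sub {r : O → O → Prop} {A : Set O} {s t : O × List O} (ht : t ∈ Tup r A)
    (h : (s.1 :: s.2).Sublist (t.1 :: t.2)) : s ∈ Tup r A :=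
  ⟨ht.1.sublist h, fun a ha => ht.2 a (h.subset ha)⟩

theorem sD_mem {r : O → O → Prop} {A : Set O} {n : ℕ} {c : O × List O →₀ ℤ}
    (hc : c ∈ C r A (n + 1)) : sD c ∈ C r A n := by
  refine lin_mem_C sD _ (fun t ht hn => ?_) hc
  rw [sD_single, one_smul, C_eq]
  refine Finsupp.supported_mono ?_ (sbd_sub t.2 t.1)
  rintro s ⟨h1, h2⟩
  exact ⟨tup_sub ht h1, by simp only [Set.mem_ofPred_eq]; omega⟩

theorem sD_zero {r : O → O → Prop} {A : Set O} {c : O × List O →₀ ℤ}
    (hc : c ∈ C r A 0) : sD c = 0 := by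
  refine lin_ext_C sD 0 (fun t ht hn => ?_) hc
  rw [sD_single, List.length_eq_zero_iff.1 hn]
  simp [sbd]

theorem sE_zero {r : O → O → Prop} {A : Set O} {n : ℕ} {c : O × List O →₀ ℤ}
    (hc : c ∈ C r A (n + 1)) : sE c = 0 := by
  refine lin_ext_C sE 0 (fun t ht hn => ?_) hc
  rw [sE_single]
  have : t.2 ≠ [] := by intro h; rw [h] at hn; simp at hn
  simp [sep, this]

theorem sD_sD (c : O × List O →₀ ℤ) : sD (sD c) = 0 := by
  have : sD.comp sD = (0 : (O × List O →₀ ℤ) →ₗ[ℤ] _) := lin_ext fun x => by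
    simp only [LinearMap.comp_apply, sD_single, one_smul, sD_sbd]; rfl
  exact LinearMap.congr_fun this c

theorem sE_sD (c : O × List O →₀ ℤ) : sE (sD c) = 0 := by
  have : sE.comp sD = (0 : (O × List O →₀ ℤ) →ₗ[ℤ] _) := lin_ext fun x => by
    simp only [LinearMap.comp_apply, sD_single, one_smul, sE_sbd]; rfl
  exact LinearMap.congr_fun this c

theorem cn_mem {r : O → O → Prop} {A B : Set O} {n : ℕ} {a : O} (ha : a ∈ A) (hB : B ⊆ A)
    (h : ∀ x ∈ B, r x a) {c : O × List O →₀ ℤ} (hc : c ∈ C r B n) : cn a c ∈ C r A (n + 1) := by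
  refine lin_mem_C (cn a) _ (fun t ht hn => ?_) hc
  rw [cn_single]
  refine single_mem_C ⟨?_, ?_⟩ (by simp [consX, hn]) 1
  · change (a :: t.1 :: t.2).Pairwise _
    rw [List.pairwise_cons]
    exact ⟨fun b hb => h b (ht.2 b hb), ht.1⟩
  · intro b hb
    change b ∈ a :: t.1 :: t.2 at hb
    rcases List.mem_cons.1 hb with rfl | hb
    · exact ha
    · exact hB (ht.2 b hb)

/-- reformulation of `HAc` -/
theorem hac_iff {r : O → O → Prop} {A : Set O} {n : ℕ} :
    HAc r A n ↔ ∀ z ∈ C r A n, sD z = 0 → sE z = 0 → ∃ c ∈ C r A (n + 1), sD c = z := by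
  constructor
  · intro h z hz h1 h2
    obtain ⟨c, hc, hc', e⟩ := h z hz.1 hz.2 h1 h2
    exact ⟨c, ⟨hc, hc'⟩, e⟩
  · intro h z hz hz' h1 h2
    obtain ⟨c, hc, e⟩ := h z ⟨hz, hz'⟩ h1 h2
    exact ⟨c, hc.1, hc.2, e⟩

theorem hac_cone {r : O → O → Prop} {A : Set O} {a : O} (ha : a ∈ A) (h : ∀ x ∈ A, r x a)
    (n : ℕ) : HAc r A n := by
  rw [hac_iff]
  intro z hz h1 h2
  refine ⟨cn a z, cn_mem ha subset_rfl h hz, ?_⟩
  rw [sD_cn, h1, h2]
  simp

/-! ### transfer -/

/-- the map induced on tuples -/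
noncomputable def ml (f : O → O') : (O × List O →₀ ℤ) →ₗ[ℤ] (O' × List O' →₀ ℤ) :=
  Finsupp.lmapDomain ℤ ℤ (Prod.map f (List.map f))

theorem ml_single (f : O → O') (t : O × List O) (k : ℤ) :
    ml f (single t k) = single (f t.1, t.2.map f) k := by
  simp [ml, Prod.map]

theorem ml_sD (f : O → O') (c : O × List O →₀ ℤ) : sD (ml f c) = ml f (sD c) := by
  have : sD.comp (ml f) = (ml f).comp sD := lin_ext fun x => by
    simp only [LinearMap.comp_apply, ml_single, sD_single, one_smul]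
    exact sbd_map f x.2 x.1
  exact LinearMap.congr_fun this c

theorem ml_sE (f : O → O') (c : O × List O →₀ ℤ) : sE (ml f c) = sE c := by
  have : sE.comp (ml f) = sE := lin_ext fun x => by
    simp only [LinearMap.comp_apply, ml_single, sE_single, one_mul]
    unfold sep
    simp
  exact LinearMap.congr_fun this c

theorem ml_mem {r : O → O → Prop} {r' : O' → O' → Prop} {A : Set O} {A' : Set O'} {f : O → O'}
    (h1 : ∀ x ∈ A, f x ∈ A') (h2 : ∀ x ∈ A, ∀ y ∈ A, r x y → r' (f x) (f y)) {n : ℕ}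
    {c : O × List O →₀ ℤ} (hc : c ∈ C r A n) : ml f c ∈ C r' A' n := by
  refine lin_mem_C (ml f) _ (fun t ht hn => ?_) hc
  rw [ml_single]
  refine single_mem_C ⟨?_, ?_⟩ (by simpa using hn) 1
  · change ((t.1 :: t.2).map f).Pairwise _
    rw [List.pairwise_map]
    refine List.Pairwise.imp_of_mem ?_ ht.1
    intro a b ha hb hab
    exact h2 b (ht.2 b hb) a (ht.2 a ha) hab
  · intro b hb
    change b ∈ (t.1 :: t.2).map f at hb
    obtain ⟨a, ha, rfl⟩ := List.mem_map.1 hb
    exact h1 a (ht.2 a ha)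

/-- the homotopy on basis elements -/
noncomputable def hb (φ : O → O) : List O → O → (O × List O →₀ ℤ)
  | [], x => cn (φ x) (single (x, []) 1)
  | y :: l, x => cn (φ x) (single (x, y :: l) 1 - hb φ l y)

/-- the homotopy -/
noncomputable def hh (φ : O → O) : (O × List O →₀ ℤ) →ₗ[ℤ] (O × List O →₀ ℤ) :=
  Finsupp.linearCombination ℤ fun t => hb φ t.2 t.1

theorem hh_single (φ : O → O) (t : O × List O) : hh φ (single t 1) = hb φ t.2 t.1 := by
  simp [hh]

theorem hh_cn (φ : O → O) (x : O) (w : O × List O →₀ ℤ) :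
    hh φ (cn x w) = cn (φ x) (cn x w - hh φ w) := by
  have : (hh φ).comp (cn x) = (cn (φ x)).comp (cn x - hh φ) := lin_ext fun t => by
    simp only [LinearMap.comp_apply, LinearMap.sub_apply, cn_single, hh_single]
    rfl
  exact LinearMap.congr_fun this w

theorem sE_hh (φ : O → O) (w : O × List O →₀ ℤ) : sE (hh φ w) = 0 := by
  have : sE.comp (hh φ) = 0 := lin_ext fun t => by
    obtain ⟨x, l⟩ := t
    simp only [LinearMap.comp_apply, hh_single, LinearMap.zero_apply]
    cases l <;> exact sE_cn _ _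
  exact LinearMap.congr_fun this w

theorem hh_htpy (φ : O → O) (c : O × List O →₀ ℤ) :
    sD (hh φ c) + hh φ (sD c) = c - ml φ c := by
  have : sD.comp (hh φ) + (hh φ).comp sD = LinearMap.id - ml φ := lin_ext fun t => by
    obtain ⟨x, l⟩ := t
    simp only [LinearMap.add_apply, LinearMap.comp_apply, LinearMap.sub_apply, LinearMap.id_apply]
    induction l generalizing x with
    | nil =>
      rw [hh_single]
      change sD (cn (φ x) (single (x, []) 1)) + _ = _
      rw [sD_cn, sD_single, sE_single, ml_single]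
      simp [sbd, sep]
    | cons y l ih =>
      have ih' := ih y
      have eu : (single (x, y :: l) 1 : O × List O →₀ ℤ) = cn x (single (y, l) 1) := by
        rw [cn_single]; rfl
      set v : O × List O →₀ ℤ := single (y, l) 1 with hv
      rw [eu, hh_cn, sD_cn (φ x), map_sub sE, sE_cn, sE_hh, sub_self, zero_smul, sub_zero,
        map_sub sD, sD_cn x v]
      simp only [map_sub]
      rw [hh_cn]
      have e1 : hh φ (sE v • single (x, []) 1) = sE v • cn (φ x) (single (x, []) 1) := by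
        rw [map_smul, hh_single]; rfl
      have e2 : ml φ (cn x v) = cn (φ x) (ml φ v) := by
        rw [hv, cn_single, ml_single, ml_single, cn_single]; rfl
      rw [e1, e2]
      have e3 : ml φ v = v - (sD (hh φ v) + hh φ (sD v)) := by
        rw [ih']; abel
      rw [e3]
      simp only [map_sub, map_add, map_smul]
      abel
  exact LinearMap.congr_fun this c

theorem hh_mem {r : O → O → Prop} (hrf : ∀ x, r x x) (htr : ∀ x y z, r x y → r y z → r x z)
    {A : Set O} {φ : O → O}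
    (h1 : ∀ x ∈ A, φ x ∈ A) (h2 : ∀ x ∈ A, ∀ y ∈ A, r x y → r (φ x) (φ y))
    (h3 : ∀ x ∈ A, r x (φ x)) {n : ℕ} {c : O × List O →₀ ℤ} (hc : c ∈ C r A n) :
    hh φ c ∈ C r A (n + 1) := by
  have key : ∀ (l : List O) (x : O), (x, l) ∈ Tup r A →
      hb φ l x ∈ C r {a | a ∈ A ∧ r a (φ x)} (l.length + 1) := by
    intro l
    induction l with
    | nil =>
      intro x ht
      have hx : x ∈ A := ht.2 x (by simp)
      change cn (φ x) (single (x, []) 1) ∈ _
      refine cn_mem (A := {a | a ∈ A ∧ r a (φ x)}) (B := {a | a ∈ A ∧ r a (φ x)})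
        ⟨h1 x hx, hrf _⟩ subset_rfl (fun y hy => hy.2) (single_mem_C ⟨?_, ?_⟩ rfl 1)
      · simp
      · intro a ha
        rcases List.mem_cons.1 ha with rfl | ha
        · exact ⟨hx, h3 _ hx⟩
        · simp at ha
    | cons y l ih =>
      intro x ht
      have hx : x ∈ A := ht.2 x (by simp)
      have hy : y ∈ A := ht.2 y (by simp)
      have hp := ht.1
      simp only [List.pairwise_cons] at hp
      have hyx : r y x := hp.1 y (by simp)
      change cn (φ x) (single (x, y :: l) 1 - hb φ l y) ∈ _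
      refine cn_mem (A := {a | a ∈ A ∧ r a (φ x)}) (B := {a | a ∈ A ∧ r a (φ x)})
        ⟨h1 x hx, hrf _⟩ subset_rfl (fun y hy => hy.2) (Submodule.sub_mem _ ?_ ?_)
      · refine single_mem_C ⟨ht.1, ?_⟩ rfl 1
        intro a ha
        refine ⟨ht.2 a ha, ?_⟩
        rcases List.mem_cons.1 ha with rfl | ha
        · exact h3 _ hx
        · exact htr _ _ _ (hp.1 a ha) (h3 x hx)
      · refine C_mono ?_ _ (ih y ⟨?_, ?_⟩)
        · rintro a ⟨ha, ha'⟩
          exact ⟨ha, htr _ _ _ ha' (h2 y hy x hx hyx)⟩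
        · exact List.pairwise_cons.2 hp.2
        · intro a ha
          exact ht.2 a (List.mem_cons_of_mem _ ha)
  refine lin_mem_C (hh φ) _ (fun t ht hn => ?_) hc
  rw [hh_single]
  have := key t.2 t.1 ht
  rw [hn] at this
  exact C_mono (fun a ha => ha.1) _ this

theorem hac_transfer {r : O → O → Prop} {r' : O' → O' → Prop} (hrf : ∀ x, r x x)
    (htr : ∀ x y z, r x y → r y z → r x z) {A : Set O} {A' : Set O'} {f : O → O'} {g : O' → O}
    (hf : ∀ x ∈ A, f x ∈ A') (hg : ∀ x ∈ A', g x ∈ A)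
    (hfm : ∀ x ∈ A, ∀ y ∈ A, r x y → r' (f x) (f y))
    (hgm : ∀ x ∈ A', ∀ y ∈ A', r' x y → r (g x) (g y))
    (hgf : ∀ x ∈ A, r x (g (f x))) {n : ℕ} (h : HAc r' A' n) : HAc r A n := by
  rw [hac_iff] at h ⊢
  intro z hz h1 h2
  obtain ⟨c', hc', e⟩ := h (ml f z) (ml_mem hf hfm hz) (by rw [ml_sD, h1, map_zero])
    (by rw [ml_sE, h2])
  refine ⟨ml g c' + hh (g ∘ f) z, Submodule.add_mem _ (ml_mem hg hgm hc')
    (hh_mem hrf htr (fun x hx => hg _ (hf x hx))
      (fun x hx y hy hxy => hgm _ (hf x hx) _ (hf y hy) (hfm x hx y hy hxy)) hgf hz), ?_⟩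
  have e1 := hh_htpy (g ∘ f) z
  rw [h1, map_zero, add_zero] at e1
  have e2 : ml (g ∘ f) z = ml g (ml f z) := by
    have : ml (g ∘ f) = (ml g).comp (ml f) := lin_ext fun x => by
      simp [ml_single]
    rw [this]; rfl
  rw [map_add, ml_sD, e, e1, e2]
  abel

/-! ### glue -/

theorem tup_of_head {r : O → O → Prop} {A B : Set O} {t : O × List O} (ht : t ∈ Tup r A)
    (h : ∀ x ∈ B, ∀ y ∈ A, r y x → y ∈ B) (ht1 : t.1 ∈ B) : t ∈ Tup r B := by
  refine ⟨ht.1, fun a ha => ?_⟩
  rcases List.mem_cons.1 ha with rfl | ha'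
  · exact ht1
  · have := ht.1
    rw [List.pairwise_cons] at this
    exact h _ ht1 a (ht.2 a ha) (this.1 a ha')

theorem filter_mem_C {r : O → O → Prop} {A B : Set O} {n : ℕ} {c : O × List O →₀ ℤ}
    (hc : c ∈ C r A n) (p : O × List O → Prop) [DecidablePred p] (h : ∀ t ∈ Tup r A, p t → t ∈ Tup r B) :
    c.filter p ∈ C r B n := by
  rw [mem_C] at hc ⊢
  intro t ht
  rw [Finsupp.support_filter, Finset.mem_filter] at ht
  exact ⟨h t (hc t ht.1).1 ht.2, (hc t ht.1).2⟩

theorem C_inter {r : O → O → Prop} {A B : Set O} {n : ℕ} {c : O × List O →₀ ℤ}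
    (h1 : c ∈ C r A n) (h2 : c ∈ C r B n) : c ∈ C r (A ∩ B) n := by
  rw [mem_C] at h1 h2 ⊢
  intro t ht
  exact ⟨⟨(h1 t ht).1.1, fun a ha => ⟨(h1 t ht).1.2 a ha, (h2 t ht).1.2 a ha⟩⟩, (h1 t ht).2⟩

theorem hac_glue {r : O → O → Prop} {B D : Set O} (hB : ∀ x ∈ B, ∀ y ∈ D, r y x → y ∈ B)
    (hD : ∀ x ∈ D, ∀ y ∈ B, r y x → y ∈ D) {n : ℕ} (h1 : HAc r B n) (h2 : HAc r D n)
    (h3 : n = 0 → (B ∩ D).Nonempty) (h4 : ∀ m, m + 1 = n → HAc r (B ∩ D) m) :
    HAc r (B ∪ D) n := by
  classical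
  rw [hac_iff] at h1 h2 ⊢
  intro z hz hz1 hz2
  set zB := z.filter (fun t => t.1 ∈ B) with hzB
  set zD := z.filter (fun t => ¬ t.1 ∈ B) with hzD
  have hsum : zB + zD = z := Finsupp.filter_add_filter_not z _
  have mB : zB ∈ C r B n := filter_mem_C hz _ (fun t ht hp => tup_of_head ht (by
    intro x hx y hy hyx
    rcases hy with hy | hy
    · exact hy
    · exact hB x hx y hy hyx) hp)
  have mD : zD ∈ C r D n := filter_mem_C hz _ (fun t ht hp => tup_of_head ht (by
    intro x hx y hy hyx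
    rcases hy with hy | hy
    · exact hD x hx y hy hyx
    · exact hy) (by
      rcases ht.2 t.1 (by simp) with h | h
      · exact absurd h hp
      · exact h))
  have hDsum : sD zB = - sD zD := by
    rw [eq_neg_iff_add_eq_zero, ← map_add, hsum, hz1]
  have hEsum : sE zB = - sE zD := by
    rw [eq_neg_iff_add_eq_zero, ← map_add, hsum, hz2]
  -- the correction
  obtain ⟨u, hu, hu1, hu2⟩ : ∃ u ∈ C r (B ∩ D) n, sD u = sD zB ∧ sE u = sE zB := by
    rcases n with _ | n
    · obtain ⟨a, ha⟩ := h3 rfl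
      refine ⟨sE zB • single (a, []) 1, Submodule.smul_mem _ _ (single_mem_C ⟨by simp, ?_⟩ rfl 1),
        ?_, ?_⟩
      · intro b hb
        rcases List.mem_cons.1 hb with rfl | hb
        · exact ha
        · simp at hb
      · rw [sD_zero mB, map_smul, sD_single]
        simp [sbd]
      · rw [map_smul, sE_single]
        simp [sep]
    · have h5 := hac_iff.1 (h4 n rfl)
      have hw : sD zB ∈ C r (B ∩ D) n := C_inter (sD_mem mB) (by
        rw [hDsum]
        exact Submodule.neg_mem _ (sD_mem mD))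
      obtain ⟨u, hu, e⟩ := h5 _ hw (sD_sD _) (sE_sD _)
      exact ⟨u, hu, e, by rw [sE_zero hu, sE_zero mB]⟩
  obtain ⟨c1, hc1, e1⟩ := h1 (zB - u) (Submodule.sub_mem _ mB (C_mono Set.inter_subset_left _ hu))
    (by rw [map_sub, hu1, sub_self]) (by rw [map_sub, hu2, sub_self])
  obtain ⟨c2, hc2, e2⟩ := h2 (zD + u) (Submodule.add_mem _ mD (C_mono Set.inter_subset_right _ hu))
    (by rw [map_add, hu1, hDsum, add_neg_cancel]) (by rw [map_add, hu2, hEsum, add_neg_cancel])
  refine ⟨c1 + c2, Submodule.add_mem _ (C_mono Set.subset_union_left _ hc1)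
    (C_mono Set.subset_union_right _ hc2), ?_⟩
  rw [map_add, e1, e2, ← hsum]
  abel

/-! ### morse -/

theorem hac_morse {r : O → O → Prop} (hrf : ∀ x, r x x) (htr : ∀ x y z, r x y → r y z → r x z)
    {A B : Set O} (hBA : B ⊆ A) (hmax : ∀ x ∈ A, x ∉ B → ∀ y ∈ A, r x y → y ∉ B ∧ r y x) {n : ℕ}
    (hA : HAc r A n) (hL : ∀ x ∈ A, x ∉ B → HAc r {y | y ∈ B ∧ r y x} n) : HAc r B n := by
  classical
  rw [hac_iff] at hA ⊢
  intro z hz hz1 hz2
  obtain ⟨c, hc, e⟩ := hA z (C_mono hBA _ hz) hz1 hz2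
  -- tuples whose head is in `B` are in `B`
  have hhead : ∀ t ∈ Tup r A, t.1 ∈ B → t ∈ Tup r B := by
    intro t ht h
    refine tup_of_head ht (fun x hx y hy hyx => ?_) h
    by_contra hyB
    exact (hmax y hy hyB x (hBA hx) hyx).1 hx
  -- induction on the number of bad tuples
  have main : ∀ (k : ℕ) (c : O × List O →₀ ℤ), c ∈ C r A (n + 1) → sD c ∈ C r B n →
      (c.support.filter (fun t => t.1 ∉ B)).card = k → ∃ c' ∈ C r B (n + 1), sD c' = sD c := by
    intro k
    induction k using Nat.strong_induction_on with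
    | _ k IH =>
      intro c hc hcD hk
      by_cases hbad : ∃ t ∈ c.support, t.1 ∉ B
      · obtain ⟨t0, ht0, ht0B⟩ := hbad
        have ht0A : t0.1 ∈ A := ((mem_C.1 hc t0 ht0).1).2 _ (by simp)
        let p : O × List O → Prop := fun t => t.1 ∉ B ∧ r t.1 t0.1 ∧ r t0.1 t.1
        have hsum : c.filter p + c.filter (fun t => ¬ p t) = c :=
          Finsupp.filter_add_filter_not c _
        have m1 : c.filter p ∈ C r A (n + 1) := filter_mem_C hc _ (fun t ht _ => ht)
        have m2 : c.filter (fun t => ¬ p t) ∈ C r A (n + 1) := filter_mem_C hc _ (fun t ht _ => ht)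
        -- faces of a tuple
        have face : ∀ t ∈ Tup r A, ∀ s : O × List O, (s.1 :: s.2).Sublist (t.1 :: t.2) →
            s.1 ∉ B → t.1 ∉ B ∧ r s.1 t.1 ∧ r t.1 s.1 := by
          intro t ht s hs hsB
          have hsA : s.1 ∈ A := ht.2 _ (hs.subset (by simp))
          have htA : t.1 ∈ A := ht.2 _ (by simp)
          have hst : r s.1 t.1 := by
            rcases List.mem_cons.1 (hs.subset (List.mem_cons_self (a := s.1) (l := s.2))) with h | h
            · rw [h]; exact hrf _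
            · have := ht.1
              rw [List.pairwise_cons] at this
              exact this.1 _ h
          have := hmax s.1 hsA hsB t.1 htA hst
          exact ⟨this.1, hst, this.2⟩
        -- the boundary of the `p`-part lies in the link
        have hlink : sD (c.filter p) ∈ C r {y | y ∈ B ∧ r y t0.1} n := by
          rw [mem_C]
          intro s hs
          have hsA := mem_C.1 (sD_mem m1) s hs
          -- `s` is a face of a `p`-tuple
          obtain ⟨t, htA, htp, hst⟩ : ∃ t, t ∈ Tup r A ∧ p t ∧ (s.1 :: s.2).Sublist (t.1 :: t.2) := by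
            have : sD (c.filter p) ∈ Finsupp.supported ℤ ℤ
                {s : O × List O | ∃ t, t ∈ Tup r A ∧ p t ∧ (s.1 :: s.2).Sublist (t.1 :: t.2)} := by
              refine lin_mem_of {t | t ∈ Tup r A ∧ p t} _ (fun t ht => ?_) _ ?_
              · rw [sD_single, one_smul]
                refine Finsupp.supported_mono ?_ (sbd_sub t.2 t.1)
                rintro s ⟨h1, -⟩
                exact ⟨t, ht.1, ht.2, h1⟩
              · rw [Finsupp.mem_supported]
                intro t ht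
                have ht' : t ∈ (c.filter p).support := ht
                rw [Finsupp.support_filter, Finset.mem_filter] at ht'
                exact ⟨(mem_C.1 hc t ht'.1).1, ht'.2⟩
            exact this hs
          -- `s.1 ∈ B`
          have hsB : s.1 ∈ B := by
            by_contra hsB
            obtain ⟨-, h1, h2⟩ := face t htA s hst hsB
            have hps : p s := ⟨hsB, htr _ _ _ h1 htp.2.1, htr _ _ _ htp.2.2 h2⟩
            -- the coefficient of `s` vanishes
            have hcoef : sD (c.filter p) s = 0 := by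
              have e1 : sD (c.filter p) = sD c - sD (c.filter (fun t => ¬ p t)) := by
                rw [eq_sub_iff_add_eq, ← map_add, hsum]
              rw [e1, Finsupp.sub_apply]
              have e2 : sD c s = 0 := by
                by_contra hne
                have := (mem_C.1 hcD s (Finsupp.mem_support_iff.2 hne)).1
                exact hsB (this.2 _ (by simp))
              have e3 : sD (c.filter (fun t => ¬ p t)) s = 0 := by
                have : sD (c.filter (fun t => ¬ p t)) ∈ Finsupp.supported ℤ ℤ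
                    {s : O × List O | ¬ p s} := by
                  refine lin_mem_of {t | t ∈ Tup r A ∧ ¬ p t} _ (fun t ht => ?_) _ ?_
                  · rw [sD_single, one_smul]
                    refine Finsupp.supported_mono ?_ (sbd_sub t.2 t.1)
                    rintro s ⟨h1, -⟩ hps'
                    obtain ⟨k1, k2, k3⟩ := face t ht.1 s h1 hps'.1
                    exact ht.2 ⟨k1, htr _ _ _ k3 hps'.2.1, htr _ _ _ hps'.2.2 k2⟩
                  · rw [Finsupp.mem_supported]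
                    intro t ht
                    have ht' : t ∈ (c.filter (fun t => ¬ p t)).support := ht
                    rw [Finsupp.support_filter, Finset.mem_filter] at ht'
                    exact ⟨(mem_C.1 hc t ht'.1).1, ht'.2⟩
                by_contra hne
                exact this (Finsupp.mem_support_iff.2 hne) hps
              rw [e2, e3, sub_zero]
            exact (Finsupp.mem_support_iff.1 hs) hcoef
          have hsTB := hhead s hsA.1 hsB
          refine ⟨⟨hsA.1.1, fun a ha => ⟨hsTB.2 a ha, ?_⟩⟩, hsA.2⟩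
          -- everything in `s` is below `t0.1`
          have hat : r a t.1 := by
            rcases List.mem_cons.1 (hst.subset ha) with h | h
            · rw [h]; exact hrf _
            · have := htA.1
              rw [List.pairwise_cons] at this
              exact this.1 _ h
          exact htr _ _ _ hat htp.2.1
        obtain ⟨u, hu, hue⟩ := hac_iff.1 (hL t0.1 ht0A ht0B) _ hlink (sD_sD _) (sE_sD _)
        have huB : u ∈ C r B (n + 1) := C_mono (fun y hy => hy.1) _ hu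
        have hnew : sD (c.filter (fun t => ¬ p t) + u) = sD c := by
          rw [map_add, hue, ← map_add, add_comm, hsum]
        have hlt : ((c.filter (fun t => ¬ p t) + u).support.filter (fun t => t.1 ∉ B)).card < k := by
          rw [← hk]
          apply Finset.card_lt_card
          rw [Finset.ssubset_iff_of_subset]
          · refine ⟨t0, Finset.mem_filter.2 ⟨ht0, ht0B⟩, ?_⟩
            intro hmem
            rw [Finset.mem_filter, Finsupp.mem_support_iff, Finsupp.add_apply] at hmem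
            apply hmem.1
            have e1 : (c.filter (fun t => ¬ p t)) t0 = 0 := by
              apply Finsupp.filter_apply_neg
              rw [not_not]
              exact ⟨ht0B, hrf _, hrf _⟩
            have e2 : u t0 = 0 := by
              by_contra hne
              exact ht0B ((mem_C.1 huB t0 (Finsupp.mem_support_iff.2 hne)).1.2 _ (by simp))
            rw [e1, e2, add_zero]
          · intro t ht
            rw [Finset.mem_filter] at ht ⊢
            refine ⟨?_, ht.2⟩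
            have h1 := ht.1
            rw [Finsupp.mem_support_iff, Finsupp.add_apply] at h1
            have e2 : u t = 0 := by
              by_contra hne
              exact ht.2 ((mem_C.1 huB t (Finsupp.mem_support_iff.2 hne)).1.2 _ (by simp))
            rw [e2, add_zero] at h1
            rw [Finsupp.mem_support_iff]
            intro h0
            apply h1
            rw [Finsupp.filter_apply]
            split_ifs <;> simp [h0]
        obtain ⟨c', hc', hce⟩ := IH _ hlt (c.filter (fun t => ¬ p t) + u)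
          (Submodule.add_mem _ m2 (C_mono hBA _ huB)) (by rw [hnew]; exact hcD) rfl
        exact ⟨c', hc', by rw [hce, hnew]⟩
      · push Not at hbad
        refine ⟨c, ?_, rfl⟩
        rw [mem_C] at hc ⊢
        intro t ht
        exact ⟨hhead t (hc t ht).1 (hbad t ht), (hc t ht).2⟩
  obtain ⟨c', hc', e'⟩ := main _ c hc (by rw [e]; exact hz) rfl
  exact ⟨c', hc', by rw [e', e]⟩

/-! ### union -/

theorem hac_union {r : O → O → Prop} {ι : Type} [Nonempty ι] (A : ι → Set O)
    (hd : ∀ i j, ∃ k, A i ⊆ A k ∧ A j ⊆ A k) {n : ℕ} (h : ∀ i, HAc r (A i) n) :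
    HAc r (⋃ i, A i) n := by
  classical
  rw [hac_iff]
  intro z hz h1 h2
  have hfin : ∀ F : Finset O, (∀ a ∈ F, a ∈ ⋃ i, A i) → ∃ k, ∀ a ∈ F, a ∈ A k := by
    intro F
    induction F using Finset.induction_on with
    | empty => intro _; exact ⟨Classical.arbitrary ι, by simp⟩
    | insert a F ha ih =>
      intro hF
      obtain ⟨k, hk⟩ := ih (fun b hb => hF b (Finset.mem_insert_of_mem hb))
      obtain ⟨i, hi⟩ := Set.mem_iUnion.1 (hF a (Finset.mem_insert_self _ _))
      obtain ⟨l, hl1, hl2⟩ := hd k i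
      refine ⟨l, fun b hb => ?_⟩
      rcases Finset.mem_insert.1 hb with rfl | hb
      · exact hl2 hi
      · exact hl1 (hk b hb)
  obtain ⟨k, hk⟩ := hfin (z.support.biUnion fun t => (t.1 :: t.2).toFinset) (by
    intro a ha
    rw [Finset.mem_biUnion] at ha
    obtain ⟨t, ht, ha⟩ := ha
    exact (mem_C.1 hz t ht).1.2 a (List.mem_toFinset.1 ha))
  have hzk : z ∈ C r (A k) n := by
    rw [mem_C] at hz ⊢
    intro t ht
    refine ⟨⟨(hz t ht).1.1, fun a ha => hk a ?_⟩, (hz t ht).2⟩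
    rw [Finset.mem_biUnion]
    exact ⟨t, ht, List.mem_toFinset.2 ha⟩
  obtain ⟨c, hc, e⟩ := hac_iff.1 (h k) z hzk h1 h2
  exact ⟨c, C_mono (Set.subset_iUnion A k) _ hc, e⟩

end Crest.Agent.R185.QHom

namespace Crest.Agent.R185.Q

open Crest.Agent.R185.QHom

/-- **the homology theory** -/
def homTh : ConTh where
  Con := fun r m A => HCon r m A
  zero h := ⟨h, fun n hn => absurd hn (Nat.not_lt_zero n)⟩
  cone _ _ A a ha h m := ⟨⟨a, ha⟩, fun n _ => hac_cone ha h n⟩
  transfer hrf htr _ _ A A' f g hf hg hfm hgm hgf m h := by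
    refine ⟨?_, fun n hn => hac_transfer hrf htr hf hg hfm hgm hgf (h.2 n hn)⟩
    obtain ⟨a', ha'⟩ := h.1
    exact ⟨g a', hg a' ha'⟩
  glue _ _ B D hB hD m h1 h2 h3 := by
    refine ⟨h1.1.mono Set.subset_union_left, fun n hn => ?_⟩
    exact hac_glue hB hD (h1.2 n hn) (h2.2 n hn) (fun _ => h3.1)
      (fun k hk => h3.2 k (by omega))
  morse hrf htr A B hBA hmax m hA hL := by
    refine ⟨?_, fun n hn => hac_morse hrf htr hBA hmax (hA.2 n hn)
      (fun x hx hxB => (hL x hx hxB).2 n hn)⟩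
    obtain ⟨a, ha⟩ := hA.1
    by_cases h : a ∈ B
    · exact ⟨a, h⟩
    · obtain ⟨y, hy⟩ := (hL a ha h).1
      exact ⟨y, hy.1⟩
  union := by
    intro O r hrf htr ι hne A hd m h
    refine ⟨?_, fun n hn => hac_union A hd (fun i => (h i).2 n hn)⟩
    obtain ⟨a, ha⟩ := (h (Classical.arbitrary _)).1
    exact ⟨a, Set.mem_iUnion.2 ⟨_, ha⟩⟩

end Crest.Agent.R185.Q
end

-- ▼ part R185/QSub
section

/-!
# Row 185 (Q2): subcomplexes of based complexes (helper424)
-/

set_option autoImplicit false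

namespace Crest.Agent.R185.Q

open Crest.Agent.R185.Null
open Finsupp (single)

variable {G : Type} [Group G]

section Sub

variable {X : Type} (S : Set X)

/-- the inclusion of chains -/
noncomputable def inc : (S →₀ ℤ) →ₗ[ℤ] (X →₀ ℤ) := Finsupp.lmapDomain ℤ ℤ Subtype.val

theorem inc_single (x : S) (k : ℤ) : inc S (single x k) = single x.1 k := by
  simp [inc]

theorem inc_inj : Function.Injective (inc S) :=
  Finsupp.mapDomain_injective Subtype.val_injective

/-- the restriction of chains -/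
noncomputable def resS (c : X →₀ ℤ) : S →₀ ℤ := c.comapDomain Subtype.val Subtype.val_injective.injOn

theorem inc_resS {c : X →₀ ℤ} (h : ∀ x ∈ c.support, x ∈ S) : inc S (resS S c) = c := by
  change Finsupp.mapDomain Subtype.val (Finsupp.comapDomain Subtype.val c _) = c
  refine Finsupp.mapDomain_comapDomain _ Subtype.val_injective _ ?_
  intro x hx
  exact ⟨⟨x, h x hx⟩, rfl⟩

theorem mem_supp_inc {c : S →₀ ℤ} {x : X} (h : x ∈ (inc S c).support) :
    ∃ hx : x ∈ S, (⟨x, hx⟩ : S) ∈ c.support := by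
  classical
  have := Finsupp.mapDomain_support (f := Subtype.val) (s := c) h
  obtain ⟨y, hy, rfl⟩ := Finset.mem_image.1 this
  exact ⟨y.2, hy⟩

theorem supp_inc {c : S →₀ ℤ} {x : S} (h : x ∈ c.support) : x.1 ∈ (inc S c).support := by
  rw [Finsupp.mem_support_iff] at h ⊢
  have : inc S c x.1 = c x := Finsupp.mapDomain_apply Subtype.val_injective c x
  rwa [this]

end Sub

/-- subcomplexes -/
@[reducible] noncomputable def subPC (A : PCx.{0, 0} G) (S : Set A.X) (hsm : ∀ g, ∀ x ∈ S, A.sm g x ∈ S)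
    (hbd : ∀ x ∈ S, ∀ y ∈ (A.bd x).support, y ∈ S) : PCx.{0, 0} G where
  X := S
  sm g x := ⟨A.sm g x, hsm g x x.2⟩
  sm_one x := Subtype.ext (A.sm_one x)
  sm_mul g h x := Subtype.ext (A.sm_mul g h x)
  deg x := A.deg x
  deg_sm g x := A.deg_sm g x
  bd x := resS S (A.bd x)
  bd_sm g x := by
    apply inc_inj S
    rw [inc_resS S (hbd _ (hsm g x x.2)), A.bd_sm]
    have h1 : inc S ((resS S (A.bd x)).mapDomain
        (fun x : S => (⟨A.sm g x, hsm g x x.2⟩ : S))) =
        (inc S (resS S (A.bd x))).mapDomain (A.sm g) := by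
      change Finsupp.mapDomain _ (Finsupp.mapDomain _ _) = Finsupp.mapDomain _ (Finsupp.mapDomain _ _)
      rw [← Finsupp.mapDomain_comp, ← Finsupp.mapDomain_comp]
      rfl
    rw [h1, inc_resS S (hbd _ x.2)]
  bd_deg x y hy := by
    have h1 := supp_inc S hy
    rw [inc_resS S (hbd _ x.2)] at h1
    exact A.bd_deg _ _ h1
  bd_bd x := by
    apply inc_inj S
    have h1 : (inc S).comp (Finsupp.linearCombination ℤ (fun x : S => resS S (A.bd x))) =
        (Finsupp.linearCombination ℤ A.bd).comp (inc S) := lin_ext fun y => by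
      simp only [LinearMap.comp_apply, Finsupp.linearCombination_single, one_smul, inc_single]
      exact inc_resS S (hbd _ y.2)
    have h2 := LinearMap.congr_fun h1 (resS S (A.bd x))
    simp only [LinearMap.comp_apply] at h2
    rw [h2, inc_resS S (hbd _ x.2), A.bd_bd, map_zero]
  ep x := A.ep x
  ep_sm g x := A.ep_sm g x
  ep_deg x hx := A.ep_deg x hx
  ep_bd x := by
    have h1 : Finsupp.linearCombination ℤ (fun x : S => A.ep x) =
        (Finsupp.linearCombination ℤ A.ep).comp (inc S) := lin_ext fun y => by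
      simp only [LinearMap.comp_apply, Finsupp.linearCombination_single, one_smul, inc_single]
    rw [h1, LinearMap.comp_apply, inc_resS S (hbd _ x.2), A.ep_bd]

variable (A : PCx.{0, 0} G) (S : Set A.X) (hsm : ∀ g, ∀ x ∈ S, A.sm g x ∈ S)
    (hbd : ∀ x ∈ S, ∀ y ∈ (A.bd x).support, y ∈ S)

theorem inc_D (c : (subPC A S hsm hbd).X →₀ ℤ) : inc S ((subPC A S hsm hbd).D c) = A.D (inc S c) := by
  have h1 : (inc S).comp (subPC A S hsm hbd).D = A.D.comp (inc S) := lin_ext fun y => by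
    have e1 := (subPC A S hsm hbd).D_single y 1
    have e2 := A.D_single y.1 1
    rw [one_smul] at e1 e2
    change inc S ((subPC A S hsm hbd).D (single y 1)) = A.D (inc S (single y 1))
    rw [inc_single, e1, e2]
    exact inc_resS S (hbd _ y.2)
  exact LinearMap.congr_fun h1 c

theorem inc_E (c : (subPC A S hsm hbd).X →₀ ℤ) : (subPC A S hsm hbd).E c = A.E (inc S c) := by
  have h1 : (subPC A S hsm hbd).E = A.E.comp (inc S) := lin_ext fun y => by
    have e1 := (subPC A S hsm hbd).E_single y 1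
    have e2 := A.E_single y.1 1
    change (subPC A S hsm hbd).E (single y 1) = A.E (inc S (single y 1))
    rw [inc_single, e1, e2]
  exact LinearMap.congr_fun h1 c

end Crest.Agent.R185.Q
end

-- ▼ part R185/QCov

/-!
# Row 185 (Q2, block P2): the covering theory `covTh` (helper173)
-/

set_option autoImplicit false

namespace Crest.Agent.R185.Q

open Set

variable {O : Type} {r : O → O → Prop} {A : Set O}

/-- two primitives of the same cocycle differ by a left constant on a connected set -/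
theorem prim_unique (h : Cnd r A) {K : Type} [Group K] {b b' : O → K}
    (hb : ∀ x ∈ A, ∀ y ∈ A, r x y → (b x)⁻¹ * b y = (b' x)⁻¹ * b' y)
    {x y : O} (hx : x ∈ A) (hy : y ∈ A) : b x * (b' x)⁻¹ = b y * (b' y)⁻¹ := by
  have key := h (fun z => b z * (b' z)⁻¹ = b y * (b' y)⁻¹) (by
    intro u hu v hv huv
    have e : b u * (b' u)⁻¹ = b v * (b' v)⁻¹ := by
      have e1 : b v = b u * ((b' u)⁻¹ * b' v) := by
        rw [← hb u hu v hv huv]; group
      rw [e1]; group
    simp only [e]) x hx y hy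
  exact key.2 rfl

theorem prim_unique' (h : Cnd r A) {K : Type} [Group K] {b b' : O → K}
    (hb : ∀ x ∈ A, ∀ y ∈ A, r x y → (b x)⁻¹ * b y = (b' x)⁻¹ * b' y)
    {x y : O} (hx : x ∈ A) (hy : y ∈ A) : (b x)⁻¹ * b y = (b' x)⁻¹ * b' y := by
  have e := prim_unique h hb hx hy
  have e1 : b y = b x * (b' x)⁻¹ * b' y := by rw [e]; group
  rw [e1]; group

theorem cov_cone
    (A : Set O) (a : O) (ha : a ∈ A) (hA : ∀ x ∈ A, r x a) (m : ℕ) : CCon r m A := by
  refine ⟨⟨a, ha⟩, fun _ => ?_, fun _ => ?_⟩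
  · intro f hf x hx y hy
    rw [hf x hx a ha (hA x hx), hf y hy a ha (hA y hy)]
  · intro K _ c hc
    refine ⟨fun x => (c x a)⁻¹, fun x hx y hy hxy => ?_⟩
    have := hc x hx y hy a ha hxy (hA y hy)
    show c x y = ((c x a)⁻¹)⁻¹ * (c y a)⁻¹
    rw [this]; group

theorem cov_transfer {O' : Type} {r' : O' → O' → Prop}
    (ht : ∀ x y z, r x y → r y z → r x z)
    (A : Set O) (A' : Set O') (f : O → O') (g : O' → O)
    (hf : ∀ x ∈ A, f x ∈ A') (hg : ∀ x ∈ A', g x ∈ A)
    (hfm : ∀ x ∈ A, ∀ y ∈ A, r x y → r' (f x) (f y))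
    (hgm : ∀ x ∈ A', ∀ y ∈ A', r' x y → r (g x) (g y))
    (hfg : ∀ x ∈ A, r x (g (f x))) (m : ℕ) (h : CCon r' m A') : CCon r m A := by
  obtain ⟨⟨p, hp⟩, h1, h2⟩ := h
  refine ⟨⟨g p, hg p hp⟩, fun hm => ?_, fun hm => ?_⟩
  · intro φ hφ x hx y hy
    have key := h1 hm (fun z => φ (g z)) (fun u hu v hv huv =>
      hφ _ (hg u hu) _ (hg v hv) (hgm u hu v hv huv)) (f x) (hf x hx) (f y) (hf y hy)
    rw [hφ x hx _ (hg _ (hf x hx)) (hfg x hx), hφ y hy _ (hg _ (hf y hy)) (hfg y hy)]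
    exact key
  · intro K _ c hc
    obtain ⟨b', hb'⟩ := h2 hm K (fun u v => c (g u) (g v)) (fun u hu v hv w hw huv hvw =>
      hc _ (hg u hu) _ (hg v hv) _ (hg w hw) (hgm u hu v hv huv) (hgm v hv w hw hvw))
    refine ⟨fun x => b' (f x) * (c x (g (f x)))⁻¹, fun x hx y hy hxy => ?_⟩
    have gx := hg _ (hf x hx)
    have gy := hg _ (hf y hy)
    have gxy := hgm _ (hf x hx) _ (hf y hy) (hfm x hx y hy hxy)
    have e1 := hc x hx _ gx _ gy (hfg x hx) gxy
    have e2 := hc x hx y hy _ gy hxy (hfg y hy)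
    have e3 := hb' _ (hf x hx) _ (hf y hy) (hfm x hx y hy hxy)
    have e4 : c x y = c x (g (f x)) * c (g (f x)) (g (f y)) * (c y (g (f y)))⁻¹ := by
      rw [← e1, e2]; group
    show c x y = (b' (f x) * (c x (g (f x)))⁻¹)⁻¹ * (b' (f y) * (c y (g (f y)))⁻¹)
    rw [e4, e3]; group

theorem cov_glue (B C : Set O)
    (hBC : ∀ x ∈ B, ∀ y ∈ C, r y x → y ∈ B) (hCB : ∀ x ∈ C, ∀ y ∈ B, r y x → y ∈ C)
    (m : ℕ) (hB : CCon r (m + 1) B) (hC : CCon r (m + 1) C) (hI : CCon r m (B ∩ C)) :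
    CCon r (m + 1) (B ∪ C) := by
  classical
  obtain ⟨⟨p, hpB, hpC⟩, hI1, -⟩ := hI
  obtain ⟨-, hB1, hB2⟩ := hB
  obtain ⟨-, hC1, hC2⟩ := hC
  have hB1 := hB1 (by omega)
  have hC1 := hC1 (by omega)
  refine ⟨⟨p, Or.inl hpB⟩, fun _ => ?_, fun hm => ?_⟩
  · intro f hf x hx y hy
    have hfB : ∀ x ∈ B, (f x ↔ f p) := fun x hx =>
      hB1 f (fun u hu v hv => hf u (Or.inl hu) v (Or.inl hv)) x hx p hpB
    have hfC : ∀ x ∈ C, (f x ↔ f p) := fun x hx =>
      hC1 f (fun u hu v hv => hf u (Or.inr hu) v (Or.inr hv)) x hx p hpC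
    have hfU : ∀ x ∈ B ∪ C, (f x ↔ f p) := by
      rintro x (hx | hx)
      · exact hfB x hx
      · exact hfC x hx
    rw [hfU x hx, hfU y hy]
  · intro K _ c hc
    have hI1 := hI1 (by omega)
    obtain ⟨bB, hbB⟩ := hB2 hm K c (fun u hu v hv w hw =>
      hc u (Or.inl hu) v (Or.inl hv) w (Or.inl hw))
    obtain ⟨bC, hbC⟩ := hC2 hm K c (fun u hu v hv w hw =>
      hc u (Or.inr hu) v (Or.inr hv) w (Or.inr hw))
    have hk : ∀ x ∈ B ∩ C, bB x * (bC x)⁻¹ = bB p * (bC p)⁻¹ := fun x hx =>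
      prim_unique hI1 (fun u hu v hv huv => by
        rw [← hbB u hu.1 v hv.1 huv, ← hbC u hu.2 v hv.2 huv]) hx ⟨hpB, hpC⟩
    set k := bB p * (bC p)⁻¹ with hkdef
    have hk' : ∀ x ∈ B ∩ C, bB x = k * bC x := fun x hx => by
      rw [← hk x hx]; group
    refine ⟨fun x => if x ∈ B then bB x else k * bC x, fun x hx y hy hxy => ?_⟩
    by_cases hyB : y ∈ B
    · have hxB : x ∈ B := by
        rcases hx with hx | hx
        · exact hx
        · exact hBC y hyB x hx hxy
      simp only [if_pos hxB, if_pos hyB]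
      exact hbB x hxB y hyB hxy
    · have hyC : y ∈ C := hy.resolve_left hyB
      have hxC : x ∈ C := by
        rcases hx with hx | hx
        · exact hCB y hyC x hx hxy
        · exact hx
      have e : (if x ∈ B then bB x else k * bC x) = k * bC x := by
        split_ifs with hxB
        · exact hk' x ⟨hxB, hxC⟩
        · rfl
      simp only [if_neg hyB, e]
      rw [hbC x hxC y hyC hxy]; group

theorem cov_morse (ht : ∀ x y z, r x y → r y z → r x z)
    (A B : Set O) (hBA : B ⊆ A) (hmax : ∀ x ∈ A, x ∉ B → ∀ y ∈ A, r x y → y ∉ B ∧ r y x)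
    (m : ℕ) (hA : CCon r m A) (hD : ∀ x ∈ A, x ∉ B → CCon r m {y | y ∈ B ∧ r y x}) :
    CCon r m B := by
  classical
  obtain ⟨⟨p, hp⟩, hA1, hA2⟩ := hA
  have hDeq : ∀ x ∈ A, x ∉ B → ∀ y ∈ A, r x y →
      {z | z ∈ B ∧ r z x} = {z | z ∈ B ∧ r z y} := by
    intro x hx hxB y hy hxy
    ext z
    exact ⟨fun hz => ⟨hz.1, ht _ _ _ hz.2 hxy⟩,
      fun hz => ⟨hz.1, ht _ _ _ hz.2 (hmax x hx hxB y hy hxy).2⟩⟩
  refine ⟨?_, fun hm => ?_, fun hm => ?_⟩
  · by_cases hpB : p ∈ B
    · exact ⟨p, hpB⟩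
    · obtain ⟨y, hy⟩ := (hD p hp hpB).1
      exact ⟨y, hy.1⟩
  · intro f hf x hx y hy
    set F : O → Prop := fun z => if z ∈ B then f z else ∃ w ∈ B, r w z ∧ f w with hF
    have hFB : ∀ z ∈ B, (F z ↔ f z) := fun z hz => by simp only [hF, if_pos hz]
    have hFD : ∀ z ∈ A, z ∉ B → ∀ w ∈ B, r w z → (F z ↔ f w) := by
      intro z hz hzB w hw hwz
      simp only [hF, if_neg hzB]
      have hDz := (hD z hz hzB).2.1 hm f (fun u hu v hv => hf u hu.1 v hv.1)
      constructor
      · rintro ⟨w', hw', hw'z, hfw'⟩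
        exact (hDz w' ⟨hw', hw'z⟩ w ⟨hw, hwz⟩).1 hfw'
      · intro h
        exact ⟨w, hw, hwz, h⟩
    have hloc : ∀ u ∈ A, ∀ v ∈ A, r u v → (F u ↔ F v) := by
      intro u hu v hv huv
      by_cases huB : u ∈ B
      · by_cases hvB : v ∈ B
        · rw [hFB u huB, hFB v hvB]
          exact hf u huB v hvB huv
        · rw [hFB u huB, hFD v hv hvB u huB huv]
      · obtain ⟨hvB, -⟩ := hmax u hu huB v hv huv
        obtain ⟨w, hw⟩ := (hD u hu huB).1
        rw [hFD u hu huB w hw.1 hw.2, hFD v hv hvB w hw.1 (ht _ _ _ hw.2 huv)]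
    have := hA1 hm F hloc x (hBA hx) y (hBA hy)
    rwa [hFB x hx, hFB y hy] at this
  · intro K _ c hc
    have hex : ∀ D : Set O, ∃ b : O → K, (∃ x ∈ A, x ∉ B ∧ D = {z | z ∈ B ∧ r z x}) →
        ∀ y ∈ D, ∀ z ∈ D, r y z → c y z = (b y)⁻¹ * b z := by
      intro D
      by_cases h : ∃ x ∈ A, x ∉ B ∧ D = {z | z ∈ B ∧ r z x}
      · obtain ⟨x, hx, hxB, rfl⟩ := h
        obtain ⟨b, hb⟩ := (hD x hx hxB).2.2 hm K c (fun u hu v hv w hw =>
          hc u hu.1 v hv.1 w hw.1)
        exact ⟨b, fun _ => hb⟩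
      · exact ⟨fun _ => 1, fun h' => absurd h' h⟩
    choose bb hbb using hex
    set D : O → Set O := fun x => {z | z ∈ B ∧ r z x} with hDdef
    set c' : O → O → K := fun u v =>
      if v ∈ B then c u v else if u ∈ B then (bb (D v) u)⁻¹ else 1 with hc'
    have hcoc : ∀ u ∈ A, ∀ v ∈ A, ∀ w ∈ A, r u v → r v w → c' u w = c' u v * c' v w := by
      intro u hu v hv w hw huv hvw
      by_cases hwB : w ∈ B
      · have hvB : v ∈ B := by
          by_contra hvB
          exact (hmax v hv hvB w hw hvw).1 hwB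
        have huB : u ∈ B := by
          by_contra huB
          exact (hmax u hu huB v hv huv).1 hvB
        simp only [hc', if_pos hwB, if_pos hvB]
        exact hc u huB v hvB w hwB huv hvw
      · by_cases hvB : v ∈ B
        · have huB : u ∈ B := by
            by_contra huB
            exact (hmax u hu huB v hv huv).1 hvB
          simp only [hc', if_neg hwB, if_pos hvB, if_pos huB]
          have e := hbb (D w) ⟨w, hw, hwB, rfl⟩ u ⟨huB, ht _ _ _ huv hvw⟩ v ⟨hvB, hvw⟩ huv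
          rw [e]; group
        · by_cases huB : u ∈ B
          · simp only [hc', if_neg hwB, if_neg hvB, if_pos huB, mul_one]
            rw [show D v = D w from hDeq v hv hvB w hw hvw]
          · simp only [hc', if_neg hwB, if_neg hvB, if_neg huB, mul_one]
    obtain ⟨b, hb⟩ := hA2 hm K c' hcoc
    refine ⟨b, fun x hx y hy hxy => ?_⟩
    have := hb x (hBA hx) y (hBA hy) hxy
    simpa only [hc', if_pos hy] using this

theorem cov_union {ι : Type} [Nonempty ι] (A : ι → Set O)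
    (hdir : ∀ i j, ∃ k, A i ⊆ A k ∧ A j ⊆ A k) (m : ℕ) (h : ∀ i, CCon r m (A i)) :
    CCon r m (⋃ i, A i) := by
  classical
  obtain ⟨i0⟩ := (inferInstance : Nonempty ι)
  obtain ⟨p, hp⟩ := (h i0).1
  refine ⟨⟨p, mem_iUnion.2 ⟨i0, hp⟩⟩, fun hm => ?_, fun hm => ?_⟩
  · intro f hf x hx y hy
    obtain ⟨i, hx⟩ := mem_iUnion.1 hx
    obtain ⟨j, hy⟩ := mem_iUnion.1 hy
    obtain ⟨k, hik, hjk⟩ := hdir i j
    exact (h k).2.1 hm f (fun u hu v hv => hf u (mem_iUnion.2 ⟨k, hu⟩) v (mem_iUnion.2 ⟨k, hv⟩))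
      x (hik hx) y (hjk hy)
  · intro K _ c hc
    have hex : ∀ k, ∃ b : O → K, ∀ x ∈ A k, ∀ y ∈ A k, r x y → c x y = (b x)⁻¹ * b y := fun k =>
      (h k).2.2 hm K c (fun u hu v hv w hw => hc u (mem_iUnion.2 ⟨k, hu⟩) v
        (mem_iUnion.2 ⟨k, hv⟩) w (mem_iUnion.2 ⟨k, hw⟩))
    choose β hβ using hex
    -- comparison on a smaller member
    have hcmp : ∀ k l, A k ⊆ A l → ∀ x ∈ A k, ∀ y ∈ A k,
        (β k x)⁻¹ * β k y = (β l x)⁻¹ * β l y := by
      intro k l hkl x hx y hy
      exact prim_unique' ((h k).2.1 (by omega)) (fun u hu v hv huv => by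
        rw [← hβ k u hu v hv huv, ← hβ l u (hkl hu) v (hkl hv) huv]) hx hy
    have hcmp' : ∀ k l x, p ∈ A k → x ∈ A k → p ∈ A l → x ∈ A l →
        (β k p)⁻¹ * β k x = (β l p)⁻¹ * β l x := by
      intro k l x hpk hxk hpl hxl
      obtain ⟨n, hkn, hln⟩ := hdir k l
      rw [hcmp k n hkn p hpk x hxk, hcmp l n hln p hpl x hxl]
    have hsel : ∀ x, ∃ k, x ∈ (⋃ i, A i) → (p ∈ A k ∧ x ∈ A k) := by
      intro x
      by_cases hx : x ∈ ⋃ i, A i
      · obtain ⟨i, hi⟩ := mem_iUnion.1 hx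
        obtain ⟨k, h1, h2⟩ := hdir i i0
        exact ⟨k, fun _ => ⟨h2 hp, h1 hi⟩⟩
      · exact ⟨i0, fun h' => absurd h' hx⟩
    choose κ hκ using hsel
    refine ⟨fun x => (β (κ x) p)⁻¹ * β (κ x) x, fun x hx y hy hxy => ?_⟩
    obtain ⟨hpx, hxx⟩ := hκ x hx
    obtain ⟨hpy, hyy⟩ := hκ y hy
    obtain ⟨n, hxn, hyn⟩ := hdir (κ x) (κ y)
    have e1 : (β (κ x) p)⁻¹ * β (κ x) x = (β n p)⁻¹ * β n x :=
      hcmp' _ _ x hpx hxx (hxn hpx) (hxn hxx)
    have e2 : (β (κ y) p)⁻¹ * β (κ y) y = (β n p)⁻¹ * β n y :=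
      hcmp' _ _ y hpy hyy (hyn hpy) (hyn hyy)
    simp only [e1, e2]
    rw [hβ n x (hxn hxx) y (hyn hyy) hxy]; group

/-- the covering theory -/
def covTh : ConTh where
  Con := fun r m A => CCon r m A
  zero := fun h => ⟨h, fun h' => absurd h' (by omega), fun h' => absurd h' (by omega)⟩
  cone := fun _ _ A a ha hA m => cov_cone A a ha hA m
  transfer := fun _ ht _ _ A A' f g hf hg hfm hgm hfg m h =>
    cov_transfer ht A A' f g hf hg hfm hgm hfg m h
  glue := fun _ ht B C hBC hCB m hB hC hI => cov_glue B C hBC hCB m hB hC hI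
  morse := fun _ ht A B hBA hmax m hA hD => cov_morse ht A B hBA hmax m hA hD
  union := fun _ _ _ _ A hdir m h => cov_union A hdir m h


end Crest.Agent.R185.Q
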