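import Mathlib

-- ▼ part R185/QDefs
section

/-!
# Row 185: the group `Q(Γ,Y)` (helper424)

`W Y = List (Y × ℕ)`, `Γ` acts letterwise.  `sh y` deletes the first `y`-child of the root and
shifts, `ch y` goes to the first `y`-child.  `W = range (sh y) ⊔ range (ch y)`.
`QG Γ Y` = all bijections of `W` that are piecewise given by elements of the monoid `M`
generated by `sh`, `ch` and `Γ`.
-/

set_option autoImplicit false

namespace Crest.Agent.R185.Q

open Classical

/-- words -/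
abbrev W (Y : Type) : Type := List (Y × ℕ)

variable {Γ Y : Type} [Group Γ] [MulAction Γ Y]

/-- shift at `y` -/
noncomputable def sh (y : Y) : W Y → W Y
  | [] => []
  | p :: v => (p.1, if p.1 = y then p.2 + 1 else p.2) :: v

/-- first `y`-child -/
def ch (y : Y) : W Y → W Y := fun v => (y, 0) :: v

/-- letterwise action -/
def ac (γ : Γ) : W Y → W Y := List.map (fun p => (γ • p.1, p.2))

@[simp] theorem sh_nil (y : Y) : sh y [] = [] := rfl
theorem sh_cons (y : Y) (p : Y × ℕ) (v : W Y) :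
    sh y (p :: v) = (p.1, if p.1 = y then p.2 + 1 else p.2) :: v := rfl
@[simp] theorem ch_apply (y : Y) (v : W Y) : ch y v = (y, 0) :: v := rfl
@[simp] theorem ac_nil (γ : Γ) : ac γ ([] : W Y) = [] := rfl
@[simp] theorem ac_cons (γ : Γ) (p : Y × ℕ) (v : W Y) :
    ac γ (p :: v) = (γ • p.1, p.2) :: ac γ v := rfl

theorem sh_inj (y : Y) : Function.Injective (sh y) := by
  intro u v h
  cases u with
  | nil => cases v with
    | nil => rfl
    | cons q v => simp [sh_cons] at h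
  | cons p u => cases v with
    | nil => simp [sh_cons] at h
    | cons q v =>
      obtain ⟨p1, p2⟩ := p
      obtain ⟨q1, q2⟩ := q
      simp only [sh_cons, List.cons.injEq, Prod.mk.injEq] at h ⊢
      obtain ⟨⟨h1, h2⟩, h3⟩ := h
      subst h1
      refine ⟨⟨rfl, ?_⟩, h3⟩
      by_cases hp : p1 = y
      · simpa [hp] using h2
      · simpa [hp] using h2

theorem ch_inj (y : Y) : Function.Injective (ch y) := by
  intro u v h
  simpa using h

theorem ac_mul (γ δ : Γ) : (ac (γ * δ) : W Y → W Y) = ac γ ∘ ac δ := by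
  funext v
  induction v with
  | nil => rfl
  | cons p v ih => simp only [ac_cons, Function.comp_apply, mul_smul] at ih ⊢; rw [ih]

@[simp] theorem ac_one : (ac (1 : Γ) : W Y → W Y) = id := by
  funext v
  induction v with
  | nil => rfl
  | cons p v ih => simp only [ac_cons, id, one_smul] at ih ⊢; rw [ih]

theorem ac_inv_comp (γ : Γ) : (ac γ⁻¹ : W Y → W Y) ∘ ac γ = id := by
  rw [← ac_mul]; simp

theorem ac_comp_inv (γ : Γ) : (ac γ : W Y → W Y) ∘ ac γ⁻¹ = id := by
  rw [← ac_mul]; simp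

theorem ac_inj (γ : Γ) : Function.Injective (ac γ : W Y → W Y) :=
  Function.LeftInverse.injective (g := ac γ⁻¹) (fun v => congrFun (ac_inv_comp γ) v)

theorem ac_surj (γ : Γ) : Function.Surjective (ac γ : W Y → W Y) :=
  fun v => ⟨ac γ⁻¹ v, congrFun (ac_comp_inv γ) v⟩

theorem ac_sh (γ : Γ) (y : Y) : (ac γ : W Y → W Y) ∘ sh y = sh (γ • y) ∘ ac γ := by
  funext v
  cases v with
  | nil => rfl
  | cons p v =>
    simp only [Function.comp_apply, sh_cons, ac_cons]
    have : (γ • p.1 = γ • y) = (p.1 = y) := by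
      simp
    simp [this]

theorem ac_ch (γ : Γ) (y : Y) : (ac γ : W Y → W Y) ∘ ch y = ch (γ • y) ∘ ac γ := by
  funext v; rfl

theorem sh_ac (γ : Γ) (y : Y) : sh y ∘ (ac γ : W Y → W Y) = ac γ ∘ sh (γ⁻¹ • y) := by
  rw [ac_sh]; simp

theorem ch_ac (γ : Γ) (y : Y) : ch y ∘ (ac γ : W Y → W Y) = ac γ ∘ ch (γ⁻¹ • y) := by
  rw [ac_ch]; simp

theorem sh_comm (y z : Y) : sh y ∘ sh z = sh z ∘ (sh y : W Y → W Y) := by
  funext v
  cases v with
  | nil => rfl
  | cons p v =>
    simp only [Function.comp_apply, sh_cons]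
    congr 2
    split_ifs <;> rfl

theorem sh_ch_ne {y z : Y} (h : z ≠ y) : sh y ∘ ch z = (ch z : W Y → W Y) := by
  funext v
  simp [sh_cons, h]

theorem sh_ne_ch (y : Y) (u v : W Y) : sh y u ≠ ch y v := by
  cases u with
  | nil => simp
  | cons p u =>
    intro h
    simp only [sh_cons, ch_apply, List.cons.injEq, Prod.mk.injEq] at h
    obtain ⟨⟨h1, h2⟩, -⟩ := h
    simp [h1] at h2

theorem cover (y : Y) (u : W Y) : (∃ v, sh y v = u) ∨ (∃ v, ch y v = u) := by
  cases u with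
  | nil => exact Or.inl ⟨[], rfl⟩
  | cons p v =>
    obtain ⟨p1, p2⟩ := p
    by_cases h : p1 = y
    · subst h
      cases p2 with
      | zero => exact Or.inr ⟨v, rfl⟩
      | succ n => exact Or.inl ⟨(p1, n) :: v, by simp [sh_cons]⟩
    · exact Or.inl ⟨(p1, p2) :: v, by simp [sh_cons, h]⟩

/-- the monoid generated by `sh y`, `ch y`, `ac γ` -/
inductive M (Γ : Type) {Y : Type} [Group Γ] [MulAction Γ Y] : (W Y → W Y) → Prop
  | one : M Γ id
  | cs (y : Y) (m : W Y → W Y) : M Γ m → M Γ (sh y ∘ m)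
  | cc (y : Y) (m : W Y → W Y) : M Γ m → M Γ (ch y ∘ m)
  | ca (γ : Γ) (m : W Y → W Y) : M Γ m → M Γ (ac γ ∘ m)

theorem M.comp {m n : W Y → W Y} (hm : M Γ m) (hn : M Γ n) : M Γ (m ∘ n) := by
  induction hm with
  | one => exact hn
  | cs y m _ ih => exact M.cs y _ ih
  | cc y m _ ih => exact M.cc y _ ih
  | ca γ m _ ih => exact M.ca γ _ ih

theorem M_sh (y : Y) : M Γ (sh y) := M.cs y id M.one
theorem M_ch (y : Y) : M Γ (ch y) := M.cc y id M.one
theorem M_ac (γ : Γ) : M Γ (ac γ : W Y → W Y) := M.ca γ id M.one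

theorem M.inj {m : W Y → W Y} (hm : M Γ m) : Function.Injective m := by
  induction hm with
  | one => exact Function.injective_id
  | cs y m _ ih => exact (sh_inj y).comp ih
  | cc y m _ ih => exact (ch_inj y).comp ih
  | ca γ m _ ih => exact (ac_inj γ).comp ih

/-- piecewise in `M` -/
inductive Adm (Γ : Type) {Y : Type} [Group Γ] [MulAction Γ Y] : (W Y → W Y) → Prop
  | base (m : W Y → W Y) : M Γ m → Adm Γ m
  | split (y : Y) (f : W Y → W Y) : Adm Γ (f ∘ sh y) → Adm Γ (f ∘ ch y) → Adm Γ f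

theorem Adm.comp_ac {f : W Y → W Y} (hf : Adm Γ f) (γ : Γ) : Adm Γ (f ∘ ac γ) := by
  induction hf generalizing γ with
  | base m hm => exact Adm.base _ (hm.comp (M_ac γ))
  | split y f _ _ ih1 ih2 =>
    refine Adm.split (γ⁻¹ • y) _ ?_ ?_
    · rw [Function.comp_assoc, ← sh_ac]; exact ih1 γ
    · rw [Function.comp_assoc, ← ch_ac]; exact ih2 γ

theorem Adm.comp_sh_ch {f : W Y → W Y} (hf : Adm Γ f) :
    ∀ z, Adm Γ (f ∘ sh z) ∧ Adm Γ (f ∘ ch z) := by
  induction hf with
  | base m hm => exact fun z => ⟨Adm.base _ (hm.comp (M_sh z)), Adm.base _ (hm.comp (M_ch z))⟩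
  | split y f h1 h2 ih1 ih2 =>
    intro z
    by_cases hz : z = y
    · subst hz; exact ⟨h1, h2⟩
    · constructor
      · refine Adm.split y _ ?_ ?_
        · rw [Function.comp_assoc, sh_comm, ← Function.comp_assoc]; exact (ih1 z).1
        · rw [Function.comp_assoc, sh_ch_ne (Ne.symm hz)]; exact h2
      · have := (ih1 z).2
        rw [Function.comp_assoc, sh_ch_ne hz] at this
        exact this

theorem Adm.comp_M {f m : W Y → W Y} (hf : Adm Γ f) (hm : M Γ m) : Adm Γ (f ∘ m) := by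
  induction hm generalizing f with
  | one => exact hf
  | cs y m _ ih => exact ih (f := f ∘ Q.sh y) (hf.comp_sh_ch y).1
  | cc y m _ ih => exact ih (f := f ∘ Q.ch y) (hf.comp_sh_ch y).2
  | ca γ m _ ih => exact ih (f := f ∘ Q.ac γ) (hf.comp_ac γ)

theorem Adm.comp {f g : W Y → W Y} (hf : Adm Γ f) (hg : Adm Γ g) : Adm Γ (f ∘ g) := by
  induction hg with
  | base m hm => exact hf.comp_M hm
  | split y g _ _ ih1 ih2 => exact Adm.split y _ ih1 ih2

theorem Adm.M_comp {f m : W Y → W Y} (hm : M Γ m) (hf : Adm Γ f) : Adm Γ (m ∘ f) :=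
  (Adm.base m hm).comp hf

/-- the group `Q(Γ,Y)` -/
def QG (Γ Y : Type) [Group Γ] [MulAction Γ Y] : Subgroup (Equiv.Perm (W Y)) where
  carrier := {g | Adm Γ (g : W Y → W Y) ∧ Adm Γ (g.symm : W Y → W Y)}
  one_mem' := ⟨Adm.base _ M.one, Adm.base _ M.one⟩
  mul_mem' := by
    rintro a b ⟨ha, ha'⟩ ⟨hb, hb'⟩
    exact ⟨ha.comp hb, hb'.comp ha'⟩
  inv_mem' := by
    rintro a ⟨ha, ha'⟩
    exact ⟨ha', ha⟩


/-! ### cuts -/

/-- finite lists of elements of `M` whose ranges partition `W`, obtained by splitting -/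
inductive Cut (Γ : Type) {Y : Type} [Group Γ] [MulAction Γ Y] : List (W Y → W Y) → Prop
  | one : Cut Γ [id]
  | split (y : Y) (f : W Y → W Y) (L : List (W Y → W Y)) :
      Cut Γ (f :: L) → Cut Γ (f ∘ sh y :: f ∘ ch y :: L)
  | perm {L L' : List (W Y → W Y)} : Cut Γ L → L.Perm L' → Cut Γ L'
  | label (γ : Γ) (f : W Y → W Y) (L : List (W Y → W Y)) :
      Cut Γ (f :: L) → Cut Γ (f ∘ ac γ :: L)

theorem Cut.mem_M {L : List (W Y → W Y)} (h : Cut Γ L) : ∀ f ∈ L, M Γ f := by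
  induction h with
  | one => intro f hf; simp only [List.mem_singleton] at hf; subst hf; exact M.one
  | split y f L _ ih =>
    intro g hg
    simp only [List.mem_cons] at hg
    rcases hg with rfl | rfl | hg
    · exact (ih f (by simp)).comp (M_sh y)
    · exact (ih f (by simp)).comp (M_ch y)
    · exact ih g (by simp [hg])
  | perm _ hp ih => intro f hf; exact ih f (hp.mem_iff.2 hf)
  | label γ f L _ ih =>
    intro g hg
    simp only [List.mem_cons] at hg
    rcases hg with rfl | hg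
    · exact (ih f (by simp)).comp (M_ac γ)
    · exact ih g (by simp [hg])

/-- `L` covers `W` -/
theorem Cut.cover {L : List (W Y → W Y)} (h : Cut Γ L) : ∀ u, ∃ f ∈ L, ∃ v, f v = u := by
  induction h with
  | one => intro u; exact ⟨id, by simp, u, rfl⟩
  | split y f L _ ih =>
    intro u
    obtain ⟨g, hg, v, rfl⟩ := ih u
    simp only [List.mem_cons] at hg
    rcases hg with rfl | hg
    · rcases Q.cover y v with ⟨w, rfl⟩ | ⟨w, rfl⟩
      · exact ⟨g ∘ sh y, by simp, w, rfl⟩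
      · exact ⟨g ∘ ch y, by simp, w, rfl⟩
    · exact ⟨g, by simp [hg], v, rfl⟩
  | perm _ hp ih =>
    intro u
    obtain ⟨g, hg, v, rfl⟩ := ih u
    exact ⟨g, hp.mem_iff.1 hg, v, rfl⟩
  | label γ f L _ ih =>
    intro u
    obtain ⟨g, hg, v, rfl⟩ := ih u
    simp only [List.mem_cons] at hg
    rcases hg with rfl | hg
    · obtain ⟨w, rfl⟩ := ac_surj γ v
      exact ⟨g ∘ ac γ, by simp, w, rfl⟩
    · exact ⟨g, by simp [hg], v, rfl⟩

/-- disjoint ranges -/
def Dj (f g : W Y → W Y) : Prop := ∀ u v, f u ≠ g v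

theorem Dj.symm {f g : W Y → W Y} (h : Dj f g) : Dj g f := fun u v e => h v u e.symm

theorem Cut.dj {L : List (W Y → W Y)} (h : Cut Γ L) : L.Pairwise Dj := by
  induction h with
  | one => simp
  | split y f L hL ih =>
    have hf : M Γ f := hL.mem_M f (by simp)
    simp only [List.pairwise_cons] at ih ⊢
    refine ⟨?_, ?_, ih.2⟩
    · intro g hg
      simp only [List.mem_cons] at hg
      rcases hg with rfl | hg
      · intro u v e
        exact sh_ne_ch y u v (hf.inj e)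
      · intro u v e
        exact ih.1 g hg _ _ e
    · intro g hg u v e
      exact ih.1 g hg _ _ e
  | perm _ hp ih => exact hp.pairwise ih (fun h => h.symm)
  | label γ f L _ ih =>
    simp only [List.pairwise_cons] at ih ⊢
    exact ⟨fun g hg u v e => ih.1 g hg _ _ e, ih.2⟩

/-- local criterion -/
theorem Cut.adm {L : List (W Y → W Y)} (h : Cut Γ L) {g : W Y → W Y}
    (hg : ∀ f ∈ L, Adm Γ (g ∘ f)) : Adm Γ g := by
  induction h with
  | one => exact hg id (by simp)
  | split y f L _ ih =>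
    apply ih
    intro f' hf'
    simp only [List.mem_cons] at hf'
    rcases hf' with rfl | hf'
    · exact Adm.split y _ (hg (f' ∘ sh y) List.mem_cons_self)
        (hg (f' ∘ ch y) (List.mem_cons_of_mem _ List.mem_cons_self))
    · exact hg f' (by simp [hf'])
  | perm _ hp ih => exact ih (fun f hf => hg f (hp.mem_iff.1 hf))
  | label γ f L _ ih =>
    apply ih
    intro f' hf'
    simp only [List.mem_cons] at hf'
    rcases hf' with rfl | hf'
    · have := (hg (f' ∘ ac γ) (by simp)).comp_ac γ⁻¹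
      rw [Function.comp_assoc, Function.comp_assoc, ac_comp_inv] at this
      exact this
    · exact hg f' (by simp [hf'])

/-- grafting -/
theorem Cut.graft {L L1 : List (W Y → W Y)} {f : W Y → W Y} (h : Cut Γ (f :: L))
    (h1 : Cut Γ L1) : Cut Γ (L1.map (fun m => f ∘ m) ++ L) := by
  induction h1 with
  | one => exact h
  | split y m L1 _ ih => exact Cut.split y _ _ ih
  | perm _ hp ih => exact ih.perm ((hp.map _).append_right L)
  | label γ m L1 _ ih => exact Cut.label γ _ _ ih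

theorem Cut.length_pos {L : List (W Y → W Y)} (h : Cut Γ L) : 0 < L.length := by
  induction h with
  | one => simp
  | split y f L _ ih => simp
  | perm _ hp ih => rwa [← hp.length_eq]
  | label γ f L _ ih => simp

end Crest.Agent.R185.Q
end

-- ▼ part R185/QCut
section

/-!
# Row 185: the group `Q(Γ,Y)`: cuts and generation (helper424)
-/

set_option autoImplicit false

namespace Crest.Agent.R185.Q

open Classical

variable {Γ Y : Type} [Group Γ] [MulAction Γ Y]

instance : Std.Symm (Dj (Y := Y)) := ⟨fun _ _ h => h.symm⟩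

theorem Cut.node {L1 L2 : List (W Y → W Y)} (h1 : Cut Γ L1) (h2 : Cut Γ L2) (y : Y) :
    Cut Γ (L1.map (fun m => sh y ∘ m) ++ L2.map (fun m => ch y ∘ m)) := by
  have h0 : Cut Γ (sh y :: ch y :: ([] : List (W Y → W Y))) := Cut.split y id [] Cut.one
  have h3 : Cut Γ (L1.map (fun m => sh y ∘ m) ++ [ch y]) := h0.graft h1
  have h4 : Cut Γ (ch y :: L1.map (fun m => sh y ∘ m)) := h3.perm (List.perm_append_singleton _ _)
  exact (h4.graft h2).perm List.perm_append_comm

/-- a cut on which `g` is in `M` -/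
theorem Adm.exists_cut {g : W Y → W Y} (hg : Adm Γ g) :
    ∃ L, Cut Γ L ∧ ∀ f ∈ L, M Γ (g ∘ f) := by
  induction hg with
  | base m hm => exact ⟨[id], Cut.one, by simpa using hm⟩
  | split y f _ _ ih1 ih2 =>
    obtain ⟨L1, h1, h1'⟩ := ih1
    obtain ⟨L2, h2, h2'⟩ := ih2
    refine ⟨_, h1.node h2 y, ?_⟩
    intro k hk
    simp only [List.mem_append, List.mem_map] at hk
    rcases hk with ⟨m, hm, rfl⟩ | ⟨m, hm, rfl⟩
    · exact h1' m hm
    · exact h2' m hm

theorem M.tri {m : W Y → W Y} (hm : M Γ m) :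
    (∃ γ : Γ, m = ac γ) ∨ (∃ y m', M Γ m' ∧ m = sh y ∘ m') ∨ (∃ y m', M Γ m' ∧ m = ch y ∘ m') := by
  induction hm with
  | one => exact Or.inl ⟨1, by simp⟩
  | cs y m hm _ => exact Or.inr (Or.inl ⟨y, m, hm, rfl⟩)
  | cc y m hm _ => exact Or.inr (Or.inr ⟨y, m, hm, rfl⟩)
  | ca γ m hm ih =>
    rcases ih with ⟨δ, rfl⟩ | ⟨y, m', hm', rfl⟩ | ⟨y, m', hm', rfl⟩
    · exact Or.inl ⟨γ * δ, by rw [ac_mul]⟩
    · refine Or.inr (Or.inl ⟨γ • y, ac γ ∘ m', M.ca γ _ hm', ?_⟩)
      rw [← Function.comp_assoc, ac_sh, Function.comp_assoc]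
    · refine Or.inr (Or.inr ⟨γ • y, ac γ ∘ m', M.ca γ _ hm', ?_⟩)
      rw [← Function.comp_assoc, ac_ch, Function.comp_assoc]

theorem M.dich {m : W Y → W Y} (hm : M Γ m) : ∀ y : Y,
    (∃ m', M Γ m' ∧ m = sh y ∘ m') ∨ (∃ m', M Γ m' ∧ m = ch y ∘ m') ∨
      (m [] = [] ∧ ∃ v, m v = [(y, 0)]) := by
  induction hm with
  | one => exact fun y => Or.inr (Or.inr ⟨rfl, _, rfl⟩)
  | cs z m hm ih =>
    intro y
    by_cases hz : z = y
    · subst hz; exact Or.inl ⟨m, hm, rfl⟩
    · rcases ih y with ⟨m', hm', rfl⟩ | ⟨m', hm', rfl⟩ | ⟨h0, v, hv⟩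
      · refine Or.inl ⟨sh z ∘ m', M.cs z _ hm', ?_⟩
        rw [← Function.comp_assoc, sh_comm, Function.comp_assoc]
      · refine Or.inr (Or.inl ⟨m', hm', ?_⟩)
        rw [← Function.comp_assoc, sh_ch_ne (Ne.symm hz)]
      · refine Or.inr (Or.inr ⟨by simp [h0], v, ?_⟩)
        simp [hv, sh_cons, Ne.symm hz]
  | cc z m hm _ =>
    intro y
    by_cases hz : z = y
    · subst hz; exact Or.inr (Or.inl ⟨m, hm, rfl⟩)
    · refine Or.inl ⟨ch z ∘ m, M.cc z _ hm, ?_⟩
      rw [← Function.comp_assoc, sh_ch_ne hz]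
  | ca γ m hm ih =>
    intro y
    rcases ih (γ⁻¹ • y) with ⟨m', hm', rfl⟩ | ⟨m', hm', rfl⟩ | ⟨h0, v, hv⟩
    · refine Or.inl ⟨ac γ ∘ m', M.ca γ _ hm', ?_⟩
      rw [← Function.comp_assoc, ac_sh, Function.comp_assoc]; simp
    · refine Or.inr (Or.inl ⟨ac γ ∘ m', M.ca γ _ hm', ?_⟩)
      rw [← Function.comp_assoc, ac_ch, Function.comp_assoc]; simp
    · refine Or.inr (Or.inr ⟨by simp [h0], v, ?_⟩)
      simp [hv]

theorem split_list (y : Y) (L : List (W Y → W Y))
    (h : ∀ f ∈ L, (∃ m', M Γ m' ∧ f = sh y ∘ m') ∨ (∃ m', M Γ m' ∧ f = ch y ∘ m')) :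
    ∃ L1 L2 : List (W Y → W Y), (∀ f ∈ L1, M Γ f) ∧ (∀ f ∈ L2, M Γ f) ∧
      L.Perm (L1.map (fun m => sh y ∘ m) ++ L2.map (fun m => ch y ∘ m)) := by
  induction L with
  | nil => exact ⟨[], [], by simp, by simp, by simp⟩
  | cons f L ih =>
    obtain ⟨L1, L2, h1, h2, hp⟩ := ih (fun g hg => h g (List.mem_cons_of_mem _ hg))
    rcases h f List.mem_cons_self with ⟨m, hm, rfl⟩ | ⟨m, hm, rfl⟩
    · refine ⟨m :: L1, L2, ?_, h2, ?_⟩
      · intro g hg
        rcases List.mem_cons.1 hg with rfl | hg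
        · exact hm
        · exact h1 g hg
      · simpa using hp
    · refine ⟨L1, m :: L2, h1, ?_, ?_⟩
      · intro g hg
        rcases List.mem_cons.1 hg with rfl | hg
        · exact hm
        · exact h2 g hg
      · refine (hp.cons _).trans ?_
        simp only [List.map_cons]
        exact List.perm_middle.symm

theorem Cut.lengthOne (γ : Γ) : Cut Γ [(ac γ : W Y → W Y)] := by
  have := Cut.label γ id ([] : List (W Y → W Y)) Cut.one
  simpa using this

/-- a finite partition of `W` by elements of `M` is a cut -/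
theorem cut_of_part : ∀ (n : ℕ) (L : List (W Y → W Y)), L.length = n → (∀ f ∈ L, M Γ f) →
    L.Pairwise Dj → (∀ u, ∃ f ∈ L, ∃ v, f v = u) → Cut Γ L := by
  intro n
  induction n using Nat.strong_induction_on with
  | _ n IH =>
    intro L hn hM hdj hcov
    obtain ⟨f0, hf0, v0, hv0⟩ := hcov []
    rcases (hM f0 hf0).tri with ⟨γ, rfl⟩ | ⟨y, m0, hm0, rfl⟩ | ⟨y, m0, hm0, rfl⟩
    · -- `f0` surjective
      have hall : ∀ g ∈ L, g = ac γ := by
        intro g hg
        by_contra hne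
        have := hdj.forall hg hf0 hne
        obtain ⟨u, hu⟩ := ac_surj γ (g [])
        exact this [] u hu.symm
      obtain ⟨A, B, rfl⟩ := List.append_of_mem hf0
      have hself : ∀ g : W Y → W Y, ¬ Dj g g := fun g h => h [] [] rfl
      have hA : A = [] := by
        rcases A with _ | ⟨a, A⟩
        · rfl
        · exfalso
          have ha := hall a (by simp)
          subst ha
          rw [List.cons_append, List.pairwise_cons] at hdj
          exact hself _ (hdj.1 (ac γ) (by simp))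
      subst hA
      have hB : B = [] := by
        rcases B with _ | ⟨b, B⟩
        · rfl
        · exfalso
          have hb := hall b (by simp)
          subst hb
          rw [List.nil_append, List.pairwise_cons] at hdj
          exact hself _ (hdj.1 (ac γ) (by simp))
      subst hB
      exact Cut.lengthOne γ
    · -- split along `y`
      have hd : ∀ f ∈ L, (∃ m', M Γ m' ∧ f = sh y ∘ m') ∨ (∃ m', M Γ m' ∧ f = ch y ∘ m') := by
        intro f hf
        rcases (hM f hf).dich y with h | h | ⟨h0, -⟩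
        · exact Or.inl h
        · exact Or.inr h
        · by_cases hne : f = sh y ∘ m0
          · exact Or.inl ⟨m0, hm0, hne⟩
          · exact absurd (h0.trans hv0.symm) (hdj.forall hf hf0 hne _ _)
      obtain ⟨L1, L2, h1, h2, hp⟩ := split_list y L hd
      have hdj' := hp.pairwise hdj (fun h => h.symm)
      rw [List.pairwise_append] at hdj'
      have hcov' : ∀ u, ∃ f ∈ L1.map (fun m => sh y ∘ m) ++ L2.map (fun m => ch y ∘ m),
          ∃ v, f v = u := by
        intro u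
        obtain ⟨f, hf, v, hv⟩ := hcov u
        exact ⟨f, hp.mem_iff.1 hf, v, hv⟩
      have hc1 : ∀ u, ∃ f ∈ L1, ∃ v, f v = u := by
        intro u
        obtain ⟨f, hf, v, hv⟩ := hcov' (sh y u)
        simp only [List.mem_append, List.mem_map] at hf
        rcases hf with ⟨m, hm, rfl⟩ | ⟨m, hm, rfl⟩
        · exact ⟨m, hm, v, sh_inj y hv⟩
        · exact absurd hv.symm (sh_ne_ch y _ _)
      have hc2 : ∀ u, ∃ f ∈ L2, ∃ v, f v = u := by
        intro u
        obtain ⟨f, hf, v, hv⟩ := hcov' (ch y u)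
        simp only [List.mem_append, List.mem_map] at hf
        rcases hf with ⟨m, hm, rfl⟩ | ⟨m, hm, rfl⟩
        · exact absurd hv (sh_ne_ch y _ _)
        · exact ⟨m, hm, v, ch_inj y hv⟩
      have hlen : L1.length + L2.length = n := by
        rw [← hn, hp.length_eq]; simp
      have hl1 : 0 < L1.length := by
        obtain ⟨f, hf, -⟩ := hc1 []
        exact List.length_pos_of_mem hf
      have hl2 : 0 < L2.length := by
        obtain ⟨f, hf, -⟩ := hc2 []
        exact List.length_pos_of_mem hf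
      have hp1 : L1.Pairwise Dj := by
        have := hdj'.1
        rw [List.pairwise_map] at this
        exact this.imp (fun h u v e => h u v (congrArg (sh y) e))
      have hp2 : L2.Pairwise Dj := by
        have := hdj'.2.1
        rw [List.pairwise_map] at this
        exact this.imp (fun h u v e => h u v (congrArg (ch y) e))
      have c1 := IH L1.length (by omega) L1 rfl h1 hp1 hc1
      have c2 := IH L2.length (by omega) L2 rfl h2 hp2 hc2
      exact (c1.node c2 y).perm hp.symm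
    · simp at hv0

/-! ### elements from pairs of cuts -/

/-- the bijection attached to a partition -/
theorem Cut.bij {L : List (W Y → W Y)} (h : Cut Γ L) :
    Function.Bijective (fun p : Fin L.length × W Y => L.get p.1 p.2) := by
  constructor
  · rintro ⟨i, u⟩ ⟨j, v⟩ e
    have hdj := List.pairwise_iff_get.1 h.dj
    rcases lt_trichotomy i j with hij | hij | hij
    · exact absurd e (hdj i j hij _ _)
    · subst hij
      have := (h.mem_M (L.get i) (List.get_mem _ _)).inj e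
      simp only at this
      rw [this]
    · exact absurd e.symm (hdj j i hij _ _)
  · intro u
    obtain ⟨f, hf, v, hv⟩ := h.cover u
    obtain ⟨i, rfl⟩ := List.get_of_mem hf
    exact ⟨⟨i, v⟩, hv⟩

theorem exists_mk {L L' : List (W Y → W Y)} (h : Cut Γ L) (h' : Cut Γ L')
    (hl : L.length = L'.length) :
    ∃ g ∈ QG Γ Y, L' = L.map (fun f => (g : W Y → W Y) ∘ f) := by
  let e := Equiv.ofBijective _ h.bij
  let e' := Equiv.ofBijective _ h'.bij
  let c : Fin L.length × W Y ≃ Fin L'.length × W Y :=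
    Equiv.prodCongr (finCongr hl) (Equiv.refl _)
  let g : Equiv.Perm (W Y) := e.symm.trans (c.trans e')
  have key : ∀ (i : Fin L.length), (g : W Y → W Y) ∘ L.get i = L'.get (finCongr hl i) := by
    intro i
    funext v
    have h1 : e.symm (L.get i v) = (i, v) := by
      rw [Equiv.symm_apply_eq]; rfl
    simp only [g, Function.comp_apply, Equiv.trans_apply, h1]
    rfl
  have key' : ∀ (i : Fin L'.length), (g.symm : W Y → W Y) ∘ L'.get i = L.get (finCongr hl.symm i) := by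
    intro i
    have := key (finCongr hl.symm i)
    have hi : finCongr hl (finCongr hl.symm i) = i := by ext; rfl
    rw [hi] at this
    rw [← this]
    funext v
    simp
  refine ⟨g, ⟨?_, ?_⟩, ?_⟩
  · apply h.adm
    intro f hf
    obtain ⟨i, rfl⟩ := List.get_of_mem hf
    rw [key i]
    exact Adm.base _ (h'.mem_M _ (List.get_mem _ _))
  · apply h'.adm
    intro f hf
    obtain ⟨i, rfl⟩ := List.get_of_mem hf
    rw [key' i]
    exact Adm.base _ (h.mem_M _ (List.get_mem _ _))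
  · apply List.ext_get
    · simp [hl]
    · intro n h1 h2
      have := key ⟨n, by simpa using h2⟩
      simp only [List.get_eq_getElem, List.getElem_map] at this ⊢
      exact this.symm

theorem Cut.ext {L : List (W Y → W Y)} (h : Cut Γ L) {g g' : Equiv.Perm (W Y)}
    (e : ∀ f ∈ L, (g : W Y → W Y) ∘ f = g' ∘ f) : g = g' := by
  ext1 u
  obtain ⟨f, hf, v, rfl⟩ := h.cover u
  exact congrFun (e f hf) v

theorem Cut.ext_map {L : List (W Y → W Y)} (h : Cut Γ L) {g g' : Equiv.Perm (W Y)}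
    (e : L.map (fun f => (g : W Y → W Y) ∘ f) = L.map (fun f => (g' : W Y → W Y) ∘ f)) :
    g = g' :=
  h.ext (fun f hf => List.map_inj_left.1 e f hf)

/-- image of a cut under `g` with `M`-images is a cut -/
theorem Cut.map_of_M {L : List (W Y → W Y)} (h : Cut Γ L) (g : Equiv.Perm (W Y))
    (hg : ∀ f ∈ L, M Γ (g ∘ f)) : Cut Γ (L.map (fun f => (g : W Y → W Y) ∘ f)) := by
  refine cut_of_part _ _ rfl ?_ ?_ ?_
  · intro f hf
    obtain ⟨k, hk, rfl⟩ := List.mem_map.1 hf
    exact hg k hk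
  · rw [List.pairwise_map]
    exact h.dj.imp (fun hd u v e => hd u v (g.injective e))
  · intro u
    obtain ⟨f, hf, v, hv⟩ := h.cover (g.symm u)
    exact ⟨g ∘ f, List.mem_map.2 ⟨f, hf, rfl⟩, v, by simp [hv]⟩

/-- every element of `QG` maps a cut to a cut -/
theorem exists_cut_cut {g : Equiv.Perm (W Y)} (hg : g ∈ QG Γ Y) :
    ∃ L, Cut Γ L ∧ Cut Γ (L.map (fun f => (g : W Y → W Y) ∘ f)) := by
  obtain ⟨L, hL, hM⟩ := Adm.exists_cut hg.1
  exact ⟨L, hL, hL.map_of_M g hM⟩

/-! ### relabelling -/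

/-- label relation -/
def Lab (Γ : Type) {Y : Type} [Group Γ] [MulAction Γ Y] (a b : W Y → W Y) : Prop :=
  ∃ γ : Γ, b = a ∘ ac γ

theorem Lab.refl (a : W Y → W Y) : Lab Γ a a := ⟨1, by simp⟩
theorem Lab.symm {a b : W Y → W Y} (h : Lab Γ a b) : Lab Γ b a := by
  obtain ⟨γ, rfl⟩ := h
  exact ⟨γ⁻¹, by rw [Function.comp_assoc, ac_comp_inv]; rfl⟩
theorem Lab.trans {a b c : W Y → W Y} (h : Lab Γ a b) (h' : Lab Γ b c) : Lab Γ a c := by
  obtain ⟨γ, rfl⟩ := h
  obtain ⟨δ, rfl⟩ := h'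
  exact ⟨γ * δ, by rw [ac_mul]; rfl⟩

theorem f2_refl (L : List (W Y → W Y)) : List.Forall₂ (Lab Γ) L L := by
  induction L with
  | nil => exact List.Forall₂.nil
  | cons a L ih => exact List.Forall₂.cons (Lab.refl a) ih

theorem f2_symm {L L' : List (W Y → W Y)} (h : List.Forall₂ (Lab Γ) L L') :
    List.Forall₂ (Lab Γ) L' L := by
  induction h with
  | nil => exact List.Forall₂.nil
  | cons h _ ih => exact List.Forall₂.cons h.symm ih

theorem f2_trans {L L' L'' : List (W Y → W Y)} (h : List.Forall₂ (Lab Γ) L L')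
    (h' : List.Forall₂ (Lab Γ) L' L'') : List.Forall₂ (Lab Γ) L L'' := by
  induction h generalizing L'' with
  | nil => exact h'
  | cons h _ ih =>
    cases h' with
    | cons h1 h2 => exact List.Forall₂.cons (h.trans h1) (ih h2)

/-- permutation and relabelling -/
def Rl (Γ : Type) {Y : Type} [Group Γ] [MulAction Γ Y] (L L' : List (W Y → W Y)) : Prop :=
  ∃ L'', L.Perm L'' ∧ List.Forall₂ (Lab Γ) L'' L'

theorem Rl.refl (L : List (W Y → W Y)) : Rl Γ L L := ⟨L, List.Perm.refl L, f2_refl L⟩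

theorem perm_f2 {L L' L'' : List (W Y → W Y)} (h : List.Forall₂ (Lab Γ) L L') (h' : L'.Perm L'') :
    ∃ K, L.Perm K ∧ List.Forall₂ (Lab Γ) K L'' := by
  have : (Relation.Comp (List.Forall₂ (Lab Γ)) List.Perm) L L'' := ⟨L', h, h'⟩
  rw [List.forall₂_comp_perm_eq_perm_comp_forall₂] at this
  exact this

theorem Rl.perm {L L' L'' : List (W Y → W Y)} (h : Rl Γ L L') (h' : L'.Perm L'') : Rl Γ L L'' := by
  obtain ⟨K, h1, h2⟩ := h
  obtain ⟨K', h3, h4⟩ := perm_f2 h2 h'
  exact ⟨K', h1.trans h3, h4⟩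

theorem Rl.lab {L L' L'' : List (W Y → W Y)} (h : Rl Γ L L') (h' : List.Forall₂ (Lab Γ) L' L'') :
    Rl Γ L L'' := by
  obtain ⟨K, h1, h2⟩ := h
  exact ⟨K, h1, f2_trans h2 h'⟩

theorem Rl.trans {L L' L'' : List (W Y → W Y)} (h : Rl Γ L L') (h' : Rl Γ L' L'') : Rl Γ L L'' := by
  obtain ⟨K, h1, h2⟩ := h'
  exact (h.perm h1).lab h2

theorem Rl.symm {L L' : List (W Y → W Y)} (h : Rl Γ L L') : Rl Γ L' L := by
  obtain ⟨K, h1, h2⟩ := h
  exact Rl.perm ⟨L', List.Perm.refl _, f2_symm h2⟩ h1.symm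

theorem Rl.length_eq {L L' : List (W Y → W Y)} (h : Rl Γ L L') : L.length = L'.length := by
  obtain ⟨K, h1, h2⟩ := h
  rw [h1.length_eq, h2.length_eq]

theorem Cut.of_f2 {L L' : List (W Y → W Y)} (h' : List.Forall₂ (Lab Γ) L L') :
    ∀ A, Cut Γ (A ++ L) → Cut Γ (A ++ L') := by
  induction h' with
  | nil => exact fun A h => h
  | @cons a b L L' hab _ ih =>
    intro A h
    obtain ⟨γ, rfl⟩ := hab
    have h1 : Cut Γ (a :: (A ++ L)) := h.perm List.perm_middle
    have h2 := Cut.label γ _ _ h1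
    have h3 : Cut Γ ((A ++ [a ∘ ac γ]) ++ L) := by
      refine h2.perm ?_
      rw [List.append_assoc]
      exact List.perm_middle.symm
    have := ih _ h3
    simpa using this


/-- a cut with at least two elements comes from a split -/
theorem Cut.decomp {L : List (W Y → W Y)} (h : Cut Γ L) :
    (∃ γ : Γ, L = [ac γ]) ∨
      ∃ f B y, Cut Γ (f :: B) ∧ Rl Γ (f ∘ sh y :: f ∘ ch y :: B) L := by
  induction h with
  | one => exact Or.inl ⟨1, by simp⟩
  | split y f L h _ => exact Or.inr ⟨f, L, y, h, Rl.refl _⟩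
  | perm h hp ih =>
    rcases ih with ⟨γ, rfl⟩ | ⟨f, B, y, h1, h2⟩
    · left; exact ⟨γ, List.perm_singleton.1 hp.symm⟩
    · right; exact ⟨f, B, y, h1, h2.perm hp⟩
  | label γ f L h ih =>
    rcases ih with ⟨δ, hδ⟩ | ⟨g, B, y, h1, h2⟩
    · left
      simp only [List.cons.injEq] at hδ
      obtain ⟨rfl, rfl⟩ := hδ
      exact ⟨δ * γ, by rw [ac_mul]⟩
    · right
      exact ⟨g, B, y, h1, h2.lab (List.Forall₂.cons ⟨γ, rfl⟩ (f2_refl L))⟩

end Crest.Agent.R185.Q
end

-- ▼ part R185/QGen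
section

/-!
# Row 185: the group `Q(Γ,Y)`: generation by labels and transpositions (helper424)
-/

set_option autoImplicit false

namespace Crest.Agent.R185.Q

open Classical

variable {Γ Y : Type} [Group Γ] [MulAction Γ Y]

/-- apply `g` to all members -/
def mp (g : Equiv.Perm (W Y)) (L : List (W Y → W Y)) : List (W Y → W Y) :=
  L.map (fun f => (g : W Y → W Y) ∘ f)

theorem mp_one (L : List (W Y → W Y)) : mp 1 L = L := by
  unfold mp
  conv_rhs => rw [← List.map_id L]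
  exact List.map_congr_left (fun f _ => rfl)

theorem mp_mul (g h : Equiv.Perm (W Y)) (L : List (W Y → W Y)) : mp (g * h) L = mp g (mp h L) := by
  unfold mp
  rw [List.map_map]
  exact List.map_congr_left (fun f _ => rfl)

theorem mp_inv {g : Equiv.Perm (W Y)} {L L' : List (W Y → W Y)} (h : mp g L = L') :
    mp g⁻¹ L' = L := by
  rw [← h, ← mp_mul, inv_mul_cancel, mp_one]

theorem mp_append (g : Equiv.Perm (W Y)) (L L' : List (W Y → W Y)) :
    mp g (L ++ L') = mp g L ++ mp g L' := by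
  simp [mp]

theorem mp_cons (g : Equiv.Perm (W Y)) (f : W Y → W Y) (L : List (W Y → W Y)) :
    mp g (f :: L) = ((g : W Y → W Y) ∘ f) :: mp g L := rfl

theorem mp_eq_self {g : Equiv.Perm (W Y)} {L : List (W Y → W Y)} (h : mp g L = L) :
    ∀ f ∈ L, (g : W Y → W Y) ∘ f = f := by
  intro f hf
  have : L.map (fun f => (g : W Y → W Y) ∘ f) = L.map id := by rw [List.map_id]; exact h
  exact List.map_inj_left.1 this f hf

theorem mp_length (g : Equiv.Perm (W Y)) (L : List (W Y → W Y)) : (mp g L).length = L.length := by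
  simp [mp]

theorem Cut.mp_ext {L : List (W Y → W Y)} (h : Cut Γ L) {g g' : Equiv.Perm (W Y)}
    (e : mp g L = mp g' L) : g = g' := h.ext_map e

/-- element from a pair of cuts -/
theorem mk {L L' : List (W Y → W Y)} (h : Cut Γ L) (h' : Cut Γ L')
    (hl : L.length = L'.length) : ∃ g ∈ QG Γ Y, mp g L = L' := by
  obtain ⟨g, hg, e⟩ := exists_mk h h' hl
  exact ⟨g, hg, e.symm⟩

section gen

variable (H : Subgroup (Equiv.Perm (W Y)))
  (HL : ∀ (f : W Y → W Y) (L : List (W Y → W Y)) (γ : Γ) (g : Equiv.Perm (W Y)),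
    Cut Γ (f :: L) → g ∈ QG Γ Y → (g : W Y → W Y) ∘ f = f ∘ ac γ →
    (∀ h ∈ L, (g : W Y → W Y) ∘ h = h) → g ∈ H)
  (HT : ∀ (f f' : W Y → W Y) (L : List (W Y → W Y)) (g : Equiv.Perm (W Y)),
    Cut Γ (f :: f' :: L) → g ∈ QG Γ Y → (g : W Y → W Y) ∘ f = f' → (g : W Y → W Y) ∘ f' = f →
    (∀ h ∈ L, (g : W Y → W Y) ∘ h = h) → g ∈ H)

include HL in
theorem gen_lab {L L' : List (W Y → W Y)} (h : List.Forall₂ (Lab Γ) L L') :
    ∀ A, Cut Γ (A ++ L) → ∀ g ∈ QG Γ Y, mp g (A ++ L) = A ++ L' → g ∈ H := by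
  induction h with
  | nil =>
    intro A hA g _ e
    have : g = 1 := hA.mp_ext (by rw [e, mp_one])
    rw [this]; exact H.one_mem
  | @cons a b L L' hab _ ih =>
    intro A hA g hg e
    obtain ⟨γ, rfl⟩ := hab
    have hA1 : Cut Γ (a :: (A ++ L)) := hA.perm List.perm_middle
    have hA2 := Cut.label γ _ _ hA1
    have hA3 : Cut Γ (A ++ (a ∘ ac γ) :: L) := hA2.perm List.perm_middle.symm
    obtain ⟨g1, hg1, e1⟩ := mk hA hA3 (by simp)
    have e1' := e1
    rw [mp_append, mp_cons] at e1'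
    obtain ⟨e2, e3⟩ := List.append_inj e1' (mp_length _ _)
    simp only [List.cons.injEq] at e3
    have hg1H : g1 ∈ H := by
      refine HL a (A ++ L) γ g1 hA1 hg1 e3.1 ?_
      intro f hf
      rcases List.mem_append.1 hf with hf | hf
      · exact mp_eq_self e2 f hf
      · exact mp_eq_self e3.2 f hf
    have hA4 : Cut Γ ((A ++ [a ∘ ac γ]) ++ L) := by simpa using hA3
    have := ih _ hA4 (g * g1⁻¹) ((QG Γ Y).mul_mem hg ((QG Γ Y).inv_mem hg1)) (by
      rw [mp_mul]
      have : (A ++ [a ∘ ac γ]) ++ L = A ++ (a ∘ ac γ) :: L := by simp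
      rw [this, mp_inv e1, e]; simp)
    have := H.mul_mem this hg1H
    simpa using this

include HT in
theorem gen_perm {L L' : List (W Y → W Y)} (h : L.Perm L') :
    ∀ A, Cut Γ (A ++ L) → ∀ g ∈ QG Γ Y, mp g (A ++ L) = A ++ L' → g ∈ H := by
  induction h with
  | nil =>
    intro A hA g _ e
    have : g = 1 := hA.mp_ext (by rw [e, mp_one])
    rw [this]; exact H.one_mem
  | cons a _ ih =>
    rename_i l1 l2
    intro A hA g hg e
    refine ih (A ++ [a]) (by simpa using hA) g hg ?_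
    simpa using e
  | swap a b l =>
    intro A hA g hg e
    rw [mp_append, mp_cons, mp_cons] at e
    obtain ⟨e2, e3⟩ := List.append_inj e (mp_length _ _)
    simp only [List.cons.injEq] at e3
    have hp : (A ++ b :: a :: l).Perm (b :: a :: (A ++ l)) := by
      refine List.perm_middle.trans ?_
      exact List.Perm.cons _ List.perm_middle
    refine HT b a (A ++ l) g (hA.perm hp) hg e3.1 e3.2.1 ?_
    intro f hf
    rcases List.mem_append.1 hf with hf | hf
    · exact mp_eq_self e2 f hf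
    · exact mp_eq_self e3.2.2 f hf
  | trans h1 _ ih1 ih2 =>
    rename_i l0 l1 l2 hp
    intro A hA g hg e
    have hA2 : Cut Γ (A ++ l1) := hA.perm (h1.append_left A)
    obtain ⟨g1, hg1, e1⟩ := mk hA hA2 (by simp [h1.length_eq])
    have hg1H := ih1 A hA g1 hg1 e1
    have := ih2 A hA2 (g * g1⁻¹) ((QG Γ Y).mul_mem hg ((QG Γ Y).inv_mem hg1)) (by
      rw [mp_mul, mp_inv e1, e])
    have := H.mul_mem this hg1H
    simpa using this

include HL HT in
theorem gen_stab {L L' : List (W Y → W Y)} (hL : Cut Γ L) (h : Rl Γ L L')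
    (g : Equiv.Perm (W Y)) (hg : g ∈ QG Γ Y) (e : mp g L = L') : g ∈ H := by
  obtain ⟨K, h1, h2⟩ := h
  have hK : Cut Γ K := hL.perm h1
  obtain ⟨g1, hg1, e1⟩ := mk hL hK h1.length_eq
  have hg1H : g1 ∈ H := gen_perm H HT h1 [] hL g1 hg1 e1
  have := gen_lab H HL h2 [] hK (g * g1⁻¹) ((QG Γ Y).mul_mem hg ((QG Γ Y).inv_mem hg1)) (by
    rw [List.nil_append, mp_mul, mp_inv e1, e]; rfl)
  have := H.mul_mem this hg1H
  simpa using this

include HL HT in
theorem gen_cut [MulAction.IsPretransitive Γ Y] : ∀ (n : ℕ) (L L' : List (W Y → W Y)),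
    L.length = n → Cut Γ L → Cut Γ L' → ∀ g ∈ QG Γ Y, mp g L = L' → g ∈ H := by
  intro n
  induction n with
  | zero =>
    intro L L' hn hL
    have := hL.length_pos
    omega
  | succ n ih =>
    intro L L' hn hL hL' g hg e
    rcases hL.decomp with ⟨γ, rfl⟩ | ⟨f, B, y, h1, h2⟩
    · rcases hL'.decomp with ⟨δ, rfl⟩ | ⟨f', B', y', h1', h2'⟩
      · refine gen_stab H HL HT hL (L' := [ac δ]) ?_ g hg e
        refine ⟨[ac γ], List.Perm.refl _, List.Forall₂.cons ⟨γ⁻¹ * δ, ?_⟩ List.Forall₂.nil⟩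
        rw [← ac_mul]; simp
      · exfalso
        have e1 := congrArg List.length e
        rw [mp_length, ← h2'.length_eq] at e1
        simp at e1
    · rcases hL'.decomp with ⟨δ, rfl⟩ | ⟨f', B', y', h1', h2'⟩
      · exfalso
        have e1 := congrArg List.length e
        rw [mp_length, ← h2.length_eq] at e1
        simp at e1
      · obtain ⟨γ, hγ⟩ := MulAction.exists_smul_eq Γ y y'
        -- the relabelled target
        have h1'' : Cut Γ (f' ∘ ac γ :: B') := Cut.label γ _ _ h1'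
        have h3 : Rl Γ ((f' ∘ ac γ) ∘ sh y :: (f' ∘ ac γ) ∘ ch y :: B') L' := by
          refine Rl.trans ?_ h2'
          refine ⟨_, List.Perm.refl _, List.Forall₂.cons ⟨γ⁻¹, ?_⟩
            (List.Forall₂.cons ⟨γ⁻¹, ?_⟩ (f2_refl _))⟩
          · rw [Function.comp_assoc, Function.comp_assoc, sh_ac]
            rw [← Function.comp_assoc (ac γ), ac_comp_inv]; simp [hγ]
          · rw [Function.comp_assoc, Function.comp_assoc, ch_ac]
            rw [← Function.comp_assoc (ac γ), ac_comp_inv]; simp [hγ]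
        have hlen : L.length = L'.length := by rw [← e, mp_length]
        have hB : B.length = B'.length := by
          have e1 := h2.length_eq
          have e2 := h2'.length_eq
          simp only [List.length_cons] at e1 e2
          omega
        obtain ⟨k, hk, ek⟩ := mk h1 h1'' (by simp [hB])
        have hkH : k ∈ H := ih _ _ (by
          have e1 := h2.length_eq
          simp only [List.length_cons] at e1 ⊢
          omega) h1 h1'' k hk ek
        have hs : Cut Γ (f ∘ sh y :: f ∘ ch y :: B) := Cut.split y _ _ h1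
        have hs' : Cut Γ ((f' ∘ ac γ) ∘ sh y :: (f' ∘ ac γ) ∘ ch y :: B') := Cut.split y _ _ h1''
        have ek' : mp k (f ∘ sh y :: f ∘ ch y :: B)
            = ((f' ∘ ac γ) ∘ sh y :: (f' ∘ ac γ) ∘ ch y :: B') := by
          rw [mp_cons] at ek
          simp only [List.cons.injEq] at ek
          rw [mp_cons, mp_cons, ← Function.comp_assoc, ← Function.comp_assoc, ek.1, ek.2]
        obtain ⟨a, ha, ea⟩ := mk hL hs h2.length_eq.symm
        have haH : a ∈ H := gen_stab H HL HT hL h2.symm a ha ea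
        obtain ⟨b, hb, eb⟩ := mk hs' hL' h3.length_eq
        have hbH : b ∈ H := gen_stab H HL HT hs' h3 b hb eb
        have : g = b * k * a := by
          apply hL.mp_ext
          rw [e, mp_mul, mp_mul, ea, ek', eb]
        rw [this]
        exact H.mul_mem (H.mul_mem hbH hkH) haH

include HL HT in
theorem gen [MulAction.IsPretransitive Γ Y] : QG Γ Y ≤ H := by
  intro g hg
  obtain ⟨L, hL, hL'⟩ := exists_cut_cut hg
  exact gen_cut H HL HT _ L _ rfl hL hL' g hg rfl

end gen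

end Crest.Agent.R185.Q
end

-- ▼ part R185/QSimple
section

/-!
# Row 185: the group `Q(Γ,Y)` is simple (helper424)
-/

set_option autoImplicit false

namespace Crest.Agent.R185.Q

open Classical

variable {Γ Y : Type} [Group Γ] [MulAction Γ Y]

/-! ### reduction to proper pieces -/

/-- refine the tail of a cut -/
theorem Cut.refine {f : W Y → W Y} {L : List (W Y → W Y)} (h : Cut Γ (f :: L)) (hL : L ≠ [])
    (y : Y) : ∀ n, ∃ L2 : List (W Y → W Y), Cut Γ (f :: L2) ∧ L2.length = L.length + n ∧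
      ∀ k ∈ L2, ∃ l ∈ L, ∃ s : W Y → W Y, k = l ∘ s := by
  intro n
  induction n with
  | zero => exact ⟨L, h, rfl, fun k hk => ⟨k, hk, id, rfl⟩⟩
  | succ n ih =>
    obtain ⟨L2, h2, hl, hs⟩ := ih
    have hne : L2 ≠ [] := by
      intro e
      rw [e] at hl
      have := List.length_pos_iff.2 hL
      simp at hl
      omega
    obtain ⟨l, L3, rfl⟩ := List.exists_cons_of_ne_nil hne
    have h3 : Cut Γ (l :: f :: L3) := h2.perm (List.Perm.swap _ _ _)
    have h4 : Cut Γ (f :: l ∘ sh y :: l ∘ ch y :: L3) := by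
      refine (Cut.split y _ _ h3).perm ?_
      exact (List.Perm.cons _ (List.Perm.swap _ _ _)).trans (List.Perm.swap _ _ _)
    refine ⟨_, h4, ?_, ?_⟩
    · simp only [List.length_cons] at hl ⊢; omega
    · intro k hk
      simp only [List.mem_cons] at hk
      obtain ⟨l', hl', s, hs'⟩ := hs l (by simp)
      rcases hk with rfl | rfl | hk
      · exact ⟨l', hl', s ∘ sh y, by rw [hs']; rfl⟩
      · exact ⟨l', hl', s ∘ ch y, by rw [hs']; rfl⟩
      · exact hs k (by simp [hk])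

theorem Cut.refine2 {f f' : W Y → W Y} {L : List (W Y → W Y)} (h : Cut Γ (f :: f' :: L))
    (hL : L ≠ []) (y : Y) : ∀ n, ∃ L2 : List (W Y → W Y), Cut Γ (f :: f' :: L2) ∧
      L2.length = L.length + n ∧ ∀ k ∈ L2, ∃ l ∈ L, ∃ s : W Y → W Y, k = l ∘ s := by
  intro n
  induction n with
  | zero => exact ⟨L, h, rfl, fun k hk => ⟨k, hk, id, rfl⟩⟩
  | succ n ih =>
    obtain ⟨L2, h2, hl, hs⟩ := ih
    have hne : L2 ≠ [] := by
      intro e
      rw [e] at hl
      have := List.length_pos_iff.2 hL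
      simp at hl
      omega
    obtain ⟨l, L3, rfl⟩ := List.exists_cons_of_ne_nil hne
    have h3 : Cut Γ (l :: f :: f' :: L3) := by
      refine h2.perm ?_
      exact (List.Perm.cons _ (List.Perm.swap _ _ _)).trans (List.Perm.swap _ _ _)
    have h4 : Cut Γ (f :: f' :: l ∘ sh y :: l ∘ ch y :: L3) := by
      refine (Cut.split y _ _ h3).perm ?_
      have : (l ∘ sh y :: l ∘ ch y :: f :: f' :: L3).Perm
          ([l ∘ sh y, l ∘ ch y] ++ ([f, f'] ++ L3)) := List.Perm.refl _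
      refine this.trans ?_
      rw [← List.append_assoc]
      have h5 : (([l ∘ sh y, l ∘ ch y] ++ [f, f']) ++ L3).Perm
          (([f, f'] ++ [l ∘ sh y, l ∘ ch y]) ++ L3) := List.perm_append_comm.append_right L3
      exact h5
    refine ⟨_, h4, ?_, ?_⟩
    · simp only [List.length_cons] at hl ⊢; omega
    · intro k hk
      simp only [List.mem_cons] at hk
      obtain ⟨l', hl', s, hs'⟩ := hs l (by simp)
      rcases hk with rfl | rfl | hk
      · exact ⟨l', hl', s ∘ sh y, by rw [hs']; rfl⟩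
      · exact ⟨l', hl', s ∘ ch y, by rw [hs']; rfl⟩
      · exact hs k (by simp [hk])

/-- `g` is the label element for `γ` on the first piece -/
def IsLab (f : W Y → W Y) (L : List (W Y → W Y)) (γ : Γ) (g : Equiv.Perm (W Y)) : Prop :=
  (g : W Y → W Y) ∘ f = f ∘ ac γ ∧ ∀ h ∈ L, (g : W Y → W Y) ∘ h = h

/-- `g` swaps the first two pieces -/
def IsTr (f f' : W Y → W Y) (L : List (W Y → W Y)) (g : Equiv.Perm (W Y)) : Prop :=
  (g : W Y → W Y) ∘ f = f' ∧ (g : W Y → W Y) ∘ f' = f ∧ ∀ h ∈ L, (g : W Y → W Y) ∘ h = h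

theorem pcomp (g1 g2 : Equiv.Perm (W Y)) (k : W Y → W Y) :
    ((g1 * g2 : Equiv.Perm (W Y)) : W Y → W Y) ∘ k = (g1 : W Y → W Y) ∘ ((g2 : W Y → W Y) ∘ k) := rfl


theorem exists_lab {f : W Y → W Y} {L : List (W Y → W Y)} (h : Cut Γ (f :: L)) (γ : Γ) :
    ∃ g ∈ QG Γ Y, IsLab f L γ g := by
  obtain ⟨g, hg, e⟩ := mk h (Cut.label γ _ _ h) rfl
  rw [mp_cons] at e
  simp only [List.cons.injEq] at e
  exact ⟨g, hg, e.1, mp_eq_self e.2⟩

theorem exists_tr {f f' : W Y → W Y} {L : List (W Y → W Y)} (h : Cut Γ (f :: f' :: L)) :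
    ∃ g ∈ QG Γ Y, IsTr f f' L g := by
  obtain ⟨g, hg, e⟩ := mk h (h.perm (List.Perm.swap _ _ _)) (by simp)
  rw [mp_cons, mp_cons] at e
  simp only [List.cons.injEq] at e
  exact ⟨g, hg, e.1, e.2.1, mp_eq_self e.2.2⟩

theorem IsLab.eq {f : W Y → W Y} {L : List (W Y → W Y)} (h : Cut Γ (f :: L)) {γ : Γ}
    {g g' : Equiv.Perm (W Y)} (hg : IsLab f L γ g) (hg' : IsLab f L γ g') : g = g' := by
  apply h.ext
  intro k hk
  rcases List.mem_cons.1 hk with rfl | hk
  · rw [hg.1, hg'.1]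
  · rw [hg.2 k hk, hg'.2 k hk]

theorem IsTr.eq {f f' : W Y → W Y} {L : List (W Y → W Y)} (h : Cut Γ (f :: f' :: L))
    {g g' : Equiv.Perm (W Y)} (hg : IsTr f f' L g) (hg' : IsTr f f' L g') : g = g' := by
  apply h.ext
  intro k hk
  simp only [List.mem_cons] at hk
  rcases hk with rfl | rfl | hk
  · rw [hg.1, hg'.1]
  · rw [hg.2.1, hg'.2.1]
  · rw [hg.2.2 k hk, hg'.2.2 k hk]

/-- expansion of a label element -/
theorem IsLab.expand {f : W Y → W Y} {L : List (W Y → W Y)} (h : Cut Γ (f :: L)) {γ : Γ} {y : Y}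
    (hγ : γ • y = y) {g g1 g2 : Equiv.Perm (W Y)} (hg : IsLab f L γ g)
    (hg1 : IsLab (f ∘ sh y) (f ∘ ch y :: L) γ g1) (hg2 : IsLab (f ∘ ch y) (f ∘ sh y :: L) γ g2) :
    g = g1 * g2 := by
  have hc : Cut Γ (f ∘ sh y :: f ∘ ch y :: L) := Cut.split y _ _ h
  apply hc.ext
  intro k hk
  simp only [List.mem_cons] at hk
  have e1 : (g : W Y → W Y) ∘ f ∘ sh y = (f ∘ sh y) ∘ ac γ := by
    rw [← Function.comp_assoc, hg.1, Function.comp_assoc, ac_sh, hγ]; rfl
  have e2 : (g : W Y → W Y) ∘ f ∘ ch y = (f ∘ ch y) ∘ ac γ := by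
    rw [← Function.comp_assoc, hg.1, Function.comp_assoc, ac_ch, hγ]; rfl
  rcases hk with rfl | rfl | hk
  · rw [e1, pcomp, hg2.2 _ (by simp), hg1.1]
  · rw [e2, pcomp, hg2.1, ← Function.comp_assoc, hg1.2 _ (by simp)]
  · rw [hg.2 k hk, pcomp, hg2.2 _ (by simp [hk]), hg1.2 _ (by simp [hk])]

/-- the fourfold split -/
theorem Cut.split4 {f f' : W Y → W Y} {L : List (W Y → W Y)} (h : Cut Γ (f :: f' :: L)) (y : Y) :
    Cut Γ (f ∘ sh y :: f' ∘ sh y :: f ∘ ch y :: f' ∘ ch y :: L) := by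
  have h1 : Cut Γ (f ∘ sh y :: f ∘ ch y :: f' :: L) := Cut.split y _ _ h
  have h2 : Cut Γ (f' :: f ∘ sh y :: f ∘ ch y :: L) := by
    refine h1.perm ?_
    exact ((List.Perm.swap _ _ _).cons _).trans (List.Perm.swap _ _ _)
  refine (Cut.split y _ _ h2).perm ?_
  -- `[f's, f'c, fs, fc] ~ [fs, f's, fc, f'c]`
  refine ((List.Perm.swap (f ∘ sh y) (f' ∘ ch y) _).cons _).trans ?_
  refine (List.Perm.swap (f ∘ sh y) (f' ∘ sh y) _).trans ?_
  refine List.Perm.cons _ (List.Perm.cons _ ?_)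
  exact List.Perm.swap _ _ _

theorem IsTr.expand {f f' : W Y → W Y} {L : List (W Y → W Y)} (h : Cut Γ (f :: f' :: L)) {y : Y}
    {g g1 g2 : Equiv.Perm (W Y)} (hg : IsTr f f' L g)
    (hg1 : IsTr (f ∘ sh y) (f' ∘ sh y) (f ∘ ch y :: f' ∘ ch y :: L) g1)
    (hg2 : IsTr (f ∘ ch y) (f' ∘ ch y) (f ∘ sh y :: f' ∘ sh y :: L) g2) : g = g1 * g2 := by
  apply (h.split4 y).ext
  intro k hk
  simp only [List.mem_cons] at hk
  rcases hk with rfl | rfl | rfl | rfl | hk
  · rw [← Function.comp_assoc, hg.1, pcomp, hg2.2.2 _ (by simp), hg1.1]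
  · rw [← Function.comp_assoc, hg.2.1, pcomp, hg2.2.2 _ (by simp), hg1.2.1]
  · rw [← Function.comp_assoc, hg.1, pcomp, hg2.1, hg1.2.2 _ (by simp)]
  · rw [← Function.comp_assoc, hg.2.1, pcomp, hg2.2.1, hg1.2.2 _ (by simp)]
  · rw [hg.2.2 k hk, pcomp, hg2.2.2 _ (by simp [hk]), hg1.2.2 _ (by simp [hk])]

/-- Reduction: enough to have the elements with proper support. -/
theorem eq_top_of [MulAction.IsPretransitive Γ Y] [Nonempty Y]
    (hst : Subgroup.closure (⋃ y : Y, (MulAction.stabilizer Γ y : Set Γ)) = ⊤)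
    (H : Subgroup (Equiv.Perm (W Y)))
    (R1 : ∀ (f : W Y → W Y) (L : List (W Y → W Y)) (γ : Γ) (y : Y) (g : Equiv.Perm (W Y)),
      Cut Γ (f :: L) → L ≠ [] → γ • y = y → g ∈ QG Γ Y → IsLab f L γ g → g ∈ H)
    (R2 : ∀ (f f' : W Y → W Y) (L : List (W Y → W Y)) (g : Equiv.Perm (W Y)),
      Cut Γ (f :: f' :: L) → L ≠ [] → g ∈ QG Γ Y → IsTr f f' L g → g ∈ H) :
    QG Γ Y ≤ H := by
  obtain ⟨y0⟩ := ‹Nonempty Y›
  have R1' : ∀ (f : W Y → W Y) (L : List (W Y → W Y)) (γ : Γ) (y : Y) (g : Equiv.Perm (W Y)),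
      Cut Γ (f :: L) → γ • y = y → g ∈ QG Γ Y → IsLab f L γ g → g ∈ H := by
    intro f L γ y g h hγ hg hlab
    by_cases hL : L = []
    · have hc : Cut Γ (f ∘ sh y :: f ∘ ch y :: L) := Cut.split y _ _ h
      have hc' := hc.perm (List.Perm.swap _ _ _)
      obtain ⟨g1, hg1, h1⟩ := exists_lab hc γ
      obtain ⟨g2, hg2, h2⟩ := exists_lab hc' γ
      rw [IsLab.expand h hγ hlab h1 h2]
      exact H.mul_mem (R1 _ _ γ y g1 hc (by simp) hγ hg1 h1)
        (R1 _ _ γ y g2 hc' (by simp) hγ hg2 h2)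
    · exact R1 f L γ y g h hL hγ hg hlab
  have R1'' : ∀ (f : W Y → W Y) (L : List (W Y → W Y)), Cut Γ (f :: L) → ∀ γ : Γ,
      ∀ g ∈ QG Γ Y, IsLab f L γ g → g ∈ H := by
    intro f L h γ
    have hγ : γ ∈ Subgroup.closure (⋃ y : Y, (MulAction.stabilizer Γ y : Set Γ)) := by
      rw [hst]; trivial
    induction hγ using Subgroup.closure_induction with
    | mem x hx =>
      obtain ⟨y, hy⟩ := Set.mem_iUnion.1 hx
      intro g hg hlab
      exact R1' f L x y g h hy hg hlab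
    | one =>
      intro g _ hlab
      have : g = 1 := by
        refine IsLab.eq h hlab ⟨?_, fun k _ => rfl⟩
        simp [ac_one]
      rw [this]; exact H.one_mem
    | mul a b _ _ iha ihb =>
      intro g _ hlab
      obtain ⟨ga, hga, ha⟩ := exists_lab h a
      obtain ⟨gb, hgb, hb⟩ := exists_lab h b
      have : g = ga * gb := by
        refine IsLab.eq h hlab ⟨?_, ?_⟩
        · rw [pcomp, hb.1, ← Function.comp_assoc, ha.1,
            Function.comp_assoc, ac_mul]
        · intro k hk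
          rw [pcomp, hb.2 k hk, ha.2 k hk]
      rw [this]
      exact H.mul_mem (iha ga hga ha) (ihb gb hgb hb)
    | inv a _ iha =>
      intro g _ hlab
      obtain ⟨ga, hga, ha⟩ := exists_lab h a
      have : g = ga⁻¹ := by
        refine IsLab.eq h hlab ⟨?_, ?_⟩
        · funext u
          have e := congrFun ha.1 (ac a⁻¹ u)
          simp only [Function.comp_apply] at e ⊢
          rw [show ac a (ac a⁻¹ u) = u from congrFun (ac_comp_inv a) u] at e
          rw [← e]; simp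
        · intro k hk
          funext u
          have e := congrFun (ha.2 k hk) u
          simp only [Function.comp_apply] at e ⊢
          conv_lhs => rw [← e]
          simp
      rw [this]
      exact H.inv_mem (iha ga hga ha)
  have R2' : ∀ (f f' : W Y → W Y) (L : List (W Y → W Y)) (g : Equiv.Perm (W Y)),
      Cut Γ (f :: f' :: L) → g ∈ QG Γ Y → IsTr f f' L g → g ∈ H := by
    intro f f' L g h hg htr
    by_cases hL : L = []
    · have hc := h.split4 y0
      have hc' : Cut Γ (f ∘ ch y0 :: f' ∘ ch y0 :: f ∘ sh y0 :: f' ∘ sh y0 :: L) := by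
        refine hc.perm ?_
        have h5 : (([f ∘ sh y0, f' ∘ sh y0] ++ [f ∘ ch y0, f' ∘ ch y0]) ++ L).Perm
          (([f ∘ ch y0, f' ∘ ch y0] ++ [f ∘ sh y0, f' ∘ sh y0]) ++ L) :=
            List.perm_append_comm.append_right L
        exact h5
      obtain ⟨g1, hg1, h1⟩ := exists_tr hc
      obtain ⟨g2, hg2, h2⟩ := exists_tr hc'
      rw [IsTr.expand h htr h1 h2]
      exact H.mul_mem (R2 _ _ _ g1 hc (by simp) hg1 h1) (R2 _ _ _ g2 hc' (by simp) hg2 h2)
    · exact R2 f f' L g h hL hg htr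
  exact gen H (fun f L γ g h hg h1 h2 => R1'' f L h γ g hg ⟨h1, h2⟩)
    (fun f f' L g h hg h1 h2 h3 => R2' f f' L g h hg ⟨h1, h2, h3⟩)

end Crest.Agent.R185.Q
end

-- ▼ part R185/QPerf
section

/-!
# Row 185: the group `Q(Γ,Y)` is perfect (helper424)
-/

set_option autoImplicit false

namespace Crest.Agent.R185.Q

open Classical

variable {Γ Y : Type} [Group Γ] [MulAction Γ Y]

/-- `g` is `a` transported to the first piece -/
def IsEmb (f : W Y → W Y) (L : List (W Y → W Y)) (a g : Equiv.Perm (W Y)) : Prop :=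
  (g : W Y → W Y) ∘ f = f ∘ (a : W Y → W Y) ∧ ∀ h ∈ L, (g : W Y → W Y) ∘ h = h

theorem conj_comp {c : Equiv.Perm (W Y)} {k : W Y → W Y} (g : Equiv.Perm (W Y)) :
    ((c * g * c⁻¹ : Equiv.Perm (W Y)) : W Y → W Y) ∘ ((c : W Y → W Y) ∘ k)
      = (c : W Y → W Y) ∘ ((g : W Y → W Y) ∘ k) := by
  funext u
  simp

theorem conj_lab {f f1 : W Y → W Y} {L L1 : List (W Y → W Y)} {γ : Γ} {g c : Equiv.Perm (W Y)}
    (hg : IsLab f L γ g) (e : mp c (f :: L) = f1 :: L1) : IsLab f1 L1 γ (c * g * c⁻¹) := by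
  rw [mp_cons] at e
  simp only [List.cons.injEq] at e
  obtain ⟨rfl, rfl⟩ := e
  refine ⟨?_, ?_⟩
  · rw [conj_comp, hg.1]; rfl
  · intro k hk
    obtain ⟨l, hl, rfl⟩ := List.mem_map.1 hk
    rw [conj_comp, hg.2 l hl]

theorem conj_tr {f f' f1 f1' : W Y → W Y} {L L1 : List (W Y → W Y)} {g c : Equiv.Perm (W Y)}
    (hg : IsTr f f' L g) (e : mp c (f :: f' :: L) = f1 :: f1' :: L1) :
    IsTr f1 f1' L1 (c * g * c⁻¹) := by
  rw [mp_cons, mp_cons] at e
  simp only [List.cons.injEq] at e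
  obtain ⟨rfl, rfl, rfl⟩ := e
  refine ⟨?_, ?_, ?_⟩
  · rw [conj_comp, hg.1]
  · rw [conj_comp, hg.2.1]
  · intro k hk
    obtain ⟨l, hl, rfl⟩ := List.mem_map.1 hk
    rw [conj_comp, hg.2.2 l hl]

theorem conj_emb {f f1 : W Y → W Y} {L L1 : List (W Y → W Y)} {a g c : Equiv.Perm (W Y)}
    (hg : IsEmb f L a g) (e : mp c (f :: L) = f1 :: L1) : IsEmb f1 L1 a (c * g * c⁻¹) := by
  rw [mp_cons] at e
  simp only [List.cons.injEq] at e
  obtain ⟨rfl, rfl⟩ := e
  refine ⟨?_, ?_⟩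
  · rw [conj_comp, hg.1]; rfl
  · intro k hk
    obtain ⟨l, hl, rfl⟩ := List.mem_map.1 hk
    rw [conj_comp, hg.2 l hl]

theorem IsLab.mono {f : W Y → W Y} {L L2 : List (W Y → W Y)} {γ : Γ} {g : Equiv.Perm (W Y)}
    (hg : IsLab f L γ g) (h : ∀ k ∈ L2, ∃ l ∈ L, ∃ s : W Y → W Y, k = l ∘ s) :
    IsLab f L2 γ g := by
  refine ⟨hg.1, ?_⟩
  intro k hk
  obtain ⟨l, hl, s, rfl⟩ := h k hk
  rw [← Function.comp_assoc, hg.2 l hl]

theorem IsTr.mono {f f' : W Y → W Y} {L L2 : List (W Y → W Y)} {g : Equiv.Perm (W Y)}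
    (hg : IsTr f f' L g) (h : ∀ k ∈ L2, ∃ l ∈ L, ∃ s : W Y → W Y, k = l ∘ s) :
    IsTr f f' L2 g := by
  refine ⟨hg.1, hg.2.1, ?_⟩
  intro k hk
  obtain ⟨l, hl, s, rfl⟩ := h k hk
  rw [← Function.comp_assoc, hg.2.2 l hl]

theorem IsEmb.mono {f : W Y → W Y} {L L2 : List (W Y → W Y)} {a g : Equiv.Perm (W Y)}
    (hg : IsEmb f L a g) (h : ∀ k ∈ L2, ∃ l ∈ L, ∃ s : W Y → W Y, k = l ∘ s) :
    IsEmb f L2 a g := by
  refine ⟨hg.1, ?_⟩
  intro k hk
  obtain ⟨l, hl, s, rfl⟩ := h k hk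
  rw [← Function.comp_assoc, hg.2 l hl]

/-- abstract step: `x` is a product of two of its conjugates -/
theorem mem_comm_of {G : Type} [Group G] {x a b : G} (h : x = (a * x * a⁻¹) * (b * x * b⁻¹)) :
    x ∈ commutator G := by
  have h1 : Abelianization.of x = Abelianization.of x * Abelianization.of x := by
    conv_lhs => rw [h]
    simp only [map_mul, map_inv]
    rw [mul_comm (Abelianization.of a), mul_comm (Abelianization.of b)]
    simp
  have h2 : Abelianization.of x = 1 := by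
    have := mul_left_cancel (a := Abelianization.of x) (b := 1)
      (c := Abelianization.of x) (by rw [mul_one]; exact h1)
    exact this.symm
  rw [← Abelianization.ker_of, MonoidHom.mem_ker]
  exact h2

theorem comm_lab {f : W Y → W Y} {L : List (W Y → W Y)} {γ : Γ} {y : Y} {g : Equiv.Perm (W Y)}
    (h : Cut Γ (f :: L)) (hL : L ≠ []) (hγ : γ • y = y) (hg : g ∈ QG Γ Y) (hlab : IsLab f L γ g) :
    (⟨g, hg⟩ : QG Γ Y) ∈ commutator (QG Γ Y) := by
  obtain ⟨L2, h2, hl, hs⟩ := h.refine hL y 1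
  have hlab2 := hlab.mono hs
  have hc : Cut Γ (f ∘ sh y :: f ∘ ch y :: L) := Cut.split y _ _ h
  have hc' := hc.perm (List.Perm.swap _ _ _)
  obtain ⟨c1, hc1, e1⟩ := mk h2 hc (by simp [hl])
  obtain ⟨c2, hc2, e2⟩ := mk h2 hc' (by simp [hl])
  have := IsLab.expand h hγ hlab (conj_lab hlab2 e1) (conj_lab hlab2 e2)
  refine mem_comm_of (a := ⟨c1, hc1⟩) (b := ⟨c2, hc2⟩) ?_
  ext1
  exact this

theorem comm_tr {f f' : W Y → W Y} {L : List (W Y → W Y)} (y : Y) {g : Equiv.Perm (W Y)}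
    (h : Cut Γ (f :: f' :: L)) (hL : L ≠ []) (hg : g ∈ QG Γ Y) (htr : IsTr f f' L g) :
    (⟨g, hg⟩ : QG Γ Y) ∈ commutator (QG Γ Y) := by
  obtain ⟨L2, h2, hl, hs⟩ := h.refine2 hL y 2
  have htr2 := htr.mono hs
  have hc := h.split4 y
  have hc' : Cut Γ (f ∘ ch y :: f' ∘ ch y :: f ∘ sh y :: f' ∘ sh y :: L) := by
    refine hc.perm ?_
    have h5 : (([f ∘ sh y, f' ∘ sh y] ++ [f ∘ ch y, f' ∘ ch y]) ++ L).Perm
      (([f ∘ ch y, f' ∘ ch y] ++ [f ∘ sh y, f' ∘ sh y]) ++ L) :=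
        List.perm_append_comm.append_right L
    exact h5
  obtain ⟨c1, hc1, e1⟩ := mk h2 hc (by simp [hl])
  obtain ⟨c2, hc2, e2⟩ := mk h2 hc' (by simp [hl])
  have := IsTr.expand h htr (conj_tr htr2 e1) (conj_tr htr2 e2)
  refine mem_comm_of (a := ⟨c1, hc1⟩) (b := ⟨c2, hc2⟩) ?_
  ext1
  exact this

theorem perfect [MulAction.IsPretransitive Γ Y] [Nonempty Y]
    (hst : Subgroup.closure (⋃ y : Y, (MulAction.stabilizer Γ y : Set Γ)) = ⊤) :
    commutator (QG Γ Y) = ⊤ := by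
  have key : QG Γ Y ≤ (commutator (QG Γ Y)).map (QG Γ Y).subtype := by
    refine eq_top_of hst _ ?_ ?_
    · intro f L γ y g h hL hγ hg hlab
      exact ⟨⟨g, hg⟩, comm_lab h hL hγ hg hlab, rfl⟩
    · intro f f' L g h hL hg htr
      exact ⟨⟨g, hg⟩, comm_tr (Classical.arbitrary Y) h hL hg htr, rfl⟩
  rw [eq_top_iff]
  rintro ⟨g, hg⟩ _
  obtain ⟨⟨g', hg'⟩, h1, h2⟩ := key hg
  simp only [Subgroup.subtype_apply] at h2
  subst h2
  exact h1

/-! ### transport to a piece -/

theorem exists_emb {f : W Y → W Y} {L : List (W Y → W Y)} (h : Cut Γ (f :: L)) :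
    ∃ φ : Equiv.Perm (W Y) →* Equiv.Perm (W Y), (∀ a ∈ QG Γ Y, φ a ∈ QG Γ Y) ∧
      ∀ a, IsEmb f L a (φ a) := by
  have hinj : Function.Injective f := (h.mem_M f (by simp)).inj
  let φ := Equiv.Perm.viaEmbeddingHom (⟨f, hinj⟩ : W Y ↪ W Y)
  have h1 : ∀ a, IsEmb f L a (φ a) := by
    intro a
    refine ⟨?_, ?_⟩
    · funext u
      exact Equiv.Perm.viaEmbedding_apply a (⟨f, hinj⟩ : W Y ↪ W Y) u
    · intro k hk
      funext u
      refine Equiv.Perm.viaEmbedding_apply_of_notMem a (⟨f, hinj⟩ : W Y ↪ W Y) _ ?_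
      rintro ⟨v, hv⟩
      have := h.dj
      rw [List.pairwise_cons] at this
      exact this.1 k hk v u hv
  have h2 : ∀ a : Equiv.Perm (W Y), Adm Γ (a : W Y → W Y) → Adm Γ (φ a : W Y → W Y) := by
    intro a ha
    apply h.adm
    intro k hk
    rcases List.mem_cons.1 hk with rfl | hk
    · rw [(h1 a).1]
      exact ha.M_comp (h.mem_M _ (by simp))
    · rw [(h1 a).2 k hk]
      exact Adm.base _ (h.mem_M _ (by simp [hk]))
  refine ⟨φ, ?_, h1⟩
  intro a ha
  refine ⟨h2 a ha.1, ?_⟩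
  have := h2 a⁻¹ ha.2
  rw [map_inv] at this
  exact this

theorem IsEmb.eq {f : W Y → W Y} {L : List (W Y → W Y)} (h : Cut Γ (f :: L))
    {a g g' : Equiv.Perm (W Y)} (hg : IsEmb f L a g) (hg' : IsEmb f L a g') : g = g' := by
  apply h.ext
  intro k hk
  rcases List.mem_cons.1 hk with rfl | hk
  · rw [hg.1, hg'.1]
  · rw [hg.2 k hk, hg'.2 k hk]

/-- the label bijection -/
def acP (γ : Γ) : Equiv.Perm (W Y) where
  toFun := ac γ
  invFun := ac γ⁻¹
  left_inv v := congrFun (ac_inv_comp γ) v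
  right_inv v := congrFun (ac_comp_inv γ) v

theorem acP_mem (γ : Γ) : (acP γ : Equiv.Perm (W Y)) ∈ QG Γ Y :=
  ⟨Adm.base _ (M_ac γ), Adm.base _ (M_ac γ⁻¹)⟩

end Crest.Agent.R185.Q
end

-- ▼ part R185/QMain

/-!
# Row 185: the group `Q(Γ,Y)` is simple, main argument (helper424)
-/

set_option autoImplicit false

namespace Crest.Agent.R185.Q

open Classical

variable {Γ Y : Type} [Group Γ] [MulAction Γ Y]

/-! ### roots -/

theorem sh_length (y : Y) (v : W Y) : (sh y v).length = v.length := by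
  cases v <;> simp [sh_cons]

theorem ac_length (γ : Γ) (v : W Y) : (ac γ v).length = v.length := by
  simp [ac]

theorem sh_take (y : Y) (v : W Y) (k : ℕ) : sh y (v.take k) = (sh y v).take k := by
  cases k with
  | zero => simp
  | succ k =>
    cases v with
    | nil => simp
    | cons p v => simp [sh_cons]

theorem M.length {m : W Y → W Y} (hm : M Γ m) (a : W Y) :
    (m a).length = (m []).length + a.length := by
  induction hm with
  | one => simp
  | cs y m _ ih => simp only [Function.comp_apply, sh_length, ih]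
  | cc y m _ ih => simp only [Function.comp_apply, ch_apply, List.length_cons, ih]; omega
  | ca γ m _ ih => simp only [Function.comp_apply, ac_length, ih]

theorem M.take {m : W Y → W Y} (hm : M Γ m) (a : W Y) (k : ℕ) :
    m (a.take k) = (m a).take ((m []).length + k) := by
  induction hm with
  | one => simp
  | cs y m _ ih =>
    simp only [Function.comp_apply, sh_length]
    rw [ih, sh_take]
  | cc y m _ ih =>
    simp only [Function.comp_apply, ch_apply, List.length_cons]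
    rw [ih, show (m []).length + 1 + k = ((m []).length + k) + 1 by omega, List.take_succ_cons]
  | ca γ m _ ih =>
    simp only [Function.comp_apply, ac_length]
    rw [ih]
    simp [ac, List.map_take]

theorem root_mem {m m' : W Y → W Y} (hm : M Γ m) (hm' : M Γ m') {a b : W Y} (h : m a = m' b)
    (hl : (m []).length ≤ (m' []).length) : ∃ c, m' [] = m c := by
  refine ⟨a.take ((m' []).length - (m []).length), ?_⟩
  rw [hm.take, h]
  have := hm'.take b 0
  rw [List.take_zero] at this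
  rw [this]
  simp only [Nat.add_zero, List.length_take]
  congr 1
  have := hm'.length b
  omega

theorem exists_shrink (z : Y) : ∀ k : ℕ, ∃ (s : W Y → W Y) (L : List (W Y → W Y)),
    Cut Γ (s :: L) ∧ L ≠ [] ∧ s [] = [] ∧ ∀ a c', s a ≠ (z, k) :: c' := by
  intro k
  induction k with
  | zero =>
    refine ⟨sh z, [ch z], Cut.split z id [] Cut.one, by simp, rfl, ?_⟩
    intro a c' e
    exact sh_ne_ch z a c' e
  | succ k ih =>
    obtain ⟨s, L, h, hL, h0, hs⟩ := ih
    refine ⟨sh z ∘ s, L.map (fun m => sh z ∘ m) ++ [ch z ∘ id], ?_, by simp, by simp [h0], ?_⟩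
    · exact h.node Cut.one z
    · intro a c' e
      have e2 : sh z ((z, k) :: c') = (z, k + 1) :: c' := by simp [sh_cons]
      rw [← e2] at e
      exact hs a c' (sh_inj z e)

theorem exists_root (v : W Y) : ∃ (n : W Y → W Y) (L : List (W Y → W Y)),
    Cut Γ (n :: L) ∧ n [] = v := by
  induction v with
  | nil => exact ⟨id, [], Cut.one, rfl⟩
  | cons p v ih =>
    obtain ⟨z, k⟩ := p
    obtain ⟨n0, L0, h0, hn0⟩ := ih
    induction k with
    | zero =>
      refine ⟨ch z ∘ n0, L0.map (fun m => ch z ∘ m) ++ [sh z ∘ id], ?_, by simp [hn0]⟩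
      have := Cut.one.node h0 z
      exact this.perm List.perm_append_comm
    | succ k ih =>
      obtain ⟨n, L, h, hn⟩ := ih
      refine ⟨sh z ∘ n, L.map (fun m => sh z ∘ m) ++ [ch z ∘ id], h.node Cut.one z, ?_⟩
      simp [hn, sh_cons]

/-- separate two elements of `M` with distinct roots -/
theorem exists_sep {F G : W Y → W Y} (hF : M Γ F) (hG : M Γ G) (hne : F [] ≠ G [])
    (hl : (F []).length ≤ (G []).length) :
    ∃ (s : W Y → W Y) (L : List (W Y → W Y)), Cut Γ (s :: L) ∧ Dj (F ∘ s) (G ∘ s) := by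
  by_cases hr : ∃ c, G [] = F c
  · obtain ⟨c, hc⟩ := hr
    rcases c with _ | ⟨⟨z, k⟩, c'⟩
    · exact absurd hc.symm hne
    · obtain ⟨s, L, h, -, h0, hs⟩ := exists_shrink (Γ := Γ) z k
      refine ⟨s, L, h, ?_⟩
      intro a b e
      have hsM : M Γ s := h.mem_M s (by simp)
      obtain ⟨c2, hc2⟩ := root_mem (hF.comp hsM) (hG.comp hsM) e (by simpa [h0] using hl)
      simp only [Function.comp_apply, h0] at hc2
      rw [hc] at hc2
      exact hs c2 c' (hF.inj hc2).symm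
  · refine ⟨id, [], Cut.one, ?_⟩
    intro a b e
    exact hr (root_mem hF hG e hl)

theorem exists_sep' {F G : W Y → W Y} (hF : M Γ F) (hG : M Γ G) (hne : F [] ≠ G []) :
    ∃ (s : W Y → W Y) (L : List (W Y → W Y)), Cut Γ (s :: L) ∧ Dj (F ∘ s) (G ∘ s) := by
  rcases le_total (F []).length (G []).length with hl | hl
  · exact exists_sep hF hG hne hl
  · obtain ⟨s, L, h, hd⟩ := exists_sep hG hF (Ne.symm hne) hl
    exact ⟨s, L, h, hd.symm⟩

/-- displacement -/
theorem exists_disp [Nonempty Y] {g : Equiv.Perm (W Y)} (hg : g ∈ QG Γ Y) (hne : g ≠ 1) :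
    ∃ (f : W Y → W Y) (L : List (W Y → W Y)), Cut Γ (f :: L) ∧ L ≠ [] ∧ Dj (g ∘ f) f := by
  obtain ⟨u, hu⟩ : ∃ u, g u ≠ u := by
    by_contra hcon
    push Not at hcon
    exact hne (Equiv.ext hcon)
  obtain ⟨L0, h0, hM0⟩ := Adm.exists_cut hg.1
  obtain ⟨f, hf, v, rfl⟩ := h0.cover u
  obtain ⟨A, B, rfl⟩ := List.append_of_mem hf
  have h1 : Cut Γ (f :: (A ++ B)) := h0.perm List.perm_middle
  obtain ⟨n, L1, hn, hn0⟩ := exists_root (Γ := Γ) v
  have h2 := h1.graft hn
  simp only [List.map_cons, List.cons_append] at h2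
  have hnM : M Γ n := hn.mem_M n (by simp)
  have hF : M Γ (f ∘ n) := h2.mem_M _ (by simp)
  have hG : M Γ ((g : W Y → W Y) ∘ (f ∘ n)) := by
    have := (hM0 f hf).comp hnM
    exact this
  obtain ⟨s, L2, hs, hd⟩ := exists_sep' hG hF (by simpa [hn0] using hu)
  have h3 := h2.graft hs
  simp only [List.map_cons, List.cons_append] at h3
  obtain ⟨y⟩ := ‹Nonempty Y›
  have h4 := Cut.split y _ _ h3
  refine ⟨_, _, h4, by simp, ?_⟩
  intro a b e
  exact hd (sh y a) (sh y b) e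

/-! ### normal subgroups -/

/-- The double commutator trick, abstract form. -/
theorem double_comm {G : Type} [Group G] (N : Subgroup G) [N.Normal] {g a b : G} (hg : g ∈ N)
    (hc : Commute (g * a * g⁻¹) a) (hc' : Commute (g * a * g⁻¹) b) :
    a⁻¹ * b * a * b⁻¹ ∈ N := by
  have h1 : g * a * g⁻¹ * a⁻¹ ∈ N := by
    have : g * (a * g⁻¹ * a⁻¹) ∈ N :=
      N.mul_mem hg (‹N.Normal›.conj_mem _ (N.inv_mem hg) a)
    simpa [mul_assoc] using this
  have h2 : (g * a * g⁻¹ * a⁻¹) * (b * (g * a * g⁻¹ * a⁻¹)⁻¹ * b⁻¹) ∈ N :=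
    N.mul_mem h1 (‹N.Normal›.conj_mem _ (N.inv_mem h1) b)
  have h3 : (g * a * g⁻¹ * a⁻¹) * (b * (g * a * g⁻¹ * a⁻¹)⁻¹ * b⁻¹) = a⁻¹ * b * a * b⁻¹ := by
    set x := g * a * g⁻¹ with hx
    have e1 : x * a⁻¹ = a⁻¹ * x := (hc.inv_right).eq
    have e2 : x * b = b * x := hc'.eq
    have : x * a⁻¹ * (b * (x * a⁻¹)⁻¹ * b⁻¹) = a⁻¹ * (x * b) * a * x⁻¹ * b⁻¹ := by
      rw [mul_inv_rev, inv_inv, e1]; group
    rw [this, e2]
    have e3 : x * a * x⁻¹ = a := by
      rw [hc.eq]; group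
    calc a⁻¹ * (b * x) * a * x⁻¹ * b⁻¹ = a⁻¹ * b * (x * a * x⁻¹) * b⁻¹ := by group
      _ = _ := by rw [e3]
  rw [← h3]; exact h2

theorem disj_commute {f : W Y → W Y} {L : List (W Y → W Y)} (h : Cut Γ (f :: L))
    {g a a' b b' : Equiv.Perm (W Y)} (ha : IsEmb f L a' a) (hb : IsEmb f L b' b)
    (hd : Dj (g ∘ f) f) : Commute (g * a * g⁻¹) b := by
  apply Equiv.Perm.Disjoint.commute
  intro u
  by_cases hu : ∃ v, f v = u
  · -- `g⁻¹ u ∉ range f`
    left
    obtain ⟨v, rfl⟩ := hu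
    obtain ⟨k, hk, w, hw⟩ := h.cover (g⁻¹ (f v))
    rcases List.mem_cons.1 hk with rfl | hk
    · exfalso
      refine hd w v ?_
      simp [hw]
    · have : a (g⁻¹ (f v)) = g⁻¹ (f v) := by
        rw [← hw]; exact congrFun (ha.2 k hk) w
      simp only [Equiv.Perm.coe_mul, Function.comp_apply, this]
      simp
  · right
    obtain ⟨k, hk, w, hw⟩ := h.cover u
    rcases List.mem_cons.1 hk with rfl | hk
    · exact absurd ⟨w, hw⟩ hu
    · rw [← hw]; exact congrFun (hb.2 k hk) w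

theorem normal_emb [MulAction.IsPretransitive Γ Y] [Nonempty Y]
    (hst : Subgroup.closure (⋃ y : Y, (MulAction.stabilizer Γ y : Set Γ)) = ⊤)
    (N : Subgroup (QG Γ Y)) [N.Normal] (hN : N ≠ ⊥) :
    ∃ (f : W Y → W Y) (L : List (W Y → W Y)), Cut Γ (f :: L) ∧ L ≠ [] ∧
      ∀ a ∈ QG Γ Y, ∀ g (hg : g ∈ QG Γ Y), IsEmb f L a g → (⟨g, hg⟩ : QG Γ Y) ∈ N := by
  obtain ⟨⟨⟨g, hg⟩, hgN⟩, hne0⟩ := Subgroup.ne_bot_iff_exists_ne_one.1 hN
  have hne : (⟨g, hg⟩ : QG Γ Y) ≠ 1 := fun e => hne0 (Subtype.ext e)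
  have hne' : g ≠ 1 := fun e => hne (Subtype.ext e)
  obtain ⟨f, L, h, hL, hd⟩ := exists_disp hg hne'
  refine ⟨f, L, h, hL, ?_⟩
  obtain ⟨φ, hφ, hφe⟩ := exists_emb h
  -- restricted hom
  let ψ : QG Γ Y →* QG Γ Y :=
    ((φ.comp (QG Γ Y).subtype).codRestrict (QG Γ Y) (fun a => hφ a.1 a.2))
  have hcomm : ∀ a b : QG Γ Y, ψ (a⁻¹ * b * a * b⁻¹) ∈ N := by
    intro a b
    have h1 : Commute ((⟨g, hg⟩ : QG Γ Y) * ψ a * (⟨g, hg⟩ : QG Γ Y)⁻¹) (ψ a) := by
      have := disj_commute h (hφe a.1) (hφe a.1) hd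
      exact Subtype.ext this.eq
    have h2 : Commute ((⟨g, hg⟩ : QG Γ Y) * ψ a * (⟨g, hg⟩ : QG Γ Y)⁻¹) (ψ b) := by
      have := disj_commute h (hφe a.1) (hφe b.1) hd
      exact Subtype.ext this.eq
    have := double_comm N hgN h1 h2
    simpa only [map_mul, map_inv] using this
  have hle : commutator (QG Γ Y) ≤ N.comap ψ := by
    rw [commutator_eq_closure, Subgroup.closure_le]
    rintro x ⟨a, b, rfl⟩
    have := hcomm a⁻¹ b
    simpa [commutatorElement_def] using this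
  rw [perfect hst] at hle
  intro a ha g' hg' hemb
  have h5 : ψ ⟨a, ha⟩ ∈ N := hle (Subgroup.mem_top _)
  have h6 : g' = φ a := IsEmb.eq h hemb (hφe a)
  subst h6
  exact h5

theorem normal_emb_all [MulAction.IsPretransitive Γ Y] [Nonempty Y]
    (hst : Subgroup.closure (⋃ y : Y, (MulAction.stabilizer Γ y : Set Γ)) = ⊤)
    (N : Subgroup (QG Γ Y)) [N.Normal] (hN : N ≠ ⊥) (f : W Y → W Y) (L : List (W Y → W Y))
    (h : Cut Γ (f :: L)) (hL : L ≠ []) (a : Equiv.Perm (W Y)) (ha : a ∈ QG Γ Y)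
    (g : Equiv.Perm (W Y)) (hg : g ∈ QG Γ Y) (he : IsEmb f L a g) :
    (⟨g, hg⟩ : QG Γ Y) ∈ N := by
  obtain ⟨f0, L0, h0, hL0, H0⟩ := normal_emb hst N hN
  obtain ⟨y⟩ := ‹Nonempty Y›
  obtain ⟨L1, h1, hl1, hs1⟩ := h.refine hL y L0.length
  obtain ⟨L2, h2, hl2, hs2⟩ := h0.refine hL0 y L.length
  have he1 := he.mono hs1
  obtain ⟨c, hc, e⟩ := mk h1 h2 (by simp [hl1, hl2]; omega)
  have h3 := conj_emb he1 e
  -- compare with `φ a` on `f0 :: L0`
  obtain ⟨φ, hφ, hφe⟩ := exists_emb h0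
  have h4 : c * g * c⁻¹ = φ a := IsEmb.eq h2 h3 ((hφe a).mono hs2)
  have h5 : (⟨c * g * c⁻¹, (QG Γ Y).mul_mem ((QG Γ Y).mul_mem hc hg) ((QG Γ Y).inv_mem hc)⟩ :
      QG Γ Y) ∈ N := by
    refine H0 a ha _ _ ?_
    rw [h4]; exact hφe a
  have h6 := ‹N.Normal›.conj_mem _ h5 (⟨c, hc⟩ : QG Γ Y)⁻¹
  have h7 : ((⟨c, hc⟩ : QG Γ Y)⁻¹ * ⟨c * g * c⁻¹, (QG Γ Y).mul_mem ((QG Γ Y).mul_mem hc hg)
      ((QG Γ Y).inv_mem hc)⟩ * ((⟨c, hc⟩ : QG Γ Y)⁻¹)⁻¹) = ⟨g, hg⟩ := by
    apply Subtype.ext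
    simp only [Subgroup.coe_mul, Subgroup.coe_inv]
    group
  rw [h7] at h6
  exact h6

theorem tail_len (y : Y) (n : ℕ) : ∃ K : List (W Y → W Y), Cut Γ (sh y :: K) ∧ K.length = n + 1 := by
  have h0 : Cut Γ (sh y :: [(ch y : W Y → W Y)]) := Cut.split y id [] Cut.one
  obtain ⟨L2, h2, hl, -⟩ := h0.refine (by simp) y n
  exact ⟨L2, h2, by simp [hl]; omega⟩

theorem normal_top [MulAction.IsPretransitive Γ Y] [Nonempty Y]
    (hst : Subgroup.closure (⋃ y : Y, (MulAction.stabilizer Γ y : Set Γ)) = ⊤)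
    (N : Subgroup (QG Γ Y)) [N.Normal] (hN : N ≠ ⊥) : N = ⊤ := by
  have y0 : Y := Classical.arbitrary Y
  have key : QG Γ Y ≤ N.map (QG Γ Y).subtype := by
    refine eq_top_of hst _ ?_ ?_
    · intro f L γ y g h hL hγ hg hlab
      exact ⟨⟨g, hg⟩, normal_emb_all hst N hN f L h hL (acP γ) (acP_mem γ) g hg hlab, rfl⟩
    · intro f f' L g h hL hg htr
      refine ⟨⟨g, hg⟩, ?_, rfl⟩
      obtain ⟨K, hK, hKl⟩ := tail_len (Γ := Γ) y0 (L.length - 1)
      have hLp := List.length_pos_iff.2 hL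
      have hK2 : Cut Γ (sh y0 ∘ sh y0 :: sh y0 ∘ ch y0 :: K) := Cut.split y0 _ _ hK
      obtain ⟨c, hc, e⟩ := mk h hK2 (by simp [hKl]; omega)
      have h3 := conj_tr htr e
      -- the swap of `sh y0`, `ch y0`
      have hb : Cut Γ (sh y0 :: [(ch y0 : W Y → W Y)]) := Cut.split y0 id [] Cut.one
      obtain ⟨t, ht, ht'⟩ := exists_tr (L := []) hb
      have h4 : IsEmb (sh y0) K t (c * g * c⁻¹) := by
        refine ⟨?_, h3.2.2⟩
        funext u
        rcases Q.cover y0 u with ⟨v, rfl⟩ | ⟨v, rfl⟩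
        · have e1 := congrFun h3.1 v
          have e2 := congrFun ht'.1 v
          simp only [Function.comp_apply] at e1 e2 ⊢
          rw [e1, e2]
        · have e1 := congrFun h3.2.1 v
          have e2 := congrFun ht'.2.1 v
          simp only [Function.comp_apply] at e1 e2 ⊢
          rw [e1, e2]
      have h5 := normal_emb_all hst N hN _ K hK (by
        intro e
        rw [e] at hKl
        simp at hKl) t ht (c * g * c⁻¹)
        ((QG Γ Y).mul_mem ((QG Γ Y).mul_mem hc hg) ((QG Γ Y).inv_mem hc)) h4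
      have h6 := ‹N.Normal›.conj_mem _ h5 (⟨c, hc⟩ : QG Γ Y)⁻¹
      have h7 : ((⟨c, hc⟩ : QG Γ Y)⁻¹ * ⟨c * g * c⁻¹, (QG Γ Y).mul_mem ((QG Γ Y).mul_mem hc hg)
          ((QG Γ Y).inv_mem hc)⟩ * ((⟨c, hc⟩ : QG Γ Y)⁻¹)⁻¹) = ⟨g, hg⟩ := by
        apply Subtype.ext
        simp only [Subgroup.coe_mul, Subgroup.coe_inv]
        group
      rw [h7] at h6
      exact h6
  rw [eq_top_iff]
  rintro ⟨g, hg⟩ _
  obtain ⟨⟨g', hg'⟩, h1, h2⟩ := key hg
  simp only [Subgroup.subtype_apply] at h2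
  subst h2
  exact h1

/-- nontriviality -/
theorem exists_ne_one [Nonempty Y] : ∃ g ∈ QG Γ Y, g ≠ 1 := by
  have y0 : Y := Classical.arbitrary Y
  have hb : Cut Γ (sh y0 :: [(ch y0 : W Y → W Y)]) := Cut.split y0 id [] Cut.one
  obtain ⟨t, ht, ht'⟩ := exists_tr (L := []) hb
  refine ⟨t, ht, ?_⟩
  rintro rfl
  have := congrFun ht'.1 []
  simp at this

/-- **Theorem.** `Q(Γ,Y)` is simple when `Γ` is transitive on `Y ≠ ∅` and is generated by the
point stabilisers. -/
theorem isSimpleGroup_QG [MulAction.IsPretransitive Γ Y] [Nonempty Y]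
    (hst : Subgroup.closure (⋃ y : Y, (MulAction.stabilizer Γ y : Set Γ)) = ⊤) :
    IsSimpleGroup (QG Γ Y) where
  exists_pair_ne := by
    obtain ⟨g, hg, hne⟩ := exists_ne_one (Γ := Γ) (Y := Y)
    exact ⟨⟨g, hg⟩, 1, fun e => hne (congrArg Subtype.val e)⟩
  eq_bot_or_eq_top_of_normal := by
    intro N hN
    by_cases h : N = ⊥
    · exact Or.inl h
    · exact Or.inr (normal_top hst N h)

/-- the labels embed -/
def labHom (Γ Y : Type) [Group Γ] [MulAction Γ Y] : Γ →* QG Γ Y where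
  toFun γ := ⟨acP γ, acP_mem γ⟩
  map_one' := by
    apply Subtype.ext
    ext1 u
    show ac (1 : Γ) u = u
    simp
  map_mul' a b := by
    apply Subtype.ext
    ext1 u
    show ac (a * b) u = ac a (ac b u)
    rw [ac_mul]; rfl

theorem labHom_injective [FaithfulSMul Γ Y] : Function.Injective (labHom Γ Y) := by
  intro a b h
  apply FaithfulSMul.eq_of_smul_eq_smul (α := Y)
  intro y
  have h1 : (acP a : Equiv.Perm (W Y)) = acP b := congrArg Subtype.val h
  have h2 : ac a ([(y, 0)] : W Y) = ac b [(y, 0)] := congrArg (fun e : Equiv.Perm (W Y) => e [(y, 0)]) h1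
  simpa using h2

end Crest.Agent.R185.Q
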