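import Crest.Agent.R185.QTh
import Crest.Agent.R185.Tor1
import Mathlib
import Crest.Agent.R185.Null11
import Crest.Agent.R185.QCov_Mg
import Crest.Agent.R185.QOP
import Crest.Agent.R185.Hot2
import Crest.Agent.R185.Fin1
import Crest.Agent.R185.QMain
import Crest.Agent.R185.Asm5

-- ▼ part R185/FPC
section

/-!
# Row 185 (Q2), piece P3: a criterion for finite presentability (helper340)

Brown's criterion without complexes: a group acting on a connected, simply connected preordered set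
with finitely many orbits of triples `x ≤ y ≤ z`, finitely presented stabilisers and finitely
generated edge stabilisers is finitely presented.
-/

set_option autoImplicit false

namespace Crest.Agent.R185.Q.FPC

open Subgroup

/-! ### approximations of a group by finitely presented groups -/

section approx

variable {G : Type} [Group G]

/-- a retract of a finitely presented group is finitely presented -/
theorem fp_retract {E : Type} [Group E] (hE : Group.IsFinitelyPresented E) (π : E →* G)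
    (τ : G →* E) (h : ∀ g, π (τ g) = g) : Group.IsFinitelyPresented G := by
  obtain ⟨S, hSf, hS⟩ := Tor.exists_gen E hE
  refine Group.IsFinitelyPresented.of_surjective π (fun g => ⟨τ g, h g⟩)
    ⟨(fun s => s * (τ (π s))⁻¹) '' S, hSf.image _, ?_⟩
  apply le_antisymm
  · apply normalClosure_le_normal
    rintro _ ⟨s, hs, rfl⟩
    simp [MonoidHom.mem_ker, h]
  · intro e he
    have h1 : ∀ e, QuotientGroup.mk' (normalClosure ((fun s => s * (τ (π s))⁻¹) '' S)) e =
        ((QuotientGroup.mk' (normalClosure ((fun s => s * (τ (π s))⁻¹) '' S))).comp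
          (τ.comp π)) e := by
      apply Tor.hom_eq hS
      intro s hs
      have h2 : s * (τ (π s))⁻¹ ∈ normalClosure ((fun s => s * (τ (π s))⁻¹) '' S) :=
        subset_normalClosure ⟨s, hs, rfl⟩
      have h3 := (QuotientGroup.eq_one_iff (N := normalClosure ((fun s => s * (τ (π s))⁻¹) '' S))
        (s * (τ (π s))⁻¹)).mpr h2
      rw [QuotientGroup.mk_mul, QuotientGroup.mk_inv, mul_inv_eq_one] at h3
      exact h3
    have h4 := h1 e
    rw [MonoidHom.comp_apply, MonoidHom.comp_apply, (MonoidHom.mem_ker).mp he, map_one,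
      map_one] at h4
    exact (QuotientGroup.eq_one_iff e).mp h4

/-- an approximation of `G` by a finitely presented group -/
structure App (G : Type) [Group G] where
  E : Type
  [grp : Group E]
  fp : Group.IsFinitelyPresented E
  π : E →* G

attribute [instance] App.grp

theorem add_hom (A : App G) {H : Type} [Group H] (hH : Group.IsFinitelyPresented H) (φ : H →* G) :
    ∃ (B : App G) (q : A.E →* B.E) (σ : H →* B.E),
      (∀ x, B.π (q x) = A.π x) ∧ ∀ h, B.π (σ h) = φ h := by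
  have hA := A.fp
  refine ⟨{ E := Monoid.Coprod A.E H, fp := inferInstance, π := Monoid.Coprod.lift A.π φ },
    Monoid.Coprod.inl, Monoid.Coprod.inr, ?_, ?_⟩
  · intro x; simp
  · intro x; simp

theorem add_homs (A : App G) {ι : Type} [Finite ι] (H : ι → Type) [∀ i, Group (H i)]
    (hH : ∀ i, Group.IsFinitelyPresented (H i)) (φ : ∀ i, H i →* G) :
    ∃ (B : App G) (q : A.E →* B.E) (σ : ∀ i, H i →* B.E),
      (∀ x, B.π (q x) = A.π x) ∧ ∀ i h, B.π (σ i h) = φ i h := by
  classical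
  have := Fintype.ofFinite ι
  suffices hs : ∀ s : Finset ι, ∃ (B : App G) (q : A.E →* B.E),
      (∀ x, B.π (q x) = A.π x) ∧ ∀ i ∈ s, ∃ σ : H i →* B.E, ∀ h, B.π (σ h) = φ i h by
    obtain ⟨B, q, h1, h2⟩ := hs Finset.univ
    choose σ hσ using fun i => h2 i (Finset.mem_univ i)
    exact ⟨B, q, σ, h1, hσ⟩
  intro s
  induction s using Finset.induction_on with
  | empty => exact ⟨A, MonoidHom.id _, fun x => rfl, by simp⟩
  | insert i s hi ih =>
    obtain ⟨B, q, h1, h2⟩ := ih
    obtain ⟨C, q', σ, h3, h4⟩ := add_hom B (hH i) (φ i)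
    refine ⟨C, q'.comp q, fun x => by rw [MonoidHom.comp_apply, h3, h1], ?_⟩
    intro j hj
    rw [Finset.mem_insert] at hj
    rcases hj with rfl | hj
    · exact ⟨σ, h4⟩
    · obtain ⟨σ', h5⟩ := h2 j hj
      exact ⟨q'.comp σ', fun h => by rw [MonoidHom.comp_apply, h3, h5]⟩

theorem add_elts (A : App G) (S : Set G) (hS : S.Finite) :
    ∃ (B : App G) (q : A.E →* B.E) (l : G → B.E),
      (∀ x, B.π (q x) = A.π x) ∧ ∀ a ∈ S, B.π (l a) = a := by
  classical
  have := hS.to_subtype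
  obtain ⟨B, q, σ, h1, h2⟩ := add_hom A (H := FreeGroup S) inferInstance
    (FreeGroup.lift (fun a : S => (a : G)))
  refine ⟨B, q, fun a => if h : a ∈ S then σ (FreeGroup.of ⟨a, h⟩) else 1, h1, ?_⟩
  intro a ha
  simp [ha, h2]

theorem kill (A : App G) (P : Set (A.E × A.E)) (hP : P.Finite)
    (h : ∀ p ∈ P, A.π p.1 = A.π p.2) :
    ∃ (B : App G) (q : A.E →* B.E),
      (∀ x, B.π (q x) = A.π x) ∧ ∀ p ∈ P, q p.1 = q p.2 := by
  have hA := A.fp
  have hN : normalClosure ((fun p : A.E × A.E => p.1 * p.2⁻¹) '' P) ≤ A.π.ker := by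
    apply normalClosure_le_normal
    rintro _ ⟨p, hp, rfl⟩
    simp [MonoidHom.mem_ker, h p hp]
  refine ⟨{ E := A.E ⧸ normalClosure ((fun p : A.E × A.E => p.1 * p.2⁻¹) '' P)
            fp := Group.IsFinitelyPresented.quotient _ ⟨_, hP.image _, rfl⟩
            π := QuotientGroup.lift _ A.π hN }, QuotientGroup.mk' _, ?_, ?_⟩
  · intro x; rfl
  · intro p hp
    have h2 : p.1 * p.2⁻¹ ∈ normalClosure ((fun p : A.E × A.E => p.1 * p.2⁻¹) '' P) :=
      subset_normalClosure ⟨p, hp, rfl⟩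
    have h3 := (QuotientGroup.eq_one_iff _).mpr h2
    rw [QuotientGroup.mk_mul, QuotientGroup.mk_inv, mul_inv_eq_one] at h3
    exact h3

end approx

/-! ### the last step: a functor gives a retraction -/

section functor

variable {G X : Type} [Group G] [MulAction G X] [Nonempty X] {r : X → X → Prop}

theorem of_functor (hr : ∀ x, r x x) (hinv : ∀ (g : G) x y, r x y → r (g • x) (g • y))
    (hC : Cnd r Set.univ) (hT : CT r Set.univ)
    {E : Type} [Group E] (hE : Group.IsFinitelyPresented E) (π : E →* G) (t : X → G)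
    (Φ : X → X → G → E)
    (h1 : ∀ x y a, r (a • x) y → π (Φ x y a) = (t y)⁻¹ * a * t x)
    (h2 : ∀ x y z a b, r (a • y) z → r (b • x) y → Φ x z (a * b) = Φ y z a * Φ x y b) :
    Group.IsFinitelyPresented G := by
  obtain ⟨b, hb⟩ := hT E (fun x y => (Φ x y 1)⁻¹) (by
    intro x _ y _ z _ hxy hyz
    have := h2 x y z 1 1 (by rwa [one_smul]) (by rwa [one_smul])
    rw [mul_one] at this
    rw [this, mul_inv_rev])
  have hb' : ∀ x y, r x y → b y = b x * (Φ x y 1)⁻¹ := by
    intro x y hxy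
    rw [hb x trivial y trivial hxy, mul_inv_cancel_left]
  obtain ⟨x0⟩ := ‹Nonempty X›
  -- the image of `b` in `G`
  have h3 : ∀ x, π (b x) * (t x)⁻¹ = π (b x0) * (t x0)⁻¹ := by
    intro x
    have := hC (fun x => π (b x) * (t x)⁻¹ = π (b x0) * (t x0)⁻¹) (by
      intro x _ y _ hxy
      have h4 := h1 x y 1 (by rwa [one_smul])
      have h5 : π (b y) * (t y)⁻¹ = π (b x) * (t x)⁻¹ := by
        rw [hb' x y hxy, map_mul, map_inv, h4]
        group
      rw [h5]) x trivial x0 trivial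
    exact this.mpr rfl
  have h4 : ∀ g x, b (g • x) * Φ x (g • x) g * (b x)⁻¹ =
      b (g • x0) * Φ x0 (g • x0) g * (b x0)⁻¹ := by
    intro g x
    have := hC (fun x => b (g • x) * Φ x (g • x) g * (b x)⁻¹ =
      b (g • x0) * Φ x0 (g • x0) g * (b x0)⁻¹) (by
      intro x _ y _ hxy
      have hg := hinv g x y hxy
      have h5 := h2 x y (g • y) g 1 (hr _) (by rwa [one_smul])
      have h6 := h2 x (g • x) (g • y) 1 g (by rwa [one_smul]) (hr _)
      rw [mul_one] at h5
      rw [one_mul] at h6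
      have h7 : b (g • y) * Φ y (g • y) g * (b y)⁻¹ = b (g • x) * Φ x (g • x) g * (b x)⁻¹ := by
        rw [hb' x y hxy, hb' _ _ hg]
        have h8 : Φ y (g • y) g = Φ (g • x) (g • y) 1 * Φ x (g • x) g * (Φ x y 1)⁻¹ := by
          rw [← h6, h5, mul_inv_cancel_right]
        rw [h8]
        group
      rw [h7]) x trivial x0 trivial
    exact this.mpr rfl
  let τ : G →* E := MonoidHom.mk' (fun g => b (g • x0) * Φ x0 (g • x0) g * (b x0)⁻¹) (by
    intro g h
    rw [← h4 g (h • x0), mul_smul, h2 x0 (h • x0) (g • h • x0) g h (hr _) (hr _)]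
    group)
  refine fp_retract hE (((MulAut.conj (π (b x0) * (t x0)⁻¹)⁻¹).toMonoidHom).comp π) τ ?_
  intro g
  have h5 : π (τ g) = (π (b x0) * (t x0)⁻¹) * g * (π (b x0) * (t x0)⁻¹)⁻¹ := by
    change π (b (g • x0) * Φ x0 (g • x0) g * (b x0)⁻¹) = _
    rw [map_mul, map_mul, map_inv, h1 _ _ _ (hr _)]
    have h6 : π (b (g • x0)) = (π (b x0) * (t x0)⁻¹) * t (g • x0) := by
      rw [← h3 (g • x0), inv_mul_cancel_right]
    rw [h6]
    group
  rw [MonoidHom.comp_apply, h5]
  simp [MulAut.conj_apply]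
  group

end functor

/-! ### representatives of double cosets -/

theorem exists_rep {G : Type} [Group G] (H K : Subgroup G) : ∃ rep : G → G,
    (∀ a, ∃ h ∈ H, ∃ k ∈ K, a = h * rep a * k) ∧
    ∀ a, ∀ h ∈ H, ∀ k ∈ K, rep (h * a * k) = rep a := by
  refine ⟨fun a => (DoubleCoset.mk H K a).out, ?_, ?_⟩
  · intro a
    obtain ⟨h, k, hh, hk, e⟩ := DoubleCoset.mk_out_eq_mul H K a
    refine ⟨h⁻¹, inv_mem hh, k⁻¹, inv_mem hk, ?_⟩
    change a = h⁻¹ * ((DoubleCoset.mk H K a).out : G) * k⁻¹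
    have e2 : ((DoubleCoset.mk H K a).out : G) = h * a * k := e
    refine Eq.symm (Eq.trans (congrArg (fun z => h⁻¹ * z * k⁻¹) e2) ?_)
    group
  · intro a h hh k hk
    have : DoubleCoset.mk H K a = DoubleCoset.mk H K (h * a * k) :=
      (DoubleCoset.eq H K _ _).mpr ⟨h, hh, k, hk, rfl⟩
    simp only [this]

/-! ### the stages -/

section stages

variable {G X : Type} [Group G] [MulAction G X] {r : X → X → Prop}

local notation "st" => MulAction.stabilizer G

theorem stage1 (R : Set X) (hR : R.Finite)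
    (hst : ∀ x : X, Group.IsFinitelyPresented (MulAction.stabilizer G x))
    (A : Set G) (hA : A.Finite) : ∃ (B : App G) (s : X → G → B.E) (l : G → B.E),
      (∀ x ∈ R, ∀ g ∈ st x, B.π (s x g) = g) ∧
      (∀ x ∈ R, ∀ g ∈ st x, ∀ h ∈ st x, s x (g * h) = s x g * s x h) ∧
      ∀ a ∈ A, B.π (l a) = a := by
  classical
  have := hR.to_subtype
  obtain ⟨B, -, σ, -, hσ⟩ := add_homs (G := G) (⟨PUnit, inferInstance, 1⟩ : App G) (ι := R)
    (fun x => MulAction.stabilizer G (x : X)) (fun x => hst x)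
    (fun x => (MulAction.stabilizer G (x : X)).subtype)
  obtain ⟨C, q, l, h1, h2⟩ := add_elts B A hA
  refine ⟨C, fun x g => if h : x ∈ R ∧ g ∈ st x then q (σ ⟨x, h.1⟩ ⟨g, h.2⟩) else 1, l, ?_, ?_, h2⟩
  · intro x hx g hg
    beta_reduce
    rw [dif_pos ⟨hx, hg⟩, h1, hσ]
    rfl
  · intro x hx g hg h hh
    beta_reduce
    rw [dif_pos ⟨hx, mul_mem hg hh⟩, dif_pos ⟨hx, hg⟩, dif_pos ⟨hx, hh⟩, ← map_mul, ← map_mul]
    rfl

section mults

variable {E : Type} [Group E] {H : Subgroup G} {s : G → E}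

theorem s_one (hs : ∀ g ∈ H, ∀ h ∈ H, s (g * h) = s g * s h) : s 1 = 1 := by
  have := hs 1 H.one_mem 1 H.one_mem
  rw [mul_one] at this
  exact left_eq_mul.mp this

theorem s_inv (hs : ∀ g ∈ H, ∀ h ∈ H, s (g * h) = s g * s h) {g : G} (hg : g ∈ H) :
    s g⁻¹ = (s g)⁻¹ := by
  have := hs g⁻¹ (H.inv_mem hg) g hg
  rw [inv_mul_cancel, s_one hs] at this
  exact eq_inv_of_mul_eq_one_left this.symm

end mults

theorem rep_le (hinv : ∀ (g : G) x y, r x y → r (g • x) (g • y)) {x y : X} {a c h k : G}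
    (hh : h ∈ st y) (hk : k ∈ st x) (e : a = h * c * k) (ha : r (a • x) y) : r (c • x) y := by
  have h1 := hinv h⁻¹ _ _ ha
  have h2 : h⁻¹ • y = y := (st y).inv_mem hh
  have h3 : h⁻¹ • a • x = c • x := by
    have hk' : k • x = x := hk
    rw [e, mul_smul, mul_smul, hk', inv_smul_smul]
  rwa [h2, h3] at h1

theorem stage2 (hr : ∀ x, r x x) (hinv : ∀ (g : G) x y, r x y → r (g • x) (g • y))
    (T : Set (X × X × X)) (hT : T.Finite)
    (hT' : ∀ x y z, r x y → r y z → ∃ g : G, (g • x, g • y, g • z) ∈ T)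
    (hst : ∀ x : X, Group.IsFinitelyPresented (MulAction.stabilizer G x))
    (hed : ∀ x y : X, r x y →
      Group.FG ↥(MulAction.stabilizer G x ⊓ MulAction.stabilizer G y))
    (R : Set X) (hR : R.Finite)
    (rep : X → X → G → G) (hrep : ∀ x y a, ∃ h ∈ st y, ∃ k ∈ st x, a = h * rep x y a * k)
    (hrep' : ∀ x y a, ∀ h ∈ st y, ∀ k ∈ st x, rep x y (h * a * k) = rep x y a) :
    ∃ (B : App G) (s : X → G → B.E) (l : G → B.E),
      (∀ x ∈ R, ∀ g ∈ st x, B.π (s x g) = g) ∧
      (∀ x ∈ R, ∀ g ∈ st x, ∀ h ∈ st x, s x (g * h) = s x g * s x h) ∧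
      (∀ x ∈ R, ∀ y ∈ R, ∀ a, r (a • x) y → B.π (l (rep x y a)) = rep x y a) ∧
      ∀ x ∈ R, ∀ y ∈ R, ∀ a, r (a • x) y → ∀ h ∈ st y, ∀ k ∈ st x,
        h * rep x y a = rep x y a * k →
        s y h * l (rep x y a) = l (rep x y a) * s x k := by
  classical
  -- finitely many double cosets
  have hfin : ∀ x y : X, {c | ∃ a, r (a • x) y ∧ c = rep x y a}.Finite := by
    intro x y
    have h1 : {c | ∃ a, r (a • x) y ∧ c = rep x y a} ⊆
        ⋃ t ∈ T, {c | ∃ a, ∃ g : G, (g • a • x, g • y, g • y) = t ∧ c = rep x y a} := by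
      rintro c ⟨a, ha, rfl⟩
      obtain ⟨g, hg⟩ := hT' _ _ _ ha (hr y)
      simp only [Set.mem_iUnion]
      exact ⟨_, hg, a, g, rfl, rfl⟩
    refine (hT.biUnion fun t _ => Set.Subsingleton.finite ?_).subset h1
    rintro c ⟨a, g, h2, rfl⟩ c' ⟨a', g', rfl, rfl⟩
    have h3 := (Prod.mk.injEq _ _ _ _).mp h2
    obtain ⟨h4, h5⟩ := h3
    have h6 := ((Prod.mk.injEq _ _ _ _).mp h5).1
    have e : a = (g⁻¹ * g') * a' * (a'⁻¹ * g'⁻¹ * g * a) := by group
    rw [e]
    apply hrep'
    · rw [MulAction.mem_stabilizer_iff, mul_smul, ← h6, inv_smul_smul]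
    · rw [MulAction.mem_stabilizer_iff]
      rw [mul_smul, mul_smul, h4, mul_smul, inv_smul_smul, inv_smul_smul]
  -- the generators of the edge groups
  have hgen : ∀ (x y : X) (c : G), ∃ S : Set G, S.Finite ∧
      (r (c • x) y → closure S = st x ⊓ st (c⁻¹ • y)) := by
    intro x y c
    by_cases h : r (c • x) y
    · have h1 : r x (c⁻¹ • y) := by
        have := hinv c⁻¹ _ _ h
        rwa [inv_smul_smul] at this
      have h2 := (Group.fg_iff_subgroup_fg _).mp (hed _ _ h1)
      obtain ⟨S, hS⟩ := h2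
      exact ⟨S, S.finite_toSet, fun _ => hS⟩
    · exact ⟨∅, Set.finite_empty, fun h' => absurd h' h⟩
  choose S hSf hS using hgen
  obtain ⟨B, s, l, h1, h2, h3⟩ := stage1 R hR hst
    (⋃ x ∈ R, ⋃ y ∈ R, {c | ∃ a, r (a • x) y ∧ c = rep x y a})
    (hR.biUnion fun x _ => hR.biUnion fun y _ => hfin x y)
  have h3' : ∀ x ∈ R, ∀ y ∈ R, ∀ a, r (a • x) y → B.π (l (rep x y a)) = rep x y a := by
    intro x hx y hy a ha
    apply h3
    simp only [Set.mem_iUnion]
    exact ⟨x, hx, y, hy, a, ha, rfl⟩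
  have key : ∀ (x y : X) (c : G), r (c • x) y → ∀ k, k ∈ st x → k ∈ st (c⁻¹ • y) →
      c * k * c⁻¹ ∈ st y := by
    intro x y c _ k _ hk2
    rw [MulAction.mem_stabilizer_iff] at hk2 ⊢
    rw [mul_smul, mul_smul, hk2, smul_inv_smul]
  obtain ⟨C, q, hq1, hq2⟩ := kill B
    (⋃ x ∈ R, ⋃ y ∈ R, ⋃ c ∈ {c | ∃ a, r (a • x) y ∧ c = rep x y a},
      (fun k => (s y (c * k * c⁻¹) * l c, l c * s x k)) '' S x y c)
    (hR.biUnion fun x _ => hR.biUnion fun y _ => (hfin x y).biUnion fun c _ =>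
      (hSf x y c).image _) (by
    intro p hp
    simp only [Set.mem_iUnion] at hp
    obtain ⟨x, hx, y, hy, c, ⟨a, ha, rfl⟩, k, hk, rfl⟩ := hp
    obtain ⟨h', hh', k', hk', e⟩ := hrep x y a
    have hc := rep_le hinv hh' hk' e ha
    have hk2 : k ∈ st x ⊓ st ((rep x y a)⁻¹ • y) := by
      rw [← hS x y _ hc]
      exact subset_closure hk
    simp only [map_mul]
    rw [h1 y hy _ (key x y _ hc k hk2.1 hk2.2), h3' x hx y hy a ha, h1 x hx k hk2.1]
    group)
  refine ⟨C, fun x g => q (s x g), fun c => q (l c), ?_, ?_, ?_, ?_⟩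
  · intro x hx g hg
    rw [hq1, h1 x hx g hg]
  · intro x hx g hg h hh
    beta_reduce
    rw [h2 x hx g hg h hh, map_mul]
  · intro x hx y hy a ha
    rw [hq1, h3' x hx y hy a ha]
  · intro x hx y hy a ha h hh k hk e
    obtain ⟨h', hh', k', hk', e'⟩ := hrep x y a
    have hc := rep_le hinv hh' hk' e' ha
    have hmul : ∀ x ∈ R, ∀ g ∈ st x, ∀ h ∈ st x, q (s x (g * h)) = q (s x g) * q (s x h) := by
      intro x hx g hg h hh
      rw [h2 x hx g hg h hh, map_mul]
    have hkey : ∀ k ∈ closure (S x y (rep x y a)),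
        q (s y (rep x y a * k * (rep x y a)⁻¹)) * q (l (rep x y a)) =
          q (l (rep x y a)) * q (s x k) := by
      intro k hk
      induction hk using closure_induction with
      | mem k hk =>
        have := hq2 _ (by
          simp only [Set.mem_iUnion]
          exact ⟨x, hx, y, hy, _, ⟨a, ha, rfl⟩, k, hk, rfl⟩)
        simpa only [map_mul] using this
      | one =>
        rw [mul_one, mul_inv_cancel, s_one (H := st x) (s := fun g => q (s x g)) (hmul x hx),
          s_one (H := st y) (s := fun g => q (s y g)) (hmul y hy), one_mul, mul_one]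
      | mul k k' hk hk' ih ih' =>
        rw [hS x y _ hc] at hk hk'
        have e1 : rep x y a * (k * k') * (rep x y a)⁻¹ =
            (rep x y a * k * (rep x y a)⁻¹) * (rep x y a * k' * (rep x y a)⁻¹) := by group
        rw [e1, hmul y hy _ (key x y _ hc k hk.1 hk.2) _ (key x y _ hc k' hk'.1 hk'.2),
          mul_assoc, ih', ← mul_assoc, ih, mul_assoc, ← hmul x hx _ hk.1 _ hk'.1]
      | inv k hk ih =>
        rw [hS x y _ hc] at hk
        have e1 : rep x y a * k⁻¹ * (rep x y a)⁻¹ = (rep x y a * k * (rep x y a)⁻¹)⁻¹ := by group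
        rw [e1, s_inv (H := st y) (s := fun g => q (s y g)) (hmul y hy)
          (key x y _ hc k hk.1 hk.2), s_inv (H := st x) (s := fun g => q (s x g)) (hmul x hx) hk.1,
          inv_mul_eq_iff_eq_mul, ← mul_assoc, ih, mul_inv_cancel_right]
    have e2 : h = rep x y a * k * (rep x y a)⁻¹ := by rw [← e]; group
    have hk2 : k ∈ closure (S x y (rep x y a)) := by
      rw [hS x y _ hc]
      refine mem_inf.mpr ⟨hk, ?_⟩
      rw [MulAction.mem_stabilizer_iff]
      have e3 : k = (rep x y a)⁻¹ * h * rep x y a := by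
        rw [mul_assoc, e]; group
      have hh2 : h • y = y := hh
      rw [e3, mul_smul, mul_smul, smul_inv_smul, hh2]
    rw [e2]
    exact hkey k hk2

theorem stage3 (hr : ∀ x, r x x) (hinv : ∀ (g : G) x y, r x y → r (g • x) (g • y))
    (T : Set (X × X × X)) (hT : T.Finite)
    (hT' : ∀ x y z, r x y → r y z → ∃ g : G, (g • x, g • y, g • z) ∈ T)
    (hst : ∀ x : X, Group.IsFinitelyPresented (MulAction.stabilizer G x))
    (hed : ∀ x y : X, r x y →
      Group.FG ↥(MulAction.stabilizer G x ⊓ MulAction.stabilizer G y))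
    (R : Set X) (hR : R.Finite) :
    ∃ (B : App G) (s : X → G → B.E) (Φ : X → X → G → B.E),
      (∀ x ∈ R, ∀ g ∈ st x, ∀ h ∈ st x, s x (g * h) = s x g * s x h) ∧
      (∀ x ∈ R, ∀ y ∈ R, ∀ a, r (a • x) y → B.π (Φ x y a) = a) ∧
      ∀ x ∈ R, ∀ y ∈ R, ∀ a, r (a • x) y → ∀ h ∈ st y, ∀ k ∈ st x,
        Φ x y (h * a * k) = s y h * Φ x y a * s x k := by
  classical
  choose rep hrep hrep' using fun x y : X => exists_rep (st y) (st x)
  obtain ⟨B, s, l, h1, h2, h3, h4⟩ := stage2 hr hinv T hT hT' hst hed R hR rep hrep hrep'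
  choose H hH K hK e using hrep
  have wd : ∀ x ∈ R, ∀ y ∈ R, ∀ a, r (a • x) y → ∀ h ∈ st y, ∀ k ∈ st x,
      a = h * rep x y a * k →
      s y (H x y a) * l (rep x y a) * s x (K x y a) = s y h * l (rep x y a) * s x k := by
    intro x hx y hy a ha h hh k hk e'
    have e1 : (h⁻¹ * H x y a) * rep x y a = rep x y a * (k * (K x y a)⁻¹) := by
      have e2 := e x y a
      rw [e'] at e2
      rw [← e'] at e2
      have e3 : h * rep x y a * k = H x y a * rep x y a * K x y a := by rw [← e', ← e2]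
      have e4 : H x y a * rep x y a = h * rep x y a * k * (K x y a)⁻¹ := by
        rw [e3, mul_inv_cancel_right]
      rw [mul_assoc, e4]
      group
    have h5 := h4 x hx y hy a ha _ ((st y).mul_mem ((st y).inv_mem hh) (hH x y a)) _
      ((st x).mul_mem hk ((st x).inv_mem (hK x y a))) e1
    rw [h2 y hy _ ((st y).inv_mem hh) _ (hH x y a), s_inv (h2 y hy) hh,
      h2 x hx _ hk _ ((st x).inv_mem (hK x y a)), s_inv (h2 x hx) (hK x y a)] at h5
    have h6 : s y (H x y a) * l (rep x y a) =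
        s y h * (l (rep x y a) * (s x k * (s x (K x y a))⁻¹)) := by
      rw [← h5]; group
    rw [h6]
    group
  refine ⟨B, s, fun x y a => s y (H x y a) * l (rep x y a) * s x (K x y a), h2, ?_, ?_⟩
  · intro x hx y hy a ha
    beta_reduce
    rw [map_mul, map_mul, h1 y hy _ (hH x y a), h3 x hx y hy a ha, h1 x hx _ (hK x y a), ← e]
  · intro x hx y hy a ha h hh k hk
    beta_reduce
    have ha' : r ((h * a * k) • x) y := by
      have hk' : k • x = x := hk
      have hh' : h • y = y := hh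
      rw [mul_smul, mul_smul, hk']
      have := hinv h _ _ ha
      rwa [hh'] at this
    have h5 := wd x hx y hy (h * a * k) ha' (h * H x y a) ((st y).mul_mem hh (hH x y a))
      (K x y a * k) ((st x).mul_mem (hK x y a) hk) (by
        rw [hrep' x y a h hh k hk]
        have e1 := e x y a
        calc h * a * k = h * (H x y a * rep x y a * K x y a) * k := by rw [← e1]
          _ = _ := by group)
    rw [h5, hrep' x y a h hh k hk, h2 y hy h hh _ (hH x y a), h2 x hx _ (hK x y a) k hk]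
    group

theorem stage4 (hr : ∀ x, r x x) (hinv : ∀ (g : G) x y, r x y → r (g • x) (g • y))
    (htr : ∀ x y z, r x y → r y z → r x z)
    (T : Set (X × X × X)) (hT : T.Finite)
    (hT' : ∀ x y z, r x y → r y z → ∃ g : G, (g • x, g • y, g • z) ∈ T)
    (hst : ∀ x : X, Group.IsFinitelyPresented (MulAction.stabilizer G x))
    (hed : ∀ x y : X, r x y →
      Group.FG ↥(MulAction.stabilizer G x ⊓ MulAction.stabilizer G y))
    (R : Set X) (hR : R.Finite) :
    ∃ (B : App G) (Φ : X → X → G → B.E),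
      (∀ x ∈ R, ∀ y ∈ R, ∀ a, r (a • x) y → B.π (Φ x y a) = a) ∧
      ∀ x ∈ R, ∀ y ∈ R, ∀ z ∈ R, ∀ a b, r (a • y) z → r (b • x) y →
        Φ x z (a * b) = Φ y z a * Φ x y b := by
  classical
  obtain ⟨B, s, Φ, h1, h2, h3⟩ := stage3 hr hinv T hT hT' hst hed R hR
  have hab : ∀ x y z : X, ∀ a b : G, r (a • y) z → r (b • x) y → r ((a * b) • x) z := by
    intro x y z a b h h'
    rw [mul_smul]
    exact htr _ _ _ (hinv a _ _ h') h
  -- representatives of the triples
  have hch : ∀ (x y z : X) (t : X × X × X), ∃ p : G × G,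
      (∃ a b g : G, r (a • y) z ∧ r (b • x) y ∧ (g • a • b • x, g • a • y, g • z) = t) →
      ∃ g : G, r (p.1 • y) z ∧ r (p.2 • x) y ∧ (g • p.1 • p.2 • x, g • p.1 • y, g • z) = t := by
    intro x y z t
    by_cases h : ∃ a b g : G, r (a • y) z ∧ r (b • x) y ∧ (g • a • b • x, g • a • y, g • z) = t
    · obtain ⟨a, b, g, h⟩ := h
      exact ⟨(a, b), fun _ => ⟨g, h⟩⟩
    · exact ⟨(1, 1), fun h' => absurd h' h⟩
  choose p hp using hch
  obtain ⟨C, q, hq1, hq2⟩ := kill B
    (⋃ x ∈ R, ⋃ y ∈ R, ⋃ z ∈ R, ⋃ t ∈ T,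
      {w | r ((p x y z t).1 • y) z ∧ r ((p x y z t).2 • x) y ∧
        w = (Φ x z ((p x y z t).1 * (p x y z t).2),
          Φ y z (p x y z t).1 * Φ x y (p x y z t).2)})
    (hR.biUnion fun x _ => hR.biUnion fun y _ => hR.biUnion fun z _ => hT.biUnion fun t _ =>
      Set.Subsingleton.finite (by
        rintro w ⟨_, _, rfl⟩ w' ⟨_, _, rfl⟩
        rfl)) (by
    intro w hw
    simp only [Set.mem_iUnion] at hw
    obtain ⟨x, hx, y, hy, z, hz, t, ht, h4, h5, rfl⟩ := hw
    simp only [map_mul]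
    rw [h2 x hx z hz _ (hab x y z _ _ h4 h5), h2 y hy z hz _ h4, h2 x hx y hy _ h5])
  refine ⟨C, fun x y a => q (Φ x y a), ?_, ?_⟩
  · intro x hx y hy a ha
    rw [hq1, h2 x hx y hy a ha]
  · intro x hx y hy z hz a b ha hb
    beta_reduce
    obtain ⟨g, hg⟩ := hT' (a • b • x) (a • y) z (hinv a _ _ hb) ha
    obtain ⟨g', h4, h5, h6⟩ := hp x y z _ ⟨a, b, g, ha, hb, rfl⟩
    set A := (p x y z (g • a • b • x, g • a • y, g • z)).1 with hA
    set A' := (p x y z (g • a • b • x, g • a • y, g • z)).2 with hA'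
    obtain ⟨e1, e2⟩ := (Prod.mk.injEq _ _ _ _).mp h6
    obtain ⟨e2, e3⟩ := (Prod.mk.injEq _ _ _ _).mp e2
    have h7 := hq2 _ (by
      simp only [Set.mem_iUnion]
      exact ⟨x, hx, y, hy, z, hz, _, hg, h4, h5, rfl⟩)
    simp only [map_mul] at h7
    rw [← hA, ← hA'] at h7
    -- `A = c₃ * a * c₂`, `A' = c₂⁻¹ * b * c₁`
    have hc3 : g'⁻¹ * g ∈ st z := by
      rw [MulAction.mem_stabilizer_iff, mul_smul, ← e3, inv_smul_smul]
    have hc2 : a⁻¹ * g⁻¹ * g' * A ∈ st y := by
      rw [MulAction.mem_stabilizer_iff, mul_smul, mul_smul, mul_smul, e2, inv_smul_smul,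
        inv_smul_smul]
    have hc1 : b⁻¹ * a⁻¹ * g⁻¹ * g' * A * A' ∈ st x := by
      rw [MulAction.mem_stabilizer_iff, mul_smul, mul_smul, mul_smul, mul_smul, mul_smul, e1,
        inv_smul_smul, inv_smul_smul, inv_smul_smul]
    have eA : A = (g'⁻¹ * g) * a * (a⁻¹ * g⁻¹ * g' * A) := by group
    have eA' : A' = (a⁻¹ * g⁻¹ * g' * A)⁻¹ * b * (b⁻¹ * a⁻¹ * g⁻¹ * g' * A * A') := by group
    have eAA : A * A' = (g'⁻¹ * g) * (a * b) * (b⁻¹ * a⁻¹ * g⁻¹ * g' * A * A') := by group
    have f1 := h3 y hy z hz a ha _ hc3 _ hc2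
    rw [← eA] at f1
    have f2 := h3 x hx y hy b hb _ ((st y).inv_mem hc2) _ hc1
    rw [← eA', s_inv (h1 y hy) hc2] at f2
    have f3 := h3 x hx z hz (a * b) (hab x y z a b ha hb) _ hc3 _ hc1
    rw [← eAA] at f3
    rw [f1, f2, f3] at h7
    simp only [map_mul, map_inv] at h7
    have h8 : q (s z (g'⁻¹ * g)) * q (Φ x z (a * b)) *
        q (s x (b⁻¹ * a⁻¹ * g⁻¹ * g' * A * A')) =
        q (s z (g'⁻¹ * g)) * (q (Φ y z a) * q (Φ x y b)) *
        q (s x (b⁻¹ * a⁻¹ * g⁻¹ * g' * A * A')) := by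
      rw [h7]; group
    exact mul_left_cancel (mul_right_cancel h8)

end stages

/-- **P3**: the criterion for finite presentability -/
theorem fpCrit : FPCrit := by
  intro G X _ _ _ r hr htr hinv hC hT ⟨T, hTf, hT'⟩ hst hed
  classical
  obtain ⟨B, Φ, h1, h2⟩ := stage4 hr hinv htr T hTf hT' hst hed
    ((fun t : X × X × X => t.1) '' T) (hTf.image _)
  have hex : ∀ x : X, ∃ (t : G) (y : X), y ∈ (fun t : X × X × X => t.1) '' T ∧ t • y = x := by
    intro x
    obtain ⟨g, hg⟩ := hT' x x x (hr x) (hr x)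
    exact ⟨g⁻¹, g • x, ⟨_, hg, rfl⟩, inv_smul_smul g x⟩
  choose t ρ hρ ht using hex
  have hle : ∀ (x y : X) (a : G), r (a • x) y → r (((t y)⁻¹ * a * t x) • ρ x) (ρ y) := by
    intro x y a ha
    have := hinv (t y)⁻¹ _ _ ha
    rw [mul_smul, mul_smul, ht x]
    have e : (t y)⁻¹ • y = ρ y := by rw [inv_smul_eq_iff, ht y]
    rwa [e] at this
  refine of_functor hr hinv hC hT B.fp B.π t
    (fun x y a => Φ (ρ x) (ρ y) ((t y)⁻¹ * a * t x)) ?_ ?_
  · intro x y a ha
    exact h1 _ (hρ x) _ (hρ y) _ (hle x y a ha)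
  · intro x y z a b ha hb
    rw [← h2 _ (hρ x) _ (hρ y) _ (hρ z) _ _ (hle y z a ha) (hle x y b hb)]
    congr 1
    group

end Crest.Agent.R185.Q.FPC
end

-- ▼ part R185/FPProd
section

/-!
# R185: finite products of finitely presented groups are finitely presented (helper862)
-/

set_option autoImplicit false

namespace Crest.Agent.R185.FPP

universe u v

theorem fg_of_fp (G : Type u) [Group G] [h : Group.IsFinitelyPresented G] : Group.FG G := by
  obtain ⟨n, φ, hφ, -⟩ := h.out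
  exact Group.fg_of_surjective hφ

theorem fp_prod (G : Type u) (H : Type v) [Group G] [Group H]
    [hG : Group.IsFinitelyPresented G] [hH : Group.IsFinitelyPresented H] :
    Group.IsFinitelyPresented (G × H) := by
  classical
  obtain ⟨S, hS, hSf⟩ := Group.fg_iff.1 (fg_of_fp G)
  obtain ⟨T, hT, hTf⟩ := Group.fg_iff.1 (fg_of_fp H)
  let f : Monoid.Coprod G H →* G × H := Monoid.Coprod.toProd
  have hf : Function.Surjective f := Monoid.Coprod.toProd_surjective
  set R : Set (Monoid.Coprod G H) :=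
    (fun p : G × H => Monoid.Coprod.inl p.1 * Monoid.Coprod.inr p.2 *
      (Monoid.Coprod.inl p.1)⁻¹ * (Monoid.Coprod.inr p.2)⁻¹) '' (S ×ˢ T) with hR
  have hRf : R.Finite := (hSf.prod hTf).image _
  set N := Subgroup.normalClosure R with hN
  let π : Monoid.Coprod G H →* Monoid.Coprod G H ⧸ N := QuotientGroup.mk' N
  have h1 : ∀ s ∈ S, ∀ t ∈ T, Commute (π (Monoid.Coprod.inl s)) (π (Monoid.Coprod.inr t)) := by
    intro s hs t ht
    have hmem : Monoid.Coprod.inl s * Monoid.Coprod.inr t *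
        (Monoid.Coprod.inl s)⁻¹ * (Monoid.Coprod.inr t)⁻¹ ∈ N :=
      Subgroup.subset_normalClosure ⟨(s, t), ⟨hs, ht⟩, rfl⟩
    have h2 : π (Monoid.Coprod.inl s * Monoid.Coprod.inr t *
        (Monoid.Coprod.inl s)⁻¹ * (Monoid.Coprod.inr t)⁻¹) = 1 :=
      (QuotientGroup.eq_one_iff _).2 hmem
    rw [map_mul, map_mul, map_mul, map_inv, map_inv, mul_inv_eq_one, mul_inv_eq_iff_eq_mul] at h2
    exact h2
  have h2 : ∀ s ∈ S, ∀ h : H, Commute (π (Monoid.Coprod.inl s)) (π (Monoid.Coprod.inr h)) := by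
    intro s hs h
    have : h ∈ Subgroup.closure T := by rw [hT]; trivial
    induction this using Subgroup.closure_induction with
    | mem t ht => exact h1 s hs t ht
    | one => rw [map_one, map_one]; exact Commute.one_right _
    | mul x y _ _ hx hy => rw [map_mul, map_mul]; exact hx.mul_right hy
    | inv x _ hx => rw [map_inv, map_inv]; exact hx.inv_right
  have h3 : ∀ (g : G) (h : H), Commute (π (Monoid.Coprod.inl g)) (π (Monoid.Coprod.inr h)) := by
    intro g h
    have : g ∈ Subgroup.closure S := by rw [hS]; trivial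
    induction this using Subgroup.closure_induction with
    | mem s hs => exact h2 s hs h
    | one => rw [map_one, map_one]; exact Commute.one_left _
    | mul x y _ _ hx hy => rw [map_mul, map_mul]; exact hx.mul_left hy
    | inv x _ hx => rw [map_inv, map_inv]; exact hx.inv_left
  let q : G × H →* Monoid.Coprod G H ⧸ N :=
    MonoidHom.noncommCoprod (π.comp Monoid.Coprod.inl) (π.comp Monoid.Coprod.inr)
      (fun g h => h3 g h)
  have hq : q.comp f = π := by
    apply Monoid.Coprod.hom_ext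
    · ext g; simp [q, f]
    · ext h; simp [q, f]
  have hker : f.ker = N := by
    apply le_antisymm
    · intro x hx
      have hx' : f x = 1 := hx
      have : π x = 1 := by rw [← hq, MonoidHom.comp_apply, hx', map_one]
      exact (QuotientGroup.eq_one_iff _).1 this
    · refine Subgroup.normalClosure_le_normal ?_
      rintro _ ⟨⟨s, t⟩, -, rfl⟩
      change f _ = 1
      ext <;> simp [f]
  exact Group.IsFinitelyPresented.of_surjective f hf (by rw [hker]; exact ⟨R, hRf, rfl⟩)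

theorem fp_pi (s : ℕ) : ∀ (K : Fin s → Type u) [∀ i, Group (K i)],
    (∀ i, Group.IsFinitelyPresented (K i)) → Group.IsFinitelyPresented (∀ i, K i) := by
  induction s with
  | zero =>
    intro K _ _
    infer_instance
  | succ s ih =>
    intro K _ h
    have h1 : Group.IsFinitelyPresented (∀ i : Fin s, K i.succ) :=
      ih (fun i => K i.succ) fun i => h i.succ
    have h0 := h 0
    have h2 := fp_prod (K 0) (∀ i : Fin s, K i.succ)
    exact Group.IsFinitelyPresented.equiv
      ({ toFun := fun p => Fin.cons p.1 p.2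
         invFun := fun f => (f 0, fun i => f i.succ)
         left_inv := fun p => by simp
         right_inv := fun f => by
           funext i
           refine Fin.cases ?_ (fun j => ?_) i
           · simp
           · simp
         map_mul' := fun a b => by
           funext i
           refine Fin.cases ?_ (fun j => ?_) i
           · simp
           · simp } : (K 0 × (∀ i : Fin s, K i.succ)) ≃* (∀ i, K i))

/-- Powers. -/
theorem fp_pow (s : ℕ) (K : Type u) [Group K] [h : Group.IsFinitelyPresented K] :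
    Group.IsFinitelyPresented (Fin s → K) := fp_pi s (fun _ => K) (fun _ => h)


end Crest.Agent.R185.FPP
end

-- ▼ part R185/Null12
section

/-!
# R185, null calculus, part 12: the resolution lemma (bounded form of Brown's criterion)
-/

set_option autoImplicit false

namespace Crest.Agent.R185.Null

open Finsupp

universe u v w u' v' w'

/-! ## The standard complex restricted to a subgroup -/

section SubgroupBase

variable {G : Type u} [Group G] (K : Subgroup G)

/-- An equivariant map `G → K`. -/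
noncomputable def rb (g : G) : K :=
  ⟨g * Quotient.out ((g⁻¹ : G) : G ⧸ K), by
    have h : ((Quotient.out ((g⁻¹ : G) : G ⧸ K) : G) : G ⧸ K) = ((g⁻¹ : G) : G ⧸ K) :=
      Quotient.out_eq' _
    have h2 := QuotientGroup.eq.1 h.symm
    rwa [inv_inv] at h2⟩

theorem rb_mul (k : K) (g : G) : rb K (k * g) = k * rb K g := by
  apply Subtype.ext
  change (k : G) * g * Quotient.out ((((k : G) * g)⁻¹ : G) : G ⧸ K) =
    k * (g * Quotient.out ((g⁻¹ : G) : G ⧸ K))
  have h : ((((k : G) * g)⁻¹ : G) : G ⧸ K) = ((g⁻¹ : G) : G ⧸ K) := by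
    refine QuotientGroup.eq.2 ?_
    have : (((k : G) * g)⁻¹)⁻¹ * g⁻¹ = k := by group
    rw [this]; exact k.2
  rw [h, mul_assoc]

/-- The standard complex of `G` as a free complex for `K`. -/
@[reducible] noncomputable def StdK : FCx.{u, u} K :=
  { (Std G).toPCx.pull K.subtype with
    base := fun x => rb K x.1
    base_sm := fun k x => rb_mul K k x.1 }

theorem StdK_acyclic : (StdK K).Acyclic := Std_acyclic G

/-- The identity as a chain map over the inclusion. -/
noncomputable def incK : CMap K.subtype (StdK K).toPCx (Std G).toPCx :=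
  pullC K.subtype (Std G).toPCx


end SubgroupBase

section Resolution

variable {G : Type u} [Group G] (Y : PCx.{u, v} G)

/-- Stabilisers. -/
def PCx.stab (y : Y.X) : Subgroup G where
  carrier := {g | Y.sm g y = y}
  one_mem' := Y.sm_one y
  mul_mem' {a b} ha hb := by
    have ha' : Y.sm a y = y := ha
    have hb' : Y.sm b y = y := hb
    change Y.sm (a * b) y = y
    rw [Y.sm_mul, hb', ha']
  inv_mem' {a} ha := by
    have ha' : Y.sm a y = y := ha
    change Y.sm a⁻¹ y = y
    conv_lhs => rw [← ha', ← Y.sm_mul, inv_mul_cancel, Y.sm_one]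

theorem PCx.mem_stab {y : Y.X} {g : G} : g ∈ Y.stab y ↔ Y.sm g y = y := Iff.rfl

/-- The total complex. -/
@[reducible] noncomputable def TT : PCx.{u, max u v} G := Tens (Std G).toPCx Y

/-- The vertical differential. -/
noncomputable def dv : ((G × List G) × Y.X →₀ ℤ) →ₗ[ℤ] ((G × List G) × Y.X →₀ ℤ) :=
  tmap (Std G).D LinearMap.id

/-- The horizontal differential (with sign). -/
noncomputable def dh : ((G × List G) × Y.X →₀ ℤ) →ₗ[ℤ] ((G × List G) × Y.X →₀ ℤ) :=
  tmap (Std G).sg Y.D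

theorem TT_D (w : (G × List G) × Y.X →₀ ℤ) : (TT Y).D w = dv Y w + dh Y w := by
  have : (TT Y).D = dv Y + dh Y := tens_ext fun x y => by
    rw [LinearMap.add_apply]
    refine (Tens_D_tp _ _ _ _).trans ?_
    unfold dv dh
    rw [tmap_tp, tmap_tp]
    rfl
  exact LinearMap.congr_fun this w

/-- bidegrees -/
def bi (p q : ℕ) : Set ((G × List G) × Y.X) := {x | (Std G).deg x.1 = p ∧ Y.deg x.2 = q}

/-- The first component. -/
noncomputable def pf : ((G × List G) × Y.X →₀ ℤ) →ₗ[ℤ] (G × List G →₀ ℤ) :=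
  Finsupp.lmapDomain ℤ ℤ Prod.fst

theorem pf_tp (a : G × List G →₀ ℤ) (y : Y.X) : pf Y (tp a (single y 1)) = a := by
  have : (pf Y).comp (tp.flip (single y 1)) = LinearMap.id := lin_ext fun x => by
    simp [pf]
  exact LinearMap.congr_fun this a

theorem tp_pf {y : Y.X} {w : (G × List G) × Y.X →₀ ℤ}
    (hw : w ∈ Finsupp.supported ℤ ℤ {x : (G × List G) × Y.X | x.2 = y}) :
    tp (pf Y w) (single y 1) = w := by
  have := lin_ext_on (f := (tp.flip (single y 1)).comp (pf Y)) (g := LinearMap.id) _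
    (fun x hx => ?_) w hw
  · exact this
  · obtain ⟨c, y'⟩ := x
    have hx' : y' = y := hx
    subst hx'
    simp [pf]

theorem pf_dv (w : (G × List G) × Y.X →₀ ℤ) : pf Y (dv Y w) = (Std G).D (pf Y w) := by
  have : (pf Y).comp (dv Y) = (Std G).D.comp (pf Y) := tens_ext fun x y => by
    simp only [LinearMap.comp_apply]
    unfold dv
    rw [tmap_tp, LinearMap.id_apply, pf_tp, pf_tp]
  exact LinearMap.congr_fun this w

theorem dv_tr (g : G) (w : (G × List G) × Y.X →₀ ℤ) :
    dv Y ((TT Y).tr g w) = (TT Y).tr g (dv Y w) := by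
  have : (dv Y).comp ((TT Y).tr g) = ((TT Y).tr g).comp (dv Y) := tens_ext fun x y => by
    simp only [LinearMap.comp_apply]
    have e1 : (TT Y).tr g (tp (single x 1) (single y 1)) =
      tp ((Std G).tr g (single x 1)) (Y.tr g (single y 1)) := Tens_tr_tp _ _ _ _ _
    rw [e1]
    unfold dv
    rw [tmap_tp, tmap_tp, LinearMap.id_apply, LinearMap.id_apply]
    have e2 : (TT Y).tr g (tp ((Std G).D (single x 1)) (single y 1)) =
      tp ((Std G).tr g ((Std G).D (single x 1))) (Y.tr g (single y 1)) := Tens_tr_tp _ _ _ _ _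
    rw [e2, (Std G).D_tr]
  exact LinearMap.congr_fun this w

/-- Local boundedness at `y`. -/
theorem exists_local (T0 : Set ((G × List G) × Y.X)) (hT0 : T0.Finite) (y : Y.X) :
    ∃ F : Set (G × List G), F.Finite ∧ ∀ c, (c, y) ∈ (TT Y).orb T0 →
      c ∈ (StdK (Y.stab y)).orb F := by
  classical
  let f : (G × List G) × Y.X → G × List G := fun x =>
    if h : ∃ h : G, x.2 = Y.sm h y then (Std G).sm (h.choose)⁻¹ x.1 else x.1
  refine ⟨f '' T0, hT0.image _, ?_⟩
  rintro c ⟨⟨c0, y0⟩, hx0, g, e⟩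
  have e1 : c = (Std G).sm g c0 := congrArg Prod.fst e
  have e2 : y = Y.sm g y0 := congrArg Prod.snd e
  have hex : ∃ h : G, y0 = Y.sm h y := ⟨g⁻¹, by rw [e2, ← Y.sm_mul, inv_mul_cancel, Y.sm_one]⟩
  have hf : f (c0, y0) = (Std G).sm (hex.choose)⁻¹ c0 := by
    simp only [f]
    rw [dif_pos hex]
  have hh : y0 = Y.sm hex.choose y := hex.choose_spec
  have hk : g * hex.choose ∈ Y.stab y := by
    rw [PCx.mem_stab, Y.sm_mul, ← hh, ← e2]
  refine ⟨f (c0, y0), ⟨_, hx0, rfl⟩, ⟨g * hex.choose, hk⟩, ?_⟩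
  rw [hf, e1]
  change _ = (Std G).sm (g * hex.choose) ((Std G).sm (hex.choose)⁻¹ c0)
  rw [← (Std G).sm_mul, mul_inv_cancel_right]

/-- Reduction of a class component to a representative. -/
theorem local_data (T0 : Set ((G × List G) × Y.X)) {p : ℕ}
    (w : (G × List G) × Y.X →₀ ℤ) (hw : w ∈ (TT Y).Bs T0)
    (hwp : w ∈ Finsupp.supported ℤ ℤ {x | (Std G).deg x.1 = p})
    (h1 : dv Y w = 0) (h2 : prR (Std G).toPCx Y w = 0) (y : Y.X)
    (hne : flt (fun x : (G × List G) × Y.X => x.2) y w ≠ 0) :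
    ∃ y1 ∈ Prod.snd '' T0, ∃ g : G, y = Y.sm g y1 ∧ ∃ a : G × List G →₀ ℤ,
      (TT Y).tr g⁻¹ (flt (fun x : (G × List G) × Y.X => x.2) y w) = tp a (single y1 1) ∧
      a ∈ (Std G).Dg p ∧ (Std G).D a = 0 ∧ (Std G).E a = 0 ∧
      a ∈ Finsupp.supported ℤ ℤ {c | (c, y1) ∈ (TT Y).orb T0} := by
  classical
  set κ : (G × List G) × Y.X → Y.X := fun x => x.2 with hκ
  set wy := flt κ y w with hwy
  have hwB : wy ∈ Finsupp.supported ℤ ℤ ({x | κ x = y} ∩ (TT Y).orb T0) := flt_mem κ y hw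
  obtain ⟨x, hx⟩ : ∃ x, x ∈ wy.support := by
    by_contra hcon
    push Not at hcon
    exact hne (Finsupp.support_eq_empty.1 (Finset.eq_empty_of_forall_notMem hcon))
  obtain ⟨hx1, ⟨⟨c0, y0⟩, hx0, g, e⟩⟩ := (Finsupp.mem_supported ℤ _).1 hwB hx
  have hx1' : x.2 = y := hx1
  have hy : y = Y.sm g y0 := by rw [← hx1', e]
  have hginv : Y.sm g⁻¹ y = y0 := by rw [hy, ← Y.sm_mul, inv_mul_cancel, Y.sm_one]
  set w' := (TT Y).tr g⁻¹ wy with hw'
  have hw'1 : w' ∈ Finsupp.supported ℤ ℤ {x : (G × List G) × Y.X | x.2 = y0} := by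
    refine lin_mem_of _ _ (fun z hz => ?_) wy (Finsupp.supported_mono Set.inter_subset_left hwB)
    rw [PCx.tr_single]
    refine Finsupp.single_mem_supported ℤ 1 ?_
    have hz' : z.2 = y := hz
    change Y.sm g⁻¹ z.2 = y0
    rw [hz', hginv]
  have hw'2 : w' ∈ (TT Y).Bs T0 := (TT Y).tr_mem_Bs _
    (Finsupp.supported_mono Set.inter_subset_right hwB)
  have hw'3 : w' ∈ Finsupp.supported ℤ ℤ {x : (G × List G) × Y.X | (Std G).deg x.1 = p} := by
    refine lin_mem_of _ _ (fun z hz => ?_) wy (flt_mem' κ y hwp)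
    rw [PCx.tr_single]
    refine Finsupp.single_mem_supported ℤ 1 ?_
    exact ((Std G).deg_sm g⁻¹ z.1).trans hz
  have hD : dv Y wy = 0 := by
    have hcl : ∀ x : (G × List G) × Y.X, dv Y (single x 1) ∈
        Finsupp.supported ℤ ℤ {z | κ z = κ x} := by
      rintro ⟨c, y'⟩
      unfold dv
      rw [tmap_single]
      refine Finsupp.supported_mono ?_ (tp_mem (s := Set.univ) (t := {y'}) ?_
        (Finsupp.single_mem_supported ℤ 1 rfl))
      · rintro ⟨c', z⟩ ⟨-, hz⟩
        exact hz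
      · exact (Finsupp.mem_supported ℤ _).2 (Set.subset_univ _)
    rw [hwy, flt_comm κ y (dv Y) hcl, h1, map_zero]
  have hE : prR (Std G).toPCx Y wy = 0 := by
    have : (prR (Std G).toPCx Y).comp (flt κ y) =
        (flt id y).comp (prR (Std G).toPCx Y) := lin_ext fun z => by
      obtain ⟨c, y'⟩ := z
      have hs : prR (Std G).toPCx Y (single (c, y') 1) =
        (Std G).ep c • single y' (1 : ℤ) := by simp [prR]
      simp only [LinearMap.comp_apply]
      rw [flt_single, hs, map_smul, flt_single]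
      by_cases h : y' = y
      · rw [if_pos (show κ (c, y') = y from h), if_pos (show id y' = y from h), hs]
      · rw [if_neg (show ¬ κ (c, y') = y from h), if_neg (show ¬ id y' = y from h)]
        simp
    have := LinearMap.congr_fun this w
    rw [LinearMap.comp_apply, LinearMap.comp_apply, h2, map_zero] at this
    exact this
  refine ⟨y0, ⟨(c0, y0), hx0, rfl⟩, g, hy, pf Y w', (tp_pf Y hw'1).symm, ?_, ?_, ?_, ?_⟩
  · refine lin_mem_of _ _ (fun z hz => ?_) w' hw'3
    unfold pf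
    rw [Finsupp.lmapDomain_apply, Finsupp.mapDomain_single]
    exact Finsupp.single_mem_supported ℤ 1 hz
  · rw [← pf_dv, hw', dv_tr, hD, map_zero, map_zero]
  · have e3 : prR (Std G).toPCx Y w' = 0 := by
      have := (pR (Std G).toPCx Y).eqv g⁻¹ wy
      change prR (Std G).toPCx Y ((TT Y).tr g⁻¹ wy) =
        Y.tr g⁻¹ (prR (Std G).toPCx Y wy) at this
      rw [hw', this, hE, map_zero]
    rw [← tp_pf Y hw'1, prR_tp] at e3
    have := congrArg (fun f => f y0) e3
    simpa using this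
  · have hw'4 : w' ∈ Finsupp.supported ℤ ℤ ({x : (G × List G) × Y.X | x.2 = y0} ∩
        (TT Y).orb T0) := (Finsupp.mem_supported ℤ _).2 (Set.subset_inter
          ((Finsupp.mem_supported ℤ _).1 hw'1) ((Finsupp.mem_supported ℤ _).1 hw'2))
    refine lin_mem_of _ _ (fun z hz => ?_) w' hw'4
    obtain ⟨c, y'⟩ := z
    obtain ⟨hz1, hz2⟩ := hz
    have hz1' : y' = y0 := hz1
    subst hz1'
    unfold pf
    rw [Finsupp.lmapDomain_apply, Finsupp.mapDomain_single]
    exact Finsupp.single_mem_supported ℤ 1 hz2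

/-- Filling columns. -/
theorem column_fill (p q : ℕ)
    (hstab : ∀ y, Y.deg y = q → IsNull (MonoidHom.id (Y.stab y)) p)
    (T0 : Set ((G × List G) × Y.X)) (hT0 : T0.Finite) :
    ∃ T' : Set ((G × List G) × Y.X), T'.Finite ∧ ∀ w ∈ Finsupp.supported ℤ ℤ (bi Y p q),
      w ∈ (TT Y).Bs T0 → dv Y w = 0 → prR (Std G).toPCx Y w = 0 →
      ∃ W ∈ Finsupp.supported ℤ ℤ (bi Y (p + 1) q), W ∈ (TT Y).Bs T' ∧ dv Y W = w := by
  classical
  choose F hF hF' using exists_local Y T0 hT0
  have hfill : ∀ y, ∃ F' : Set (G × List G), F'.Finite ∧ (Y.deg y = q →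
      (StdK (Y.stab y)).Cy p (F y) ≤ (StdK (Y.stab y)).Bo p F') := by
    intro y
    by_cases h : Y.deg y = q
    · obtain ⟨F', h1, h2⟩ := (null_id_iff (StdK_acyclic (Y.stab y))).1 (hstab y h) (F y) (hF y)
      exact ⟨F', h1, fun _ => h2⟩
    · exact ⟨∅, Set.finite_empty, fun h' => absurd h' h⟩
  choose F' hF'f hF'' using hfill
  set T' : Set ((G × List G) × Y.X) := ⋃ y ∈ Prod.snd '' T0, F' y ×ˢ {y} with hT'
  refine ⟨T', (hT0.image _).biUnion fun y _ => (hF'f y).prod (Set.finite_singleton y), ?_⟩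
  intro w hw1 hw2 hw3 hw4
  set N : Submodule ℤ ((G × List G) × Y.X →₀ ℤ) :=
    (Finsupp.supported ℤ ℤ (bi Y (p + 1) q) ⊓ (TT Y).Bs T').map (dv Y) with hN
  have hNtr : ∀ g, ∀ c ∈ N, (TT Y).tr g c ∈ N := by
    rintro g _ ⟨b, ⟨hb1, hb2⟩, rfl⟩
    refine ⟨(TT Y).tr g b, ⟨?_, (TT Y).tr_mem_Bs g hb2⟩, dv_tr Y g b⟩
    refine lin_mem_of _ _ (fun z hz => ?_) b hb1
    rw [PCx.tr_single]
    refine Finsupp.single_mem_supported ℤ 1 ⟨?_, ?_⟩
    · exact ((Std G).deg_sm g z.1).trans hz.1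
    · exact (Y.deg_sm g z.2).trans hz.2
  suffices hmem : w ∈ N by
    obtain ⟨b, ⟨hb1, hb2⟩, hb3⟩ := hmem
    exact ⟨b, hb1, hb2, hb3⟩
  refine flt_induction (fun x : (G × List G) × Y.X => x.2) LinearMap.id N w fun y => ?_
  rw [LinearMap.id_apply]
  by_cases hne : flt (fun x : (G × List G) × Y.X => x.2) y w = 0
  · rw [hne]; exact Submodule.zero_mem _
  · obtain ⟨y1, hy1, g, hy, a, ha0, ha1, ha2, ha3, ha4⟩ := local_data Y T0 w hw2
      (Finsupp.supported_mono (fun x hx => hx.1) hw1) hw3 hw4 y hne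
    -- degree of y1
    have hdy : Y.deg y1 = q := by
      obtain ⟨x, hx⟩ : ∃ x, x ∈ (flt (fun x : (G × List G) × Y.X => x.2) y w).support := by
        by_contra hcon
        push Not at hcon
        exact hne (Finsupp.support_eq_empty.1 (Finset.eq_empty_of_forall_notMem hcon))
      have hx' := (Finsupp.mem_supported ℤ _).1
        (flt_mem (fun x : (G × List G) × Y.X => x.2) y hw1) hx
      have e1 : x.2 = y := hx'.1
      have e2 : Y.deg x.2 = q := hx'.2.2
      rw [← e2, e1, hy, Y.deg_sm]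
    have haB : a ∈ (StdK (Y.stab y1)).Bs (F y1) :=
      Finsupp.supported_mono (fun c hc => hF' y1 c hc) ha4
    have haC : a ∈ (StdK (Y.stab y1)).Cy p (F y1) :=
      (StdK (Y.stab y1)).mem_Cy.2 ⟨ha1, haB, ha2, ha3⟩
    obtain ⟨b, hb1, hb2, hb3⟩ := (StdK (Y.stab y1)).mem_Bo.1 (hF'' y1 hdy haC)
    have hb3' : (Std G).D b = a := hb3
    have hmem : tp a (single y1 1) ∈ N := by
      refine ⟨tp b (single y1 1), ⟨?_, ?_⟩, ?_⟩
      · refine Finsupp.supported_mono ?_ (tp_mem hb1 (Finsupp.single_mem_supported ℤ 1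
          (show y1 ∈ ({y1} : Set Y.X) from rfl)))
        rintro ⟨c, z⟩ ⟨hc, hz⟩
        have hz' : z = y1 := hz
        subst hz'
        exact ⟨hc, hdy⟩
      · refine Finsupp.supported_mono ?_ (tp_mem hb2 (Finsupp.single_mem_supported ℤ 1
          (show y1 ∈ ({y1} : Set Y.X) from rfl)))
        rintro ⟨c, z⟩ ⟨⟨c0, hc0, k, hk⟩, hz⟩
        have hz' : z = y1 := hz
        subst hz'
        refine ⟨(c0, z), ?_, k.1, ?_⟩
        · rw [hT']
          exact Set.mem_biUnion hy1 ⟨hc0, rfl⟩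
        · exact Prod.ext hk (Eq.symm (show Y.sm k.1 z = z from k.2))
      · unfold dv
        rw [tmap_tp, LinearMap.id_apply]
        rw [hb3']
    have := hNtr g _ hmem
    rw [← ha0, PCx.tr_tr_inv] at this
    exact this

end Resolution

end Crest.Agent.R185.Null
end

-- ▼ part R185/Null13
section

/-!
# R185, null calculus, part 13: the resolution lemma, conclusion
-/

set_option autoImplicit false

namespace Crest.Agent.R185.Null

open Finsupp

universe u v w u' v' w'

section Resolution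

variable {G : Type u} [Group G] (Y : PCx.{u, v} G)

/-- The statement handled by the induction. -/
def Red (n j : ℕ) : Prop :=
  ∀ T0 : Set ((G × List G) × Y.X), T0.Finite → ∃ T' : Set (G × List G), T'.Finite ∧
    ∀ z ∈ (TT Y).Dg n, z ∈ (TT Y).Bs T0 → (TT Y).D z = 0 →
      z ∈ Finsupp.supported ℤ ℤ {x : (G × List G) × Y.X | Y.deg x.2 ≤ j} →
      prR (Std G).toPCx Y z = 0 → prL (Std G).toPCx Y z ∈ (Std G).Bo n T'

theorem dh_supp {j : ℕ} {z : (G × List G) × Y.X →₀ ℤ}
    (hz : z ∈ Finsupp.supported ℤ ℤ {x : (G × List G) × Y.X | Y.deg x.2 ≤ j + 1}) :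
    dh Y z ∈ Finsupp.supported ℤ ℤ {x : (G × List G) × Y.X | Y.deg x.2 ≤ j} := by
  refine lin_mem_of _ _ (fun x hx => ?_) z hz
  have hx' : Y.deg x.2 ≤ j + 1 := hx
  unfold dh
  rw [tmap_single, Y.D_single, one_smul]
  rcases Nat.eq_zero_or_pos (Y.deg x.2) with h0 | hpos
  · rw [Y.bd_zero _ h0, map_zero]; exact Submodule.zero_mem _
  · obtain ⟨m, hm⟩ : ∃ m, Y.deg x.2 = m + 1 := ⟨Y.deg x.2 - 1, by omega⟩
    refine Finsupp.supported_mono ?_ (tp_mem (s := Set.univ)
      ((Finsupp.mem_supported ℤ _).2 (Set.subset_univ _)) (Y.bd_mem x.2 hm))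
    rintro ⟨c, y⟩ ⟨-, hy⟩
    have hy' : Y.deg y = m := hy
    change Y.deg y ≤ j
    omega

theorem dh_zero {z : (G × List G) × Y.X →₀ ℤ}
    (hz : z ∈ Finsupp.supported ℤ ℤ {x : (G × List G) × Y.X | Y.deg x.2 ≤ 0}) : dh Y z = 0 := by
  refine lin_ext_on (f := dh Y) (g := 0) _ (fun x hx => ?_) z hz
  have hx' : Y.deg x.2 ≤ 0 := hx
  unfold dh
  rw [tmap_single, Y.D_single, one_smul, Y.bd_zero _ (Nat.le_zero.1 hx'), map_zero]
  rfl

theorem dv_deg (x : (G × List G) × Y.X) : dv Y (single x 1) ∈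
    Finsupp.supported ℤ ℤ {z : (G × List G) × Y.X | Y.deg z.2 = Y.deg x.2} := by
  unfold dv
  rw [tmap_single]
  refine Finsupp.supported_mono ?_ (tp_mem (s := Set.univ) (t := {x.2}) ?_
    (Finsupp.single_mem_supported ℤ 1 rfl))
  · rintro ⟨c', z⟩ ⟨-, hz⟩
    have hz' : z = x.2 := hz
    change Y.deg z = Y.deg x.2
    rw [hz']
  · exact (Finsupp.mem_supported ℤ _).2 (Set.subset_univ _)

theorem prR_flt (j : ℕ) (z : (G × List G) × Y.X →₀ ℤ) :
    prR (Std G).toPCx Y (flt (fun x : (G × List G) × Y.X => Y.deg x.2) j z) =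
      flt Y.deg j (prR (Std G).toPCx Y z) := by
  have : (prR (Std G).toPCx Y).comp (flt (fun x : (G × List G) × Y.X => Y.deg x.2) j) =
      (flt Y.deg j).comp (prR (Std G).toPCx Y) := lin_ext fun z => by
    obtain ⟨c, y'⟩ := z
    have hs : prR (Std G).toPCx Y (single (c, y') 1) =
      (Std G).ep c • single y' (1 : ℤ) := by simp [prR]
    simp only [LinearMap.comp_apply]
    rw [flt_single, hs, map_smul, flt_single]
    by_cases h : Y.deg y' = j
    · rw [if_pos h, if_pos h, hs]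
    · rw [if_neg h, if_neg h]; simp
  exact LinearMap.congr_fun this z

theorem prR_pos {p q : ℕ} {W : (G × List G) × Y.X →₀ ℤ}
    (hW : W ∈ Finsupp.supported ℤ ℤ (bi Y (p + 1) q)) : prR (Std G).toPCx Y W = 0 := by
  refine lin_ext_on (f := prR (Std G).toPCx Y) (g := 0) _ (fun x hx => ?_) W hW
  obtain ⟨c, y'⟩ := x
  have hs : prR (Std G).toPCx Y (single (c, y') 1) =
    (Std G).ep c • single y' (1 : ℤ) := by simp [prR]
  have hx1 : (Std G).deg c = p + 1 := hx.1
  rw [hs, (Std G).ep_deg c (by omega), zero_smul]; rfl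

/-- The last step: only vertices of `Y`. -/
theorem red_zero (n : ℕ) (hvert : ∀ y, Y.deg y = 0 → IsNull (Y.stab y).subtype n) :
    Red Y n 0 := by
  classical
  intro T0 hT0
  choose F hF hF' using exists_local Y T0 hT0
  have hfill : ∀ y, ∃ F' : Set (G × List G), F'.Finite ∧ (Y.deg y = 0 →
      ∀ a ∈ (StdK (Y.stab y)).Cy n (F y), a ∈ (Std G).Bo n F') := by
    intro y
    by_cases h : Y.deg y = 0
    · obtain ⟨F', h1, h2⟩ := (hvert y h).kill (Std_acyclic G) (incK (Y.stab y)) (F y) (hF y)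
      exact ⟨F', h1, fun _ => h2⟩
    · exact ⟨∅, Set.finite_empty, fun h' => absurd h' h⟩
  choose F' hF'f hF'' using hfill
  refine ⟨⋃ y ∈ Prod.snd '' T0, F' y, (hT0.image _).biUnion fun y _ => hF'f y, ?_⟩
  intro z hz1 hz2 hz3 hz4 hz5
  refine flt_induction (fun x : (G × List G) × Y.X => x.2) (prL (Std G).toPCx Y) _ z fun y => ?_
  by_cases hne : flt (fun x : (G × List G) × Y.X => x.2) y z = 0
  · rw [hne, map_zero]; exact Submodule.zero_mem _
  · have hzz : z ∈ Finsupp.supported ℤ ℤ {x : (G × List G) × Y.X | (Std G).deg x.1 = n ∧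
        Y.deg x.2 = 0} := by
      refine (Finsupp.mem_supported ℤ _).2 fun x hx => ?_
      have e1 : (Std G).deg x.1 + Y.deg x.2 = n := (Finsupp.mem_supported ℤ _).1 hz1 hx
      have e2 : Y.deg x.2 ≤ 0 := (Finsupp.mem_supported ℤ _).1 hz4 hx
      exact ⟨by omega, by omega⟩
    have hdv : dv Y z = 0 := by
      have := TT_D Y z
      rw [hz3, dh_zero Y hz4, add_zero] at this
      exact this.symm
    obtain ⟨y1, hy1, g, hy, a, ha0, ha1, ha2, ha3, ha4⟩ := local_data Y T0 z hz2
      (Finsupp.supported_mono (fun x hx => hx.1) hzz) hdv hz5 y hne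
    have hdy : Y.deg y1 = 0 := by
      obtain ⟨x, hx⟩ : ∃ x, x ∈ (flt (fun x : (G × List G) × Y.X => x.2) y z).support := by
        by_contra hcon
        push Not at hcon
        exact hne (Finsupp.support_eq_empty.1 (Finset.eq_empty_of_forall_notMem hcon))
      have hx' := (Finsupp.mem_supported ℤ _).1
        (flt_mem (fun x : (G × List G) × Y.X => x.2) y hzz) hx
      have e1 : x.2 = y := hx'.1
      have e2 : Y.deg x.2 = 0 := hx'.2.2
      rw [← e2, e1, hy, Y.deg_sm]
    have haC : a ∈ (StdK (Y.stab y1)).Cy n (F y1) :=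
      (StdK (Y.stab y1)).mem_Cy.2 ⟨ha1,
        Finsupp.supported_mono (fun c hc => hF' y1 c hc) ha4, ha2, ha3⟩
    have h5 : a ∈ (Std G).Bo n (⋃ y ∈ Prod.snd '' T0, F' y) :=
      (Std G).Bo_mono (Set.subset_biUnion_of_mem (u := F') hy1) (hF'' y1 hdy a haC)
    have h6 : prL (Std G).toPCx Y (tp a (single y1 1)) ∈
        (Std G).Bo n (⋃ y ∈ Prod.snd '' T0, F' y) := by
      rw [prL_tp]; exact Submodule.smul_mem _ _ h5
    rw [← ha0] at h6
    have e3 := (pL (Std G).toPCx Y).eqv g⁻¹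
      (flt (fun x : (G × List G) × Y.X => x.2) y z)
    change prL (Std G).toPCx Y ((TT Y).tr g⁻¹ _) = (Std G).tr g⁻¹ (prL (Std G).toPCx Y _) at e3
    rw [e3] at h6
    have h7 := (Std G).tr_mem_Bo g h6
    rwa [PCx.tr_tr_inv] at h7

/-- The induction step. -/
theorem red_succ (n j : ℕ) (hj : j + 1 ≤ n)
    (hstab : ∀ y, Y.deg y = j + 1 → IsNull (MonoidHom.id (Y.stab y)) (n - (j + 1)))
    (h : Red Y n j) : Red Y n (j + 1) := by
  classical
  intro T0 hT0
  obtain ⟨T1, hT1, k1⟩ := column_fill Y (n - (j + 1)) (j + 1) hstab T0 hT0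
  obtain ⟨T2, hT2, k2⟩ := Eqv.bdd (φ := MonoidHom.id G) (A := TT Y) (B := TT Y) (F := (TT Y).D)
    (fun g c => (TT Y).D_tr g c) T1 hT1
  obtain ⟨T3, hT3, k3⟩ := h (T0 ∪ T2) (hT0.union hT2)
  obtain ⟨T4, hT4, k4⟩ := Eqv.bdd (φ := MonoidHom.id G) (A := TT Y) (B := (Std G).toPCx)
    (F := prL (Std G).toPCx Y) (fun g c => (pL (Std G).toPCx Y).eqv g c) T1 hT1
  refine ⟨T3 ∪ T4, hT3.union hT4, fun z hz1 hz2 hz3 hz4 hz5 => ?_⟩
  set κ : (G × List G) × Y.X → ℕ := fun x => Y.deg x.2 with hκ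
  set w := flt κ (j + 1) z with hw
  have hw1 : w ∈ Finsupp.supported ℤ ℤ (bi Y (n - (j + 1)) (j + 1)) := by
    refine Finsupp.supported_mono ?_ (flt_mem κ (j + 1) hz1)
    rintro x ⟨hx1, hx2⟩
    have e1 : Y.deg x.2 = j + 1 := hx1
    have e2 : (Std G).deg x.1 + Y.deg x.2 = n := hx2
    exact ⟨by omega, e1⟩
  have hw2 : w ∈ (TT Y).Bs T0 := flt_mem' κ (j + 1) hz2
  have hw3 : dv Y w = 0 := by
    have e1 : dv Y z = -dh Y z := by
      have := TT_D Y z
      rw [hz3] at this
      exact eq_neg_of_add_eq_zero_left this.symm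
    rw [hw, flt_comm κ (j + 1) (dv Y) (dv_deg Y), e1, map_neg]
    have e2 := dh_supp Y hz4
    have e3 : flt κ (j + 1) (dh Y z) = 0 := by
      refine lin_ext_on (f := flt κ (j + 1)) (g := 0) _ (fun x hx => ?_) _ e2
      have hx' : Y.deg x.2 ≤ j := hx
      rw [flt_single, if_neg (by simp only [hκ]; omega)]; rfl
    rw [e3, neg_zero]
  have hw4 : prR (Std G).toPCx Y w = 0 := by
    rw [hw, prR_flt, hz5, map_zero]
  obtain ⟨W, hW1, hW2, hW3⟩ := k1 w hw1 hw2 hw3 hw4
  have hWd : W ∈ (TT Y).Dg (n + 1) := by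
    refine Finsupp.supported_mono ?_ hW1
    rintro x ⟨hx1, hx2⟩
    change (Std G).deg x.1 + Y.deg x.2 = n + 1
    omega
  set z' := z - (TT Y).D W with hz'
  have h1 : z' ∈ (TT Y).Dg n := Submodule.sub_mem _ hz1 ((TT Y).D_mem hWd)
  have h2 : z' ∈ (TT Y).Bs (T0 ∪ T2) := Submodule.sub_mem _
    ((TT Y).Bs_mono Set.subset_union_left hz2)
    ((TT Y).Bs_mono Set.subset_union_right (k2 W hW2))
  have h3 : (TT Y).D z' = 0 := by rw [hz', map_sub, hz3, (TT Y).D_D, sub_zero]
  have h4 : z' ∈ Finsupp.supported ℤ ℤ {x : (G × List G) × Y.X | Y.deg x.2 ≤ j} := by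
    have e1 : z' = (z - w) - dh Y W := by
      rw [hz', TT_D, hW3]; abel
    rw [e1]
    refine Submodule.sub_mem _ ?_ ?_
    · have := lin_mem_of (f := LinearMap.id - flt κ (j + 1)) _
        (Finsupp.supported ℤ ℤ {x : (G × List G) × Y.X | Y.deg x.2 ≤ j}) (fun x hx => ?_) z hz4
      · exact this
      · have hx' : Y.deg x.2 ≤ j + 1 := hx
        rw [LinearMap.sub_apply, LinearMap.id_apply, flt_single]
        split_ifs with hc
        · rw [sub_self]; exact Submodule.zero_mem _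
        · rw [sub_zero]
          refine Finsupp.single_mem_supported ℤ 1 ?_
          simp only [hκ] at hc
          change Y.deg x.2 ≤ j
          omega
    · refine dh_supp Y (Finsupp.supported_mono ?_ hW1)
      rintro x ⟨hx1, hx2⟩
      exact hx2.le
  have h5 : prR (Std G).toPCx Y z' = 0 := by
    have e1 := (pR (Std G).toPCx Y).comm W
    change Y.D (prR (Std G).toPCx Y W) = prR (Std G).toPCx Y ((TT Y).D W) at e1
    rw [hz', map_sub, hz5, ← e1, prR_pos Y hW1, map_zero, sub_zero]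
  have h6 := k3 z' h1 h2 h3 h4 h5
  have h7 : prL (Std G).toPCx Y ((TT Y).D W) ∈ (Std G).Bo n T4 := by
    have e1 := (pL (Std G).toPCx Y).comm W
    change (Std G).D (prL (Std G).toPCx Y W) = prL (Std G).toPCx Y ((TT Y).D W) at e1
    rw [← e1]
    exact (Std G).D_mem_Bo ((pL (Std G).toPCx Y).dg _ _ hWd) (k4 W hW2)
  have e2 : z = z' + (TT Y).D W := by rw [hz']; abel
  rw [e2, map_add]
  exact Submodule.add_mem _ ((Std G).Bo_mono Set.subset_union_left h6)
    ((Std G).Bo_mono Set.subset_union_right h7)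

theorem red_all (n : ℕ) (hvert : ∀ y, Y.deg y = 0 → IsNull (Y.stab y).subtype n)
    (hstab : ∀ y, Y.deg y ≠ 0 → Y.deg y ≤ n → IsNull (MonoidHom.id (Y.stab y)) (n - Y.deg y)) :
    ∀ j ≤ n, Red Y n j := by
  intro j
  induction j with
  | zero => intro _; exact red_zero Y n hvert
  | succ j ih =>
    intro hj
    exact red_succ Y n j hj (fun y hy => by
      have := hstab y (by omega) (by omega)
      rwa [hy] at this) (ih (by omega))

/-- Bounded lifts of horizontal chains. -/
theorem exists_hlift (T : Set Y.X) (hT : T.Finite) : ∃ T' : Set ((G × List G) × Y.X), T'.Finite ∧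
    ∀ n, ∀ u ∈ Y.Dg n, u ∈ Y.Bs T → ∃ w ∈ (TT Y).Dg n, w ∈ (TT Y).Bs T' ∧
      prR (Std G).toPCx Y w = u := by
  classical
  refine ⟨{((1 : G), [])} ×ˢ T, (Set.finite_singleton _).prod hT, fun n u hu1 hu2 => ?_⟩
  let g : Y.X → G := fun y => if h : ∃ g : G, ∃ x ∈ T, y = Y.sm g x then h.choose else 1
  have hg : ∀ y ∈ Y.orb T, ∃ x ∈ T, y = Y.sm (g y) x := by
    rintro y ⟨x, hx, k, hk⟩
    have hex : ∃ g : G, ∃ x ∈ T, y = Y.sm g x := ⟨k, x, hx, hk⟩
    have : g y = hex.choose := by simp only [g]; rw [dif_pos hex]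
    rw [this]
    exact hex.choose_spec
  let L : (Y.X →₀ ℤ) →ₗ[ℤ] ((G × List G) × Y.X →₀ ℤ) :=
    Finsupp.lmapDomain ℤ ℤ fun y => ((g y, []), y)
  have hL : ∀ y, L (single y 1) = single (((g y, []) : G × List G), y) 1 := fun y => by
    simp [L]
  refine ⟨L u, ?_, ?_, ?_⟩
  · refine lin_mem_of _ _ (fun y hy => ?_) u hu1
    rw [hL]
    refine (TT Y).single_mem_Dg ?_ 1
    have hy' : Y.deg y = n := hy
    change ([] : List G).length + Y.deg y = n
    simp [hy']
  · refine lin_mem_of _ _ (fun y hy => ?_) u hu2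
    rw [hL]
    obtain ⟨x, hx, e⟩ := hg y hy
    have hmem : (((g y, []) : G × List G), y) ∈
        (TT Y).orb ({((1 : G), ([] : List G))} ×ˢ T) := by
      refine ⟨(((1 : G), []), x), ⟨rfl, hx⟩, g y, ?_⟩
      refine Prod.ext ?_ e
      change ((g y, []) : G × List G) = smX (g y) (1, [])
      simp [smX]
    exact (TT Y).single_mem_Bs hmem 1
  · have : (prR (Std G).toPCx Y).comp L = LinearMap.id := lin_ext fun y => by
      rw [LinearMap.comp_apply, hL]
      have hs : prR (Std G).toPCx Y (single (((g y, []) : G × List G), y) 1) =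
        (Std G).ep (g y, []) • single y (1 : ℤ) := by simp [prR]
      rw [hs]
      have : (Std G).ep ((g y, []) : G × List G) = 1 := rfl
      rw [this, one_smul]; rfl
    exact LinearMap.congr_fun this u

/-- **Resolution lemma** (bounded Brown criterion). -/
theorem resolution_null (hY : Y.Acyclic) (n : ℕ) (hb : BAc Y n)
    (hvert : ∀ y, Y.deg y = 0 → IsNull (Y.stab y).subtype n)
    (hstab : ∀ y, Y.deg y ≠ 0 → Y.deg y ≤ n → IsNull (MonoidHom.id (Y.stab y)) (n - Y.deg y)) :
    IsNull (MonoidHom.id G) n := by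
  classical
  refine IsNull.of_kill (A := TT Y) (Tens_acyclic _ _ (Std_acyclic G) hY) (B := Std G)
    (pL (Std G).toPCx Y) ?_
  intro T0 hT0
  obtain ⟨T1, hT1, k1⟩ := (pR (Std G).toPCx Y).cy T0 hT0
  obtain ⟨T2, hT2, k2⟩ := hb T1 hT1
  obtain ⟨T3, hT3, k3⟩ := exists_hlift Y T2 hT2
  obtain ⟨T4, hT4, k4⟩ := Eqv.bdd (φ := MonoidHom.id G) (A := TT Y) (B := TT Y) (F := (TT Y).D)
    (fun g c => (TT Y).D_tr g c) T3 hT3
  obtain ⟨T5, hT5, k5⟩ := red_all Y n hvert hstab n le_rfl (T0 ∪ T4) (hT0.union hT4)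
  obtain ⟨T6, hT6, k6⟩ := Eqv.bdd (φ := MonoidHom.id G) (A := TT Y) (B := (Std G).toPCx)
    (F := prL (Std G).toPCx Y) (fun g c => (pL (Std G).toPCx Y).eqv g c) T3 hT3
  refine ⟨T5 ∪ T6, hT5.union hT6, fun z hz => ?_⟩
  have hz' := (TT Y).mem_Cy.1 hz
  obtain ⟨hz1, hz2, hz3, hz4⟩ := hz'
  obtain ⟨u, hu1, hu2, hu3⟩ := Y.mem_Bo.1 (k2 (k1 n z hz))
  obtain ⟨W, hW1, hW2, hW3⟩ := k3 (n + 1) u hu1 hu2
  have hDW : prR (Std G).toPCx Y ((TT Y).D W) = prR (Std G).toPCx Y z := by
    have e1 := (pR (Std G).toPCx Y).comm W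
    change Y.D (prR (Std G).toPCx Y W) = prR (Std G).toPCx Y ((TT Y).D W) at e1
    rw [← e1, hW3]
    exact hu3
  have h1 : z - (TT Y).D W ∈ (TT Y).Dg n := Submodule.sub_mem _ hz1 ((TT Y).D_mem hW1)
  have h6 := k5 (z - (TT Y).D W) h1
    (Submodule.sub_mem _ ((TT Y).Bs_mono Set.subset_union_left hz2)
      ((TT Y).Bs_mono Set.subset_union_right (k4 W hW2)))
    (by rw [map_sub, hz3, (TT Y).D_D, sub_zero])
    (Finsupp.supported_mono (fun x hx => by
      have hx' : (Std G).deg x.1 + Y.deg x.2 = n := hx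
      change Y.deg x.2 ≤ n
      omega) h1)
    (by rw [map_sub, hDW, sub_self])
  have h7 : prL (Std G).toPCx Y ((TT Y).D W) ∈ (Std G).Bo n T6 := by
    have e1 := (pL (Std G).toPCx Y).comm W
    change (Std G).D (prL (Std G).toPCx Y W) = prL (Std G).toPCx Y ((TT Y).D W) at e1
    rw [← e1]
    exact (Std G).D_mem_Bo ((pL (Std G).toPCx Y).dg _ _ hW1) (k6 W hW2)
  have e2 : z = (z - (TT Y).D W) + (TT Y).D W := by abel
  have e3 : (pL (Std G).toPCx Y).F z = prL (Std G).toPCx Y (z - (TT Y).D W) +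
      prL (Std G).toPCx Y ((TT Y).D W) := by
    rw [← map_add, ← e2]; rfl
  rw [e3]
  exact Submodule.add_mem _ ((Std G).Bo_mono Set.subset_union_left h6)
    ((Std G).Bo_mono Set.subset_union_right h7)


end Resolution

end Crest.Agent.R185.Null
end

-- ▼ part R185/Null14
section

/-!
# R185, null calculus, part 14: `ResLemma`, isomorphisms, products, finite products
-/

set_option autoImplicit false

namespace Crest.Agent.R185.Null

open Finsupp

universe u v w u' v' w'

section Iso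

variable {G : Type u} [Group G] {H : Type u'} [Group H]

/-- Transport along an isomorphism. -/
theorem isNull_id_of_equiv (e : G ≃* H) {n : ℕ} (h : IsNull (MonoidHom.id G) n) :
    IsNull (MonoidHom.id H) n := by
  have h1 := (h.comp e.toMonoidHom).precomp e.symm.toMonoidHom
  have e1 : (e.toMonoidHom.comp (MonoidHom.id G)).comp e.symm.toMonoidHom = MonoidHom.id H := by
    ext x; simp
  rwa [e1] at h1

/-- If the identity is null then every homomorphism is null. -/
theorem isNull_of_id (φ : G →* H) {n : ℕ} (h : IsNull (MonoidHom.id G) n) : IsNull φ n :=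
  h.comp φ

/-- Trivial groups. -/
theorem isNull_of_subsingleton (G : Type u) [Group G] [Subsingleton G] (n : ℕ) :
    IsNull (MonoidHom.id G) n := by
  classical
  rw [null_id_iff (Std_acyclic G)]
  intro T hT
  obtain ⟨v, hv, hv1⟩ := (Std_acyclic G).1
  obtain ⟨s, s1, s2⟩ := exists_contr (Std G).toPCx (Std_acyclic G) v hv hv1
  refine ⟨⋃ x ∈ T, ((s (single x 1)).support : Set (G × List G)),
    hT.biUnion fun x _ => Finset.finite_toSet _, fun z hz => ?_⟩
  obtain ⟨h1, h2, h3, h4⟩ := (Std G).mem_Cy.1 hz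
  refine (Std G).mem_Bo.2 ⟨s z, s1 n z h1, ?_, ?_⟩
  · refine lin_mem_of _ _ (fun x hx => ?_) z h2
    obtain ⟨y, hy, g, hg⟩ := hx
    have hg1 : g = 1 := Subsingleton.elim _ _
    rw [hg1, (Std G).sm_one] at hg
    subst hg
    exact (Std G).mem_Bs_of_subset
      (Set.subset_biUnion_of_mem (u := fun x => ((s (single x 1)).support : Set (G × List G))) hy)
  · have := s2 z
    rw [h3, map_zero, add_zero, h4, zero_smul, sub_zero] at this
    exact this

end Iso

section Prod

variable {G : Type u} [Group G] {H : Type u} [Group H]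

/-- Products of null groups. -/
theorem isNull_prod (n : ℕ) (hG : ∀ m ≤ n, IsNull (MonoidHom.id G) m)
    (hH : ∀ m ≤ n, IsNull (MonoidHom.id H) m) : IsNull (MonoidHom.id (G × H)) n := by
  set Y : PCx (G × H) := (Std G).toPCx.pull (MonoidHom.fst G H) with hY
  have hst : ∀ y : Y.X, Nonempty (H ≃* Y.stab y) := by
    intro y
    have hmem : ∀ g : G × H, g ∈ Y.stab y ↔ g.1 = 1 := by
      intro g
      constructor
      · intro hg
        have h1 : (Std G).sm g.1 y = y := hg
        have h2 := congrArg Prod.fst h1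
        have h3 : g.1 * y.1 = y.1 := h2
        simpa using h3
      · intro hg
        change (Std G).sm g.1 y = y
        rw [hg, (Std G).sm_one]
    exact ⟨{ toFun := fun h => ⟨(1, h), (hmem _).2 rfl⟩
             invFun := fun g => g.1.2
             left_inv := fun h => rfl
             right_inv := fun g => Subtype.ext (Prod.ext ((hmem _).1 g.2).symm rfl)
             map_mul' := fun a b => Subtype.ext (Prod.ext (by simp) rfl) }⟩
  have hstn : ∀ (y : Y.X) (m : ℕ), m ≤ n → IsNull (MonoidHom.id (Y.stab y)) m := by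
    intro y m hm
    obtain ⟨e⟩ := hst y
    exact isNull_id_of_equiv e (hH m hm)
  refine resolution_null Y (PCx.pull_acyclic _ _ (Std_acyclic G)) n ?_
    (fun y _ => isNull_of_id _ (hstn y n le_rfl)) (fun y _ _ => hstn y _ (Nat.sub_le _ _))
  -- bounded acyclicity
  intro T hT
  obtain ⟨T', hT', h⟩ := (null_id_iff (Std_acyclic G)).1 (hG n le_rfl) T hT
  refine ⟨T', hT', fun z hz => ?_⟩
  obtain ⟨h1, h2, h3, h4⟩ := Y.mem_Cy.1 hz
  have h2' : z ∈ (Std G).Bs T := (Std G).toPCx.pull_Bs_le (MonoidHom.fst G H) T h2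
  obtain ⟨b, hb1, hb2, hb3⟩ := (Std G).mem_Bo.1 (h ((Std G).mem_Cy.2 ⟨h1, h2', h3, h4⟩))
  refine Y.mem_Bo.2 ⟨b, hb1, Finsupp.supported_mono ?_ hb2, hb3⟩
  rintro _ ⟨x, hx, g, rfl⟩
  exact ⟨x, hx, (g, 1), rfl⟩

/-- Finite products. -/
theorem isNull_pi (s : ℕ) : ∀ (K : Fin s → Type u) [∀ i, Group (K i)] (n : ℕ),
    (∀ i, ∀ m ≤ n, IsNull (MonoidHom.id (K i)) m) → IsNull (MonoidHom.id (∀ i, K i)) n := by
  induction s with
  | zero =>
    intro K _ n _
    exact isNull_of_subsingleton _ n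
  | succ s ih =>
    intro K _ n h
    have h1 : ∀ m ≤ n, IsNull (MonoidHom.id (∀ i : Fin s, K i.succ)) m := fun m hm =>
      ih (fun i => K i.succ) m fun i k hk => h i.succ k (hk.trans hm)
    have e : (K 0 × (∀ i : Fin s, K i.succ)) ≃* (∀ i, K i) :=
      { toFun := fun p => Fin.cons p.1 p.2
        invFun := fun f => (f 0, fun i => f i.succ)
        left_inv := fun p => by simp
        right_inv := fun f => by
          funext i
          refine Fin.cases ?_ (fun j => ?_) i
          · simp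
          · simp
        map_mul' := fun a b => by
          funext i
          refine Fin.cases ?_ (fun j => ?_) i
          · simp
          · simp }
    exact isNull_id_of_equiv e (isNull_prod n (fun m hm => h 0 m hm) h1)

end Prod

/-- helper424's form of the resolution lemma. -/
theorem resLemma : Q.ResLemma := by
  intro G _ A hv hb hst n
  refine resolution_null A (acyclic_of_BAc hv hb) n (hb n)
    (fun y _ => isNull_of_id _ (hst y (A.stab y) (fun _ => Iff.rfl) n))
    (fun y _ _ => hst y (A.stab y) (fun _ => Iff.rfl) _)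

end Crest.Agent.R185.Null
end

-- ▼ part R185/QFin
section

/-!
# Row 185 (Q2): finiteness properties of `Q(Γ,Y)` (helper424)
-/

set_option autoImplicit false

namespace Crest.Agent.R185.Q

open Classical
open Crest.Agent.R185.Null

variable {Γ Y : Type} [Group Γ] [MulAction Γ Y]

/-! ### the nerve -/

theorem tup_smul (g : QG Γ Y) {t : List (Cls Γ Y) × List (List (Cls Γ Y))}
    (ht : t ∈ Tup ole {x : List (Cls Γ Y) | IsOP x}) :
    smX g t ∈ Tup ole {x : List (Cls Γ Y) | IsOP x} := by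
  obtain ⟨h1, h2⟩ := ht
  have e : ((smX g t).1 :: (smX g t).2) = (t.1 :: t.2).map (fun x => g • x) := rfl
  refine ⟨?_, ?_⟩
  · rw [e, List.pairwise_map]
    exact h1.imp (fun h => ole_smul g _ _ h)
  · rw [e]
    intro a ha
    obtain ⟨b, hb, rfl⟩ := List.mem_map.1 ha
    exact IsOP.smul (h2 b hb) g

theorem tup_bd {t : List (Cls Γ Y) × List (List (Cls Γ Y))}
    (ht : t ∈ Tup ole {x : List (Cls Γ Y) | IsOP x}) :
    ∀ s ∈ (sbd t.2 t.1).support, s ∈ Tup ole {x : List (Cls Γ Y) | IsOP x} := by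
  intro s hs
  have := (Finsupp.mem_supported ℤ _).1 (QHom.sbd_sub t.2 t.1) hs
  exact QHom.tup_sub ht this.1

/-- the nerve of the ordered marked partitions -/
@[reducible] noncomputable def NV (Γ Y : Type) [Group Γ] [MulAction Γ Y] : PCx.{0, 0} (QG Γ Y) :=
  subPC (Simp (QG Γ Y) (List (Cls Γ Y))) (Tup ole {x : List (Cls Γ Y) | IsOP x})
    (fun g _ hx => tup_smul g hx) (fun _ hx => tup_bd hx)

theorem NV_vertex : ∃ v ∈ (NV Γ Y).Dg 0, (NV Γ Y).E v = 1 := by
  have h0 : (([cls Γ id], []) : List (Cls Γ Y) × List (List (Cls Γ Y))) ∈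
      Tup ole {x : List (Cls Γ Y) | IsOP x} := by
    refine ⟨by simp, ?_⟩
    intro a ha
    simp only [List.mem_singleton] at ha
    subst ha
    exact IsOP.of_cut Cut.one
  refine ⟨Finsupp.single ⟨_, h0⟩ 1, (NV Γ Y).single_mem_Dg rfl 1, ?_⟩
  rw [(NV Γ Y).E_single, one_mul]
  rfl

theorem NV_BAc [FaithfulSMul Γ Y] [Nonempty Y] (hfo : FinOrb Γ Y) (n : ℕ) : BAc (NV Γ Y) n := by
  intro T hT
  set S := Tup ole {x : List (Cls Γ Y) | IsOP x} with hS
  obtain ⟨q0, hq0⟩ : ∃ q0, ∀ t ∈ T, ∀ x ∈ t.1.1 :: t.1.2, x.length ≤ q0 := by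
    obtain ⟨q0, hq0⟩ := (hT.image (fun t => ((t.1.1 :: t.1.2).map List.length).sum)).bddAbove
    refine ⟨q0, fun t ht x hx => ?_⟩
    refine le_trans ?_ (hq0 ⟨t, ht, rfl⟩)
    exact List.le_sum_of_mem (List.mem_map.2 ⟨x, hx, rfl⟩)
  set q1 := max q0 (4 * (n + 1) + 1) with hq1
  obtain ⟨TF, hTF, hF⟩ := hfo q1 (n + 2)
  let T' : Set (NV Γ Y).X := {t | (t.1.1 :: t.1.2) ∈ TF}
  have hT' : T'.Finite := by
    refine hTF.preimage (f := fun t : (NV Γ Y).X => t.1.1 :: t.1.2) ?_
    rintro ⟨⟨a, l⟩, ha⟩ - ⟨⟨b, k⟩, hb⟩ - h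
    simp only [List.cons.injEq] at h
    obtain ⟨rfl, rfl⟩ := h
    rfl
  refine ⟨T', hT', fun z hz => ?_⟩
  rw [PCx.mem_Cy] at hz
  obtain ⟨z1, z2, z3, z4⟩ := hz
  have z1' := (Finsupp.mem_supported ℤ _).1 z1
  have z2' := (Finsupp.mem_supported ℤ _).1 z2
  -- an upper bound
  obtain ⟨C, hC, hub⟩ := exists_above (Γ := Γ)
    (z.support.toList.flatMap (fun t => t.1.1 :: t.1.2)) (by
      intro x hx
      rw [List.mem_flatMap] at hx
      obtain ⟨t, -, ht⟩ := hx
      exact t.2.2 x ht)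
  set b : List (Cls Γ Y) := C.map (cls Γ) with hb
  have hbOP : IsOP b := IsOP.of_cut hC
  set Dst : Set (List (Cls Γ Y)) := {x | IsOP x ∧ ole x b ∧ x.length ≤ q1} with hDst
  have hcon := con_OP homTh hbOP (n + 1) q1 (le_max_right _ _)
  have hac : HAc ole Dst n := hcon.2 n (Nat.lt_succ_self n)
  have hz' : ∀ t ∈ (inc S z).support, t ∈ Tup ole Dst ∧ t.2.length = n := by
    intro t ht
    obtain ⟨htS, htz⟩ := mem_supp_inc S ht
    refine ⟨⟨htS.1, fun x hx => ⟨htS.2 x hx, ?_, ?_⟩⟩, z1' htz⟩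
    · apply hub x
      rw [List.mem_flatMap]
      exact ⟨_, Finset.mem_toList.2 htz, hx⟩
    · obtain ⟨t0, ht0, g, e⟩ := z2' htz
      have e1 : t = smX g t0.1 := congrArg Subtype.val e
      rw [e1] at hx
      have hx' : x ∈ (t0.1.1 :: t0.1.2).map (fun y => g • y) := hx
      obtain ⟨y, hy, rfl⟩ := List.mem_map.1 hx'
      rw [length_smul]
      exact (hq0 t0 ht0 y hy).trans (le_max_left _ _)
  obtain ⟨c, c1, c2, c3⟩ := hac (inc S z)
    ((Finsupp.mem_supported ℤ _).2 fun t ht => (hz' t ht).1)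
    ((Finsupp.mem_supported ℤ _).2 fun t ht => (hz' t ht).2)
    (by
      have h1 : inc S ((NV Γ Y).D z) = sD (inc S z) :=
        inc_D (Simp (QG Γ Y) (List (Cls Γ Y))) S _ _ z
      rw [← h1, z3, map_zero])
    (by
      have h1 : (NV Γ Y).E z = sE (inc S z) :=
        inc_E (Simp (QG Γ Y) (List (Cls Γ Y))) S _ _ z
      rw [← h1, z4])
  have c1' := (Finsupp.mem_supported ℤ _).1 c1
  have c2' := (Finsupp.mem_supported ℤ _).1 c2
  have hcS : ∀ t ∈ c.support, t ∈ S := fun t ht => ⟨(c1' ht).1, fun x hx => ((c1' ht).2 x hx).1⟩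
  have hinc : inc S (resS S c) = c := inc_resS S hcS
  have hsupp : ∀ t ∈ (resS S c).support, t.1 ∈ c.support := by
    intro t ht
    have := supp_inc S ht
    rwa [hinc] at this
  rw [PCx.mem_Bo]
  refine ⟨resS S c, ?_, ?_, ?_⟩
  · refine (Finsupp.mem_supported ℤ _).2 fun t ht => ?_
    exact c2' (hsupp t ht)
  · refine (Finsupp.mem_supported ℤ _).2 fun t ht => ?_
    have h1 := hsupp t ht
    have h2 := c1' h1
    have h3 : t.1.2.length = n + 1 := c2' h1
    obtain ⟨g, hg⟩ := hF (t.1.1 :: t.1.2) (by simp [h3]) h2.1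
      (fun x hx => ⟨(h2.2 x hx).1, (h2.2 x hx).2.2⟩)
    refine ⟨(NV Γ Y).sm g t, ?_, g⁻¹, ?_⟩
    · change ((g • t.1.1) :: t.1.2.map (fun x => g • x)) ∈ TF
      exact hg
    · rw [← (NV Γ Y).sm_mul, inv_mul_cancel, (NV Γ Y).sm_one]
  · apply inc_inj S
    have h1 : inc S ((NV Γ Y).D (resS S c)) = sD (inc S (resS S c)) :=
      inc_D (Simp (QG Γ Y) (List (Cls Γ Y))) S _ _ (resS S c)
    rw [h1, hinc, c3]

theorem NV_stab (hst : StabIso Γ Y) (hn : ∀ n, IsNull (MonoidHom.id Γ) n) (x : (NV Γ Y).X)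
    (S : Subgroup (QG Γ Y)) (hS : ∀ g, g ∈ S ↔ (NV Γ Y).sm g x = x) (n : ℕ) :
    IsNull (MonoidHom.id S) n := by
  have hfix : ∀ g, g ∈ S ↔ ∀ y ∈ x.1.1 :: x.1.2, g • y = y := by
    intro g
    rw [hS g]
    have e1 : (NV Γ Y).sm g x = x ↔ (x.1.1 :: x.1.2).map (fun y => g • y) = (x.1.1 :: x.1.2) := by
      constructor
      · intro h
        have h' : smX g x.1 = x.1 := congrArg Subtype.val h
        have h1 : g • x.1.1 = x.1.1 := congrArg Prod.fst h'
        have h2 : x.1.2.map (fun y => g • y) = x.1.2 := congrArg Prod.snd h'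
        rw [List.map_cons, h1, h2]
      · intro h
        simp only [List.map_cons, List.cons.injEq] at h
        apply Subtype.ext
        exact Prod.ext h.1 h.2
    rw [e1]
    constructor
    · intro h
      have : (x.1.1 :: x.1.2).map (fun y => g • y) = (x.1.1 :: x.1.2).map id := by
        rw [h, List.map_id]
      exact List.map_inj_left.1 this
    · intro h
      conv_rhs => rw [← List.map_id (x.1.1 :: x.1.2)]
      exact List.map_inj_left.2 h
  obtain ⟨s, ⟨e⟩⟩ := hst (x.1.1 :: x.1.2) (by simp) x.2.1 x.2.2 S hfix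
  exact isNull_id_of_equiv e.symm (isNull_pi s (fun _ => Γ) n (fun _ m _ => hn m))

/-- **`Q(Γ,Y)` is null in all degrees** -/
theorem null_QG [FaithfulSMul Γ Y] [Nonempty Y] (hfo : FinOrb Γ Y) (hst : StabIso Γ Y)
    (hn : ∀ n, IsNull (MonoidHom.id Γ) n) : ∀ n, IsNull (MonoidHom.id (QG Γ Y)) n :=
  resLemma (QG Γ Y) (NV Γ Y) NV_vertex (NV_BAc hfo) (NV_stab hst hn)

/-! ### finite presentation -/

/-- bounded ordered marked partitions -/
abbrev OPq (Γ Y : Type) [Group Γ] [MulAction Γ Y] (q : ℕ) : Type :=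
  {x : List (Cls Γ Y) // IsOP x ∧ x.length ≤ q}

instance (q : ℕ) : MulAction (QG Γ Y) (OPq Γ Y q) where
  smul g x := ⟨g • x.1, x.2.1.smul g, by rw [length_smul]; exact x.2.2⟩
  one_smul x := Subtype.ext (one_smul _ _)
  mul_smul g h x := Subtype.ext (mul_smul _ _ _)


theorem con_all [FaithfulSMul Γ Y] [Nonempty Y] (T : ConTh) (m q : ℕ) (hq : 4 * m + 1 ≤ q) :
    T.Con ole m {x : List (Cls Γ Y) | IsOP x ∧ x.length ≤ q} := by
  let ι := {b : List (Cls Γ Y) // IsOP b}
  have : Nonempty ι := ⟨⟨[cls Γ id], IsOP.of_cut Cut.one⟩⟩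
  have hU : {x : List (Cls Γ Y) | IsOP x ∧ x.length ≤ q} =
      ⋃ b : ι, {x : List (Cls Γ Y) | IsOP x ∧ ole x b.1 ∧ x.length ≤ q} := by
    ext x
    simp only [Set.mem_ofPred_eq, Set.mem_iUnion]
    constructor
    · rintro ⟨h1, h2⟩
      exact ⟨⟨x, h1⟩, h1, ole_refl x, h2⟩
    · rintro ⟨b, h1, -, h2⟩
      exact ⟨h1, h2⟩
  rw [hU]
  refine T.union ole_refl ole_trans _ ?_ m (fun b => con_OP T b.2 m q hq)
  rintro ⟨b, hb⟩ ⟨c, hc⟩
  obtain ⟨C, hC, h⟩ := exists_above (Γ := Γ) [b, c] (by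
    intro x hx
    simp only [List.mem_cons, List.not_mem_nil, or_false] at hx
    rcases hx with rfl | rfl
    · exact hb
    · exact hc)
  refine ⟨⟨_, IsOP.of_cut hC⟩, ?_, ?_⟩
  · rintro x ⟨h1, h2, h3⟩
    exact ⟨h1, ole_trans _ _ _ h2 (h b (by simp)), h3⟩
  · rintro x ⟨h1, h2, h3⟩
    exact ⟨h1, ole_trans _ _ _ h2 (h c (by simp)), h3⟩

theorem con_OPq [FaithfulSMul Γ Y] [Nonempty Y] (T : ConTh) (m q : ℕ) (hq : 4 * m + 1 ≤ q) :
    T.Con (fun x y : OPq Γ Y q => ole x.1 y.1) m Set.univ := by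
  have h := con_all (Γ := Γ) (Y := Y) T m q hq
  have hd : IsOP ([cls Γ id] : List (Cls Γ Y)) ∧ ([cls Γ id] : List (Cls Γ Y)).length ≤ q :=
    ⟨IsOP.of_cut Cut.one, by simp; omega⟩
  let f : OPq Γ Y q → List (Cls Γ Y) := Subtype.val
  let g : List (Cls Γ Y) → OPq Γ Y q := fun x =>
    if h : IsOP x ∧ x.length ≤ q then ⟨x, h⟩ else ⟨_, hd⟩
  have hg : ∀ x, (h : IsOP x ∧ x.length ≤ q) → (g x).1 = x := by
    intro x h
    simp only [g, h, and_self, ↓reduceDIte]
  refine T.transfer (fun x => ole_refl x.1) (fun x y z => ole_trans x.1 y.1 z.1)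
    ole_refl ole_trans _ _ f g ?_ ?_ ?_ ?_ ?_ m h
  · intro x _; exact x.2
  · intro x _; exact Set.mem_univ _
  · intro x _ y _ h; exact h
  · intro x hx y hy h
    change ole (g x).1 (g y).1
    rw [hg x hx, hg y hy]; exact h
  · intro x _
    change ole x.1 (g x.1).1
    rw [hg x.1 x.2]; exact ole_refl _

/-- **`Q(Γ,Y)` is finitely presented** -/
theorem fp_QG [FaithfulSMul Γ Y] [Nonempty Y] (hfo : FinOrb Γ Y) (hst : StabIso Γ Y)
    (hfp : Group.IsFinitelyPresented Γ) : Group.IsFinitelyPresented (QG Γ Y) := by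
  have hcon := con_OPq (Γ := Γ) (Y := Y) covTh 2 9 (by norm_num)
  have hcon' : CCon (fun x y : OPq Γ Y 9 => ole x.1 y.1) 2 Set.univ := hcon
  obtain ⟨x0, -⟩ := hcon'.1
  have : Nonempty (OPq Γ Y 9) := ⟨x0⟩
  obtain ⟨TF, hTF, hF⟩ := hfo 9 3
  have hpi : ∀ s : ℕ, Group.IsFinitelyPresented (Fin s → Γ) := fun s => FPP.fp_pow s Γ
  refine FPC.fpCrit (QG Γ Y) (OPq Γ Y 9) (fun x y => ole x.1 y.1) (fun x => ole_refl x.1)
    (fun x y z => ole_trans x.1 y.1 z.1) (fun g x y h => ole_smul g _ _ h)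
    (hcon'.2.1 (by norm_num)) (hcon'.2.2 (le_refl _)) ?_ ?_ ?_
  · refine ⟨{p | [p.2.2.1, p.2.1.1, p.1.1] ∈ TF}, ?_, ?_⟩
    · refine hTF.preimage (f := fun p : OPq Γ Y 9 × OPq Γ Y 9 × OPq Γ Y 9 =>
        [p.2.2.1, p.2.1.1, p.1.1]) ?_
      rintro ⟨⟨a, ha⟩, ⟨b, hb⟩, ⟨c, hc⟩⟩ - ⟨⟨a', ha'⟩, ⟨b', hb'⟩, ⟨c', hc'⟩⟩ - h
      simp only [List.cons.injEq, and_true] at h
      obtain ⟨rfl, rfl, rfl⟩ := h
      rfl
    · intro x y z hxy hyz
      obtain ⟨g, hg⟩ := hF [z.1, y.1, x.1] (by simp) (by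
        simp only [List.pairwise_cons, List.mem_cons, List.not_mem_nil, or_false,
          forall_eq_or_imp, forall_eq, IsEmpty.forall_iff, implies_true, List.Pairwise.nil,
          and_true]
        exact ⟨⟨hyz, ole_trans _ _ _ hxy hyz⟩, hxy⟩) (by
        intro w hw
        simp only [List.mem_cons, List.not_mem_nil, or_false] at hw
        rcases hw with rfl | rfl | rfl
        · exact z.2
        · exact y.2
        · exact x.2)
      exact ⟨g, hg⟩
  · intro x
    obtain ⟨s, ⟨e⟩⟩ := hst [x.1] (by simp) (by simp) (by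
      intro w hw
      simp only [List.mem_singleton] at hw
      subst hw; exact x.2.1) (MulAction.stabilizer (QG Γ Y) x) (by
      intro g
      rw [MulAction.mem_stabilizer_iff]
      simp only [List.mem_singleton, forall_eq]
      exact Subtype.ext_iff)
    have := hpi s
    exact Group.IsFinitelyPresented.equiv e.symm
  · intro x y hxy
    obtain ⟨s, ⟨e⟩⟩ := hst [y.1, x.1] (by simp) (by simpa using hxy) (by
      intro w hw
      simp only [List.mem_cons, List.not_mem_nil, or_false] at hw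
      rcases hw with rfl | rfl
      · exact y.2.1
      · exact x.2.1) (MulAction.stabilizer (QG Γ Y) x ⊓ MulAction.stabilizer (QG Γ Y) y) (by
      intro g
      rw [Subgroup.mem_inf, MulAction.mem_stabilizer_iff, MulAction.mem_stabilizer_iff]
      simp only [List.mem_cons, List.not_mem_nil, or_false, forall_eq_or_imp, forall_eq]
      rw [Subtype.ext_iff, Subtype.ext_iff]
      exact and_comm)
    have := hpi s
    have h2 : Group.IsFinitelyPresented
        ↥(MulAction.stabilizer (QG Γ Y) x ⊓ MulAction.stabilizer (QG Γ Y) y) :=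
      Group.IsFinitelyPresented.equiv e.symm
    exact FPP.fg_of_fp _

end Crest.Agent.R185.Q
end

-- ▼ part R185/QOrb
section

/-!
# Row 185 (Q2), piece P7: finitely many orbits of bounded decreasing lists (helper173)

After a translation all elements of a decreasing list are cuts; the entries of a cut of size `≤ q`
are classes of words of length `< q` in the letters `sh y`, `ch y`; by high transitivity of `Γ`
on `Y` (and `ac γ ∈ QG`) the letters are moved into a fixed finite set.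
-/

set_option autoImplicit false

namespace Crest.Agent.R185.Q

open Classical

variable {Γ Y : Type} [Group Γ] [MulAction Γ Y]

/-! ### words -/

/-- a letter -/
noncomputable def lt1 (p : Bool × Y) : W Y → W Y := if p.1 then sh p.2 else ch p.2

/-- a word in the letters `sh y`, `ch y` -/
noncomputable def wd : List (Bool × Y) → W Y → W Y
  | [] => id
  | p :: l => lt1 p ∘ wd l

/-- translation of letters -/
def mvl (γ : Γ) : List (Bool × Y) → List (Bool × Y) := List.map (fun p => (p.1, γ • p.2))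

theorem ac_lt1 (γ : Γ) (p : Bool × Y) :
    (ac γ : W Y → W Y) ∘ lt1 p = lt1 (p.1, γ • p.2) ∘ ac γ := by
  obtain ⟨b, y⟩ := p
  cases b
  · simp only [lt1, Bool.false_eq_true, if_false]; exact ac_ch γ y
  · simp only [lt1, if_true]; exact ac_sh γ y

theorem ac_wd (γ : Γ) (l : List (Bool × Y)) :
    (ac γ : W Y → W Y) ∘ wd l = wd (mvl γ l) ∘ ac γ := by
  induction l with
  | nil => rfl
  | cons p l ih =>
    have h1 : (ac γ ∘ wd (p :: l) : W Y → W Y) = (ac γ ∘ lt1 p) ∘ wd l := rfl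
    have h2 : (wd (mvl γ (p :: l)) ∘ ac γ : W Y → W Y)
      = lt1 (p.1, γ • p.2) ∘ (wd (mvl γ l) ∘ ac γ) := rfl
    rw [h1, h2, ac_lt1, ← ih]; rfl

theorem wd_append (l l' : List (Bool × Y)) : wd (l ++ l') = wd l ∘ wd l' := by
  induction l with
  | nil => rfl
  | cons p l ih =>
    change lt1 p ∘ wd (l ++ l') = (lt1 p ∘ wd l) ∘ wd l'
    rw [ih]; rfl

theorem wd_snoc (l : List (Bool × Y)) (p : Bool × Y) : wd (l ++ [p]) = wd l ∘ lt1 p := by
  rw [wd_append]; rfl

/-- entries of cuts are short words -/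
theorem Cut.words {K : List (W Y → W Y)} (h : Cut Γ K) :
    ∀ m ∈ K, ∃ (l : List (Bool × Y)) (γ : Γ), l.length < K.length ∧ m = wd l ∘ ac γ := by
  induction h with
  | one =>
    intro m hm
    simp only [List.mem_singleton] at hm
    subst hm
    exact ⟨[], 1, by simp, by simp [wd]⟩
  | split y f L _ ih =>
    intro m hm
    simp only [List.mem_cons] at hm
    rcases hm with rfl | rfl | hm
    · obtain ⟨l, γ, hl, rfl⟩ := ih _ List.mem_cons_self
      refine ⟨l ++ [(true, γ • y)], γ, by simp at hl ⊢; omega, ?_⟩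
      rw [wd_snoc, Function.comp_assoc, ac_sh]; simp [lt1, Function.comp_assoc]
    · obtain ⟨l, γ, hl, rfl⟩ := ih _ List.mem_cons_self
      refine ⟨l ++ [(false, γ • y)], γ, by simp at hl ⊢; omega, ?_⟩
      rw [wd_snoc, Function.comp_assoc, ac_ch]; simp [lt1, Function.comp_assoc]
    · obtain ⟨l, γ, hl, rfl⟩ := ih _ (List.mem_cons_of_mem _ hm)
      exact ⟨l, γ, by simp at hl ⊢; omega, rfl⟩
  | perm _ hp ih =>
    intro m hm
    obtain ⟨l, γ, hl, e⟩ := ih m (hp.mem_iff.2 hm)
    exact ⟨l, γ, by rwa [← hp.length_eq], e⟩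
  | label γ f L _ ih =>
    intro m hm
    simp only [List.mem_cons] at hm
    rcases hm with rfl | hm
    · obtain ⟨l, δ, hl, rfl⟩ := ih _ List.mem_cons_self
      refine ⟨l, δ * γ, by simpa using hl, ?_⟩
      rw [ac_mul, Function.comp_assoc]
    · obtain ⟨l, δ, hl, rfl⟩ := ih _ (List.mem_cons_of_mem _ hm)
      exact ⟨l, δ, by simpa using hl, rfl⟩

/-! ### ordered marked partitions below a cut are cuts -/

theorem forall₂_of_map_cls {A B : List (W Y → W Y)} (h : A.map (cls Γ) = B.map (cls Γ)) :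
    List.Forall₂ (Lab Γ) A B := by
  induction A generalizing B with
  | nil =>
    cases B with
    | nil => exact List.Forall₂.nil
    | cons b B => simp at h
  | cons a A ih =>
    cases B with
    | nil => simp at h
    | cons b B =>
      simp only [List.map_cons, List.cons.injEq] at h
      exact List.Forall₂.cons (cls_eq.1 h.1) (ih h.2)

theorem exists_list_rep {x : List (Cls Γ Y)} {P : (W Y → W Y) → Prop}
    (h : ∀ b ∈ x, ∃ f, P f ∧ cls Γ f = b) : ∃ L : List (W Y → W Y), (∀ f ∈ L, P f) ∧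
      L.map (cls Γ) = x := by
  induction x with
  | nil => exact ⟨[], by simp, rfl⟩
  | cons b x ih =>
    obtain ⟨L, h1, h2⟩ := ih (fun b hb => h b (List.mem_cons_of_mem _ hb))
    obtain ⟨f, hf, hb⟩ := h b List.mem_cons_self
    refine ⟨f :: L, ?_, by simp [hb, h2]⟩
    intro g hg
    rcases List.mem_cons.1 hg with rfl | hg
    · exact hf
    · exact h1 g hg

theorem dj_of_f2 {A B : List (W Y → W Y)} (h : List.Forall₂ (Lab Γ) A B) :
    (∀ g, (∀ f ∈ A, Dj g f) → ∀ f ∈ B, Dj g f) ∧ (A.Pairwise Dj → B.Pairwise Dj) := by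
  induction h with
  | nil => exact ⟨fun g _ => by simp, fun _ => List.Pairwise.nil⟩
  | @cons a b A B hab _ ih =>
    obtain ⟨γ, rfl⟩ := hab
    constructor
    · intro g hg f hf
      rcases List.mem_cons.1 hf with rfl | hf
      · exact fun u v e => hg a List.mem_cons_self u _ e
      · exact ih.1 g (fun f hf => hg f (List.mem_cons_of_mem _ hf)) f hf
    · intro hp
      rw [List.pairwise_cons] at hp ⊢
      refine ⟨?_, ih.2 hp.2⟩
      apply ih.1
      exact fun f hf u v e => hp.1 f hf _ _ e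

theorem cov_of_f2 {A B : List (W Y → W Y)} (h : List.Forall₂ (Lab Γ) A B) {u : W Y}
    (hA : ∃ f ∈ A, ∃ v, f v = u) : ∃ f ∈ B, ∃ v, f v = u := by
  induction h with
  | nil => simp at hA
  | @cons a b A B hab _ ih =>
    obtain ⟨γ, rfl⟩ := hab
    obtain ⟨f, hf, v, hv⟩ := hA
    rcases List.mem_cons.1 hf with rfl | hf
    · obtain ⟨w, rfl⟩ := ac_surj γ v
      exact ⟨_, List.mem_cons_self, w, hv⟩
    · obtain ⟨f', hf', hv'⟩ := ih ⟨f, hf, v, hv⟩
      exact ⟨f', List.mem_cons_of_mem _ hf', hv'⟩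

/-- an ordered marked partition below a cut is a cut -/
theorem IsOP.exists_cut {x : List (Cls Γ Y)} (hx : IsOP x) {L : List (W Y → W Y)} (hL : Cut Γ L)
    (h : ole (L.map (cls Γ)) x) : ∃ K, Cut Γ K ∧ K.map (cls Γ) = x := by
  have h1 : ∀ b ∈ x, ∃ f, M Γ f ∧ cls Γ f = b := by
    intro b hb
    obtain ⟨a, ha, hab⟩ := h b hb
    obtain ⟨c, hc, rfl⟩ := List.mem_map.1 ha
    obtain ⟨m, hm, rfl⟩ := cle_iff.1 hab
    exact ⟨c ∘ m, (hL.mem_M c hc).comp hm, rfl⟩
  obtain ⟨K, hK, hKx⟩ := exists_list_rep h1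
  obtain ⟨g, L', hL', e⟩ := hx
  have h2 : List.Forall₂ (Lab Γ) (L'.map (fun f => (g.1 : W Y → W Y) ∘ f)) K := by
    apply forall₂_of_map_cls
    rw [hKx, e, smul_list, List.map_map, List.map_map]
    rfl
  refine ⟨K, cut_of_part _ K rfl hK ?_ ?_, hKx⟩
  · apply (dj_of_f2 h2).2
    rw [List.pairwise_map]
    exact hL'.dj.imp (fun hd u v e => hd u v (g.1.injective e))
  · intro u
    apply cov_of_f2 h2
    obtain ⟨f, hf, v, hv⟩ := hL'.cover (g.1.symm u)
    exact ⟨g.1 ∘ f, List.mem_map.2 ⟨f, hf, rfl⟩, v, by simp [hv]⟩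

/-! ### labels in `QG` -/

/-- `ac γ` as an element of `QG` -/
def acq (Y : Type) [MulAction Γ Y] (γ : Γ) : QG Γ Y :=
  ⟨⟨ac γ, ac γ⁻¹, fun v => congrFun (ac_inv_comp γ) v, fun v => congrFun (ac_comp_inv γ) v⟩,
    Adm.base _ (M_ac γ), Adm.base _ (M_ac γ⁻¹)⟩

theorem acq_smul (γ : Γ) (l : List (Bool × Y)) :
    acq Y γ • cls Γ (wd l) = cls Γ (wd (mvl γ l)) := by
  have : acq Y γ • cls Γ (wd l) = cls Γ ((ac γ : W Y → W Y) ∘ wd l) := rfl
  rw [this, ac_wd, cls_ac]

/-! ### finite sets of lists -/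

theorem finite_lists {α : Type} {S : Set α} (hS : S.Finite) (n : ℕ) :
    {l : List α | l.length ≤ n ∧ ∀ a ∈ l, a ∈ S}.Finite := by
  have : Finite S := hS
  refine ((List.finite_length_le S n).image (List.map Subtype.val)).subset ?_
  rintro l ⟨h1, h2⟩
  refine ⟨l.attach.map (fun a => ⟨a.1, h2 a.1 a.2⟩), by simpa using h1, ?_⟩
  simp [List.map_map, Function.comp_def]

theorem length_flatten_le {α : Type} (n : ℕ) (L : List (List α)) (h : ∀ l ∈ L, l.length ≤ n) :
    L.flatten.length ≤ L.length * n := by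
  induction L with
  | nil => simp
  | cons a L ih =>
    have h1 := h a List.mem_cons_self
    have h2 := ih (fun l hl => h l (List.mem_cons_of_mem _ hl))
    simp only [List.flatten_cons, List.length_append, List.length_cons]
    nlinarith

theorem exists_list_map {α β : Type} {x : List β} {P : α → Prop} {f : α → β}
    (h : ∀ b ∈ x, ∃ a, P a ∧ f a = b) : ∃ L : List α, (∀ a ∈ L, P a) ∧ L.map f = x := by
  induction x with
  | nil => exact ⟨[], by simp, rfl⟩
  | cons b x ih =>
    obtain ⟨L, h1, h2⟩ := ih (fun b hb => h b (List.mem_cons_of_mem _ hb))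
    obtain ⟨a, ha, hb⟩ := h b List.mem_cons_self
    refine ⟨a :: L, ?_, by simp [hb, h2]⟩
    intro g hg
    rcases List.mem_cons.1 hg with rfl | hg
    · exact ha
    · exact h1 g hg

/-- **P7** -/
theorem finOrb (hinf : Infinite Y)
    (htr : ∀ (n : ℕ) (x y : Fin n → Y), Function.Injective x → Function.Injective y →
      ∃ γ : Γ, ∀ i, γ • x i = y i) : FinOrb Γ Y := by
  intro q k
  let N : ℕ := k * q * q
  let y0 : Fin N → Y := fun i => Infinite.natEmbedding Y i
  have hy0 : Function.Injective y0 := by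
    intro i j e
    exact Fin.ext ((Infinite.natEmbedding Y).injective e)
  have hY0 : (Set.range y0).Finite := Set.finite_range _
  have hS0 : {p : Bool × Y | p.2 ∈ Set.range y0}.Finite := by
    have : {p : Bool × Y | p.2 ∈ Set.range y0} = Set.univ ×ˢ Set.range y0 := by
      ext p; simp
    rw [this]
    exact Set.finite_univ.prod hY0
  have hS1 := finite_lists hS0 q
  have hS2 := hS1.image (fun l => cls Γ (wd l))
  have hS3 := finite_lists hS2 q
  refine ⟨_, finite_lists hS3 k, ?_⟩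
  intro t htk htd hto
  -- reduce to words
  have key : ∃ (g : QG Γ Y) (ww : List (List (List (Bool × Y)))),
      (∀ w ∈ ww, w.length ≤ q ∧ ∀ l ∈ w, l.length ≤ q) ∧
        t.map (g • ·) = ww.map (List.map (fun l => cls Γ (wd l))) := by
    rcases List.eq_nil_or_concat t with rfl | ⟨t', z, rfl⟩
    · exact ⟨1, [], by simp, by simp⟩
    · rw [List.concat_eq_append] at htk htd hto ⊢
      have hz : IsOP z := (hto z (by simp)).1
      have hzt : ∀ x ∈ t' ++ [z], ole z x := by
        intro x hx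
        rw [List.mem_append, List.mem_singleton] at hx
        rcases hx with hx | rfl
        · exact (List.pairwise_append.1 htd).2.2 x hx z (by simp)
        · exact ole_refl x
      obtain ⟨g, L, hL, rfl⟩ := hz
      have h1 : ∀ x ∈ (t' ++ [g • L.map (cls Γ)]).map (g⁻¹ • ·), ∃ w : List (List (Bool × Y)),
          (w.length ≤ q ∧ ∀ l ∈ w, l.length ≤ q) ∧ w.map (fun l => cls Γ (wd l)) = x := by
        intro x hx
        obtain ⟨x', hx', rfl⟩ := List.mem_map.1 hx
        have h2 : ole (L.map (cls Γ)) (g⁻¹ • x') := by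
          have := ole_smul g⁻¹ _ _ (hzt x' hx')
          rwa [inv_smul_smul] at this
        obtain ⟨K, hK, hKx⟩ := ((hto x' hx').1.smul g⁻¹).exists_cut hL h2
        have hlen : K.length ≤ q := by
          have : K.length = x'.length := by
            rw [← length_smul g⁻¹ x', ← hKx, List.length_map]
          rw [this]; exact (hto x' hx').2
        have h3 : ∀ b ∈ g⁻¹ • x', ∃ l : List (Bool × Y), l.length ≤ q ∧ cls Γ (wd l) = b := by
          intro b hb
          rw [← hKx] at hb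
          obtain ⟨m, hm, rfl⟩ := List.mem_map.1 hb
          obtain ⟨l, γ, hl, rfl⟩ := hK.words m hm
          exact ⟨l, by omega, (cls_ac _ _).symm⟩
        obtain ⟨w, hw, hwx⟩ := exists_list_map h3
        refine ⟨w, ⟨?_, hw⟩, hwx⟩
        have : w.length = x'.length := by
          rw [← length_smul g⁻¹ x', ← hwx, List.length_map]
        rw [this]; exact (hto x' hx').2
      obtain ⟨ww, hww, e⟩ := exists_list_map h1
      exact ⟨g⁻¹, ww, hww, e.symm⟩
  obtain ⟨g, ww, hww, e⟩ := key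
  have hlen : ww.length ≤ k := by
    have : ww.length = t.length := by
      have := congrArg List.length e
      simpa using this.symm
    omega
  -- the letters
  let F : Finset Y := (ww.flatten.flatten.map Prod.snd).toFinset
  have hF : F.card ≤ N := by
    refine (List.toFinset_card_le _).trans ?_
    rw [List.length_map]
    have h1 : ww.flatten.length ≤ ww.length * q := length_flatten_le q ww (fun w hw => (hww w hw).1)
    have h2 : ww.flatten.flatten.length ≤ ww.flatten.length * q := by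
      apply length_flatten_le
      intro l hl
      obtain ⟨w, hw, hl⟩ := List.mem_flatten.1 hl
      exact (hww w hw).2 l hl
    calc ww.flatten.flatten.length ≤ ww.flatten.length * q := h2
      _ ≤ (ww.length * q) * q := Nat.mul_le_mul_right _ h1
      _ ≤ k * q * q := Nat.mul_le_mul_right _ (Nat.mul_le_mul_right _ hlen)
  obtain ⟨γ, hγ⟩ := htr F.card (fun i => (F.equivFin.symm i : Y)) (fun i => y0 (Fin.castLE hF i))
    (fun i j h => F.equivFin.symm.injective (Subtype.ext h))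
    (fun i j h => Fin.castLE_injective hF (hy0 h))
  have hγF : ∀ y ∈ F, γ • y ∈ Set.range y0 := by
    intro y hy
    have := hγ (F.equivFin ⟨y, hy⟩)
    simp only [Equiv.symm_apply_apply] at this
    rw [this]
    exact ⟨_, rfl⟩
  refine ⟨acq Y γ * g, ?_⟩
  have e2 : t.map ((acq Y γ * g) • ·) = ww.map (List.map (fun l => cls Γ (wd (mvl γ l)))) := by
    have h1 : t.map ((acq Y γ * g) • ·) = (t.map (g • ·)).map (acq Y γ • ·) := by
      rw [List.map_map]
      apply List.map_congr_left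
      intro x _
      exact mul_smul _ _ _
    rw [h1, e, List.map_map]
    apply List.map_congr_left
    intro w _
    simp only [Function.comp_apply]
    rw [smul_list, List.map_map]
    apply List.map_congr_left
    intro l _
    exact acq_smul γ l
  rw [e2]
  refine ⟨by simpa using hlen, ?_⟩
  intro x hx
  obtain ⟨w, hw, rfl⟩ := List.mem_map.1 hx
  refine ⟨by simpa using (hww w hw).1, ?_⟩
  intro b hb
  obtain ⟨l, hl, rfl⟩ := List.mem_map.1 hb
  refine ⟨mvl γ l, ⟨by simpa [mvl] using (hww w hw).2 l hl, ?_⟩, rfl⟩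
  intro p hp
  obtain ⟨p', hp', rfl⟩ := List.mem_map.1 hp
  apply hγF
  rw [List.mem_toFinset, List.mem_map]
  refine ⟨p', ?_, rfl⟩
  exact List.mem_flatten.2 ⟨l, List.mem_flatten.2 ⟨w, hw, hl⟩, hp'⟩

end Crest.Agent.R185.Q
private theorem rz_f70dc3e89d : type_of% @_root_.Crest.Agent.R185.Q.wd.eq_def := @_root_.Crest.Agent.R185.Q.wd.eq_def -- L25
private theorem rz_ebab9217dd : type_of% @_root_.Crest.Agent.R185.Q.wd.eq_1 := @_root_.Crest.Agent.R185.Q.wd.eq_1 -- L25
end

-- ▼ part R185/QStab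
section

/-!
# Row 185 (Q2), piece P8: stabilisers of chains of ordered marked partitions (helper340)
-/

set_option autoImplicit false

namespace Crest.Agent.R185.Q

open Classical

variable {Γ Y : Type} [Group Γ] [MulAction Γ Y]

/-! ### the letterwise action on normal forms -/

/-- the action on shift vectors -/
noncomputable def vac (γ : Γ) (v : Y →₀ ℕ) : Y →₀ ℕ := Finsupp.equivMapDomain (MulAction.toPerm γ) v

theorem vac_apply (γ : Γ) (v : Y →₀ ℕ) (y : Y) : vac γ v y = v (γ⁻¹ • y) := rfl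

theorem vac_add (γ : Γ) (v : Y →₀ ℕ) (a : Y) :
    vac γ (v + Finsupp.single a 1) = vac γ v + Finsupp.single (γ • a) 1 := by
  ext y
  simp only [vac_apply, Finsupp.add_apply, Finsupp.single_apply]
  congr 1
  have : (a = γ⁻¹ • y) = (γ • a = y) := by
    rw [eq_inv_smul_iff]
  simp only [this]

theorem ac_shv (γ : Γ) (v : Y →₀ ℕ) (t : W Y) : ac γ (shv v t) = shv (vac γ v) (ac γ t) := by
  cases t with
  | nil => rfl
  | cons p t => simp [shv, vac_apply]

theorem ac_append (γ : Γ) (w t : W Y) : ac γ (w ++ t) = ac γ w ++ ac γ t := by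
  simp [ac]

theorem ac_nf (γ : Γ) (w : W Y) (v : Y →₀ ℕ) (γ0 : Γ) :
    ac γ ∘ nf w v γ0 = nf (ac γ w) (vac γ v) (γ * γ0) := by
  funext t
  simp only [nf, Function.comp_apply, ac_append, ac_shv, ac_mul]

theorem nf_ac (w : W Y) (v : Y →₀ ℕ) (γ0 δ : Γ) : nf w v γ0 ∘ ac δ = nf w v (γ0 * δ) := by
  funext t
  simp only [nf, Function.comp_apply, ac_mul]

/-- `γ` preserves `m` up to a label -/
def Cd (γ : Γ) (m : W Y → W Y) : Prop := ∃ δ : Γ, ac γ ∘ m = m ∘ ac δ

theorem cd_nf [FaithfulSMul Γ Y] {γ : Γ} {w : W Y} {v : Y →₀ ℕ} {γ0 : Γ} :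
    Cd γ (nf w v γ0) ↔ ac γ w = w ∧ vac γ v = v := by
  constructor
  · rintro ⟨δ, h⟩
    rw [ac_nf, nf_ac] at h
    obtain ⟨h1, h2, -⟩ := nf_inj h
    exact ⟨h1, h2⟩
  · rintro ⟨h1, h2⟩
    refine ⟨γ0⁻¹ * γ * γ0, ?_⟩
    rw [ac_nf, nf_ac, h1, h2]
    congr 1
    group

theorem cd_lab {γ : Γ} {f : W Y → W Y} {γ0 : Γ} : Cd γ (f ∘ ac γ0) ↔ Cd γ f := by
  constructor
  · rintro ⟨δ, h⟩
    refine ⟨γ0 * δ * γ0⁻¹, ?_⟩
    have h2 : (ac γ ∘ f ∘ ac γ0) ∘ ac γ0⁻¹ = ((f ∘ ac γ0) ∘ ac δ) ∘ ac γ0⁻¹ := by rw [h]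
    have h3 : ((ac γ ∘ f ∘ ac γ0) ∘ ac γ0⁻¹ : W Y → W Y) = ac γ ∘ f ∘ (ac γ0 ∘ ac γ0⁻¹) := rfl
    rw [h3, ac_comp_inv] at h2
    rw [ac_mul, ac_mul]
    exact h2
  · rintro ⟨δ, h⟩
    refine ⟨γ0⁻¹ * δ * γ0, ?_⟩
    rw [← Function.comp_assoc, h, ac_mul, ac_mul]
    have : ((f ∘ ac γ0) ∘ (ac γ0⁻¹ ∘ ac δ) ∘ ac γ0 : W Y → W Y) =
      f ∘ (ac γ0 ∘ ac γ0⁻¹) ∘ ac δ ∘ ac γ0 := rfl
    rw [this, ac_comp_inv]
    rfl

theorem cd_split [FaithfulSMul Γ Y] {f : W Y → W Y} (hf : M Γ f) (y : Y) :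
    ∃ a : Y, ∀ γ : Γ, (Cd γ (f ∘ sh y) ∧ Cd γ (f ∘ ch y)) ↔ (Cd γ f ∧ γ • a = a) := by
  obtain ⟨w, v, γ0, rfl⟩ := hf.m0.nf
  refine ⟨γ0 • y, fun γ => ?_⟩
  have h1 : nf w v γ0 ∘ ch y = nf (w ++ [(γ0 • y, v (γ0 • y))]) 0 γ0 := by
    have := nf_ch w v γ0 y 1
    rw [mul_one, ac_one] at this
    exact this
  rw [nf_sh, h1, cd_nf, cd_nf, cd_nf, vac_add, ac_append]
  constructor
  · rintro ⟨⟨h2, h3⟩, h4, -⟩
    rw [h2] at h4
    have h5 : γ • γ0 • y = γ0 • y := by
      have := List.append_cancel_left h4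
      simp only [ac_cons, ac_nil, List.cons.injEq, Prod.mk.injEq] at this
      exact this.1.1
    rw [h5] at h3
    exact ⟨⟨h2, add_right_cancel h3⟩, h5⟩
  · rintro ⟨⟨h2, h3⟩, h4⟩
    refine ⟨⟨h2, by rw [h3, h4]⟩, ?_, ?_⟩
    · rw [h2]
      simp [h4]
    · ext z
      simp [vac_apply]

theorem cut_cd [FaithfulSMul Γ Y] {K : List (W Y → W Y)} (h : Cut Γ K) :
    ∃ F : Finset Y, ∀ γ : Γ, (∀ m ∈ K, Cd γ m) ↔ ∀ a ∈ F, γ • a = a := by
  induction h with
  | one =>
    refine ⟨∅, fun γ => ⟨fun _ => by simp, fun _ m hm => ?_⟩⟩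
    simp only [List.mem_singleton] at hm
    subst hm
    exact ⟨γ, rfl⟩
  | split y f L hL ih =>
    obtain ⟨F, hF⟩ := ih
    obtain ⟨a, ha⟩ := cd_split (hL.mem_M f (by simp)) y
    refine ⟨insert a F, fun γ => ?_⟩
    rw [List.forall_mem_cons, List.forall_mem_cons, ← and_assoc, ha, Finset.forall_mem_insert,
      ← hF, List.forall_mem_cons]
    tauto
  | perm _ hp ih =>
    obtain ⟨F, hF⟩ := ih
    refine ⟨F, fun γ => ?_⟩
    rw [← hF]
    exact ⟨fun h m hm => h m (hp.mem_iff.1 hm), fun h m hm => h m (hp.mem_iff.2 hm)⟩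
  | label γ0 f L _ ih =>
    obtain ⟨F, hF⟩ := ih
    refine ⟨F, fun γ => ?_⟩
    rw [← hF, List.forall_mem_cons, List.forall_mem_cons, cd_lab]

/-! ### ordered marked partitions -/

theorem Dj.lab {f g f' g' : W Y → W Y} (h : Dj f g) (hf : Lab Γ f f') (hg : Lab Γ g g') :
    Dj f' g' := by
  obtain ⟨γ, rfl⟩ := hf
  obtain ⟨δ, rfl⟩ := hg
  exact fun u v e => h _ _ e

theorem lab_of_cls {f g : W Y → W Y} (h : cls Γ f = cls Γ g) : Lab Γ f g := cls_eq.1 h

theorem IsOP.dj {x : List (Cls Γ Y)} (h : IsOP x) :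
    x.Pairwise (fun a b => Dj (rep a) (rep b)) := by
  obtain ⟨g, L, hL, rfl⟩ := h
  rw [smul_list, List.pairwise_map, List.pairwise_map]
  refine hL.dj.imp ?_
  intro a b hab
  have h1 : Dj ((g.1 : W Y → W Y) ∘ a) ((g.1 : W Y → W Y) ∘ b) :=
    fun u v e => hab u v (g.1.injective e)
  refine h1.lab (Γ := Γ) (lab_of_cls ?_) (lab_of_cls ?_)
  · rw [cls_rep, smul_cls]
  · rw [cls_rep, smul_cls]

theorem IsOP.cov {x : List (Cls Γ Y)} (h : IsOP x) (u : W Y) : ∃ b ∈ x, ∃ v, rep b v = u := by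
  obtain ⟨g, L, hL, rfl⟩ := h
  obtain ⟨f, hf, v, hv⟩ := hL.cover (g.1.symm u)
  refine ⟨g • cls Γ f, List.mem_map.2 ⟨_, List.mem_map.2 ⟨f, hf, rfl⟩, rfl⟩, ?_⟩
  have h1 : Lab Γ ((g.1 : W Y → W Y) ∘ f) (rep (g • cls Γ f)) :=
    lab_of_cls (by rw [cls_rep, smul_cls])
  obtain ⟨γ, hγ⟩ := h1
  obtain ⟨v', rfl⟩ := ac_surj γ v
  refine ⟨v', ?_⟩
  rw [hγ]
  simp only [Function.comp_apply, hv, Equiv.apply_symm_apply]

/-- the local condition at a chart `f` -/
def Loc (x : List (Cls Γ Y)) (f : W Y → W Y) (γ : Γ) : Prop :=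
  ∀ m, M Γ m → cls Γ (f ∘ m) ∈ x → Cd γ m

theorem loc_fin [FaithfulSMul Γ Y] {x0 x : List (Cls Γ Y)} (hx0 : IsOP x0) (hx : IsOP x)
    (hle : ole x0 x) {f : W Y → W Y} (hf : cls Γ f ∈ x0) (hfi : Function.Injective f) :
    ∃ F : Finset Y, ∀ γ : Γ, Loc x f γ ↔ ∀ a ∈ F, γ • a = a := by
  have hch : ∀ b : Cls Γ Y, ∃ m : W Y → W Y, cle (cls Γ f) b → M Γ m ∧ cls Γ (f ∘ m) = b := by
    intro b
    by_cases h : cle (cls Γ f) b
    · obtain ⟨m, hm, e⟩ := cle_iff.1 h
      exact ⟨m, fun _ => ⟨hm, e⟩⟩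
    · exact ⟨id, fun h' => absurd h' h⟩
  choose μ hμ using hch
  set K : List (W Y → W Y) := (x.filter (fun b => cle (cls Γ f) b)).map μ with hK
  have hmem : ∀ {b}, b ∈ x.filter (fun b => cle (cls Γ f) b) → b ∈ x ∧ cle (cls Γ f) b := by
    intro b hb
    rw [List.mem_filter] at hb
    exact ⟨hb.1, by simpa using hb.2⟩
  have hlab : ∀ {b}, cle (cls Γ f) b → Lab Γ (rep b) (f ∘ μ b) := by
    intro b hb
    exact lab_of_cls (by rw [cls_rep, (hμ b hb).2])
  have hcut : Cut Γ K := by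
    refine cut_of_part _ _ rfl ?_ ?_ ?_
    · intro m hm
      obtain ⟨b, hb, rfl⟩ := List.mem_map.1 hm
      exact (hμ b (hmem hb).2).1
    · rw [hK, List.pairwise_map]
      have h1 := hx.dj.filter (fun b => decide (cle (cls Γ f) b))
      refine (List.Pairwise.and_mem.1 h1).imp ?_
      rintro a b ⟨ha, hb, hab⟩ u v e
      have h2 := hab.lab (hlab (hmem ha).2) (hlab (hmem hb).2)
      exact h2 u v (congrArg f e)
    · intro u
      obtain ⟨b, hb, v, hv⟩ := hx.cov (f u)
      obtain ⟨a, ha, hab⟩ := hle b hb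
      -- `a = cls f`
      have hac : a = cls Γ f := by
        by_contra hne
        have h1 : Dj (rep a) (rep (cls Γ f)) := by
          have : Std.Symm (fun a b : Cls Γ Y => Dj (rep a) (rep b)) := ⟨fun _ _ h => h.symm⟩
          exact hx0.dj.forall ha hf hne
        obtain ⟨m, hm, e⟩ := cle_iff.1 (show cle (cls Γ (rep a)) b by rwa [cls_rep])
        obtain ⟨γ, hγ⟩ : Lab Γ (rep a ∘ m) (rep b) := lab_of_cls (by rw [cls_rep, e])
        obtain ⟨δ, hδ⟩ : Lab Γ (rep (cls Γ f)) f := lab_of_cls (by rw [cls_rep])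
        rw [hγ, hδ] at hv
        exact h1 _ _ hv
      subst hac
      obtain ⟨γ, hγ⟩ := (hlab hab).symm
      rw [hγ] at hv
      refine ⟨μ b, ?_, ac γ v, hfi hv⟩
      rw [hK, List.mem_map]
      refine ⟨b, ?_, rfl⟩
      rw [List.mem_filter]
      exact ⟨hb, by simpa using hab⟩
  obtain ⟨F, hF⟩ := cut_cd hcut
  refine ⟨F, fun γ => ?_⟩
  rw [← hF]
  constructor
  · intro h m hm
    obtain ⟨b, hb, rfl⟩ := List.mem_map.1 hm
    refine h _ (hμ b (hmem hb).2).1 ?_
    rw [(hμ b (hmem hb).2).2]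
    exact (hmem hb).1
  · intro h m hm hx'
    have hc : cle (cls Γ f) (cls Γ (f ∘ m)) := cle_iff.2 ⟨m, hm, rfl⟩
    have h1 : μ (cls Γ (f ∘ m)) ∈ K := by
      rw [hK, List.mem_map]
      refine ⟨_, ?_, rfl⟩
      rw [List.mem_filter]
      exact ⟨hx', by simpa using hc⟩
    obtain ⟨δ, hδ⟩ := lab_of_cls (hμ _ hc).2
    have h2 : m = μ (cls Γ (f ∘ m)) ∘ ac δ := by
      funext u
      exact hfi (congrFun hδ u)
    have h3 := h _ h1
    rw [h2]
    exact cd_lab.2 h3

theorem fix_iff {g : QG Γ Y} {x : List (Cls Γ Y)} : g • x = x ↔ ∀ b ∈ x, g • b = b := by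
  rw [smul_list]
  constructor
  · intro h b hb
    have h1 : x.map (g • ·) = x.map id := by rw [List.map_id]; exact h
    exact List.map_inj_left.1 h1 b hb
  · intro h
    conv_rhs => rw [← List.map_id x]
    exact List.map_inj_left.2 h

theorem ac_injective [FaithfulSMul Γ Y] {γ δ : Γ} (h : (ac γ : W Y → W Y) = ac δ) : γ = δ := by
  apply FaithfulSMul.eq_of_smul_eq_smul (α := Y)
  intro y
  have := congrFun h [(y, 0)]
  simpa using this

theorem exists_tup (F : Finset Y) : ∃ (n : ℕ) (x : Fin n → Y), Function.Injective x ∧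
    ∀ γ : Γ, (∀ a ∈ F, γ • a = a) ↔ γ ∈ Hot.tupStab x := by
  refine ⟨F.card, fun i => (F.equivFin.symm i : Y),
    Subtype.val_injective.comp F.equivFin.symm.injective, fun γ => ?_⟩
  rw [Hot.mem_tupStab]
  constructor
  · intro h i
    exact h _ (F.equivFin.symm i).2
  · intro h a ha
    have := h (F.equivFin ⟨a, ha⟩)
    simpa using this

/-- **P8**: stabilisers of decreasing lists are powers of `Γ` -/
theorem stabIso [FaithfulSMul Γ Y]
    (hst : ∀ (n : ℕ) (x : Fin n → Y), Function.Injective x →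
      Nonempty (Γ ≃* (Hot.tupStab x : Subgroup Γ))) : StabIso Γ Y := by
  intro t ht hdec hOP S hS
  -- the coarsest element
  set x0 := t.getLast ht with hx0def
  have hx0t : x0 ∈ t := List.getLast_mem ht
  have hx0 : IsOP x0 := hOP _ hx0t
  have hle : ∀ x ∈ t, ole x0 x := by
    intro x hx
    have e : t.dropLast ++ [x0] = t := List.dropLast_append_getLast ht
    rw [← e, List.pairwise_append] at hdec
    rw [← e, List.mem_append, List.mem_singleton] at hx
    rcases hx with hx | rfl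
    · exact hdec.2.2 x hx x0 (by simp)
    · exact ole_refl _
  obtain ⟨g0, L, hL, e0⟩ := id hx0
  -- charts
  obtain ⟨f, hf⟩ : ∃ f : Fin L.length → W Y → W Y,
    f = fun i => (g0.1 : W Y → W Y) ∘ L.get i := ⟨_, rfl⟩
  have hfinj : ∀ i, Function.Injective (f i) := by
    intro i
    rw [hf]
    exact g0.1.injective.comp (hL.mem_M _ (List.get_mem _ _)).inj
  have hfx0 : ∀ i, cls Γ (f i) ∈ x0 := by
    intro i
    rw [e0, smul_list, hf]
    exact List.mem_map.2 ⟨cls Γ (L.get i), List.mem_map.2 ⟨_, List.get_mem _ _, rfl⟩, rfl⟩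
  have hfx0' : ∀ a ∈ x0, ∃ i, a = cls Γ (f i) := by
    intro a ha
    rw [e0, smul_list] at ha
    obtain ⟨b, hb, rfl⟩ := List.mem_map.1 ha
    obtain ⟨l, hl, rfl⟩ := List.mem_map.1 hb
    obtain ⟨i, rfl⟩ := List.get_of_mem hl
    exact ⟨i, by rw [hf]; rfl⟩
  have hfcov : ∀ u, ∃ i v, f i v = u := by
    intro u
    obtain ⟨l, hl, v, hv⟩ := hL.cover (g0.1.symm u)
    obtain ⟨i, rfl⟩ := List.get_of_mem hl
    refine ⟨i, v, ?_⟩
    rw [hf]
    simp only [Function.comp_apply, hv, Equiv.apply_symm_apply]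
  -- the local groups
  have hloc : ∀ i, ∃ F : Finset Y, ∀ γ : Γ, (∀ x ∈ t, Loc x (f i) γ) ↔ ∀ a ∈ F, γ • a = a := by
    intro i
    have h1 : ∀ x, ∃ F : Finset Y, x ∈ t → ∀ γ : Γ, Loc x (f i) γ ↔ ∀ a ∈ F, γ • a = a := by
      intro x
      by_cases hx : x ∈ t
      · obtain ⟨F, hF⟩ := loc_fin hx0 (hOP x hx) (hle x hx) (hfx0 i) (hfinj i)
        exact ⟨F, fun _ => hF⟩
      · exact ⟨∅, fun h => absurd h hx⟩
    choose F hF using h1
    refine ⟨t.toFinset.biUnion F, fun γ => ?_⟩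
    simp only [Finset.mem_biUnion, List.mem_toFinset]
    constructor
    · rintro h a ⟨x, hx, ha⟩
      exact (hF x hx γ).1 (h x hx) a ha
    · intro h x hx
      exact (hF x hx γ).2 (fun a ha => h a ⟨x, hx, ha⟩)
  have hloc2 : ∀ i, ∃ (n : ℕ) (x : Fin n → Y), Function.Injective x ∧
      ∀ γ : Γ, (∀ x ∈ t, Loc x (f i) γ) ↔ γ ∈ Hot.tupStab x := by
    intro i
    obtain ⟨F, hF⟩ := hloc i
    obtain ⟨n, x, hx, h⟩ := exists_tup (Γ := Γ) F
    exact ⟨n, x, hx, fun γ => (hF γ).trans (h γ)⟩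
  choose n tup htup hmem using hloc2
  -- description of the stabiliser
  have key1 : ∀ g ∈ S, ∀ i, ∃ γ : Γ, (g.1 : W Y → W Y) ∘ f i = f i ∘ ac γ ∧
      γ ∈ Hot.tupStab (tup i) := by
    intro g hg i
    have h1 := fix_iff.1 ((hS g).1 hg x0 hx0t) _ (hfx0 i)
    rw [smul_cls] at h1
    obtain ⟨γ, hγ⟩ := lab_of_cls h1.symm
    refine ⟨γ, hγ, ?_⟩
    rw [← hmem]
    intro x hx m hm hmx
    have h2 := fix_iff.1 ((hS g).1 hg x hx) _ hmx
    rw [smul_cls] at h2
    obtain ⟨δ, hδ⟩ := lab_of_cls h2.symm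
    refine ⟨δ, ?_⟩
    funext u
    apply hfinj i
    have h3 := congrFun hδ u
    have h4 := congrFun hγ (m u)
    simp only [Function.comp_apply] at h3 h4 ⊢
    rw [← h4, h3]
  have key2 : ∀ γ : Fin L.length → Γ, (∀ i, γ i ∈ Hot.tupStab (tup i)) →
      ∃ g ∈ S, ∀ i, (g.1 : W Y → W Y) ∘ f i = f i ∘ ac (γ i) := by
    intro γ hγ
    have hL2 : List.Forall₂ (Lab Γ) L
        (List.ofFn fun i : Fin L.length => L.get i ∘ ac (γ i)) := by
      rw [List.forall₂_iff_get]
      refine ⟨by simp, ?_⟩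
      intro k h1 h2
      refine ⟨γ ⟨k, h1⟩, ?_⟩
      simp
    have hL' : Cut Γ (List.ofFn fun i : Fin L.length => L.get i ∘ ac (γ i)) :=
      Cut.of_f2 hL2 [] hL
    obtain ⟨h, hh, e⟩ := exists_mk hL hL' (by simp)
    have e2 : ∀ i : Fin L.length, (h : W Y → W Y) ∘ L.get i = L.get i ∘ ac (γ i) := by
      intro i
      have h1 : (List.ofFn fun i : Fin L.length => L.get i ∘ ac (γ i))[i.1]'(by simp) =
          (L.map (fun f => (h : W Y → W Y) ∘ f))[i.1]'(by simp) := by
        simp only [e]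
      simp only [List.getElem_ofFn, List.getElem_map] at h1
      exact h1.symm
    have e3 : ∀ i, ((g0 * ⟨h, hh⟩ * g0⁻¹ : QG Γ Y).1 : W Y → W Y) ∘ f i = f i ∘ ac (γ i) := by
      intro i
      funext u
      have h1 := congrFun (e2 i) u
      simp only [Function.comp_apply] at h1
      have h4 : ∀ z, (g0.1)⁻¹ (g0.1 z) = z := fun z => g0.1.symm_apply_apply z
      simp only [hf, Function.comp_apply, Subgroup.coe_mul, Subgroup.coe_inv, Equiv.Perm.mul_apply,
        ← h1, h4]
    refine ⟨g0 * ⟨h, hh⟩ * g0⁻¹, ?_, e3⟩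
    rw [hS]
    intro x hx
    rw [fix_iff]
    intro b hb
    obtain ⟨a, ha, hab⟩ := hle x hx b hb
    obtain ⟨i, rfl⟩ := hfx0' a ha
    obtain ⟨m, hm, rfl⟩ := cle_iff.1 hab
    obtain ⟨δ, hδ⟩ := (hmem i (γ i)).2 (hγ i) x hx m hm hb
    rw [smul_cls, ← Function.comp_assoc, e3, Function.comp_assoc, hδ, ← Function.comp_assoc, cls_ac]
  -- the isomorphism
  have uniq : ∀ i {γ δ : Γ}, f i ∘ ac γ = f i ∘ ac δ → γ = δ := by
    intro i γ δ h
    apply ac_injective (Y := Y)
    funext u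
    exact hfinj i (congrFun h u)
  choose! γ hγ1 hγ2 using key1
  let θ : S →* ∀ i : Fin L.length, Hot.tupStab (tup i) := MonoidHom.mk'
    (fun g i => ⟨γ g.1 i, hγ2 g.1 g.2 i⟩) (by
      intro a b
      funext i
      apply Subtype.ext
      apply uniq i
      change f i ∘ ac (γ (a * b).1 i) = f i ∘ ac (γ a.1 i * γ b.1 i)
      rw [← hγ1 _ (a * b).2 i, ac_mul, ← Function.comp_assoc, ← hγ1 _ a.2 i]
      change ((a.1.1 : W Y → W Y) ∘ (b.1.1 : W Y → W Y)) ∘ f i = _
      rw [Function.comp_assoc, hγ1 _ b.2 i]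
      rfl)
  have hbij : Function.Bijective θ := by
    constructor
    · rw [injective_iff_map_eq_one]
      intro g hg
      apply Subtype.ext
      apply Subtype.ext
      apply Equiv.ext
      intro u
      obtain ⟨i, v, rfl⟩ := hfcov u
      have h1 : γ g.1 i = 1 := congrArg Subtype.val (congrFun hg i)
      have h2 := congrFun (hγ1 _ g.2 i) v
      rw [h1, ac_one] at h2
      exact h2
    · intro δ
      obtain ⟨g, hg, e⟩ := key2 (fun i => (δ i).1) (fun i => (δ i).2)
      refine ⟨⟨g, hg⟩, ?_⟩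
      funext i
      apply Subtype.ext
      apply uniq i
      change f i ∘ ac (γ g i) = _
      rw [← hγ1 g hg i, e i]
  refine ⟨L.length, ⟨(MulEquiv.ofBijective θ hbij).trans
    (MulEquiv.piCongrRight fun i => (hst (n i) (tup i) (htup i)).some.symm)⟩⟩

end Crest.Agent.R185.Q
end

-- ▼ part R185/Fin2
section

/-!
# R185 / FINAL (2): the group `Γ` of a core is finitely presented and null in all degrees, and so
are all its tuple stabilisers
-/

set_option autoImplicit false

namespace Crest.Agent.R185.Fin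

open Crest.Agent.R185.Null Crest.Agent.R185.Wu Crest.Agent.R185.Hot


/-- the torus of an endomorphism factoring through a finitely presented group and having a rook
certificate is null in all degrees -/
theorem torus_null' {H E : Type} [Group H] [Group E] (hE : Group.IsFinitelyPresented E)
    (φ : H →* H) (hφ : Function.Injective φ) (i : H →* E) (q : E →* H) (hqi : ∀ h, q (i h) = φ h)
    (R : Rook H H) (hR : R.β = φ) (n : ℕ) : IsNull (MonoidHom.id (GT φ)) n := by
  obtain ⟨ht, hT⟩ := exists_isTorus hφ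
  have h0 : IsNull φ 0 := by
    have h1 := ((null0 hE).comp q).precomp i
    have h2 : (q.comp (MonoidHom.id E)).comp i = φ := by
      ext x; exact hqi x
    rwa [h2] at h1
  have hpow : ∀ n, ∃ N : ℕ, IsNull (ipow φ N) n := by
    apply exists_pow_null' _ h0
    intro n hn α hα
    have := R.null hα hn
    rwa [hR] at this
  exact torus_null (gi φ) hT.inj (gt φ) φ hT.conj ht hT.height_ι hT.height_t hT.form hpow n

theorem core_null {G : Type} [Group G] (C : Core G) (n : ℕ) : IsNull (MonoidHom.id C.Γ) n :=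
  torus_null' C.fpE C.φ C.hotel.φ_inj C.i₁ C.pr (fun _ => rfl) C.rook rfl n



end Crest.Agent.R185.Fin
end

-- ▼ part R185/Fin3
section

/-!
# R185 / FINAL (3): from a core to S0277 and S0278 (helper958)

`Q` is the group `QG Γ X` of helper424 over the hotel `(Γ, X)` of a core.
-/

set_option autoImplicit false

namespace Crest.Agent.R185.Fin

open Crest.Agent.R185.Null Crest.Agent.R185.Wu Crest.Agent.R185.Hot Crest.Agent.R185.Q

section ht

variable {Γ X : Type} [Group Γ] [MulAction Γ X]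

theorem isHT_pretransitive (h : IsHT Γ X) : MulAction.IsPretransitive Γ X := by
  constructor
  intro x y
  obtain ⟨γ, hγ⟩ := h.trans 1 (fun _ => x) (fun _ => y)
    (fun i j _ => Subsingleton.elim _ _) (fun i j _ => Subsingleton.elim _ _)
  exact ⟨γ, hγ 0⟩

theorem isHT_faithful (h : IsHT Γ X) : FaithfulSMul Γ X := by
  constructor
  intro a b hab
  have := h.faithful (b⁻¹ * a) (fun x => by rw [mul_smul, hab, inv_smul_smul])
  rw [inv_mul_eq_one] at this
  exact this.symm

theorem isHT_nonempty (h : IsHT Γ X) : Nonempty X := by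
  have := h.inf
  infer_instance

/-- the point stabilisers generate -/
theorem isHT_closure (h : IsHT Γ X) :
    Subgroup.closure (⋃ y : X, (MulAction.stabilizer Γ y : Set Γ)) = ⊤ := by
  classical
  have hinf := h.inf
  rw [eq_top_iff]
  intro γ hγ
  clear hγ
  obtain ⟨y⟩ := isHT_nonempty h
  have hst : ∀ (x : X) (δ : Γ), δ • x = x →
      δ ∈ Subgroup.closure (⋃ y : X, (MulAction.stabilizer Γ y : Set Γ)) := by
    intro x δ hδ
    exact Subgroup.subset_closure (Set.mem_iUnion.2 ⟨x, hδ⟩)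
  by_cases hy : γ • y = y
  · exact hst y γ hy
  · obtain ⟨w, hw⟩ := Infinite.exists_notMem_finset ({y, γ • y} : Finset X)
    rw [Finset.mem_insert, Finset.mem_singleton, not_or] at hw
    obtain ⟨δ, hδ⟩ := h.trans 2 ![w, y] ![w, γ • y] (by
      intro i j hij
      fin_cases i <;> fin_cases j <;> simp_all) (by
      intro i j hij
      fin_cases i <;> fin_cases j <;> simp_all)
    have h0 : δ • w = w := by simpa using hδ 0
    have h1 : δ • y = γ • y := by simpa using hδ 1
    have e : γ = δ * (δ⁻¹ * γ) := by group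
    rw [e]
    refine Subgroup.mul_mem _ (hst w δ h0) (hst y _ ?_)
    rw [mul_smul, ← h1, inv_smul_smul]

/-- `Q(Γ, X)` is simple -/
theorem isHT_simple (h : IsHT Γ X) : IsSimpleGroup (QG Γ X) := by
  have := isHT_pretransitive h
  have := isHT_nonempty h
  exact isSimpleGroup_QG (isHT_closure h)

theorem isHT_lab (h : IsHT Γ X) : Function.Injective (labHom Γ X) := by
  have := isHT_faithful h
  exact labHom_injective

end ht

/-- the embedding of `G` into `Q` -/
theorem core_emb {G : Type} [Group G] (C : Core G) :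
    ∃ f : G →* QG C.Γ C.X, Function.Injective f :=
  ⟨(labHom C.Γ C.X).comp C.gΓ, (isHT_lab C.isHT).comp C.gΓ_inj⟩

/-- every group with a core embeds in a finitely presented simple group of type `F∞` -/
theorem of_core {G : Type} [Group G] (C : Core G)
    (hfp : Group.IsFinitelyPresented (QG C.Γ C.X))
    (hnull : ∀ n, IsNull (MonoidHom.id (QG C.Γ C.X)) n) :
    ∃ (S : Type) (_ : Group S) (f : G →* S),
      Group.IsFinitelyPresented S ∧ IsSimpleGroup S ∧
      Crest.Topology.HasFiniteTypeClassifyingComplex S ∧ Function.Injective f := by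
  obtain ⟨f, hf⟩ := core_emb C
  exact ⟨QG C.Γ C.X, inferInstance, f, hfp, isHT_simple C.isHT, finite_type hfp hnull, hf⟩

/-- reduction of the universe and of the generating tuple -/
theorem of_small (P : ∀ (G : Type) [Group G] (k : ℕ) (s : _root_.Fin k → G),
      Subgroup.closure (Set.range s) = ⊤ →
      (ComputablePred fun w : List (_root_.Fin k × Bool) => FreeGroup.lift s (FreeGroup.mk w) = 1) →
      ∃ (S : Type) (_ : Group S) (f : G →* S),
        Group.IsFinitelyPresented S ∧ IsSimpleGroup S ∧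
        Crest.Topology.HasFiniteTypeClassifyingComplex S ∧ Function.Injective f)
    (G : Type*) [Group G] (k : ℕ) (s : _root_.Fin k → G)
    (hgen : Subgroup.closure (Set.range s) = ⊤)
    (hdec : ComputablePred fun w : List (_root_.Fin k × Bool) =>
      FreeGroup.lift s (FreeGroup.mk w) = 1) :
    ∃ (S : Type) (_ : Group S) (f : G →* S),
      Group.IsFinitelyPresented S ∧ IsSimpleGroup S ∧
      Crest.Topology.HasFiniteTypeClassifyingComplex S ∧ Function.Injective f := by
  let L : FreeGroup (_root_.Fin k) →* G := FreeGroup.lift s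
  have hL : Function.Surjective L := by
    rw [← MonoidHom.range_eq_top, eq_top_iff, ← hgen, Subgroup.closure_le]
    rintro _ ⟨i, rfl⟩
    exact ⟨FreeGroup.of i, by simp [L]⟩
  let e : (FreeGroup (_root_.Fin k) ⧸ L.ker) ≃* G := QuotientGroup.quotientKerEquivOfSurjective L hL
  have he : ∀ x, e (QuotientGroup.mk x) = L x := fun x => rfl
  let s' : _root_.Fin k → FreeGroup (_root_.Fin k) ⧸ L.ker :=
    fun i => QuotientGroup.mk (FreeGroup.of i)
  have hs' : ∀ x, FreeGroup.lift s' x = QuotientGroup.mk x := by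
    intro x
    have : FreeGroup.lift s' = QuotientGroup.mk' L.ker := by
      apply FreeGroup.ext_hom
      intro i
      simp [s']
    rw [this]; rfl
  obtain ⟨S, _, f, h1, h2, h3, h4⟩ := P (FreeGroup (_root_.Fin k) ⧸ L.ker) k s' (by
      rw [eq_top_iff]
      intro x hx
      clear hx
      obtain ⟨x, rfl⟩ := QuotientGroup.mk_surjective x
      have hx : x ∈ Subgroup.closure (Set.range (FreeGroup.of : _root_.Fin k → _)) := by
        rw [FreeGroup.closure_range_of]; trivial
      have := Subgroup.mem_map_of_mem (QuotientGroup.mk' L.ker) hx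
      rw [MonoidHom.map_closure] at this
      refine Subgroup.closure_mono ?_ this
      rintro _ ⟨_, ⟨i, rfl⟩, rfl⟩
      exact ⟨i, rfl⟩) (by
      refine hdec.of_eq ?_
      intro w
      rw [hs']
      change L (FreeGroup.mk w) = 1 ↔ _
      rw [← he, MulEquivClass.map_eq_one_iff])
  exact ⟨S, inferInstance, f.comp e.symm.toMonoidHom, h1, h2, h3, h4.comp e.symm.injective⟩

end Crest.Agent.R185.Fin
end

-- ▼ part R185/QFinal
section

/-!
# Row 185 (Q2): `Q(Γ,Y)` is simple, finitely presented and null in all degrees (helper424)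
-/

set_option autoImplicit false

namespace Crest.Agent.R185.Q

open Crest.Agent.R185.Null

variable {Γ Y : Type} [Group Γ] [MulAction Γ Y]

theorem isHT_fp (h : Hot.IsHT Γ Y) (hfp : Group.IsFinitelyPresented Γ) :
    Group.IsFinitelyPresented (QG Γ Y) := by
  have := Fin.isHT_faithful h
  have := Fin.isHT_nonempty h
  exact fp_QG (finOrb h.inf h.trans) (stabIso h.stab) hfp

theorem isHT_null (h : Hot.IsHT Γ Y) (hn : ∀ n, IsNull (MonoidHom.id Γ) n) :
    ∀ n, IsNull (MonoidHom.id (QG Γ Y)) n := by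
  have := Fin.isHT_faithful h
  have := Fin.isHT_nonempty h
  exact null_QG (finOrb h.inf h.trans) (stabIso h.stab) hn

end Crest.Agent.R185.Q
end

-- ▼ part R185/Fin4
section

/-!
# Row 185: S0277 and S0278 from the existence of a core (helper424)
-/

set_option autoImplicit false

namespace Crest.Agent.R185.Fin

open Crest.Agent.R185.Null Crest.Agent.R185.Hot Crest.Agent.R185.Q

/-- `Q` over the hotel of a core: f.p., simple, finite type, contains `G` -/
theorem of_core' {G : Type} [Group G] (C : Core G) :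
    ∃ (S : Type) (_ : Group S) (f : G →* S),
      Group.IsFinitelyPresented S ∧ IsSimpleGroup S ∧
      Crest.Topology.HasFiniteTypeClassifyingComplex S ∧ Function.Injective f :=
  of_core C (isHT_fp C.isHT C.fp) (isHT_null C.isHT (core_null C))


end Crest.Agent.R185.Fin
end

-- ▼ part R185/Asm6

/-!
# R185 / ASSEMBLY (6): the final statement from H1, H2, H3 (helper958)

The core is built for `G × Multiplicative ℤ` with the generators `(s i, 1)` and `(1, 1)`.
-/

set_option autoImplicit false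
set_option linter.unusedSectionVars false

namespace Crest.Agent.R185.Asm

open Crest.Agent.R185.Wu Crest.Agent.R185.Hot Crest.Agent.R185.Smp
open Crest.Agent.R185.Clk (UM PConn)

section gens

variable {G : Type} [Group G] {k : ℕ} (s : Fin k → G)

/-- the generators of `G × ℤ` -/
def e1 : Option (Fin k) → G × Multiplicative ℤ
  | none => (1, Multiplicative.ofAdd 1)
  | some i => (s i, 1)

/-- the height -/
def ht1 (g : G × Multiplicative ℤ) : ℤ := Multiplicative.toAdd g.2

theorem height_e1 : Height (e1 s) (ht1 (G := G)) none where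
  lip := by
    rintro (_ | i) ⟨g, n⟩
    · simp [e1, ht1]
    · simp [e1, ht1]
  up := by
    rintro ⟨g, n⟩
    simp [e1, ht1, add_comm]
  one := rfl

theorem closure_e1 (hs : Subgroup.closure (Set.range s) = ⊤) :
    Subgroup.closure (Set.range (e1 s)) = ⊤ := by
  rw [eq_top_iff]
  rintro ⟨g, n⟩ -
  have h1 : ((g, 1) : G × Multiplicative ℤ) ∈ Subgroup.closure (Set.range (e1 s)) := by
    have hg : g ∈ Subgroup.closure (Set.range s) := by rw [hs]; trivial
    have := Subgroup.mem_map_of_mem (MonoidHom.inl G (Multiplicative ℤ)) hg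
    rw [MonoidHom.map_closure] at this
    refine Subgroup.closure_mono ?_ this
    rintro _ ⟨_, ⟨i, rfl⟩, rfl⟩
    exact ⟨some i, rfl⟩
  have h2 : ((1, n) : G × Multiplicative ℤ) ∈ Subgroup.closure (Set.range (e1 s)) := by
    have h3 : ((1, Multiplicative.ofAdd 1) : G × Multiplicative ℤ) ∈
        Subgroup.closure (Set.range (e1 s)) := Subgroup.subset_closure ⟨none, rfl⟩
    have h4 := Subgroup.zpow_mem _ h3 (Multiplicative.toAdd n)
    have h5 : ((1, Multiplicative.ofAdd 1) : G × Multiplicative ℤ) ^ (Multiplicative.toAdd n) =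
        (1, n) := by
      ext
      · simp
      · simp [← ofAdd_zsmul]
    rwa [h5] at h4
  have h := Subgroup.mul_mem _ h1 h2
  simpa using h

/-- the letters of `G` -/
def g1 (x : Option (Fin k) × Bool) : Option (Fin k × Bool) := x.1.map fun i => (i, x.2)

/-- the positive letters of `ℤ` -/
def g2 (x : Option (Fin k) × Bool) : Option Unit := if x = (none, true) then some () else none

/-- the negative letters of `ℤ` -/
def g3 (x : Option (Fin k) × Bool) : Option Unit := if x = (none, false) then some () else none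

theorem lift_e1 (w : List (Option (Fin k) × Bool)) :
    FreeGroup.lift (e1 s) (FreeGroup.mk w) = (FreeGroup.lift s (FreeGroup.mk (w.filterMap g1)),
      Multiplicative.ofAdd (((w.filterMap g2).length : ℤ) - ((w.filterMap g3).length : ℤ))) := by
  induction w with
  | nil => simp [← FreeGroup.one_eq_mk]; rfl
  | cons x w ih =>
    have h1 : (FreeGroup.mk (x :: w) : FreeGroup (Option (Fin k))) =
        FreeGroup.mk [x] * FreeGroup.mk w := by rw [FreeGroup.mul_mk]; rfl
    rw [h1, map_mul, ih]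
    rcases x with ⟨_ | i, _ | _⟩
    · simp only [g1, g2, g3, List.filterMap_cons, FreeGroup.lift_mk, e1]
      ext
      · simp
      · simp
        ring
    · simp only [g1, g2, g3, List.filterMap_cons, FreeGroup.lift_mk, e1]
      ext
      · simp
      · simp
        ring
    · simp only [g1, g2, g3, List.filterMap_cons, FreeGroup.lift_mk, e1]
      ext
      · simp
      · simp
    · simp only [g1, g2, g3, List.filterMap_cons, FreeGroup.lift_mk, e1]
      ext
      · simp
      · simp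

theorem dec_e1 (hdec : ComputablePred fun w : List (Fin k × Bool) =>
      FreeGroup.lift s (FreeGroup.mk w) = 1) :
    ComputablePred fun w : List (Option (Fin k) × Bool) =>
      FreeGroup.lift (e1 s) (FreeGroup.mk w) = 1 := by
  obtain ⟨f, hf, hfe⟩ := ComputablePred.computable_iff.1 hdec
  have c1 : Primrec fun w : List (Option (Fin k) × Bool) => w.filterMap g1 :=
    Primrec.listFilterMap Primrec.id ((Primrec.dom_finite g1).comp Primrec.snd).to₂
  have c2 : Primrec fun w : List (Option (Fin k) × Bool) => (w.filterMap g2).length :=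
    Primrec.list_length.comp
      (Primrec.listFilterMap Primrec.id ((Primrec.dom_finite g2).comp Primrec.snd).to₂)
  have c3 : Primrec fun w : List (Option (Fin k) × Bool) => (w.filterMap g3).length :=
    Primrec.list_length.comp
      (Primrec.listFilterMap Primrec.id ((Primrec.dom_finite g3).comp Primrec.snd).to₂)
  rw [ComputablePred.computable_iff]
  refine ⟨fun w => f (w.filterMap g1) &&
    decide ((w.filterMap g2).length = (w.filterMap g3).length), ?_, ?_⟩
  · have h1 : Computable fun w : List (Option (Fin k) × Bool) => f (w.filterMap g1) :=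
      hf.comp c1.to_comp
    have h2 : Primrec fun w : List (Option (Fin k) × Bool) =>
        decide ((w.filterMap g2).length = (w.filterMap g3).length) :=
      (Primrec.eq.comp c2 c3).decide
    exact (Primrec.and.to_comp).comp h1 h2.to_comp
  · funext w
    apply propext
    rw [lift_e1, Bool.and_eq_true, decide_eq_true_iff, Prod.mk_eq_one]
    have h1 : FreeGroup.lift s (FreeGroup.mk (w.filterMap g1)) = 1 ↔ f (w.filterMap g1) = true :=
      iff_of_eq (congrFun hfe (w.filterMap g1))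
    rw [h1]
    refine and_congr_right fun _ => ?_
    rw [ofAdd_eq_one, sub_eq_zero, Nat.cast_inj]

end gens

/-! ### the obligations -/

/-- H1 and H2, for some modulus `M` -/
def HubOK : Prop := ∀ (U : UM (GdL × Bool)) (G B : Type) [Group G] [Finite B] (eG : B → G)
  (ht : G → ℤ) (t : B), Height eG ht t → ∃ M : ℕ, 0 < M ∧ ∃ β : ℕ → ℕ → ℕ, Computable₂ β ∧
    (∀ e S S' r, Hub.Good (AccU U e) S r → Hub.Good (AccU U e) S' r → Hub.Agr S S' r →
      Hub.Agr (Phi U eG M e S) (Phi U eG M e S') (2 * r + 1)) ∧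
    (∀ e S n ρ b, 1 ≤ n → Hub.Good (AccU U e) S ((n + 2 * ρ) / 2) →
      Hub.TL1 S (n / 2) (ρ / 2) b → Hub.TL1 (Phi U eG M e S) n ρ (β n b))

/-- H3 -/
def LevOK : Prop := ∀ (U : UM (GdL × Bool)) (G B : Type) [Group G] [Finite B] [Primcodable B]
  (eG : B → G), (ComputablePred fun w : List (B × Bool) =>
      FreeGroup.lift eG (FreeGroup.mk w) = 1) → ∀ M : ℕ,
    ComputablePred fun x : ℕ × ℕ × List (GdL × Bool) =>
      FreeGroup.mk x.2.2 ∈ Hub.lev (Phi U eG M) x.1 x.2.1

/-- a core of `G × ℤ` -/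
theorem core_e1 (h12 : HubOK) (h3 : LevOK) {G : Type} [Group G] {k : ℕ} (s : Fin k → G)
    (hgen : Subgroup.closure (Set.range s) = ⊤)
    (hdec : ComputablePred fun w : List (Fin k × Bool) =>
      FreeGroup.lift s (FreeGroup.mk w) = 1) : Nonempty (Core (G × Multiplicative ℤ)) := by
  obtain ⟨U⟩ := Clk.exists_um (GdL × Bool)
  obtain ⟨M, hM, β, hβ, H1, H2⟩ := h12 U (G × Multiplicative ℤ) (Option (Fin k)) (e1 s) ht1 none
    (height_e1 s)
  exact core_of_hub U (e1 s) (closure_e1 s hgen) hM hβ H1 H2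
    (h3 U (G × Multiplicative ℤ) (Option (Fin k)) (e1 s) (dec_e1 s hdec) M)

/-- **the final statement from the obligations** -/
theorem emb_final (h12 : HubOK) (h3 : LevOK) (G : Type*) [Group G] (k : ℕ) (s : Fin k → G)
    (hgen : Subgroup.closure (Set.range s) = ⊤)
    (hdec : ComputablePred fun w : List (Fin k × Bool) =>
      FreeGroup.lift s (FreeGroup.mk w) = 1) :
    ∃ (S : Type) (_ : Group S) (f : G →* S),
      Group.IsFinitelyPresented S ∧ IsSimpleGroup S ∧
      Crest.Topology.HasFiniteTypeClassifyingComplex S ∧ Function.Injective f := by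
  refine Fin.of_small ?_ G k s hgen hdec
  intro G _ k s hgen hdec
  obtain ⟨C⟩ := core_e1 h12 h3 s hgen hdec
  obtain ⟨S, iS, f, h1, h2, h3, h4⟩ := Fin.of_core' C
  exact ⟨S, iS, f.comp (MonoidHom.inl G (Multiplicative ℤ)), h1, h2, h3,
    h4.comp (fun x y h => (Prod.ext_iff.1 h).1)⟩

end Crest.Agent.R185.Asm
private theorem rz_f8aab12e49 : type_of% @_root_.Crest.Agent.R185.Asm.e1.eq_1 := @_root_.Crest.Agent.R185.Asm.e1.eq_1 -- L23
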