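import Mathlib
import Crest.Agent.R185.Hot4

-- ▼ part R185/Smp1
section

/-!
# R185 / SMP (1): graded partial injections

`R : ℕ → Y → Y' → Prop` is a *graded partial injection* (`GPI`) if `R m` preserves equality and
`R (m+1) ≤ R m`.  A pair of maps is a *step* if it sends `R (m+1)` into `R m`.  Two tuples have the
same `n`-type iff they are related by a graded partial injection of depth `n` all letters of which
are steps.
-/

set_option autoImplicit false

namespace Crest.Agent.R185.Smp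

/-- the relation preserves and reflects equality -/
def PI {Y Y' : Type} (r : Y → Y' → Prop) : Prop :=
  ∀ y y' z z', r y y' → r z z' → (y = z ↔ y' = z')

/-- graded partial injection -/
structure GPI {Y Y' : Type} (R : ℕ → Y → Y' → Prop) : Prop where
  inj : ∀ m, PI (R m)
  mono : ∀ {m y y'}, R (m + 1) y y' → R m y y'

/-- a step of a graded relation -/
def Stp {Y Y' : Type} (R : ℕ → Y → Y' → Prop) (f : Y → Y) (f' : Y' → Y') : Prop :=
  ∀ m y y', R (m + 1) y y' → R m (f y) (f' y')

/-- a pair of constants of a graded relation -/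
def Cst {Y Y' : Type} (R : ℕ → Y → Y' → Prop) (c : Y) (c' : Y') : Prop :=
  ∀ m y y', R m y y' → R m c c'

section basics

variable {Y Y' : Type} {R : ℕ → Y → Y' → Prop}

theorem PI.flip {r : Y → Y' → Prop} (h : PI r) : PI (fun y' y => r y y') :=
  fun y y' z z' h1 h2 => (h y' y z' z h1 h2).symm

theorem GPI.flip (h : GPI R) : GPI (fun m y' y => R m y y') :=
  ⟨fun m => (h.inj m).flip, fun h1 => h.mono h1⟩

theorem GPI.mono_le (h : GPI R) {m n : ℕ} (hmn : m ≤ n) {y : Y} {y' : Y'} (h1 : R n y y') :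
    R m y y' := by
  induction hmn with
  | refl => exact h1
  | step _ ih => exact ih (h.mono h1)

theorem Stp.comp {f g : Y → Y} {f' g' : Y' → Y'} (_hf : Stp R f f') (_hg : Stp R g g') :
    ∀ m y y', R (m + 2) y y' → R m (f (g y)) (f' (g' y')) :=
  fun m y y' h1 => _hf m _ _ (_hg (m + 1) _ _ h1)

open Classical in
theorem Stp.swap (h : GPI R) {a b : Y} {a' b' : Y'} (ha : Cst R a a') (hb : Cst R b b') :
    Stp R (Equiv.swap a b) (Equiv.swap a' b') := by
  intro m y y' h1
  have ha1 := ha _ _ _ h1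
  have hb1 := hb _ _ _ h1
  by_cases h2 : y = a
  · have h3 : y' = a' := (h.inj _ _ _ _ _ h1 ha1).1 h2
    rw [h2, h3, Equiv.swap_apply_left, Equiv.swap_apply_left]
    exact h.mono hb1
  · have h3 : y' ≠ a' := fun h3 => h2 ((h.inj _ _ _ _ _ h1 ha1).2 h3)
    by_cases h4 : y = b
    · have h5 : y' = b' := (h.inj _ _ _ _ _ h1 hb1).1 h4
      rw [h4, h5, Equiv.swap_apply_right, Equiv.swap_apply_right]
      exact h.mono ha1
    · have h5 : y' ≠ b' := fun h5 => h4 ((h.inj _ _ _ _ _ h1 hb1).2 h5)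
      rw [Equiv.swap_apply_of_ne_of_ne h2 h4, Equiv.swap_apply_of_ne_of_ne h3 h5]
      exact h.mono h1

theorem Stp.id (h : GPI R) : Stp R (fun y => y) (fun y' => y') := fun _ _ _ h1 => h.mono h1

end basics

/-! ### words -/

section words

variable {A Y Y' : Type}

/-- evaluation of a word of letters -/
def ev (act : A → Y → Y) (w : List A) (y : Y) : Y := w.foldr act y

@[simp] theorem ev_nil (act : A → Y → Y) (y : Y) : ev act [] y = y := rfl

@[simp] theorem ev_cons (act : A → Y → Y) (a : A) (w : List A) (y : Y) :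
    ev act (a :: w) y = act a (ev act w y) := rfl

theorem ev_append (act : A → Y → Y) (u w : List A) (y : Y) :
    ev act (u ++ w) y = ev act u (ev act w y) := by
  unfold ev
  rw [List.foldr_append]

theorem ev_stp {act : A → Y → Y} {act' : A → Y' → Y'} {R : ℕ → Y → Y' → Prop}
    (hs : ∀ a, Stp R (act a) (act' a)) (w : List A) :
    ∀ m y y', R (w.length + m) y y' → R m (ev act w y) (ev act' w y') := by
  induction w with
  | nil => intro m y y' h; simpa using h
  | cons a w ih =>
    intro m y y' h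
    rw [ev_cons, ev_cons]
    apply hs a
    apply ih
    convert h using 1
    simp [add_comm, add_left_comm]

/-- the letters have inverses -/
structure Inv (act : A → Y → Y) (ia : A → A) : Prop where
  left : ∀ a y, act (ia a) (act a y) = y
  right : ∀ a y, act a (act (ia a) y) = y

/-- the inverse word -/
def iw (ia : A → A) (w : List A) : List A := (w.map ia).reverse

@[simp] theorem iw_length (ia : A → A) (w : List A) : (iw ia w).length = w.length := by
  simp [iw]

theorem ev_iw_left {act : A → Y → Y} {ia : A → A} (h : Inv act ia) (w : List A) (y : Y) :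
    ev act (iw ia w) (ev act w y) = y := by
  induction w generalizing y with
  | nil => rfl
  | cons a w ih =>
    have : iw ia (a :: w) = iw ia w ++ [ia a] := by simp [iw]
    rw [this, ev_append, ev_cons, ev_cons, ev_nil, h.left, ih]

theorem ev_iw_right {act : A → Y → Y} {ia : A → A} (h : Inv act ia) (w : List A) (y : Y) :
    ev act w (ev act (iw ia w) y) = y := by
  induction w generalizing y with
  | nil => rfl
  | cons a w ih =>
    have : iw ia (a :: w) = iw ia w ++ [ia a] := by simp [iw]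
    rw [this, ev_append, ev_cons, ev_cons, ev_nil, ih, h.right]

/-- two tuples (possibly over different sets) have the same `n`-type -/
def TyEq {ι : Type} (act : A → Y → Y) (act' : A → Y' → Y') (n : ℕ) (y : ι → Y) (y' : ι → Y') :
    Prop :=
  ∀ i j (w : List A), w.length ≤ n → (ev act w (y i) = y j ↔ ev act' w (y' i) = y' j)

theorem TyEq.mono {ι : Type} {act : A → Y → Y} {act' : A → Y' → Y'} {n m : ℕ} (hnm : m ≤ n)
    {y : ι → Y} {y' : ι → Y'} (h : TyEq act act' n y y') : TyEq act act' m y y' :=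
  fun i j w hw => h i j w (hw.trans hnm)

theorem TyEq.comp {ι κ : Type} {act : A → Y → Y} {act' : A → Y' → Y'} {n : ℕ}
    {y : ι → Y} {y' : ι → Y'} (h : TyEq act act' n y y') (f : κ → ι) :
    TyEq act act' n (y ∘ f) (y' ∘ f) :=
  fun i j w hw => h (f i) (f j) w hw

theorem TyEq.symm {ι : Type} {act : A → Y → Y} {act' : A → Y' → Y'} {n : ℕ}
    {y : ι → Y} {y' : ι → Y'} (h : TyEq act act' n y y') : TyEq act' act n y' y :=
  fun i j w hw => (h i j w hw).symm

theorem TyEq.trans {ι Y'' : Type} {act : A → Y → Y} {act' : A → Y' → Y'} {act'' : A → Y'' → Y''}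
    {n : ℕ} {y : ι → Y} {y' : ι → Y'} {y'' : ι → Y''} (h : TyEq act act' n y y')
    (h' : TyEq act' act'' n y' y'') : TyEq act act'' n y y'' :=
  fun i j w hw => (h i j w hw).trans (h' i j w hw)

theorem TyEq.two {ι : Type} {act : A → Y → Y} {act' : A → Y' → Y'} {ia : A → A}
    (hI : Inv act ia) (hI' : Inv act' ia) {n : ℕ} {y : ι → Y} {y' : ι → Y'}
    (h : TyEq act act' n y y') {i j : ι} {u v : List A} (huv : u.length + v.length ≤ n) :
    ev act u (y i) = ev act v (y j) ↔ ev act' u (y' i) = ev act' v (y' j) := by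
  have h1 := h i j (iw ia v ++ u) (by simp; omega)
  rw [ev_append, ev_append] at h1
  constructor
  · intro h2
    have h3 := h1.1 (by rw [h2, ev_iw_left hI])
    rw [← h3, ev_iw_right hI']
  · intro h2
    have h3 := h1.2 (by rw [h2, ev_iw_left hI'])
    rw [← h3, ev_iw_right hI]

/-- the canonical graded relation of a pair of tuples -/
def canR {ι : Type} (act : A → Y → Y) (act' : A → Y' → Y') (N : ℕ) (y : ι → Y) (y' : ι → Y')
    (m : ℕ) (a : Y) (a' : Y') : Prop :=
  ∃ i, ∃ w : List A, w.length + m ≤ N ∧ ev act w (y i) = a ∧ ev act' w (y' i) = a'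

variable {ι : Type} {act : A → Y → Y} {act' : A → Y' → Y'} {N : ℕ} {y : ι → Y} {y' : ι → Y'}

theorem canR_gpi {ia : A → A} (hI : Inv act ia) (hI' : Inv act' ia)
    (h : TyEq act act' (2 * N) y y') : GPI (canR act act' N y y') := by
  refine ⟨?_, ?_⟩
  · rintro m _ _ _ _ ⟨i, u, hu, rfl, rfl⟩ ⟨j, v, hv, rfl, rfl⟩
    exact h.two hI hI' (by omega)
  · rintro m _ _ ⟨i, u, hu, rfl, rfl⟩
    exact ⟨i, u, by omega, rfl, rfl⟩

theorem canR_stp (a : A) : Stp (canR act act' N y y') (act a) (act' a) := by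
  rintro m _ _ ⟨i, u, hu, rfl, rfl⟩
  exact ⟨i, a :: u, by simp; omega, rfl, rfl⟩

theorem canR_self (i : ι) {m : ℕ} (hm : m ≤ N) : canR act act' N y y' m (y i) (y' i) :=
  ⟨i, [], by simpa using hm, rfl, rfl⟩


/-- a graded partial injection of depth `N` gives the same `2N`-types -/
theorem TyEq.of_gpi {R : ℕ → Y → Y' → Prop} (hR : GPI R) (hs : ∀ a, Stp R (act a) (act' a))
    {ia : A → A} (hI : Inv act ia) (hI' : Inv act' ia) (h : ∀ i, R N (y i) (y' i)) :
    TyEq act act' (2 * N) y y' := by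
  intro i j w hw
  obtain ⟨u, v, rfl, hu, hv⟩ : ∃ u v : List A, w = u ++ v ∧ u.length ≤ N ∧ v.length ≤ N := by
    refine ⟨w.take (w.length - N), w.drop (w.length - N), (List.take_append_drop _ _).symm, ?_, ?_⟩
    · rw [List.length_take]; omega
    · rw [List.length_drop]; omega
  have h1 : R 0 (ev act v (y i)) (ev act' v (y' i)) :=
    ev_stp hs v 0 _ _ (hR.mono_le (by simpa using hv) (h i))
  have h2 : R 0 (ev act (iw ia u) (y j)) (ev act' (iw ia u) (y' j)) :=
    ev_stp hs _ 0 _ _ (hR.mono_le (by simpa using hu) (h j))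
  have h3 := hR.inj 0 _ _ _ _ h1 h2
  rw [ev_append, ev_append]
  constructor
  · intro h4
    have h5 := h3.1 (by rw [← h4, ev_iw_left hI])
    rw [h5, ev_iw_right hI']
  · intro h4
    have h5 := h3.2 (by rw [← h4, ev_iw_left hI'])
    rw [h5, ev_iw_right hI]

end words

/-! ### products -/

section prod

variable {Y Y' Z Z' : Type} {R : ℕ → Y → Y' → Prop} {S : ℕ → Z → Z' → Prop}



/-- sum of graded relations -/
inductive sumR (R : ℕ → Y → Y' → Prop) (S : ℕ → Z → Z' → Prop) (m : ℕ) : Y ⊕ Z → Y' ⊕ Z' → Prop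
  | inl {y : Y} {y' : Y'} (h : R m y y') : sumR R S m (Sum.inl y) (Sum.inl y')
  | inr {z : Z} {z' : Z'} (h : S m z z') : sumR R S m (Sum.inr z) (Sum.inr z')

theorem sumR_gpi (hR : GPI R) (hS : GPI S) : GPI (sumR R S) := by
  refine ⟨?_, ?_⟩
  · rintro m _ _ _ _ (h1 | h1) (h2 | h2)
    · simpa using hR.inj m _ _ _ _ h1 h2
    · simp
    · simp
    · simpa using hS.inj m _ _ _ _ h1 h2
  · rintro m _ _ (h1 | h1)
    · exact .inl (hR.mono h1)
    · exact .inr (hS.mono h1)

theorem sumR_stp {f : Y → Y} {f' : Y' → Y'} {g : Z → Z} {g' : Z' → Z'}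
    (hf : Stp R f f') (hg : Stp S g g') : Stp (sumR R S) (Sum.map f g) (Sum.map f' g') := by
  rintro m _ _ (h1 | h1)
  · exact .inl (hf _ _ _ h1)
  · exact .inr (hg _ _ _ h1)

end prod

end Crest.Agent.R185.Smp
end

-- ▼ part R185/Smp2
section

/-!
# R185 / SMP (2): index tuples (`ℕ`, `ℤ`) and regular orbits
-/

set_option autoImplicit false

namespace Crest.Agent.R185.Smp

/-! ### compression of tuples of natural numbers -/

/-- `n` and `n'` have the same gaps up to `L`, and the same small values -/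
structure Gap {ι : Type} (L : ℕ) (n n' : ι → ℕ) : Prop where
  gap : ∀ i j (d : ℕ), d ≤ L → (n i + d = n j ↔ n' i + d = n' j)
  val : ∀ i d, d ≤ L → (n i = d ↔ n' i = d)

theorem Gap.refl {ι : Type} (L : ℕ) (n : ι → ℕ) : Gap L n n :=
  ⟨fun _ _ _ _ => Iff.rfl, fun _ _ _ => Iff.rfl⟩

theorem Gap.trans {ι : Type} {L : ℕ} {n n' n'' : ι → ℕ} (h : Gap L n n') (h' : Gap L n' n'') :
    Gap L n n'' :=
  ⟨fun i j d hd => (h.gap i j d hd).trans (h'.gap i j d hd),
    fun i d hd => (h.val i d hd).trans (h'.val i d hd)⟩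

theorem Gap.mono {ι : Type} {L L' : ℕ} (hL : L' ≤ L) {n n' : ι → ℕ} (h : Gap L n n') :
    Gap L' n n' :=
  ⟨fun i j d hd => h.gap i j d (hd.trans hL), fun i d hd => h.val i d (hd.trans hL)⟩

/-- one compression step: if nothing lies in `(θ, θ + L + 1]`, everything above `θ` goes down by
one -/
theorem gap_step {ι : Type} (L : ℕ) (n : ι → ℕ) (θ : ℕ)
    (h : ∀ i, n i ≤ θ ∨ θ + L + 1 < n i) :
    Gap L n (fun i => if n i ≤ θ then n i else n i - 1) := by
  refine ⟨fun i j d hd => ?_, fun i d hd => ?_⟩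
  · have hi := h i
    have hj := h j
    split_ifs with h1 h2 h2 <;> omega
  · have hi := h i
    split_ifs with h1 <;> omega

theorem gap_bound {k : ℕ} (L : ℕ) (n : Fin k → ℕ)
    (h : ∀ θ, (θ = 0 ∨ ∃ i, n i = θ) → (∃ i, θ < n i) → ∃ i, θ < n i ∧ n i ≤ θ + L + 1) (i : Fin k) :
    n i ≤ k * (L + 1) := by
  classical
  have key : ∀ x, (∃ i, n i = x) →
      x ≤ (L + 1) * ((Finset.univ.filter fun j => n j ≤ x).card) := by
    intro x
    induction x using Nat.strong_induction_on with
    | _ x ih =>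
      rintro ⟨i, hi⟩
      -- the largest value `θ < x` in `{0} ∪ range n`
      by_cases h0 : ∃ j, n j < x
      · obtain ⟨θ, ⟨j, hj⟩, hθ, hmax⟩ : ∃ θ, (∃ j, n j = θ) ∧ θ < x ∧ ∀ j, n j < x → n j ≤ θ := by
          obtain ⟨j0, hj0⟩ := h0
          have hne : (Finset.univ.filter fun j => n j < x).Nonempty :=
            ⟨j0, Finset.mem_filter.2 ⟨Finset.mem_univ _, hj0⟩⟩
          obtain ⟨j, hj, hj2⟩ := Finset.exists_max_image _ n hne
          refine ⟨n j, ⟨j, rfl⟩, (Finset.mem_filter.1 hj).2, fun l hl => ?_⟩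
          exact hj2 l (Finset.mem_filter.2 ⟨Finset.mem_univ _, hl⟩)
        obtain ⟨l, hl1, hl2⟩ := h θ (Or.inr ⟨j, hj⟩) ⟨i, by rw [hi]; exact hθ⟩
        have hx : x ≤ θ + L + 1 := by
          by_contra hc
          have := hmax l (by omega)
          omega
        have h1 := ih θ hθ ⟨j, hj⟩
        have hc : (Finset.univ.filter fun j => n j ≤ θ).card + 1 ≤
            (Finset.univ.filter fun j => n j ≤ x).card := by
          have : (Finset.univ.filter fun j => n j ≤ θ) ⊂ (Finset.univ.filter fun j => n j ≤ x) := by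
            refine Finset.ssubset_iff_subset_ne.2 ⟨?_, ?_⟩
            · intro l hl
              simp only [Finset.mem_filter, Finset.mem_univ, true_and] at hl ⊢
              omega
            · intro he
              have : i ∈ (Finset.univ.filter fun j => n j ≤ x) := by simp [hi]
              rw [← he] at this
              simp only [Finset.mem_filter, Finset.mem_univ, true_and] at this
              omega
          exact Finset.card_lt_card this
        calc x ≤ θ + (L + 1) := by omega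
          _ ≤ (L + 1) * ((Finset.univ.filter fun j => n j ≤ θ).card) + (L + 1) := by omega
          _ = (L + 1) * ((Finset.univ.filter fun j => n j ≤ θ).card + 1) := by ring
          _ ≤ _ := Nat.mul_le_mul_left _ hc
      · push Not at h0
        by_cases hx : x = 0
        · omega
        obtain ⟨l, hl1, hl2⟩ := h 0 (Or.inl rfl) ⟨i, by omega⟩
        have := h0 l
        have h3 : 1 ≤ (Finset.univ.filter fun j => n j ≤ x).card :=
          Finset.card_pos.2 ⟨i, by simp [hi]⟩
        calc x ≤ (L + 1) * 1 := by omega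
          _ ≤ _ := Nat.mul_le_mul_left _ h3
  have h1 := key (n i) ⟨i, rfl⟩
  have h2 : (Finset.univ.filter fun j => n j ≤ n i).card ≤ k := by
    simpa using Finset.card_le_univ (Finset.univ.filter fun j => n j ≤ n i)
  calc n i ≤ _ := h1
    _ ≤ (L + 1) * k := Nat.mul_le_mul_left _ h2
    _ = k * (L + 1) := by ring

/-- **compression** -/
theorem exists_gap {k : ℕ} (L : ℕ) (n : Fin k → ℕ) :
    ∃ n' : Fin k → ℕ, Gap L n n' ∧ ∀ i, n' i ≤ k * (L + 1) := by
  classical
  obtain ⟨n', hn', hmin⟩ : ∃ n' : Fin k → ℕ, Gap L n n' ∧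
      ∀ n'' : Fin k → ℕ, Gap L n n'' → ∑ i, n' i ≤ ∑ i, n'' i := by
    have hne : ∃ s : ℕ, ∃ n' : Fin k → ℕ, Gap L n n' ∧ ∑ i, n' i = s := ⟨_, n, Gap.refl _ _, rfl⟩
    obtain ⟨n', h1, h2⟩ := Nat.find_spec hne
    refine ⟨n', h1, fun n'' h3 => ?_⟩
    rw [h2]
    exact Nat.find_min' hne ⟨n'', h3, rfl⟩
  refine ⟨n', hn', gap_bound L n' ?_⟩
  intro θ _ hθ
  by_contra hc
  push Not at hc
  have h1 : ∀ i, n' i ≤ θ ∨ θ + L + 1 < n' i := by
    intro i
    by_cases h : n' i ≤ θ
    · exact Or.inl h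
    · exact Or.inr (hc i (by omega))
  have h2 := hmin _ (hn'.trans (gap_step L n' θ h1))
  obtain ⟨i, hi⟩ := hθ
  have h3 : ∑ j, (if n' j ≤ θ then n' j else n' j - 1) < ∑ j, n' j := by
    apply Finset.sum_lt_sum
    · intro j _
      split_ifs <;> omega
    · refine ⟨i, Finset.mem_univ _, ?_⟩
      rw [if_neg (by omega)]
      omega
  omega

/-! ### the canonical index relation -/

/-- the graded relation on `ℕ` of two tuples: same signed displacement from the same member -/
def natR {ι : Type} (N : ℕ) (n n' : ι → ℕ) (m : ℕ) (a a' : ℕ) : Prop :=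
  (m ≤ N ∧ a = a' ∧ a + m ≤ N) ∨
    ∃ i, (∃ d, d + m ≤ N ∧ a = n i + d ∧ a' = n' i + d) ∨
      (∃ d, d + m ≤ N ∧ a + d = n i ∧ a' + d = n' i)

section nat

variable {ι : Type} {N : ℕ} {n n' : ι → ℕ}

theorem natR_gpi (h : Gap (2 * N) n n') : GPI (natR N n n') := by
  refine ⟨?_, ?_⟩
  · have hg := h.gap
    have hv := h.val
    rintro m a a' b b' (⟨h1, h2, h3⟩ | ⟨i, ⟨d, hd, h1, h2⟩ | ⟨d, hd, h1, h2⟩⟩)
      (⟨k1, k2, k3⟩ | ⟨j, ⟨e, he, k1, k2⟩ | ⟨e, he, k1, k2⟩⟩)
    · omega
    · by_cases hc : e ≤ a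
      · have := hv j (a - e) (by omega); omega
      · omega
    · have := hv j (a + e) (by omega); omega
    · by_cases hc : d ≤ b
      · have := hv i (b - d) (by omega); omega
      · omega
    · by_cases hc : d ≤ e
      · have := hg j i (e - d) (by omega); omega
      · have := hg i j (d - e) (by omega); omega
    · have := hg i j (d + e) (by omega); omega
    · have := hv i (b + d) (by omega); omega
    · have := hg j i (e + d) (by omega); omega
    · by_cases hc : d ≤ e
      · have := hg i j (e - d) (by omega); omega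
      · have := hg j i (d - e) (by omega); omega
  · rintro m a a' (⟨h1, h2, h3⟩ | ⟨i, ⟨d, hd, h1, h2⟩ | ⟨d, hd, h1, h2⟩⟩)
    · exact Or.inl ⟨by omega, h2, by omega⟩
    · exact Or.inr ⟨i, Or.inl ⟨d, by omega, h1, h2⟩⟩
    · exact Or.inr ⟨i, Or.inr ⟨d, by omega, h1, h2⟩⟩

theorem natR_self (i : ι) {m : ℕ} (hm : m ≤ N) : natR N n n' m (n i) (n' i) :=
  Or.inr ⟨i, Or.inl ⟨0, by omega, rfl, rfl⟩⟩

theorem natR_le {m a a' : ℕ} (h : natR N n n' m a a') : m ≤ N := by
  rcases h with ⟨h1, -⟩ | ⟨i, ⟨d, hd, -⟩ | ⟨d, hd, -⟩⟩ <;> omega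

theorem natR_zero {m : ℕ} (hm : m ≤ N) : natR N n n' m 0 0 := Or.inl ⟨hm, rfl, by omega⟩


theorem natR_succ : Stp (natR N n n') (fun a => a + 1) (fun a => a + 1) := by
  rintro m a a' (⟨h1, h2, h3⟩ | ⟨i, ⟨d, hd, h1, h2⟩ | ⟨d, hd, h1, h2⟩⟩) <;> beta_reduce
  · exact Or.inl ⟨by omega, by omega, by omega⟩
  · exact Or.inr ⟨i, Or.inl ⟨d + 1, by omega, by omega, by omega⟩⟩
  · rcases d with _ | d
    · exact Or.inr ⟨i, Or.inl ⟨1, by omega, by omega, by omega⟩⟩
    · exact Or.inr ⟨i, Or.inr ⟨d, by omega, by omega, by omega⟩⟩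

theorem natR_pred : ∀ m a a', natR N n n' (m + 1) (a + 1) (a' + 1) →
    natR N n n' m a a' := by
  rintro m a a' (⟨h1, h2, h3⟩ | ⟨i, ⟨d, hd, h1, h2⟩ | ⟨d, hd, h1, h2⟩⟩)
  · exact Or.inl ⟨by omega, by omega, by omega⟩
  · rcases d with _ | d
    · exact Or.inr ⟨i, Or.inr ⟨1, by omega, by omega, by omega⟩⟩
    · exact Or.inr ⟨i, Or.inl ⟨d, by omega, by omega, by omega⟩⟩
  · exact Or.inr ⟨i, Or.inr ⟨d + 1, by omega, by omega, by omega⟩⟩

end nat

/-! ### integers -/

/-- same gaps and same small values, with signs -/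
structure GapZ {ι : Type} (L : ℕ) (n n' : ι → ℤ) : Prop where
  gap : ∀ i j (d : ℤ), d.natAbs ≤ L → (n i + d = n j ↔ n' i + d = n' j)
  val : ∀ i (d : ℤ), d.natAbs ≤ L → (n i = d ↔ n' i = d)
  sgn : ∀ i, n i < 0 ↔ n' i < 0

theorem GapZ.mono {ι : Type} {L L' : ℕ} (hL : L' ≤ L) {n n' : ι → ℤ} (h : GapZ L n n') :
    GapZ L' n n' :=
  ⟨fun i j d hd => h.gap i j d (hd.trans hL), fun i d hd => h.val i d (hd.trans hL), h.sgn⟩

theorem exists_gapZ {k : ℕ} (L : ℕ) (n : Fin k → ℤ) :
    ∃ n' : Fin k → ℤ, GapZ L n n' ∧ ∀ i, (n' i).natAbs ≤ k * (L + 1) := by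
  obtain ⟨c, hc, hb⟩ := exists_gap L (fun i => (n i).natAbs)
  refine ⟨fun i => if n i < 0 then -(c i : ℤ) else c i, ⟨?_, ?_, ?_⟩, ?_⟩
  · intro i j d hd
    have g1 := hc.gap i j d.natAbs hd
    have g2 := hc.gap j i d.natAbs hd
    have v1 := hc.val i
    have v2 := hc.val j
    beta_reduce at g1 g2 v1 v2 ⊢
    have hzi := v1 0 (by omega)
    have hzj := v2 0 (by omega)
    -- small values are copied
    have si : (n i).natAbs ≤ L → c i = (n i).natAbs := fun h => ((v1 _ h).1 rfl)
    have sj : (n j).natAbs ≤ L → c j = (n j).natAbs := fun h => ((v2 _ h).1 rfl)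
    have si' : c i ≤ L → (n i).natAbs = c i := fun h => ((v1 _ h).2 rfl)
    have sj' : c j ≤ L → (n j).natAbs = c j := fun h => ((v2 _ h).2 rfl)
    split_ifs with h1 h2 h2
    · omega
    · by_cases hi : (n i).natAbs ≤ L
      · have := si hi
        by_cases hj : (n j).natAbs ≤ L
        · have := sj hj; omega
        · by_cases hj' : c j ≤ L
          · have := sj' hj'; omega
          · omega
      · by_cases hi' : c i ≤ L
        · have := si' hi'; omega
        · omega
    · by_cases hi : (n i).natAbs ≤ L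
      · have := si hi
        by_cases hj : (n j).natAbs ≤ L
        · have := sj hj; omega
        · by_cases hj' : c j ≤ L
          · have := sj' hj'; omega
          · omega
      · by_cases hi' : c i ≤ L
        · have := si' hi'; omega
        · omega
    · omega
  · intro i d hd
    have v1 := hc.val i d.natAbs (by omega)
    have hz := hc.val i 0 (by omega)
    beta_reduce at v1 hz ⊢
    split_ifs with h1 <;> omega
  · intro i
    have hz := hc.val i 0 (by omega)
    beta_reduce at hz ⊢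
    split_ifs with h1 <;> omega
  · intro i
    have h1 := hb i
    beta_reduce
    split_ifs with h3
    · simpa using h1
    · simpa using h1

/-- the graded relation on `ℤ` -/
def intR {ι : Type} (N : ℕ) (n n' : ι → ℤ) (m : ℕ) (a a' : ℤ) : Prop :=
  (a = a' ∧ a.natAbs + m ≤ N) ∨ ∃ i, ∃ d : ℤ, d.natAbs + m ≤ N ∧ a = n i + d ∧ a' = n' i + d

section int

variable {ι : Type} {N : ℕ} {n n' : ι → ℤ}

theorem intR_gpi (h : GapZ (2 * N) n n') : GPI (intR N n n') := by
  refine ⟨?_, ?_⟩
  · rintro m a a' b b' (⟨h2, h3⟩ | ⟨i, d, hd, h1, h2⟩) (⟨k2, k3⟩ | ⟨j, e, he, k1, k2⟩)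
    · omega
    · have := h.val j (a - e) (by omega); omega
    · have := h.val i (b - d) (by omega); omega
    · have := h.gap i j (d - e) (by omega); omega
  · rintro m a a' (⟨h2, h3⟩ | ⟨i, d, hd, h1, h2⟩)
    · exact Or.inl ⟨h2, by omega⟩
    · exact Or.inr ⟨i, d, by omega, h1, h2⟩

theorem intR_self (i : ι) {m : ℕ} (hm : m ≤ N) : intR N n n' m (n i) (n' i) :=
  Or.inr ⟨i, 0, by simp; omega, by simp, by simp⟩

theorem intR_le {m : ℕ} {a a' : ℤ} (h : intR N n n' m a a') : m ≤ N := by
  rcases h with ⟨h1, h2⟩ | ⟨i, d, hd, -⟩ <;> omega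

theorem intR_zero {m : ℕ} (hm : m ≤ N) : intR N n n' m 0 0 := Or.inl ⟨rfl, by simp; omega⟩

theorem intR_add (c : ℤ) (hc : c.natAbs ≤ 1) :
    Stp (intR N n n') (fun a => a + c) (fun a => a + c) := by
  rintro m a a' (⟨h2, h3⟩ | ⟨i, d, hd, h1, h2⟩) <;> beta_reduce
  · exact Or.inl ⟨by omega, by omega⟩
  · exact Or.inr ⟨i, d + c, by omega, by omega, by omega⟩


end int

/-! ### regular orbits -/

section reg

variable {A Γ : Type} [Group Γ]

/-- value of a word -/
def wv (e : A → Γ) (w : List A) : Γ := (w.map e).prod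

@[simp] theorem wv_nil (e : A → Γ) : wv e [] = 1 := rfl

@[simp] theorem wv_cons (e : A → Γ) (a : A) (w : List A) : wv e (a :: w) = e a * wv e w := by
  simp [wv]

theorem wv_append (e : A → Γ) (u w : List A) : wv e (u ++ w) = wv e u * wv e w := by
  simp [wv]

theorem ev_eq_wv (e : A → Γ) (w : List A) (g : Γ) :
    ev (fun a x => e a * x) w g = wv e w * g := by
  induction w with
  | nil => simp
  | cons a w ih => rw [ev_cons, ih, wv_cons, mul_assoc]

theorem wv_iw {e : A → Γ} {ia : A → A} (h : ∀ a, e (ia a) = (e a)⁻¹) (w : List A) :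
    wv e (iw ia w) = (wv e w)⁻¹ := by
  induction w with
  | nil => simp [iw]
  | cons a w ih =>
    have : iw ia (a :: w) = iw ia w ++ [ia a] := by simp [iw]
    rw [this, wv_append, ih, wv_cons, wv_cons, wv_nil, h]
    simp

/-- length bound of the regular lemma -/
def regF : ℕ → ℕ → ℕ
  | 0, _ => 0
  | k + 1, N => regF k (2 * N) + N + 1



/-- **the regular lemma**: every `k`-tuple of a group with elements of arbitrary large height has
the type of a short tuple (the entry `0` is the base point `1`) -/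
theorem exists_reg (e : A → Γ) (ia : A → A) (hi : ∀ a, e (ia a) = (e a)⁻¹)
    (ht : Γ → ℤ) (hts : ∀ a g, |ht (e a * g) - ht g| ≤ 1)
    (t : A) (htt : ∀ g, ht (e t * g) = ht g + 1) (h1 : ht 1 = 0) :
    ∀ (k N : ℕ) (g : ℕ → Γ), g 0 = 1 → ∃ w : ℕ → List A, w 0 = [] ∧
      (∀ i ≤ k, (w i).length ≤ regF k N) ∧
      ∀ i ≤ k, ∀ j ≤ k, ∀ u : List A, u.length ≤ N →
        (wv e u * g i = g j ↔ wv e u * wv e (w i) = wv e (w j)) := by
  have hlen : ∀ (u : List A) (g : Γ), |ht (wv e u * g) - ht g| ≤ u.length := by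
    intro u
    induction u with
    | nil => intro g; simp
    | cons a u ih =>
      intro g
      rw [wv_cons, mul_assoc]
      have h2 := hts a (wv e u * g)
      have h3 := ih g
      rw [abs_le] at h2 h3 ⊢
      simp only [List.length_cons, Nat.cast_add, Nat.cast_one]
      constructor <;> omega
  have htn : ∀ n : ℕ, ht (wv e (List.replicate n t)) = n := by
    intro n
    induction n with
    | zero => simpa using h1
    | succ n ih => rw [List.replicate_succ, wv_cons, htt, ih]; push_cast; ring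
  intro k
  induction k with
  | zero =>
    intro N g hg
    refine ⟨fun _ => [], rfl, by simp, ?_⟩
    intro i hi' j hj' u _
    obtain rfl : i = 0 := by omega
    obtain rfl : j = 0 := by omega
    rw [hg]
    simp
  | succ k ih =>
    intro N g hg
    obtain ⟨w, hw0, hwl, hw⟩ := ih (2 * N) g hg
    classical
    by_cases hc : ∃ j ≤ k, ∃ u : List A, u.length ≤ N ∧ wv e u * g j = g (k + 1)
    · obtain ⟨j, hj, u, hu, huj⟩ := hc
      refine ⟨Function.update w (k + 1) (u ++ w j), ?_, ?_, ?_⟩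
      · rw [Function.update_of_ne (by omega)]; exact hw0
      · intro i hi'
        by_cases hik : i = k + 1
        · subst hik
          rw [Function.update_self, List.length_append]
          have := hwl j hj
          simp only [regF]
          omega
        · rw [Function.update_of_ne hik]
          have := hwl i (by omega)
          simp only [regF]
          omega
      · intro i hi' l hl v hv
        have hval : ∀ i ≤ k + 1, ∃ j' ≤ k, ∃ u' : List A, u'.length ≤ N ∧ g i = wv e u' * g j' ∧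
            wv e (Function.update w (k + 1) (u ++ w j) i) = wv e u' * wv e (w j') := by
          intro i hi'
          by_cases hik : i = k + 1
          · subst hik
            exact ⟨j, hj, u, hu, huj.symm, by rw [Function.update_self, wv_append]⟩
          · exact ⟨i, by omega, [], by simp, by simp, by rw [Function.update_of_ne hik]; simp⟩
        -- both sides expressed through old members; but lengths add up, so use the special form
        by_cases hik : i = k + 1
        · by_cases hlk : l = k + 1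
          · subst hik hlk
            rw [Function.update_self, mul_eq_right, mul_eq_right]
          · subst hik
            rw [Function.update_self, Function.update_of_ne hlk, wv_append, ← huj]
            have := hw j hj l (by omega) (v ++ u) (by simp; omega)
            rw [wv_append, mul_assoc, mul_assoc] at this
            exact this
        · by_cases hlk : l = k + 1
          · subst hlk
            rw [Function.update_self, Function.update_of_ne hik, wv_append, ← huj]
            have := hw i (by omega) j hj (iw ia u ++ v) (by simp; omega)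
            rw [wv_append, wv_iw hi, mul_assoc, mul_assoc, inv_mul_eq_iff_eq_mul,
              inv_mul_eq_iff_eq_mul] at this
            exact this
          · rw [Function.update_of_ne hik, Function.update_of_ne hlk]
            exact hw i (by omega) l (by omega) v (by omega)
    · push Not at hc
      set M := regF k (2 * N) + N + 1 with hM
      refine ⟨Function.update w (k + 1) (List.replicate M t), ?_, ?_, ?_⟩
      · rw [Function.update_of_ne (by omega)]; exact hw0
      · intro i hi'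
        by_cases hik : i = k + 1
        · subst hik
          rw [Function.update_self, List.length_replicate]
          exact le_rfl
        · rw [Function.update_of_ne hik]
          have := hwl i (by omega)
          simp only [regF]
          omega
      · -- heights of the old words are small
        have hsmall : ∀ i ≤ k, |ht (wv e (w i))| ≤ regF k (2 * N) := by
          intro i hi'
          have h2 := hlen (w i) 1
          rw [mul_one, h1, sub_zero] at h2
          have h3 := hwl i hi'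
          have : ((w i).length : ℤ) ≤ regF k (2 * N) := by exact_mod_cast h3
          omega
        intro i hi' l hl v hv
        by_cases hik : i = k + 1
        · by_cases hlk : l = k + 1
          · subst hik hlk
            rw [Function.update_self, mul_eq_right, mul_eq_right]
          · subst hik
            rw [Function.update_self, Function.update_of_ne hlk]
            constructor
            · intro h2
              exfalso
              apply hc l (by omega) (iw ia v) (by simpa using hv)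
              rw [← h2, wv_iw hi, inv_mul_cancel_left]
            · intro h2
              exfalso
              have h3 := hlen v (wv e (List.replicate M t))
              rw [h2, htn] at h3
              have h4 := hsmall l (by omega)
              rw [abs_le] at h3 h4
              omega
        · by_cases hlk : l = k + 1
          · subst hlk
            rw [Function.update_self, Function.update_of_ne hik]
            constructor
            · intro h2
              exact absurd h2 (hc i (by omega) v hv)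
            · intro h2
              exfalso
              have h3 := hlen v (wv e (w i))
              rw [h2, htn] at h3
              have h4 := hsmall i (by omega)
              rw [abs_le] at h3 h4
              omega
          · rw [Function.update_of_ne hik, Function.update_of_ne hlk]
            exact hw i (by omega) l (by omega) v (by omega)

end reg

end Crest.Agent.R185.Smp
private theorem rz_5a81fa6a17 : type_of% @_root_.Crest.Agent.R185.Smp.regF.eq_def := @_root_.Crest.Agent.R185.Smp.regF.eq_def -- L352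
private theorem rz_dcbf24783c : type_of% @_root_.Crest.Agent.R185.Smp.regF.eq_1 := @_root_.Crest.Agent.R185.Smp.regF.eq_1 -- L352
end

-- ▼ part R185/Smp3
section

/-!
# R185 / SMP (3): the rook matrices and `ZZ G Y` preserve graded partial injections
-/

set_option autoImplicit false

namespace Crest.Agent.R185.Smp

open Crest.Agent.R185.Wu Crest.Agent.R185.Hot

/-! ### options -/

section opt

variable {Y Y' : Type}

theorem optRel_fun {r : Y → Y' → Prop} (h : PI r) {a : Option Y} {b b' : Option Y'}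
    (h1 : Option.Rel r a b) (h2 : Option.Rel r a b') : b = b' := by
  cases h1 with
  | none => cases h2; rfl
  | some h1 =>
    cases h2 with
    | some h2 => rw [(h _ _ _ _ h1 h2).1 rfl]

theorem optRel_inj {r : Y → Y' → Prop} (h : PI r) {a a' : Option Y} {b : Option Y'}
    (h1 : Option.Rel r a b) (h2 : Option.Rel r a' b) : a = a' := by
  cases h1 with
  | none => cases h2; rfl
  | some h1 =>
    cases h2 with
    | some h2 => rw [(h _ _ _ _ h1 h2).2 rfl]

theorem optRel_mono {r r' : Y → Y' → Prop} (h : ∀ y y', r y y' → r' y y') {a : Option Y}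
    {b : Option Y'} (h1 : Option.Rel r a b) : Option.Rel r' a b := by
  cases h1 with
  | none => exact .none
  | some h1 => exact .some (h _ _ h1)

theorem optRel_flip {r : Y → Y' → Prop} {a : Option Y} {b : Option Y'} (h : Option.Rel r a b) :
    Option.Rel (fun y' y => r y y') b a := by
  cases h with
  | none => exact .none
  | some h => exact .some h

theorem optRel_some {r : Y → Y' → Prop} {y : Y} {b : Option Y'} (h : Option.Rel r (some y) b) :
    ∃ y', b = some y' ∧ r y y' := by
  cases h with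
  | some h => exact ⟨_, rfl, h⟩

end opt

/-! ### matrices -/

section mat

variable {Y Y' I J : Type}

/-- entrywise relation of matrices -/
def MR (r : Y → Y' → Prop) (M : I → J → Option Y) (M' : I → J → Option Y') : Prop :=
  ∀ i j, Option.Rel r (M i j) (M' i j)

variable {r : Y → Y' → Prop}

theorem MR.eq_iff (h : PI r) {M N : I → J → Option Y} {M' N' : I → J → Option Y'}
    (h1 : MR r M M') (h2 : MR r N N') : M = N ↔ M' = N' := by
  constructor
  · rintro rfl
    funext i j
    exact optRel_fun h (h1 i j) (h2 i j)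
  · rintro rfl
    funext i j
    exact optRel_inj h (h1 i j) (h2 i j)

theorem MR.mono {r' : Y → Y' → Prop} (h : ∀ y y', r y y' → r' y y') {M : I → J → Option Y}
    {M' : I → J → Option Y'} (h1 : MR r M M') : MR r' M M' :=
  fun i j => optRel_mono h (h1 i j)

theorem MR.flip {M : I → J → Option Y} {M' : I → J → Option Y'} (h : MR r M M') :
    MR (fun y' y => r y y') M' M := fun i j => optRel_flip (h i j)

theorem MR.tr {M : I → J → Option Y} {M' : I → J → Option Y'} (h : MR r M M') :
    MR r (Wu.tr M) (Wu.tr M') := fun i j => h j i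

theorem NU_rel (h : PI r) {w : J → Y} {w' : J → Y'} (hw : ∀ l, r (w l) (w' l)) {c j : J}
    (_hcj : c ≠ j) (h1 : ∀ l, l ≠ j → w l = w c) : NU w' (w' c) :=
  ⟨j, fun l hl => (h _ _ _ _ (hw l) (hw c)).1 (h1 l hl)⟩

theorem cen_rel (hJ : Three J) (h : PI r) {w : J → Y} {w' : J → Y'} (hw : ∀ l, r (w l) (w' l)) :
    Option.Rel r (cen w) (cen w') := by
  by_cases h1 : ∃ y, NU w y
  · obtain ⟨y, j, hj⟩ := h1
    obtain ⟨c, hc, -⟩ := hJ j j
    have h2 : NU w (w c) := ⟨j, fun l hl => by rw [hj l hl, hj c hc]⟩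
    have h3 : NU w' (w' c) := NU_rel h hw hc (fun l hl => by rw [hj l hl, hj c hc])
    rw [cen_eq hJ h2, cen_eq hJ h3]
    exact .some (hw c)
  · have h2 : ¬ ∃ y, NU w' y := by
      rintro ⟨y, j, hj⟩
      obtain ⟨c, hc, -⟩ := hJ j j
      exact h1 ⟨_, NU_rel h.flip hw hc (fun l hl => by rw [hj l hl, hj c hc])⟩
    unfold cen
    rw [dif_neg h1, dif_neg h2]
    exact .none

theorem rowM_rel (hJ : Three J) (h : PI r) (i : I) {w : J → Y} {w' : J → Y'}
    (hw : ∀ l, r (w l) (w' l)) : MR r (rowM i w) (rowM i w') := by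
  intro k l
  by_cases hk : k = i
  · subst hk
    rw [rowM_self, rowM_self]
    exact .some (hw l)
  · rw [rowM_ne hk, rowM_ne hk]
    exact cen_rel hJ h hw

theorem colM_rel (hI : Three I) (h : PI r) (j : J) {z : I → Y} {z' : I → Y'}
    (hz : ∀ l, r (z l) (z' l)) : MR r (colM j z) (colM j z') :=
  (rowM_rel hI h j hz).tr

/-- a matrix related to a row matrix is a row matrix -/
theorem row_of_rel (hJ : Three J) (h : PI r) {i : I} {w : J → Y} {M' : I → J → Option Y'}
    (h1 : MR r (rowM i w) M') : ∃ w', (∀ l, r (w l) (w' l)) ∧ M' = rowM i w' := by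
  have h2 : ∀ l, ∃ y', M' i l = some y' ∧ r (w l) y' := by
    intro l
    have := h1 i l
    rw [rowM_self] at this
    exact optRel_some this
  choose w' hw1 hw2 using h2
  refine ⟨w', hw2, ?_⟩
  exact (h1.eq_iff h (rowM_rel hJ h i hw2)).1 rfl

theorem col_of_rel (hI : Three I) (h : PI r) {j : J} {z : I → Y} {M' : I → J → Option Y'}
    (h1 : MR r (colM j z) M') : ∃ z', (∀ l, r (z l) (z' l)) ∧ M' = colM j z' := by
  obtain ⟨z', hz1, hz2⟩ := row_of_rel (i := j) hI h h1.tr
  exact ⟨z', hz1, congrArg tr hz2⟩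

/-- the rook letters are steps -/
theorem act_rel (hI : Three I) (hJ : Three J) {r1 r0 : Y → Y' → Prop} (h1 : PI r1) (h0 : PI r0)
    (hle : ∀ y y', r1 y y' → r0 y y') (i : I) (j : J) {x : Y → Y} {x' : Y' → Y'}
    (hx : ∀ y y', r1 y y' → r0 (x y) (x' y')) {M : I → J → Option Y} {M' : I → J → Option Y'}
    (hM : MR r1 M M') : MR r0 (act i j x M) (act i j x' M') := by
  classical
  rcases cases3 i j M with ⟨w, rfl⟩ | ⟨z, rfl⟩ | ⟨h2, h3⟩
  · obtain ⟨w', hw', rfl⟩ := row_of_rel hJ h1 hM
    rw [act_row, act_row]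
    apply rowM_rel hJ h0
    intro l
    by_cases hl : l = j
    · subst hl
      rw [Function.update_self, Function.update_self]
      exact hx _ _ (hw' _)
    · rw [Function.update_of_ne hl, Function.update_of_ne hl]
      exact hle _ _ (hw' _)
  · obtain ⟨z', hz', rfl⟩ := col_of_rel hI h1 hM
    rw [act_col hI hJ, act_col hI hJ]
    apply colM_rel hI h0
    intro l
    by_cases hl : l = i
    · subst hl
      rw [Function.update_self, Function.update_self]
      exact hx _ _ (hz' _)
    · rw [Function.update_of_ne hl, Function.update_of_ne hl]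
      exact hle _ _ (hz' _)
  · rw [act_else x h2 h3, act_else x' (i := i) (j := j) (M := M')]
    · exact hM.mono hle
    · rintro w' rfl
      obtain ⟨w, -, hw⟩ := row_of_rel (i := i) hJ h1.flip hM.flip
      exact h2 w hw.symm
    · rintro z' rfl
      obtain ⟨z, -, hz⟩ := col_of_rel (j := j) hI h1.flip hM.flip
      exact h3 z hz.symm

theorem con_rel {y : Y} {y' : Y'} (h : r y y') : MR r (con I J y) (con I J y') :=
  fun _ _ => .some h

end mat

/-! ### the rook part -/

section rook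

variable {Y Y' : Type} {R : ℕ → Y → Y' → Prop} {Q : ℕ → ℕ → ℕ → Prop}

/-- lifted relation on the rook part -/
inductive RR (Q : ℕ → ℕ → ℕ → Prop) (R : ℕ → Y → Y' → Prop) (m : ℕ) : RX Y → RX Y' → Prop
  | mat {n n' : ℕ} {M : Mat Y} {M' : Mat Y'} (hn : Q m n n') (hM : MR (R m) M M') :
      RR Q R m (Sum.inl (n, M)) (Sum.inl (n', M'))
  | pt {n n' : ℕ} {y : Y} {y' : Y'} (hn : Q m n n') (hy : R m y y') :
      RR Q R m (Sum.inr (n, y)) (Sum.inr (n', y'))

/-- the properties of the index relation -/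
structure Idx (Q : ℕ → ℕ → ℕ → Prop) : Prop where
  gpi : GPI Q
  zero : ∀ {m n n'}, Q m n n' → Q m 0 0
  succ : ∀ {m n n'}, Q (m + 1) n n' → Q m (n + 1) (n' + 1)
  pred : ∀ {m n n'}, Q (m + 1) (n + 1) (n' + 1) → Q m n n'

theorem Idx.zero_iff (h : Idx Q) {m n n' : ℕ} (h1 : Q m n n') : n = 0 ↔ n' = 0 :=
  h.gpi.inj m _ _ _ _ h1 (h.zero h1)

theorem RR_gpi (hQ : Idx Q) (hR : GPI R) : GPI (RR Q R) := by
  refine ⟨?_, ?_⟩
  · rintro m _ _ _ _ (⟨h1, h2⟩ | ⟨h1, h2⟩) (⟨k1, k2⟩ | ⟨k1, k2⟩)
    · rw [Sum.inl.injEq, Sum.inl.injEq, Prod.mk.injEq, Prod.mk.injEq,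
        hQ.gpi.inj m _ _ _ _ h1 k1, h2.eq_iff (hR.inj m) k2]
    · simp
    · simp
    · rw [Sum.inr.injEq, Sum.inr.injEq, Prod.mk.injEq, Prod.mk.injEq,
        hQ.gpi.inj m _ _ _ _ h1 k1, hR.inj m _ _ _ _ h2 k2]
  · rintro m _ _ (⟨h1, h2⟩ | ⟨h1, h2⟩)
    · exact .mat (hQ.gpi.mono h1) (h2.mono fun _ _ h => hR.mono h)
    · exact .pt (hQ.gpi.mono h1) (hR.mono h2)

theorem cY_rel_iff (hR : GPI R) {m : ℕ} {M : Mat Y} {M' : Mat Y'} (h : MR (R m) M M') :
    (∃ y, cY y = M) ↔ ∃ y', cY y' = M' := by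
  constructor
  · rintro ⟨y, rfl⟩
    obtain ⟨y', hy', hr⟩ := optRel_some (h 0 0)
    exact ⟨y', ((con_rel hr).eq_iff (hR.inj m) h).1 rfl⟩
  · rintro ⟨y', rfl⟩
    obtain ⟨y, hy, hr⟩ := optRel_some (h.flip 0 0)
    exact ⟨y, ((con_rel hr).eq_iff (hR.inj m) h).2 rfl⟩

theorem cY_rel {m : ℕ} {y : Y} {y' : Y'} (h : MR (R m) (cY y) (cY y')) : R m y y' := by
  have := h 0 0
  cases this with
  | some h => exact h

theorem shP_stp (hQ : Idx Q) (hR : GPI R) : Stp (RR Q R) (shP : Equiv.Perm (RX Y)) shP := by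
  rintro m _ _ (@⟨n, n', M, M', h1, h2⟩ | @⟨n, n', y, y', h1, h2⟩)
  · rw [shP_apply, shP_apply]
    by_cases hc : ∃ y, cY y = M
    · obtain ⟨y', hy'⟩ := (cY_rel_iff hR h2).1 hc
      obtain ⟨y, rfl⟩ := hc
      subst hy'
      have h3 := cY_rel h2
      have h4 := hQ.zero_iff h1
      rcases n with _ | n
      · obtain rfl : n' = 0 := h4.1 rfl
        rw [shf_zero, shf_zero]
        exact .pt (hQ.gpi.mono h1) (hR.mono h3)
      · rcases n' with _ | n'
        · exact absurd (h4.2 rfl) (by simp)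
        rw [shf_succ, shf_succ]
        exact .mat (hQ.pred h1) (h2.mono fun _ _ h => hR.mono h)
    · have hc' : ¬ ∃ y', cY y' = M' := fun h => hc ((cY_rel_iff hR h2).2 h)
      rw [shf_else n M (fun y hy => hc ⟨y, hy⟩), shf_else n' M' (fun y hy => hc' ⟨y, hy⟩)]
      exact .mat (hQ.gpi.mono h1) (h2.mono fun _ _ h => hR.mono h)
  · rw [shP_apply, shP_apply, shf_inr, shf_inr]
    exact .pt (hQ.succ h1) (hR.mono h2)

theorem shP_symm_stp (hQ : Idx Q) (hR : GPI R) :
    Stp (RR Q R) (shP⁻¹ : Equiv.Perm (RX Y)) (shP⁻¹ : Equiv.Perm (RX Y')) := by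
  have e1 : ∀ {Y : Type} (x : RX Y), (shP⁻¹ : Equiv.Perm (RX Y)) x = shg x := fun _ => rfl
  rintro m _ _ (@⟨n, n', M, M', h1, h2⟩ | @⟨n, n', y, y', h1, h2⟩)
  · rw [e1, e1]
    by_cases hc : ∃ y, cY y = M
    · obtain ⟨y', hy'⟩ := (cY_rel_iff hR h2).1 hc
      obtain ⟨y, rfl⟩ := hc
      subst hy'
      rw [shg_con, shg_con]
      exact .mat (hQ.succ h1) (h2.mono fun _ _ h => hR.mono h)
    · have hc' : ¬ ∃ y', cY y' = M' := fun h => hc ((cY_rel_iff hR h2).2 h)
      rw [shg_else n M (fun y hy => hc ⟨y, hy⟩), shg_else n' M' (fun y hy => hc' ⟨y, hy⟩)]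
      exact .mat (hQ.gpi.mono h1) (h2.mono fun _ _ h => hR.mono h)
  · rw [e1, e1]
    have h4 := hQ.zero_iff h1
    rcases n with _ | n
    · obtain rfl : n' = 0 := h4.1 rfl
      rw [shg_zero, shg_zero]
      exact .mat (hQ.gpi.mono h1) (con_rel (hR.mono h2))
    · rcases n' with _ | n'
      · exact absurd (h4.2 rfl) (by simp)
      rw [shg_succ, shg_succ]
      exact .pt (hQ.pred h1) (hR.mono h2)

/-- the block copy of a step is a step -/
theorem bf_stp (hQ : Idx Q) (hR : GPI R) {f : Y → Y} {f' : Y' → Y'} (hf : Stp R f f') :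
    Stp (RR Q R) (fun x => match x with
      | Sum.inl x => Sum.inl x
      | Sum.inr (0, y) => Sum.inr (0, f y)
      | Sum.inr (n + 1, y) => Sum.inr (n + 1, y)) (fun x => match x with
      | Sum.inl x => Sum.inl x
      | Sum.inr (0, y) => Sum.inr (0, f' y)
      | Sum.inr (n + 1, y) => Sum.inr (n + 1, y)) := by
  rintro m _ _ (@⟨n, n', M, M', h1, h2⟩ | @⟨n, n', y, y', h1, h2⟩)
  · exact .mat (hQ.gpi.mono h1) (h2.mono fun _ _ h => hR.mono h)
  · have h4 := hQ.zero_iff h1
    rcases n with _ | n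
    · obtain rfl : n' = 0 := h4.1 rfl
      exact .pt (hQ.gpi.mono h1) (hf _ _ _ h2)
    · rcases n' with _ | n'
      · exact absurd (h4.2 rfl) (by simp)
      exact .pt (hQ.gpi.mono h1) (hR.mono h2)

end rook

/-! ### the whole set -/

section zz

variable {G G' Y Y' : Type} {R : ℕ → Y → Y' → Prop} {Q Qs : ℕ → ℕ → ℕ → Prop}
  {QG : ℕ → G → G' → Prop}

/-- lifted relation on `ZZ G Y` -/
def ZR (Q Qs : ℕ → ℕ → ℕ → Prop) (QG : ℕ → G → G' → Prop) (R : ℕ → Y → Y' → Prop) :
    ℕ → ZZ G Y → ZZ G' Y' → Prop := sumR (RR Q R) (sumR Qs QG)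

theorem ZR_gpi (hQ : Idx Q) (hR : GPI R) (hs : GPI Qs) (hG : GPI QG) : GPI (ZR Q Qs QG R) :=
  sumR_gpi (RR_gpi hQ hR) (sumR_gpi hs hG)

section letters

variable {H H' : Type} [Group H] [MulAction H Y] [Group H'] [MulAction H' Y']

theorem zb_stp (hQ : Idx Q) (hR : GPI R) (hs : GPI Qs) (hG : GPI QG) {h : H} {h' : H'}
    (hh : Stp R (fun y => h • y) (fun y => h' • y)) :
    Stp (ZR Q Qs QG R) (zb G h) (zb G' h') := by
  have key := bf_stp hQ hR hh
  rintro m _ _ (@⟨x, x', h1⟩ | h1)
  · refine .inl ?_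
    have h2 := key m x x' h1
    rcases h1 with ⟨h3, h4⟩ | @⟨n, n', y, y', h3, h4⟩
    · exact h2
    · rcases n with _ | n <;> rcases n' with _ | n' <;> exact h2
  · exact .inr ((sumR_gpi hs hG).mono h1)

theorem zv_stp (hQ : Idx Q) (hR : GPI R) (hs : GPI Qs) (hG : GPI QG) (i : Fin 3) (j : Fin 4)
    {h : H} {h' : H'} (hh : Stp R (fun y => h • y) (fun y => h' • y)) :
    Stp (ZR Q Qs QG R) (zv G i j h) (zv G' i j h') := by
  rintro m _ _ ((@⟨n, n', M, M', h1, h2⟩ | @⟨n, n', y, y', h1, h2⟩) | h1)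
  · refine .inl (.mat (hQ.gpi.mono h1) ?_)
    exact act_rel three3 three4 (hR.inj _) (hR.inj _) (fun _ _ h => hR.mono h) i j
      (fun y y' h => hh m y y' h) h2
  · exact .inl (.pt (hQ.gpi.mono h1) (hR.mono h2))
  · exact .inr ((sumR_gpi hs hG).mono h1)

theorem zs_stp (hQ : Idx Q) (hR : GPI R) (hs : GPI Qs) (hG : GPI QG) :
    Stp (ZR Q Qs QG R) (zs G Y) (zs G' Y') := by
  rintro m _ _ (h1 | h1)
  · exact .inl (shP_stp hQ hR _ _ _ h1)
  · exact .inr ((sumR_gpi hs hG).mono h1)

theorem zs_symm_stp (hQ : Idx Q) (hR : GPI R) (hs : GPI Qs) (hG : GPI QG) :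
    Stp (ZR Q Qs QG R) ((zs G Y)⁻¹ : Equiv.Perm _) ((zs G' Y')⁻¹ : Equiv.Perm _) := by
  have e1 : ∀ {G Y : Type} (x : RX Y), ((zs G Y)⁻¹ : Equiv.Perm _) (Sum.inl x) =
      Sum.inl ((shP⁻¹ : Equiv.Perm (RX Y)) x) := fun _ => rfl
  have e2 : ∀ {G Y : Type} (x : ℕ ⊕ G), ((zs G Y)⁻¹ : Equiv.Perm _) (Sum.inr x) =
      Sum.inr x := fun _ => rfl
  rintro m _ _ (h1 | h1)
  · rw [e1, e1]
    exact .inl (shP_symm_stp hQ hR _ _ _ h1)
  · rw [e2, e2]
    exact .inr ((sumR_gpi hs hG).mono h1)

/-- permutations of the spare points and of `G` -/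
theorem spare_stp (hQ : Idx Q) (hR : GPI R) {f g : ℕ → ℕ} {a : G → G} {b : G' → G'}
    (hf : Stp Qs f g) (hab : Stp QG a b) :
    Stp (ZR Q Qs QG R) (Sum.map id (Sum.map f a)) (Sum.map id (Sum.map g b)) := by
  rintro m _ _ (h1 | h1)
  · exact .inl ((RR_gpi hQ hR).mono h1)
  · exact .inr (sumR_stp hf hab _ _ _ h1)

theorem zg_stp [Group G] [Group G'] (hQ : Idx Q) (hR : GPI R) (hs : GPI Qs) {g : G} {g' : G'}
    (hg : Stp QG (fun x => g * x) (fun x => g' * x)) :
    Stp (ZR Q Qs QG R) (zg Y g) (zg Y' g') := by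
  have h2 := spare_stp (Qs := Qs) hQ hR (f := fun x => x) (g := fun x => x) (Stp.id hs) hg
  rintro m x x' h1
  have h3 := h2 m x x' h1
  rcases x with x | x | x <;> rcases x' with x' | x' | x' <;> exact h3

end letters

theorem ptb_rel (hQ : Idx Q) {m n n' : ℕ} (hn : Q m n n') {y : Y} {y' : Y'} (h : R m y y') :
    ZR Q Qs QG R m (ptb G y) (ptb G' y') :=
  .inl (.pt (hQ.zero hn) h)

theorem pts_rel {m n n' : ℕ} (h : Qs m n n') : ZR Q Qs QG R m (pts G Y n) (pts G' Y' n') :=
  .inr (.inl h)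

theorem ptg_rel {m : ℕ} {g : G} {g' : G'} (h : QG m g g') :
    ZR Q Qs QG R m (ptg Y g) (ptg Y' g') :=
  .inr (.inr h)

end zz

end Crest.Agent.R185.Smp
end

-- ▼ part R185/Smp4

/-!
# R185 / SMP (4): the letters of `K` on `ZZ G Y`

`KLet A B` = letters of `K`: block copies and rook copies of the letters `a : A` of `U`, the shift,
the generators `c : B` of `G`, the shift of the spare points and the two swaps
`(pts 0, ptb y₀)`, `(ptg 1, pts 0)`.
-/

set_option autoImplicit false

namespace Crest.Agent.R185.Smp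

open Crest.Agent.R185.Wu Crest.Agent.R185.Hot

/-- the letters of `K` -/
inductive KLet (A B : Type) : Type
  | b (a : A)
  | v (i : Fin 3) (j : Fin 4) (a : A)
  | s
  | g (c : B)
  | sp
  | sw
  | sw'
  deriving DecidableEq

/-- the shift of the spare points -/
def spP : Equiv.Perm ℕ := (Equiv.intEquivNat.symm.trans (Equiv.addRight (1 : ℤ))).trans Equiv.intEquivNat

theorem spP_apply (n : ℕ) : spP n = Equiv.intEquivNat (Equiv.intEquivNat.symm n + 1) := rfl

theorem spP_symm_apply (n : ℕ) :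
    (spP⁻¹ : Equiv.Perm ℕ) n = Equiv.intEquivNat (Equiv.intEquivNat.symm n + -1) := rfl

/-- permutation of the spare points -/
def zsp (G Y : Type) (f : Equiv.Perm ℕ) : Equiv.Perm (ZZ G Y) :=
  Equiv.sumCongr (Equiv.refl _) (Equiv.sumCongr f (Equiv.refl _))

section kact

variable {G Y A B : Type} [Group G]

open Classical in
/-- the letters of `K` as permutations of `ZZ G Y` -/
noncomputable def kact (e : B → G) (y₀ : Y) (pa : A → Equiv.Perm Y) : KLet A B → Equiv.Perm (ZZ G Y)
  | .b a => zb G (pa a)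
  | .v i j a => zv G i j (pa a)
  | .s => zs G Y
  | .g c => zg Y (e c)
  | .sp => zsp G Y spP
  | .sw => Equiv.swap (pts G Y 0) (ptb G y₀)
  | .sw' => Equiv.swap (ptg Y 1) (pts G Y 0)

/-- letters with signs -/
noncomputable def sg {Z L : Type} (p : L → Equiv.Perm Z) (a : L × Bool) (z : Z) : Z :=
  if a.2 then p a.1 z else (p a.1)⁻¹ z

theorem sg_true {Z L : Type} (p : L → Equiv.Perm Z) (a : L) (z : Z) : sg p (a, true) z = p a z := by
  simp [sg]

theorem sg_false {Z L : Type} (p : L → Equiv.Perm Z) (a : L) (z : Z) :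
    sg p (a, false) z = (p a)⁻¹ z := by
  simp [sg]

theorem sg_inv {Z L : Type} (p : L → Equiv.Perm Z) : Inv (sg p) (fun a => (a.1, !a.2)) := by
  constructor
  · rintro ⟨a, _ | _⟩ y <;> simp [sg]
  · rintro ⟨a, _ | _⟩ y <;> simp [sg]

/-- words act through the free group -/
theorem ev_sg {Z L : Type} (p : L → Equiv.Perm Z) (w : List (L × Bool)) (z : Z) :
    ev (sg p) w z = FreeGroup.lift p (FreeGroup.mk w) z := by
  induction w with
  | nil => simp [← FreeGroup.one_eq_mk]
  | cons a w ih =>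
    have : (FreeGroup.mk (a :: w) : FreeGroup L) = FreeGroup.mk [a] * FreeGroup.mk w := by
      rw [FreeGroup.mul_mk]; rfl
    rw [ev_cons, ih, this, map_mul, Equiv.Perm.mul_apply]
    rcases a with ⟨a, _ | _⟩
    · rw [sg_false]; simp
    · rw [sg_true]; simp

end kact

section steps

variable {G Y Y' A B : Type} [Group G] {R : ℕ → Y → Y' → Prop} {Q Qs : ℕ → ℕ → ℕ → Prop}
  {QG : ℕ → G → G → Prop} {e : B → G} {y₀ : Y} {y₀' : Y'} {pa : A → Equiv.Perm Y}
  {pa' : A → Equiv.Perm Y'}

/-- everything needed of the base relations, up to level `N` -/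
structure Base (N : ℕ) (Q Qs : ℕ → ℕ → ℕ → Prop) (QG : ℕ → G → G → Prop) (R : ℕ → Y → Y' → Prop)
    (e : B → G) (y₀ : Y) (y₀' : Y') (pa : A → Equiv.Perm Y) (pa' : A → Equiv.Perm Y') : Prop where
  hQ : Idx Q
  hR : GPI R
  hs : GPI Qs
  hG : GPI QG
  bQ : ∀ {m n n'}, Q m n n' → m ≤ N
  bR : ∀ {m y y'}, R m y y' → m ≤ N
  bs : ∀ {m n n'}, Qs m n n' → m ≤ N
  bG : ∀ {m g g'}, QG m g g' → m ≤ N
  cQ : ∀ {m}, m ≤ N → Q m 0 0
  cR : ∀ {m}, m ≤ N → R m y₀ y₀'
  cs : ∀ {m}, m ≤ N → Qs m 0 0
  cG : ∀ {m}, m ≤ N → QG m 1 1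
  sR : ∀ a, Stp R (pa a) (pa' a)
  sR' : ∀ a, Stp R ((pa a)⁻¹ : Equiv.Perm Y) ((pa' a)⁻¹ : Equiv.Perm Y')
  ss : Stp Qs spP spP
  ss' : Stp Qs (spP⁻¹ : Equiv.Perm ℕ) (spP⁻¹ : Equiv.Perm ℕ)
  sG : ∀ c, Stp QG (fun g => e c * g) (fun g => e c * g)
  sG' : ∀ c, Stp QG (fun g => (e c)⁻¹ * g) (fun g => (e c)⁻¹ * g)

variable {N : ℕ}

theorem Base.gpi (h : Base N Q Qs QG R e y₀ y₀' pa pa') : GPI (ZR Q Qs QG R) :=
  ZR_gpi h.hQ h.hR h.hs h.hG

theorem Base.bound (h : Base N Q Qs QG R e y₀ y₀' pa pa') {m : ℕ} {z : ZZ G Y} {z' : ZZ G Y'}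
    (hz : ZR Q Qs QG R m z z') : m ≤ N := by
  rcases hz with (⟨h1, -⟩ | ⟨h1, -⟩) | (h1 | h1)
  · exact h.bQ h1
  · exact h.bQ h1
  · exact h.bs h1
  · exact h.bG h1

theorem Base.pts0 (h : Base N Q Qs QG R e y₀ y₀' pa pa') {m : ℕ} (hm : m ≤ N) :
    ZR Q Qs QG R m (pts G Y 0) (pts G Y' 0) := pts_rel (h.cs hm)

theorem Base.ptb0 (h : Base N Q Qs QG R e y₀ y₀' pa pa') {m : ℕ} (hm : m ≤ N) :
    ZR Q Qs QG R m (ptb G y₀) (ptb G y₀') := ptb_rel h.hQ (h.cQ hm) (h.cR hm)

theorem Base.ptg1 (h : Base N Q Qs QG R e y₀ y₀' pa pa') {m : ℕ} (hm : m ≤ N) :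
    ZR Q Qs QG R m (ptg Y (1 : G)) (ptg Y' (1 : G)) := ptg_rel (h.cG hm)

theorem Base.cst (h : Base N Q Qs QG R e y₀ y₀' pa pa') {z : ZZ G Y} {z' : ZZ G Y'}
    (hz : ∀ {m}, m ≤ N → ZR Q Qs QG R m z z') : Cst (ZR Q Qs QG R) z z' :=
  fun _ _ _ h1 => hz (h.bound h1)

/-- **all letters of `K` are steps** -/
theorem Base.stp (h : Base N Q Qs QG R e y₀ y₀' pa pa') (a : KLet A B × Bool) :
    Stp (ZR Q Qs QG R) (sg (kact e y₀ pa) a) (sg (kact e y₀' pa') a) := by
  classical
  rcases a with ⟨a, ε⟩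
  rcases ε with _ | _
  · -- inverses
    have e1 : (sg (kact e y₀ pa) (a, false) : ZZ G Y → ZZ G Y) = ((kact e y₀ pa a)⁻¹ : Equiv.Perm _) :=
      funext fun z => sg_false _ _ _
    have e2 : (sg (kact e y₀' pa') (a, false) : ZZ G Y' → ZZ G Y') =
        ((kact e y₀' pa' a)⁻¹ : Equiv.Perm _) := funext fun z => sg_false _ _ _
    rw [e1, e2]
    cases a with
    | b a =>
      change Stp _ ((zb G (pa a))⁻¹ : Equiv.Perm _) ((zb G (pa' a))⁻¹ : Equiv.Perm _)
      rw [← map_inv, ← map_inv]
      exact zb_stp h.hQ h.hR h.hs h.hG (h.sR' a)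
    | v i j a =>
      change Stp _ ((zv G i j (pa a))⁻¹ : Equiv.Perm _) ((zv G i j (pa' a))⁻¹ : Equiv.Perm _)
      rw [← map_inv, ← map_inv]
      exact zv_stp h.hQ h.hR h.hs h.hG i j (h.sR' a)
    | s => exact zs_symm_stp h.hQ h.hR h.hs h.hG
    | g c =>
      change Stp _ ((zg Y (e c))⁻¹ : Equiv.Perm _) ((zg Y' (e c))⁻¹ : Equiv.Perm _)
      rw [← map_inv, ← map_inv]
      exact zg_stp h.hQ h.hR h.hs (h.sG' c)
    | sp =>
      have h2 := spare_stp (QG := QG) (a := fun x => x) (b := fun x => x) h.hQ h.hR h.ss' (Stp.id h.hG)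
      rintro m x x' h1
      have h3 := h2 m x x' h1
      rcases x with x | x | x <;> rcases x' with x' | x' | x' <;> exact h3
    | sw =>
      change Stp _ ((Equiv.swap _ _)⁻¹ : Equiv.Perm _) ((Equiv.swap _ _)⁻¹ : Equiv.Perm _)
      rw [Equiv.swap_inv, Equiv.swap_inv]
      convert Stp.swap h.gpi (h.cst h.pts0) (h.cst h.ptb0)
    | sw' =>
      change Stp _ ((Equiv.swap _ _)⁻¹ : Equiv.Perm _) ((Equiv.swap _ _)⁻¹ : Equiv.Perm _)
      rw [Equiv.swap_inv, Equiv.swap_inv]
      convert Stp.swap h.gpi (h.cst h.ptg1) (h.cst h.pts0)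
  · have e1 : (sg (kact e y₀ pa) (a, true) : ZZ G Y → ZZ G Y) = (kact e y₀ pa a : Equiv.Perm _) :=
      funext fun z => sg_true _ _ _
    have e2 : (sg (kact e y₀' pa') (a, true) : ZZ G Y' → ZZ G Y') =
        (kact e y₀' pa' a : Equiv.Perm _) := funext fun z => sg_true _ _ _
    rw [e1, e2]
    cases a with
    | b a => exact zb_stp h.hQ h.hR h.hs h.hG (h.sR a)
    | v i j a => exact zv_stp h.hQ h.hR h.hs h.hG i j (h.sR a)
    | s => exact zs_stp h.hQ h.hR h.hs h.hG
    | g c => exact zg_stp h.hQ h.hR h.hs (h.sG c)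
    | sp =>
      have h2 := spare_stp (QG := QG) (a := fun x => x) (b := fun x => x) h.hQ h.hR h.ss (Stp.id h.hG)
      rintro m x x' h1
      have h3 := h2 m x x' h1
      rcases x with x | x | x <;> rcases x' with x' | x' | x' <;> exact h3
    | sw =>
      change Stp _ (Equiv.swap _ _) (Equiv.swap _ _)
      convert Stp.swap h.gpi (h.cst h.pts0) (h.cst h.ptb0)
    | sw' =>
      change Stp _ (Equiv.swap _ _) (Equiv.swap _ _)
      convert Stp.swap h.gpi (h.cst h.ptg1) (h.cst h.pts0)

end steps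

end Crest.Agent.R185.Smp
private theorem rz_7bb07e4dcf : type_of% @_root_.Crest.Agent.R185.Smp.kact.eq_1 := @_root_.Crest.Agent.R185.Smp.kact.eq_1 -- L46
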