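import Crest.Agent.R185.Ev3
import Crest.Agent.R185.Smp4

-- ▼ part R185/Ev4
section

/-!
# R185, block H3 (4): the letters of `K` on raw codes of `ZZ G Y`
-/

set_option autoImplicit false
set_option linter.unusedSectionVars false
set_option linter.unusedVariables false

namespace Crest.Agent.R185.Ev

open Crest.Agent.R292 Crest.Agent.R185.Re Crest.Agent.R185.Wu Crest.Agent.R185.Hot
  Crest.Agent.R185.Smp

section mat

variable {σ W ε : Type} [Primcodable W] [Primcodable ε] {orc : σ → W → Prop}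
variable {Y : ε → σ → Type} {R : Type} [Primcodable R] {dec : ∀ e s, R → Y e s}

theorem Rlz.total {Y' : ε → σ → Type} {R' : Type} [Primcodable R'] {dec' : ∀ e s, R' → Y' e s}
    {f : ∀ e s, Y e s → Y' e s} (hf : Rlz orc dec dec' f) (e : ε) (s : σ) (r : R) :
    ∃ r', dec' e s r' = f e s (dec e s r) := by
  obtain ⟨T, -, h1, h2⟩ := hf
  obtain ⟨r', h3⟩ := h2 s (e, r) trivial
  exact ⟨r', h1 s (e, r) r' trivial h3⟩

/-- the near-unanimous value -/
theorem rlz_cen (h : Lay orc dec) (n : ℕ) (hn : Three (Fin n)) :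
    Rlz orc (dfin n dec) (dopt dec) (fun _ _ w => cen w) := by
  have hc : ORE orc (fun s (x : (ε × (Fin n → R)) × (Fin n × Fin n)) =>
      x.2.2 ≠ x.2.1 ∧ ∀ l : Fin n, l = x.2.1 ∨
        dec x.1.1 s (x.1.2 l) = dec x.1.1 s (x.1.2 x.2.2)) := by
    refine ORE.and (ORE.ne (by cpt) (by cpt)) (ORE.allFin fun l => ORE.or
      (ORE.eq (by cpt) (by cpt)) ?_)
    exact h.eq.comp (f := fun x : (ε × (Fin n → R)) × (Fin n × Fin n) =>
      (x.1.1, x.1.2 l, x.1.2 x.2.2)) (by cpt)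
  have hnc : ORE orc (fun s (x : ε × (Fin n → R)) => ∀ j l0 : Fin n, l0 = j ∨ ∃ l : Fin n, l ≠ j ∧
        dec x.1 s (x.2 l) ≠ dec x.1 s (x.2 l0)) := by
    refine ORE.allFin fun j => ORE.allFin fun l0 => ORE.or (ORE.re (re_const _))
      (ORE.exFin fun l => ORE.and (ORE.re (re_const _)) ?_)
    exact h.ne.comp (f := fun x : ε × (Fin n → R) => (x.1, x.2 l, x.2 l0)) (by cpt)
  refine RR.cases (c1 := fun s (x : ε × (Fin n → R)) => ∃ g : Fin n × Fin n, g.2 ≠ g.1 ∧
    ∀ l : Fin n, l = g.1 ∨ dec x.1 s (x.2 l) = dec x.1 s (x.2 g.2)) hc.ex hnc ?_ ?_ ?_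
  · rintro s ⟨e, w⟩ -
    by_cases h1 : ∃ g : Fin n × Fin n, g.2 ≠ g.1 ∧
      ∀ l : Fin n, l = g.1 ∨ dec e s (w l) = dec e s (w g.2)
    · exact Or.inl h1
    · right
      intro j l0
      by_contra h2
      push Not at h2
      apply h1
      refine ⟨(j, l0), h2.1, fun l => ?_⟩
      by_cases h3 : l = j
      · exact Or.inl h3
      · exact Or.inr (h2.2 l h3)
  · refine RR.choose hc (fun s a h1 => h1.2) ?_
    refine RR.fn (F := fun x : (ε × (Fin n → R)) × (Fin n × Fin n) => some (x.1.2 x.2.2))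
      (by cpt) ?_
    rintro s ⟨⟨e, w⟩, ⟨j, l0⟩⟩ ⟨-, h1, h2⟩
    simp only at h1 h2
    symm
    apply cen_eq hn
    refine ⟨j, fun l hl => ?_⟩
    rcases h2 l with h3 | h3
    · exact absurd h3 hl
    · exact h3
  · refine RR.fn (F := fun _ => none) (by cpt) ?_
    rintro s ⟨e, w⟩ ⟨-, h1⟩
    simp only at h1
    have h2 : ¬ ∃ y, NU (dfin n dec e s w) y := by
      rintro ⟨y, j, h3⟩
      obtain ⟨l0, h4, -⟩ := hn j j
      rcases h1 j l0 with h5 | ⟨l, h5, h6⟩
      · exact h4 h5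
      · exact h6 ((h3 l h5).trans (h3 l0 h4).symm)
    change (none : Option (Y e s)) = cen (dfin n dec e s w)
    unfold cen
    rw [dif_neg h2]

/-- raw matrices -/
abbrev RMat (R : Type) : Type := Fin 3 → Fin 4 → Option R

/-- coding of matrices -/
abbrev dmat (dec : ∀ e s, R → Y e s) : ∀ e s, RMat R → Mat (Y e s) := dfin 3 (dfin 4 (dopt dec))

theorem Lay.mat (h : Lay orc dec) : Lay orc (dmat dec) := (h.opt.fin 4).fin 3

theorem rlz_row (h : Lay orc dec) (i : Fin 3) :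
    Rlz orc (dfin 4 dec) (dmat dec) (fun _ _ w => rowM i w) := by
  refine RR.bind (rlz_cen h 4 three4) (Dm' := fun _ _ => True)
    (Y' := fun s (x : (ε × (Fin 4 → R)) × Option R) (M : RMat R) =>
      ∀ (k : Fin 3) (l : Fin 4), M k l = if k = i then some (x.1.2 l) else x.2) ?_
    (fun _ _ _ _ _ => trivial) ?_
  · refine RR.search (c := fun s (x : ((ε × (Fin 4 → R)) × Option R) × RMat R) =>
      ∀ (k : Fin 3) (l : Fin 4), x.2 k l = if k = i then some (x.1.1.2 l) else x.1.2) ?_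
      (fun _ _ _ _ h => h) (fun s a _ => ⟨fun k l => if k = i then some (a.1.2 l) else a.2,
        fun k l => rfl⟩)
    refine ORE.allFin fun k => ORE.allFin fun l => ?_
    by_cases hk : k = i
    · simp only [if_pos hk]
      exact ORE.eq (by cpt) (by cpt)
    · simp only [if_neg hk]
      exact ORE.eq (by cpt) (by cpt)
  · rintro s ⟨e, w⟩ c M _ h1 h2
    simp only at h1 h2 ⊢
    funext k l
    change (M k l).map (dec e s) = rowM i (dfin 4 dec e s w) k l
    rw [h2]
    by_cases hk : k = i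
    · subst hk
      rw [rowM_self]; simp
    · rw [if_neg hk, rowM_ne hk]
      exact h1

theorem rlz_col (h : Lay orc dec) (j : Fin 4) :
    Rlz orc (dfin 3 dec) (dmat dec) (fun _ _ w => colM j w) := by
  refine RR.bind (rlz_cen h 3 three3) (Dm' := fun _ _ => True)
    (Y' := fun s (x : (ε × (Fin 3 → R)) × Option R) (M : RMat R) =>
      ∀ (k : Fin 3) (l : Fin 4), M k l = if l = j then some (x.1.2 k) else x.2) ?_
    (fun _ _ _ _ _ => trivial) ?_
  · refine RR.search (c := fun s (x : ((ε × (Fin 3 → R)) × Option R) × RMat R) =>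
      ∀ (k : Fin 3) (l : Fin 4), x.2 k l = if l = j then some (x.1.1.2 k) else x.1.2) ?_
      (fun _ _ _ _ h => h) (fun s a _ => ⟨fun k l => if l = j then some (a.1.2 k) else a.2,
        fun k l => rfl⟩)
    refine ORE.allFin fun k => ORE.allFin fun l => ?_
    by_cases hk : l = j
    · simp only [if_pos hk]
      exact ORE.eq (by cpt) (by cpt)
    · simp only [if_neg hk]
      exact ORE.eq (by cpt) (by cpt)
  · rintro s ⟨e, w⟩ c M _ h1 h2
    simp only at h1 h2 ⊢
    funext k l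
    change (M k l).map (dec e s) = colM j (dfin 3 dec e s w) k l
    rw [h2]
    by_cases hk : l = j
    · subst hk
      rw [colM_self]; simp
    · rw [if_neg hk, colM_ne hk]
      exact h1

/-- updating one entry -/
theorem rlz_update (h : Lay orc dec) {f : ∀ e s, Y e s → Y e s} (hf : Rlz orc dec dec f) (n : ℕ)
    (j : Fin n) : Rlz orc (dfin n dec) (dfin n dec)
      (fun e s w => Function.update w j (f e s (w j))) := by
  refine RR.search (c := fun s (x : (ε × (Fin n → R)) × (Fin n → R)) =>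
    (∀ l : Fin n, l = j ∨ x.2 l = x.1.2 l) ∧ dec x.1.1 s (x.2 j) = f x.1.1 s (dec x.1.1 s (x.1.2 j)))
    ?_ ?_ ?_
  · refine ORE.and (ORE.allFin fun l => ORE.or (ORE.re (re_const _)) (ORE.eq (by cpt) (by cpt))) ?_
    exact (hf.graph h).comp (f := fun x : (ε × (Fin n → R)) × (Fin n → R) =>
      (x.1.1, x.1.2 j, x.2 j)) (by cpt)
  · rintro s ⟨e, w⟩ w' _ ⟨h1, h2⟩
    simp only at h1 h2 ⊢
    funext l
    by_cases hl : l = j
    · subst hl
      rw [Function.update_self]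
      exact h2
    · rw [Function.update_of_ne hl]
      rcases h1 l with h3 | h3
      · exact absurd h3 hl
      · simp only [dfin, h3]
  · rintro s ⟨e, w⟩ _
    obtain ⟨r, hr⟩ := hf.total e s (w j)
    refine ⟨Function.update w j r, fun l => ?_, ?_⟩
    · by_cases hl : l = j
      · exact Or.inl hl
      · exact Or.inr (Function.update_of_ne hl _ _)
    · simp only [Function.update_self]
      exact hr

/-- a semantic row matrix has a raw row -/
theorem raw_row {e : ε} {s : σ} {M : RMat R} {i : Fin 3} {w : Fin 4 → Y e s}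
    (h : rowM i w = dmat dec e s M) : ∃ w' : Fin 4 → R, (∀ l, M i l = some (w' l)) ∧
      dfin 4 dec e s w' = w := by
  have h1 : ∀ l, ∃ r, M i l = some r ∧ dec e s r = w l := by
    intro l
    have h2 := congrFun (congrFun h i) l
    rw [rowM_self] at h2
    have h3 : (M i l).map (dec e s) = some (w l) := h2.symm
    rw [Option.map_eq_some_iff] at h3
    exact h3
  choose w' h2 using h1
  exact ⟨w', fun l => (h2 l).1, funext fun l => (h2 l).2⟩

theorem raw_col {e : ε} {s : σ} {M : RMat R} {j : Fin 4} {z : Fin 3 → Y e s}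
    (h : colM j z = dmat dec e s M) : ∃ z' : Fin 3 → R, (∀ k, M k j = some (z' k)) ∧
      dfin 3 dec e s z' = z := by
  have h1 : ∀ k, ∃ r, M k j = some r ∧ dec e s r = z k := by
    intro k
    have h2 := congrFun (congrFun h k) j
    rw [colM_self] at h2
    have h3 : (M k j).map (dec e s) = some (z k) := h2.symm
    rw [Option.map_eq_some_iff] at h3
    exact h3
  choose w' h2 using h1
  exact ⟨w', fun l => (h2 l).1, funext fun l => (h2 l).2⟩

/-- being a row matrix -/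
theorem ore_row (h : Lay orc dec) (i : Fin 3) :
    ORE orc (fun s (x : ε × RMat R) => ∃ w, rowM i w = dmat dec x.1 s x.2) := by
  have k : ORE orc (fun s (x : ε × RMat R) => ∃ w : Fin 4 → R,
      dmat dec x.1 s x.2 = rowM i (dfin 4 dec x.1 s w)) := by
    apply ORE.ex₂ (sp := fun s (x : ε × RMat R) (w : Fin 4 → R) =>
      dmat dec x.1 s x.2 = rowM i (dfin 4 dec x.1 s w))
    exact ((rlz_row h i).graph h.mat).comp (f := fun x : (ε × RMat R) × (Fin 4 → R) =>
      (x.1.1, x.2, x.1.2)) (by cpt)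
  refine k.congr fun s x => ?_
  constructor
  · rintro ⟨w, hw⟩
    obtain ⟨w', -, rfl⟩ := raw_row hw
    exact ⟨w', hw.symm⟩
  · rintro ⟨w, hw⟩
    exact ⟨_, hw.symm⟩

theorem ore_nrow (h : Lay orc dec) (i : Fin 3) :
    ORE orc (fun s (x : ε × RMat R) => ¬ ∃ w, rowM i w = dmat dec x.1 s x.2) := by
  have k : ORE orc (fun s (x : ε × RMat R) => (∃ l : Fin 4, x.2 i l = none) ∨ ∃ w : Fin 4 → R,
      (∀ l : Fin 4, x.2 i l = some (w l)) ∧
      dmat dec x.1 s x.2 ≠ rowM i (dfin 4 dec x.1 s w)) := by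
    refine ORE.or (ORE.exFin fun l => ORE.eq (by cpt) (by cpt)) ?_
    apply ORE.ex₂ (sp := fun s (x : ε × RMat R) (w : Fin 4 → R) =>
      (∀ l : Fin 4, x.2 i l = some (w l)) ∧ dmat dec x.1 s x.2 ≠ rowM i (dfin 4 dec x.1 s w))
    refine ORE.and (ORE.allFin fun l => ORE.eq (by cpt) (by cpt)) ?_
    exact ((rlz_row h i).ngraph h.mat).comp (f := fun x : (ε × RMat R) × (Fin 4 → R) =>
      (x.1.1, x.2, x.1.2)) (by cpt)
  refine k.congr fun s x => ?_
  constructor
  · intro h1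
    by_cases h2 : ∃ l : Fin 4, x.2 i l = none
    · exact Or.inl h2
    · right
      push Not at h2
      have h3 : ∀ l : Fin 4, ∃ r, x.2 i l = some r := fun l => Option.ne_none_iff_exists'.1 (h2 l)
      choose w hw using h3
      exact ⟨w, hw, fun h4 => h1 ⟨_, h4.symm⟩⟩
  · rintro (⟨l, hl⟩ | ⟨w, hw, h1⟩) ⟨w', hw'⟩
    · obtain ⟨w'', h2, -⟩ := raw_row hw'
      exact absurd (h2 l) (by rw [hl]; simp)
    · obtain ⟨w'', h2, rfl⟩ := raw_row hw'
      have : w'' = w := by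
        funext l
        exact Option.some.inj ((h2 l).symm.trans (hw l))
      rw [this] at hw'
      exact h1 hw'.symm

theorem ore_col (h : Lay orc dec) (j : Fin 4) :
    ORE orc (fun s (x : ε × RMat R) => ∃ w, colM j w = dmat dec x.1 s x.2) := by
  have k : ORE orc (fun s (x : ε × RMat R) => ∃ w : Fin 3 → R,
      dmat dec x.1 s x.2 = colM j (dfin 3 dec x.1 s w)) := by
    apply ORE.ex₂ (sp := fun s (x : ε × RMat R) (w : Fin 3 → R) =>
      dmat dec x.1 s x.2 = colM j (dfin 3 dec x.1 s w))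
    exact ((rlz_col h j).graph h.mat).comp (f := fun x : (ε × RMat R) × (Fin 3 → R) =>
      (x.1.1, x.2, x.1.2)) (by cpt)
  refine k.congr fun s x => ?_
  constructor
  · rintro ⟨w, hw⟩
    obtain ⟨w', -, rfl⟩ := raw_col hw
    exact ⟨w', hw.symm⟩
  · rintro ⟨w, hw⟩
    exact ⟨_, hw.symm⟩

theorem ore_ncol (h : Lay orc dec) (j : Fin 4) :
    ORE orc (fun s (x : ε × RMat R) => ¬ ∃ w, colM j w = dmat dec x.1 s x.2) := by
  have k : ORE orc (fun s (x : ε × RMat R) => (∃ l : Fin 3, x.2 l j = none) ∨ ∃ w : Fin 3 → R,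
      (∀ l : Fin 3, x.2 l j = some (w l)) ∧
      dmat dec x.1 s x.2 ≠ colM j (dfin 3 dec x.1 s w)) := by
    refine ORE.or (ORE.exFin fun l => ORE.eq (by cpt) (by cpt)) ?_
    apply ORE.ex₂ (sp := fun s (x : ε × RMat R) (w : Fin 3 → R) =>
      (∀ l : Fin 3, x.2 l j = some (w l)) ∧ dmat dec x.1 s x.2 ≠ colM j (dfin 3 dec x.1 s w))
    refine ORE.and (ORE.allFin fun l => ORE.eq (by cpt) (by cpt)) ?_
    exact ((rlz_col h j).ngraph h.mat).comp (f := fun x : (ε × RMat R) × (Fin 3 → R) =>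
      (x.1.1, x.2, x.1.2)) (by cpt)
  refine k.congr fun s x => ?_
  constructor
  · intro h1
    by_cases h2 : ∃ l : Fin 3, x.2 l j = none
    · exact Or.inl h2
    · right
      push Not at h2
      have h3 : ∀ l : Fin 3, ∃ r, x.2 l j = some r := fun l => Option.ne_none_iff_exists'.1 (h2 l)
      choose w hw using h3
      exact ⟨w, hw, fun h4 => h1 ⟨_, h4.symm⟩⟩
  · rintro (⟨l, hl⟩ | ⟨w, hw, h1⟩) ⟨w', hw'⟩
    · obtain ⟨w'', h2, -⟩ := raw_col hw'
      exact absurd (h2 l) (by rw [hl]; simp)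
    · obtain ⟨w'', h2, rfl⟩ := raw_col hw'
      have : w'' = w := by
        funext l
        exact Option.some.inj ((h2 l).symm.trans (hw l))
      rw [this] at hw'
      exact h1 hw'.symm

/-- **the partial action at a place of the matrices is realised** -/
theorem rlz_act (h : Lay orc dec) {f : ∀ e s, Y e s → Y e s} (hf : Rlz orc dec dec f) (i : Fin 3)
    (j : Fin 4) : Rlz orc (dmat dec) (dmat dec) (fun e s M => act i j (f e s) M) := by
  refine RR.cases (ore_row h i) (ore_nrow h i) (fun s x _ => em _) ?_ ?_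
  · -- row matrices
    refine RR.choose (c := fun s (x : (ε × RMat R) × (Fin 4 → R)) =>
      dmat dec x.1.1 s x.1.2 = rowM i (dfin 4 dec x.1.1 s x.2)) ?_ ?_ ?_
    · exact ((rlz_row h i).graph h.mat).comp (f := fun x : (ε × RMat R) × (Fin 4 → R) =>
        (x.1.1, x.2, x.1.2)) (by cpt)
    · rintro s ⟨e, M⟩ ⟨-, w, hw⟩
      obtain ⟨w', -, rfl⟩ := raw_row hw
      exact ⟨w', hw.symm⟩
    · refine RR.mono (RR.comp (f := fun x : (ε × RMat R) × (Fin 4 → R) => (x.1.1, x.2))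
        (Rlz.comp (rlz_row h i) (rlz_update h hf 4 j)) (by cpt)) (fun _ _ _ => trivial) ?_
      rintro s ⟨⟨e, M⟩, w⟩ M' ⟨-, h1⟩ h2
      simp only at h1 h2 ⊢
      rw [h1, h2, act_row]
  · refine RR.cases ((ore_col h j)) (ore_ncol h j) (fun s x _ => em _) ?_ ?_
    · refine RR.choose (c := fun s (x : (ε × RMat R) × (Fin 3 → R)) =>
        dmat dec x.1.1 s x.1.2 = colM j (dfin 3 dec x.1.1 s x.2)) ?_ ?_ ?_
      · exact ((rlz_col h j).graph h.mat).comp (f := fun x : (ε × RMat R) × (Fin 3 → R) =>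
          (x.1.1, x.2, x.1.2)) (by cpt)
      · rintro s ⟨e, M⟩ ⟨-, w, hw⟩
        obtain ⟨w', -, rfl⟩ := raw_col hw
        exact ⟨w', hw.symm⟩
      · refine RR.mono (RR.comp (f := fun x : (ε × RMat R) × (Fin 3 → R) => (x.1.1, x.2))
          (Rlz.comp (rlz_col h j) (rlz_update h hf 3 i)) (by cpt)) (fun _ _ _ => trivial) ?_
        rintro s ⟨⟨e, M⟩, w⟩ M' ⟨-, h1⟩ h2
        simp only at h1 h2 ⊢
        rw [h1, h2, act_col three3 three4]
    · refine RR.fn (F := fun x : ε × RMat R => x.2) (by cpt) ?_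
      rintro s ⟨e, M⟩ ⟨⟨-, h1⟩, h2⟩
      simp only at h1 h2 ⊢
      push Not at h1 h2
      rw [act_else _ h1 h2]

/-- constant matrices -/
theorem rlz_con (h : Lay orc dec) :
    Rlz orc dec (dmat dec) (fun e s y => cY y) := by
  refine RR.search (c := fun s (x : (ε × R) × RMat R) => ∀ (k : Fin 3) (l : Fin 4),
    x.2 k l = some x.1.2) ?_ ?_ ?_
  · exact ORE.allFin fun k => ORE.allFin fun l => ORE.eq (by cpt) (by cpt)
  · rintro s ⟨e, r⟩ M _ h1
    funext k l
    change (M k l).map (dec e s) = some (dec e s r)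
    have h2 : M k l = some r := h1 k l
    rw [h2]; rfl
  · rintro s ⟨e, r⟩ _
    exact ⟨fun _ _ => some r, fun _ _ => rfl⟩

theorem raw_con {e : ε} {s : σ} {M : RMat R} {y : Y e s} (h : cY y = dmat dec e s M) :
    ∃ r : R, M 0 0 = some r ∧ dec e s r = y := by
  have h2 := congrFun (congrFun h 0) 0
  have h3 : (M 0 0).map (dec e s) = some y := h2.symm
  rwa [Option.map_eq_some_iff] at h3

theorem ore_con (h : Lay orc dec) :
    ORE orc (fun s (x : ε × RMat R) => ∃ y, cY y = dmat dec x.1 s x.2) := by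
  have k : ORE orc (fun s (x : ε × RMat R) => ∃ w : R,
      dmat dec x.1 s x.2 = cY (dec x.1 s w)) := by
    apply ORE.ex₂ (sp := fun s (x : ε × RMat R) (w : R) =>
      dmat dec x.1 s x.2 = cY (dec x.1 s w))
    exact ((rlz_con h).graph h.mat).comp (f := fun x : (ε × RMat R) × R =>
      (x.1.1, x.2, x.1.2)) (by cpt)
  refine k.congr fun s x => ?_
  constructor
  · rintro ⟨w, hw⟩
    obtain ⟨w', -, rfl⟩ := raw_con hw
    exact ⟨w', hw.symm⟩
  · rintro ⟨w, hw⟩
    exact ⟨_, hw.symm⟩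

theorem ore_ncon (h : Lay orc dec) :
    ORE orc (fun s (x : ε × RMat R) => ¬ ∃ y, cY y = dmat dec x.1 s x.2) := by
  have k : ORE orc (fun s (x : ε × RMat R) => (x.2 0 0 = none) ∨ ∃ w : R,
      x.2 0 0 = some w ∧ dmat dec x.1 s x.2 ≠ cY (dec x.1 s w)) := by
    refine ORE.or (ORE.eq (by cpt) (by cpt)) ?_
    apply ORE.ex₂ (sp := fun s (x : ε × RMat R) (w : R) =>
      x.2 0 0 = some w ∧ dmat dec x.1 s x.2 ≠ cY (dec x.1 s w))
    refine ORE.and (ORE.eq (by cpt) (by cpt)) ?_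
    exact ((rlz_con h).ngraph h.mat).comp (f := fun x : (ε × RMat R) × R =>
      (x.1.1, x.2, x.1.2)) (by cpt)
  refine k.congr fun s x => ?_
  constructor
  · intro h1
    rcases h2 : x.2 0 0 with _ | r
    · exact Or.inl rfl
    · exact Or.inr ⟨r, rfl, fun h4 => h1 ⟨_, h4.symm⟩⟩
  · rintro (hl | ⟨w, hw, h1⟩) ⟨w', hw'⟩
    · obtain ⟨w'', h2, -⟩ := raw_con hw'
      rw [hl] at h2
      exact absurd h2 (by simp)
    · obtain ⟨w'', h2, rfl⟩ := raw_con hw'
      rw [hw] at h2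
      rw [Option.some.inj h2] at h1
      exact h1 hw'.symm

end mat

end Crest.Agent.R185.Ev
end

-- ▼ part R185/Ev5

/-!
# R185, block H3 (5): the letters of `K` on raw codes of `ZZ G Y`, continued
-/

set_option autoImplicit false
set_option linter.unusedSectionVars false
set_option linter.unusedVariables false

namespace Crest.Agent.R185.Ev

open Crest.Agent.R292 Crest.Agent.R185.Re Crest.Agent.R185.Wu Crest.Agent.R185.Hot
  Crest.Agent.R185.Smp

section zz

variable {σ W ε : Type} [Primcodable W] [Primcodable ε] {orc : σ → W → Prop}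
variable {Y : ε → σ → Type} {R : Type} [Primcodable R] {dec : ∀ e s, R → Y e s}
variable {G B : Type} [Group G] [Primcodable B]

/-- codes of `G` -/
def decG (gB : B → G) (w : List (B × Bool)) : G := FreeGroup.lift gB (FreeGroup.mk w)

theorem decG_cons (gB : B → G) (b : B × Bool) (w : List (B × Bool)) :
    decG gB (b :: w) = (if b.2 then gB b.1 else (gB b.1)⁻¹) * decG gB w := by
  unfold decG
  rw [mk_cons, map_mul]
  obtain ⟨b, _ | _⟩ := b
  · simp
  · simp

/-- raw codes of `ZZ G Y` -/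
abbrev RZ (R B : Type) : Type := ((ℕ × RMat R) ⊕ (ℕ × R)) ⊕ (ℕ ⊕ List (B × Bool))

/-- the identity coding of `ℕ` -/
abbrev cN : ε → σ → ℕ → ℕ := fun _ _ n => n

/-- coding of `ZZ G Y` -/
abbrev decZ (dec : ∀ e s, R → Y e s) (gB : B → G) : ∀ e s, RZ R B → ZZ G (Y e s) :=
  dsum (Y := fun e s => RX (Y e s)) (Y' := fun _ _ => ℕ ⊕ G)
    (dsum (Y := fun e s => ℕ × Mat (Y e s)) (Y' := fun e s => ℕ × Y e s)
      (dprod (Y := fun _ _ => ℕ) (Y' := fun e s => Mat (Y e s)) cN (dmat dec))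
      (dprod (Y := fun _ _ => ℕ) (Y' := Y) cN dec))
    (dsum (Y := fun _ _ => ℕ) (Y' := fun _ _ => G) cN (fun _ _ => decG gB))

theorem Lay.zz {gB : B → G} (h : Lay orc dec)
    (hG : Lay orc (ε := ε) (Y := fun _ _ => G) (fun _ _ => decG gB)) :
    Lay orc (decZ dec gB) :=
  ((Lay.const.prod h.mat).sum (Lay.const.prod h)).sum (Lay.const.sum hG)

/-- a family of permutations is realised in both directions -/
def RP (orc : σ → W → Prop) (dec : ∀ e s, R → Y e s) (f : ∀ e s, Equiv.Perm (Y e s)) : Prop :=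
  Rlz orc dec dec (fun e s => f e s) ∧ Rlz orc dec dec (fun e s => ((f e s)⁻¹ : Equiv.Perm (Y e s)))

theorem RP.inv {f : ∀ e s, Equiv.Perm (Y e s)} (h : RP orc dec f) :
    RP orc dec (fun e s => (f e s)⁻¹) := ⟨h.2, by simpa using h.1⟩

/-- realising a map on `ZZ` by its four parts -/
theorem rlz_zz {gB : B → G} {R' : Type} [Primcodable R'] {Y' : ε → σ → Type}
    {dec' : ∀ e s, R' → Y' e s} {f : ∀ e s, ZZ G (Y e s) → Y' e s}
    (h1 : RR orc (fun _ _ => True) (fun s (x : ε × (ℕ × RMat R)) r' =>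
      dec' x.1 s r' = f x.1 s (.inl (.inl (x.2.1, dmat dec x.1 s x.2.2)))))
    (h2 : RR orc (fun _ _ => True) (fun s (x : ε × (ℕ × R)) r' =>
      dec' x.1 s r' = f x.1 s (.inl (.inr (x.2.1, dec x.1 s x.2.2)))))
    (h3 : RR orc (fun _ _ => True) (fun s (x : ε × ℕ) r' =>
      dec' x.1 s r' = f x.1 s (.inr (.inl x.2))))
    (h4 : RR orc (fun _ _ => True) (fun s (x : ε × List (B × Bool)) r' =>
      dec' x.1 s r' = f x.1 s (.inr (.inr (decG gB x.2))))) :
    Rlz orc (decZ dec gB) dec' f := by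
  refine RR.sum (RR.sum ?_ ?_) (RR.sum ?_ ?_)
  · exact h1
  · exact h2
  · exact h3
  · exact h4

/-- splitting at index zero -/
theorem rr_nat {R' : Type} [Primcodable R'] {Z : σ → ε × (ℕ × R) → R' → Prop}
    (h1 : RR orc (fun _ _ => True) (fun s (x : ε × R) r' => Z s (x.1, (0, x.2)) r'))
    (h2 : RR orc (fun _ _ => True) (fun s (x : ε × (ℕ × R)) r' =>
      Z s (x.1, (x.2.1 + 1, x.2.2)) r')) :
    RR orc (fun _ _ => True) Z := RR.nat h1 h2

theorem rlz_b {gB : B → G} {f : ∀ e s, Equiv.Perm (Y e s)} (hf : Rlz orc dec dec (fun e s => f e s)) :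
    Rlz orc (decZ dec gB) (decZ dec gB) (fun e s => zb G (f e s)) := by
  refine rlz_zz ?_ (rr_nat ?_ ?_) ?_ ?_
  · exact RR.fn (F := fun x : ε × (ℕ × RMat R) => (Sum.inl (Sum.inl x.2) : RZ R B)) (by cpt)
      (fun _ _ _ => rfl)
  · refine RR.map hf (F := fun x : (ε × R) × R => (Sum.inl (Sum.inr (0, x.2)) : RZ R B)) (by cpt) ?_
    rintro s ⟨e, r⟩ r' _ h1
    change (Sum.inl (Sum.inr (0, dec e s r')) : ZZ G (Y e s)) = _
    simp only at h1
    rw [h1]; rfl
  · exact RR.fn (F := fun x : ε × (ℕ × R) => (Sum.inl (Sum.inr (x.2.1 + 1, x.2.2)) : RZ R B))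
      (by cpt) (fun _ _ _ => rfl)
  · exact RR.fn (F := fun x : ε × ℕ => (Sum.inr (Sum.inl x.2) : RZ R B)) (by cpt)
      (fun _ _ _ => rfl)
  · exact RR.fn (F := fun x : ε × List (B × Bool) => (Sum.inr (Sum.inr x.2) : RZ R B)) (by cpt)
      (fun _ _ _ => rfl)

theorem rlz_v {gB : B → G} (h : Lay orc dec) {f : ∀ e s, Equiv.Perm (Y e s)}
    (hf : Rlz orc dec dec (fun e s => f e s)) (i : Fin 3) (j : Fin 4) :
    Rlz orc (decZ dec gB) (decZ dec gB) (fun e s => zv G i j (f e s)) := by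
  refine rlz_zz ?_ ?_ ?_ ?_
  · refine RR.map (RR.comp (f := fun x : ε × (ℕ × RMat R) => (x.1, x.2.2)) (rlz_act h hf i j)
      (by cpt)) (F := fun x : (ε × (ℕ × RMat R)) × RMat R =>
        (Sum.inl (Sum.inl (x.1.2.1, x.2)) : RZ R B)) (by cpt) ?_
    rintro s ⟨e, n, M⟩ M' _ h1
    change (Sum.inl (Sum.inl (n, dmat dec e s M')) : ZZ G (Y e s)) = _
    simp only at h1
    rw [h1]; rfl
  · exact RR.fn (F := fun x : ε × (ℕ × R) => (Sum.inl (Sum.inr x.2) : RZ R B))
      (by cpt) (fun _ _ _ => rfl)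
  · exact RR.fn (F := fun x : ε × ℕ => (Sum.inr (Sum.inl x.2) : RZ R B)) (by cpt)
      (fun _ _ _ => rfl)
  · exact RR.fn (F := fun x : ε × List (B × Bool) => (Sum.inr (Sum.inr x.2) : RZ R B)) (by cpt)
      (fun _ _ _ => rfl)

theorem rlz_s {gB : B → G} (h : Lay orc dec) :
    Rlz orc (decZ dec gB) (decZ dec gB) (fun e s => zs G (Y e s)) := by
  refine rlz_zz (RR.nat ?_ ?_) ?_ ?_ ?_
  · -- index 0
    refine RR.cases (c1 := fun s (x : ε × RMat R) => ∃ y, cY y = dmat dec x.1 s x.2)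
      (c2 := fun s x => ¬ ∃ y, cY y = dmat dec x.1 s x.2) (ore_con h) (ore_ncon h)
      (fun s x _ => em _) ?_ ?_
    · refine RR.choose (c := fun s (x : (ε × RMat R) × R) =>
        dmat dec x.1.1 s x.1.2 = cY (dec x.1.1 s x.2)) ?_ ?_ ?_
      · exact ((rlz_con h).graph h.mat).comp (f := fun x : (ε × RMat R) × R =>
          (x.1.1, x.2, x.1.2)) (by cpt)
      · rintro s ⟨e, M⟩ ⟨-, y, hy⟩
        obtain ⟨r, -, rfl⟩ := raw_con hy
        exact ⟨r, hy.symm⟩
      · refine RR.fn (F := fun x : (ε × RMat R) × R => (Sum.inl (Sum.inr (0, x.2)) : RZ R B))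
          (by cpt) ?_
        rintro s ⟨⟨e, M⟩, r⟩ ⟨-, h1⟩
        simp only at h1 ⊢
        rw [h1]
        change (Sum.inl (Sum.inr (0, dec e s r)) : ZZ G (Y e s)) =
          Sum.inl (shf (Sum.inl (0, cY (dec e s r))))
        rw [shf_zero]
    · refine RR.fn (F := fun x : ε × RMat R => (Sum.inl (Sum.inl (0, x.2)) : RZ R B))
          (by cpt) ?_
      rintro s ⟨e, M⟩ ⟨-, h1⟩
      simp only at h1 ⊢
      change (Sum.inl (Sum.inl (0, dmat dec e s M)) : ZZ G (Y e s)) =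
          Sum.inl (shf (Sum.inl (0, dmat dec e s M)))
      rw [shf_else]
      intro y hy
      exact h1 ⟨y, hy⟩
  · refine RR.cases (c1 := fun s (x : ε × ℕ × RMat R) => ∃ y, cY y = dmat dec x.1 s x.2.2)
      (c2 := fun s x => ¬ ∃ y, cY y = dmat dec x.1 s x.2.2)
      ((ore_con h).comp (f := fun x : ε × ℕ × RMat R => (x.1, x.2.2)) (by cpt))
      ((ore_ncon h).comp (f := fun x : ε × ℕ × RMat R => (x.1, x.2.2)) (by cpt))
      (fun s x _ => em _) ?_ ?_
    · refine RR.fn (F := fun x : ε × ℕ × RMat R => (Sum.inl (Sum.inl (x.2.1, x.2.2)) : RZ R B))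
          (by cpt) ?_
      rintro s ⟨e, n, M⟩ ⟨-, y, h1⟩
      simp only at h1 ⊢
      change (Sum.inl (Sum.inl (n, dmat dec e s M)) : ZZ G (Y e s)) =
          Sum.inl (shf (Sum.inl (n + 1, dmat dec e s M)))
      rw [← h1, shf_succ]
    · refine RR.fn (F := fun x : ε × ℕ × RMat R => (Sum.inl (Sum.inl (x.2.1 + 1, x.2.2)) : RZ R B))
          (by cpt) ?_
      rintro s ⟨e, n, M⟩ ⟨-, h1⟩
      simp only at h1 ⊢
      change (Sum.inl (Sum.inl (n + 1, dmat dec e s M)) : ZZ G (Y e s)) =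
          Sum.inl (shf (Sum.inl (n + 1, dmat dec e s M)))
      rw [shf_else]
      intro y hy
      exact h1 ⟨y, hy⟩
  · exact RR.fn (F := fun x : ε × (ℕ × R) => (Sum.inl (Sum.inr (x.2.1 + 1, x.2.2)) : RZ R B))
      (by cpt) (fun _ _ _ => rfl)
  · exact RR.fn (F := fun x : ε × ℕ => (Sum.inr (Sum.inl x.2) : RZ R B)) (by cpt)
      (fun _ _ _ => rfl)
  · exact RR.fn (F := fun x : ε × List (B × Bool) => (Sum.inr (Sum.inr x.2) : RZ R B)) (by cpt)
      (fun _ _ _ => rfl)

theorem rlz_s' {gB : B → G} (h : Lay orc dec) :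
    Rlz orc (decZ dec gB) (decZ dec gB) (fun e s => ((zs G (Y e s))⁻¹ : Equiv.Perm _)) := by
  refine rlz_zz ?_ (rr_nat ?_ ?_) ?_ ?_
  · refine RR.cases (c1 := fun s (x : ε × ℕ × RMat R) => ∃ y, cY y = dmat dec x.1 s x.2.2)
      (c2 := fun s x => ¬ ∃ y, cY y = dmat dec x.1 s x.2.2)
      ((ore_con h).comp (f := fun x : ε × ℕ × RMat R => (x.1, x.2.2)) (by cpt))
      ((ore_ncon h).comp (f := fun x : ε × ℕ × RMat R => (x.1, x.2.2)) (by cpt))
      (fun s x _ => em _) ?_ ?_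
    · refine RR.fn (F := fun x : ε × ℕ × RMat R => (Sum.inl (Sum.inl (x.2.1 + 1, x.2.2)) : RZ R B))
          (by cpt) ?_
      rintro s ⟨e, n, M⟩ ⟨-, y, h1⟩
      simp only at h1 ⊢
      change (Sum.inl (Sum.inl (n + 1, dmat dec e s M)) : ZZ G (Y e s)) =
          Sum.inl (shg (Sum.inl (n, dmat dec e s M)))
      rw [← h1, shg_con]
    · refine RR.fn (F := fun x : ε × ℕ × RMat R => (Sum.inl (Sum.inl (x.2.1, x.2.2)) : RZ R B))
          (by cpt) ?_
      rintro s ⟨e, n, M⟩ ⟨-, h1⟩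
      simp only at h1 ⊢
      change (Sum.inl (Sum.inl (n, dmat dec e s M)) : ZZ G (Y e s)) =
          Sum.inl (shg (Sum.inl (n, dmat dec e s M)))
      rw [shg_else]
      intro y hy
      exact h1 ⟨y, hy⟩
  · refine RR.map (rlz_con h) (F := fun x : (ε × R) × RMat R =>
      (Sum.inl (Sum.inl (0, x.2)) : RZ R B)) (by cpt) ?_
    rintro s ⟨e, r⟩ M _ h1
    change (Sum.inl (Sum.inl (0, dmat dec e s M)) : ZZ G (Y e s)) =
      Sum.inl (shg (Sum.inr (0, dec e s r)))
    simp only at h1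
    rw [h1, shg_zero]
  · exact RR.fn (F := fun x : ε × (ℕ × R) => (Sum.inl (Sum.inr (x.2.1, x.2.2)) : RZ R B))
      (by cpt) (fun _ _ _ => rfl)
  · exact RR.fn (F := fun x : ε × ℕ => (Sum.inr (Sum.inl x.2) : RZ R B)) (by cpt)
      (fun _ _ _ => rfl)
  · exact RR.fn (F := fun x : ε × List (B × Bool) => (Sum.inr (Sum.inr x.2) : RZ R B)) (by cpt)
      (fun _ _ _ => rfl)

/-- generators of `G` -/
theorem rlz_g {gB : B → G} (c : B × Bool) :
    Rlz orc (decZ dec gB) (decZ dec gB) (fun e s => zg (Y e s) (if c.2 then gB c.1 else (gB c.1)⁻¹)) := by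
  refine rlz_zz ?_ ?_ ?_ ?_
  · exact RR.fn (F := fun x : ε × (ℕ × RMat R) => (Sum.inl (Sum.inl x.2) : RZ R B)) (by cpt)
      (fun _ _ _ => rfl)
  · exact RR.fn (F := fun x : ε × (ℕ × R) => (Sum.inl (Sum.inr x.2) : RZ R B))
      (by cpt) (fun _ _ _ => rfl)
  · exact RR.fn (F := fun x : ε × ℕ => (Sum.inr (Sum.inl x.2) : RZ R B)) (by cpt)
      (fun _ _ _ => rfl)
  · refine RR.fn (F := fun x : ε × List (B × Bool) => (Sum.inr (Sum.inr (c :: x.2)) : RZ R B))
      (by cpt) ?_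
    rintro s ⟨e, w⟩ _
    change (Sum.inr (Sum.inr (decG gB (c :: w))) : ZZ G (Y e s)) =
      Sum.inr (Sum.inr ((if c.2 then gB c.1 else (gB c.1)⁻¹) * decG gB w))
    rw [decG_cons]

/-- shifts of the spare points -/
theorem rlz_sp {gB : B → G} {f : Equiv.Perm ℕ} (hf : Computable f) :
    Rlz orc (decZ dec gB) (decZ dec gB) (fun e s => zsp G (Y e s) f) := by
  refine rlz_zz ?_ ?_ ?_ ?_
  · exact RR.fn (F := fun x : ε × (ℕ × RMat R) => (Sum.inl (Sum.inl x.2) : RZ R B)) (by cpt)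
      (fun _ _ _ => rfl)
  · exact RR.fn (F := fun x : ε × (ℕ × R) => (Sum.inl (Sum.inr x.2) : RZ R B))
      (by cpt) (fun _ _ _ => rfl)
  · exact RR.fn (F := fun x : ε × ℕ => (Sum.inr (Sum.inl (f x.2)) : RZ R B))
      (cinr (cinl (hf.comp (by cpt)))) (fun _ _ _ => rfl)
  · exact RR.fn (F := fun x : ε × List (B × Bool) => (Sum.inr (Sum.inr x.2) : RZ R B)) (by cpt)
      (fun _ _ _ => rfl)

open Classical in
/-- the swap of two coded points -/
theorem rlz_swap {a b : ∀ e s, Y e s} (h : Lay orc dec) {ra rb : ε → R} (hra : Computable ra)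
    (hrb : Computable rb) (ha : ∀ e s, dec e s (ra e) = a e s) (hb : ∀ e s, dec e s (rb e) = b e s) :
    Rlz orc dec dec (fun e s => Equiv.swap (a e s) (b e s)) := by
  have c1 : ORE orc (fun s (x : ε × R) => dec x.1 s x.2 = dec x.1 s (ra x.1)) :=
    h.eq.comp (f := fun x : ε × R => (x.1, x.2, ra x.1)) (cpair (cfst cid) (cpair (csnd cid) (hra.comp (cfst cid))))
  have c1' : ORE orc (fun s (x : ε × R) => dec x.1 s x.2 ≠ dec x.1 s (ra x.1)) :=
    h.ne.comp (f := fun x : ε × R => (x.1, x.2, ra x.1)) (cpair (cfst cid) (cpair (csnd cid) (hra.comp (cfst cid))))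
  have c2 : ORE orc (fun s (x : ε × R) => dec x.1 s x.2 = dec x.1 s (rb x.1)) :=
    h.eq.comp (f := fun x : ε × R => (x.1, x.2, rb x.1)) (cpair (cfst cid) (cpair (csnd cid) (hrb.comp (cfst cid))))
  have c2' : ORE orc (fun s (x : ε × R) => dec x.1 s x.2 ≠ dec x.1 s (rb x.1)) :=
    h.ne.comp (f := fun x : ε × R => (x.1, x.2, rb x.1)) (cpair (cfst cid) (cpair (csnd cid) (hrb.comp (cfst cid))))
  refine RR.cases c1 c1' (fun s x _ => _root_.em _) ?_ (RR.cases c2 c2' (fun s x _ => _root_.em _) ?_ ?_)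
  · refine RR.fn (F := fun x : ε × R => rb x.1) (hrb.comp (cfst cid)) ?_
    rintro s ⟨e, r⟩ ⟨-, h1⟩
    simp only at h1 ⊢
    rw [h1, ha, hb, Equiv.swap_apply_left]
  · refine RR.fn (F := fun x : ε × R => ra x.1) (hra.comp (cfst cid)) ?_
    rintro s ⟨e, r⟩ ⟨-, h1⟩
    simp only at h1 ⊢
    rw [h1, ha, hb, Equiv.swap_apply_right]
  · refine RR.fn (F := fun x : ε × R => x.2) (csnd cid) ?_
    rintro s ⟨e, r⟩ ⟨⟨-, h1⟩, h2⟩
    simp only at h1 h2 ⊢
    rw [ha] at h1
    rw [hb] at h2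
    rw [Equiv.swap_apply_of_ne_of_ne h1 h2]

theorem ieN_ofNat (k : ℕ) : Equiv.intEquivNat (k : ℤ) = 2 * k := rfl

theorem ieN_negSucc (k : ℕ) : Equiv.intEquivNat (Int.negSucc k) = 2 * k + 1 := rfl

theorem ieN_symm_even (k : ℕ) : Equiv.intEquivNat.symm (2 * k) = (k : ℤ) := by
  rw [Equiv.symm_apply_eq, ieN_ofNat]

theorem ieN_symm_odd (k : ℕ) : Equiv.intEquivNat.symm (2 * k + 1) = Int.negSucc k := by
  rw [Equiv.symm_apply_eq, ieN_negSucc]

theorem prim_mod2 {f g : ℕ → ℕ} (hf : Primrec f) (hg : Primrec g) :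
    Primrec fun n : ℕ => if n % 2 = 0 then f n else g n :=
  Primrec.ite (PrimrecRel.comp Primrec.eq (Primrec.nat_mod.comp Primrec.id (Primrec.const 2))
      (Primrec.const 0)) hf hg

/-- the shift of the spare points is computable -/
theorem spP_comp : Computable (spP : ℕ → ℕ) := by
  have h := prim_mod2 (Primrec.nat_add.comp Primrec.id (Primrec.const 2))
      (Primrec.nat_sub.comp Primrec.id (Primrec.const 2))
  refine h.to_comp.of_eq fun n => ?_
  rw [spP_apply]
  rcases Nat.even_or_odd' n with ⟨k, rfl | rfl⟩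
  · rw [ieN_symm_even, show ((k : ℤ) + 1) = ((k + 1 : ℕ) : ℤ) by push_cast; rfl, ieN_ofNat]
    simp; omega
  · rw [ieN_symm_odd]
    rcases k with _ | k
    · simp [Equiv.intEquivNat]; rfl
    · rw [show Int.negSucc (k + 1) + 1 = Int.negSucc k by omega, ieN_negSucc]
      simp only [id]
      rw [if_neg (by omega)]
      omega

theorem spP_inv_comp : Computable ((spP⁻¹ : Equiv.Perm ℕ) : ℕ → ℕ) := by
  have h := prim_mod2 (Primrec.ite (PrimrecRel.comp Primrec.eq Primrec.id (Primrec.const 0))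
      (Primrec.const 1) (Primrec.nat_sub.comp Primrec.id (Primrec.const 2)))
      (Primrec.nat_add.comp Primrec.id (Primrec.const 2))
  refine h.to_comp.of_eq fun n => ?_
  rw [spP_symm_apply]
  rcases Nat.even_or_odd' n with ⟨k, rfl | rfl⟩
  · rw [ieN_symm_even]
    rcases k with _ | k
    · rfl
    · rw [show (((k + 1 : ℕ) : ℤ) + -1) = (k : ℤ) by push_cast; omega, ieN_ofNat]
      simp only [id]
      rw [if_pos (by omega), if_neg (by omega)]
      omega
  · rw [ieN_symm_odd, show Int.negSucc k + -1 = Int.negSucc (k + 1) by omega, ieN_negSucc]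
    simp only [id]
    rw [if_neg (by omega)]
    omega

variable {A : Type}

/-- **all letters of `K` are realised in both directions** -/
theorem rp_kact {gB : B → G} (h : Lay orc dec)
    (hG : Lay orc (ε := ε) (Y := fun _ _ => G) (fun _ _ => decG gB))
    {y₀ : ∀ e s, Y e s} {r₀ : ε → R} (hr : Computable r₀) (hy : ∀ e s, dec e s (r₀ e) = y₀ e s)
    {pa : ∀ e s, A → Equiv.Perm (Y e s)} (hpa : ∀ a, RP orc dec (fun e s => pa e s a))
    (a : KLet A B) : RP orc (decZ dec gB) (fun e s => kact gB (y₀ e s) (pa e s) a) := by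
  have c1 : Computable fun _ : ε => (Sum.inr (Sum.inl 0) : RZ R B) := ccst _
  have c2 : Computable fun e : ε => (Sum.inl (Sum.inr (0, r₀ e)) : RZ R B) := by cpt
  have c3 : Computable fun _ : ε => (Sum.inr (Sum.inr []) : RZ R B) := ccst _
  have hG1 : decG gB ([] : List (B × Bool)) = 1 := by
    unfold decG
    rw [← FreeGroup.one_eq_mk, map_one]
  cases a with
  | b a =>
    refine ⟨rlz_b (hpa a).1, ?_⟩
    refine (rlz_b (hpa a).2).congr fun e s r => ?_
    change (zb G (pa e s a))⁻¹ _ = zb G (pa e s a)⁻¹ _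
    rw [map_inv]
  | v i j a =>
    refine ⟨rlz_v h (hpa a).1 i j, ?_⟩
    refine (rlz_v h (f := fun e s => (pa e s a)⁻¹) (hpa a).2 i j).congr fun e s r => ?_
    change (zv G i j (pa e s a))⁻¹ _ = zv G i j (pa e s a)⁻¹ _
    rw [map_inv]
  | s => exact ⟨rlz_s h, rlz_s' h⟩
  | g c =>
    refine ⟨(rlz_g (c, true)).congr fun e s r => rfl, (rlz_g (c, false)).congr fun e s r => ?_⟩
    change (zg (Y e s) (gB c))⁻¹ _ = zg (Y e s) (gB c)⁻¹ _
    rw [map_inv]
  | sp =>
    refine ⟨rlz_sp spP_comp, (rlz_sp spP_inv_comp).congr fun e s r => ?_⟩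
    rfl
  | sw =>
    have := rlz_swap (h.zz hG) c1 c2 (a := fun e s => pts G (Y e s) 0)
      (b := fun e s => ptb G (y₀ e s)) (fun e s => rfl) (fun e s => by
        change (Sum.inl (Sum.inr (0, dec e s (r₀ e))) : ZZ G (Y e s)) = _
        rw [hy])
    refine ⟨this, this.congr fun e s r => ?_⟩
    classical
    simp only [kact, Equiv.swap_inv]
  | sw' =>
    have := rlz_swap (h.zz hG) c3 c1 (a := fun e s => ptg (Y e s) (1 : G))
      (b := fun e s => pts G (Y e s) 0) (fun e s => by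
        change (Sum.inr (Sum.inr (decG gB [])) : ZZ G (Y e s)) = _
        rw [hG1]) (fun e s => rfl)
    refine ⟨this, this.congr fun e s r => ?_⟩
    classical
    simp only [kact, Equiv.swap_inv]

end zz

end Crest.Agent.R185.Ev
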