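import Crest.Agent.R185.Loc2
import Crest.Agent.R185.Smp6
import Crest.Agent.R185.Asm3
import Crest.Agent.R185.Smp10
import Crest.Agent.R185.Hub3

-- ▼ part R185/Loc3
section

/-!
# R185 / LOC (3): types of single points of `Y(X)`
-/

set_option autoImplicit false

namespace Crest.Agent.R185.Loc

open Equiv Crest.Agent.R185.Md191A Crest.Agent.R185.Md191B Crest.Agent.R185.Md191E
  Crest.Agent.R185.Hub Crest.Agent.R185.Smp

/-! ### the height -/

section height

variable {D : Type} [Group D] {S : Subgroup D} {Pp : Type} {χ : S →* Perm Pp}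

/-- `[x, (z, p)] ↦ x z` -/
def zeI : Ind S (starQ χ) → D :=
  Quotient.lift (fun q : D × (D × Pp) => q.1 * q.2.1) (by
    rintro ⟨x, z, p⟩ ⟨x', z', p'⟩ ⟨e, h1, h2⟩
    simp only at h1 h2 ⊢
    rw [starQ_apply] at h2
    have h3 : z' = (e : D) * z := congrArg Prod.fst h2
    rw [h1, h3]; group)

/-- `ζ : Y → D` -/
def ze : YP χ → D
  | Sum.inl (_, w) => zeI w
  | Sum.inr (_, (z, _)) => z

@[simp] theorem ze_pt (s : ℤ) (x z : D) (p : Pp) : ze (ptS χ s x z p) = x * z := by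
  by_cases hs : 0 < s
  · rw [ptS_pos χ hs]; rfl
  · rw [ptS_neg χ (not_lt.1 hs)]; rfl

theorem ze_d (d : D) (y : YP χ) : ze (dP χ d y) = d * ze y := by
  obtain ⟨s, x, z, p, rfl⟩ := ptS_cases y
  rw [dP_pt, ze_pt, ze_pt, mul_assoc]

theorem ze_di (d : D) (y : YP χ) : ze ((dP χ d)⁻¹ y) = d⁻¹ * ze y := by
  obtain ⟨s, x, z, p, rfl⟩ := ptS_cases y
  rw [dPi_pt, ze_pt, ze_pt, mul_assoc]

theorem ze_j (j : Perm Pp) (y : YP χ) : ze (jP χ j y) = ze y := by
  obtain ⟨s, x, z, p, rfl⟩ := ptS_cases y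
  by_cases hs : s = 1
  · rw [hs, jP_one, ze_pt, ze_pt]
  · rw [jP_ne _ hs]

theorem ze_s (y : YP χ) : ze (sP χ y) = ze y := by
  obtain ⟨s, x, z, p, rfl⟩ := ptS_cases y
  by_cases hs : 0 < s
  · rw [sP_pos hs, ze_pt, ze_pt]
  · by_cases hx : x ∈ S
    · by_cases h0 : s = 0
      · rw [h0, sP_zero hx, ze_pt, ze_pt, one_mul]
      · rw [sP_neg (by omega) hx, ze_pt, ze_pt]
    · rw [sP_else (by omega) hx]

theorem ze_si (y : YP χ) : ze ((sP χ)⁻¹ y) = ze y := by
  have h1 : sP χ ((sP χ)⁻¹ y) = y := by simp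
  have := ze_s ((sP χ)⁻¹ y)
  rw [h1] at this
  exact this.symm

theorem ze_ji (j : Perm Pp) (y : YP χ) : ze ((jP χ j)⁻¹ y) = ze y := by
  rw [jP_inv, ze_j]

end height

section single

variable {A : Type} [DecidableEq A] {D J : Type} [Group D] {dl : J → D} {S : Subgroup D}
  {chi : ∀ (X : Type) [MulAction (FreeGroup A) X], S →* Perm (P A X)}
  {Acc : Set (FreeGroup A)} {C : ℕ}

/-- the action of an alphabet -/
noncomputable abbrev pa {B : Type} (kd : B → Kd D A)
    (chi : ∀ (X : Type) [MulAction (FreeGroup A) X], S →* Perm (P A X))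
    (X : Type) [MulAction (FreeGroup A) X] : B → Perm (YP (chi X)) :=
  fun b => kAct chi X (kd b)

theorem sg_sgn {B Z : Type} (p : B → Perm Z) (a : B × Bool) (z : Z) :
    sg p a z = sgn (p a.1) a.2 z := by
  obtain ⟨a, b⟩ := a
  cases b
  · rw [sg_false, sgn_false]
  · rw [sg_true, sgn_true]

/-- a height on `D` -/
structure Hgt (dl : J → D) (S : Subgroup D) (η : D →* Multiplicative ℤ) : Prop where
  one : ∀ e ∈ S, η e = 1
  le : ∀ j, (Multiplicative.toAdd (η (dl j))).natAbs ≤ 1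

theorem Hgt.ball {η : D →* Multiplicative ℤ} (h : Hgt dl S η) {n : ℕ} {x : D}
    (hx : Ball dl n x) : (Multiplicative.toAdd (η x)).natAbs ≤ n := by
  obtain ⟨l, hl, rfl⟩ := hx
  refine le_trans ?_ hl
  clear hl
  induction l with
  | nil => rw [← FreeGroup.one_eq_mk, map_one, map_one]; simp
  | cons a l ih =>
    have h1 : (FreeGroup.mk (a :: l) : FreeGroup J) = FreeGroup.mk [a] * FreeGroup.mk l := by
      rw [FreeGroup.mul_mk]; rfl
    rw [h1, map_mul, map_mul, toAdd_mul]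
    have h2 := h.le a.1
    have h3 : (Multiplicative.toAdd (η (FreeGroup.lift dl (FreeGroup.mk [a])))).natAbs ≤ 1 := by
      obtain ⟨a, b⟩ := a
      cases b
      · simpa using h2
      · simpa using h2
    have h4 := Int.natAbs_add_le (Multiplicative.toAdd (η (FreeGroup.lift dl (FreeGroup.mk [a]))))
      (Multiplicative.toAdd (η (FreeGroup.lift dl (FreeGroup.mk l))))
    simp only [List.length_cons]
    omega

variable {X X' : Type} [MulAction (FreeGroup A) X] [MulAction (FreeGroup A) X']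
  {B₀ : Type} {kd : B₀ → Kd D A}

/-- the height of a point -/
def hty (η : D →* Multiplicative ℤ) {Pp : Type} {χ : S →* Perm Pp} (y : YP χ) : ℤ :=
  Multiplicative.toAdd (η (ze y))

theorem hty_step {η : D →* Multiplicative ℤ} (h : Hgt dl S η) (hkd : ∀ b, (kd b).Ok dl)
    (a : B₀ × Bool) (y : YP (chi X)) :
    |hty η (sg (pa kd chi X) a y) - hty η y| ≤ 1 := by
  obtain ⟨b, ε⟩ := a
  rw [sg_sgn]
  simp only [pa]
  have hb := hkd b
  cases hk : kd b with
  | d x =>
    rw [hk] at hb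
    have hx := h.ball (n := 1) (x := x) hb
    cases ε
    · rw [sgn_false, kAct, hty, hty, ze_di, map_mul, toAdd_mul, map_inv, toAdd_inv]
      rw [add_sub_cancel_right, abs_neg, abs_le]
      omega
    · rw [sgn_true, kAct, hty, hty, ze_d, map_mul, toAdd_mul]
      rw [add_sub_cancel_right, abs_le]
      omega
  | s =>
    cases ε
    · rw [sgn_false, kAct, hty, hty, ze_si]; simp
    · rw [sgn_true, kAct, hty, hty, ze_s]; simp
  | b a =>
    cases ε
    · rw [sgn_false, kAct, hty, hty, ze_ji]; simp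
    · rw [sgn_true, kAct, hty, hty, ze_j]; simp
  | g a =>
    cases ε
    · rw [sgn_false, kAct, hty, hty, ze_ji]; simp
    · rw [sgn_true, kAct, hty, hty, ze_j]; simp
  | t =>
    cases ε
    · rw [sgn_false, kAct, hty, hty, ze_ji]; simp
    · rw [sgn_true, kAct, hty, hty, ze_j]; simp

theorem hty_ev {η : D →* Multiplicative ℤ} (h : Hgt dl S η) (hkd : ∀ b, (kd b).Ok dl)
    (w : List (B₀ × Bool)) (y : YP (chi X)) :
    |hty η (ev (sg (pa kd chi X)) w y) - hty η y| ≤ w.length := by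
  induction w with
  | nil => simp
  | cons a w ih =>
    rw [ev_cons]
    have h1 := hty_step h hkd a (ev (sg (pa kd chi X)) w y)
    rw [abs_le] at h1 ih ⊢
    simp only [List.length_cons]
    push_cast
    constructor <;> linarith [h1.1, h1.2, ih.1, ih.2]

/-! ### paths -/

theorem Rel.path {q : Pair A D X X'} {k₀ n B : ℕ} (hq : q.Ok dl Acc C k₀ n B)
    (hlin : LinH dl S chi Acc C) (hB : 3 * (C * k₀) + 3 * (C * n) + n ≤ B)
    (hkd : ∀ b, (kd b).Ok dl) {y : YP (chi X)} {y' : YP (chi X')}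
    (h : Rel dl chi C k₀ q 0 y y') (w : List (B₀ × Bool)) (hw : w.length ≤ n) :
    Rel dl chi C k₀ q w.length (ev (sg (pa kd chi X)) w y) (ev (sg (pa kd chi X')) w y') := by
  induction w with
  | nil => exact h
  | cons a w ih =>
    rw [ev_cons, ev_cons, sg_sgn, sg_sgn]
    simp only [List.length_cons] at hw
    exact Rel.step hq hlin hB (by omega) (ih (by omega)) _ (hkd _) _

theorem Rel.start (q : Pair A D X X') {k₀ : ℕ} (hx : Ball dl k₀ q.x) :
    Rel dl chi C k₀ q 0 (ptS (chi X) q.s q.x q.z (q.g, q.m, q.ξ))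
      (ptS (chi X') q.s' q.x q.z' (q.g', q.m', q.ξ')) :=
  ⟨0, q.x, 1, 1, 0, 1, k₀, by simp, ⟨hx, by omega⟩, by simp, by simp, by simp⟩

/-- **the two points of an `Ok` pair have the same `n`-type** -/
theorem Pair.Ok.type {q : Pair A D X X'} {k₀ n B : ℕ} (hq : q.Ok dl Acc C k₀ n B)
    (hlin : LinH dl S chi Acc C) (hB : 3 * (C * k₀) + 3 * (C * n) + n ≤ B)
    (hkd : ∀ b, (kd b).Ok dl) (w : List (B₀ × Bool)) (hw : w.length ≤ n) :
    ev (sg (pa kd chi X)) w (ptS (chi X) q.s q.x q.z (q.g, q.m, q.ξ)) =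
        ptS (chi X) q.s q.x q.z (q.g, q.m, q.ξ) ↔
      ev (sg (pa kd chi X')) w (ptS (chi X') q.s' q.x q.z' (q.g', q.m', q.ξ')) =
        ptS (chi X') q.s' q.x q.z' (q.g', q.m', q.ξ') :=
  Rel.fin hq hlin hB hw (Rel.path hq hlin hB hkd (Rel.start q hq.hx) w hw)

/-- the base point -/
noncomputable def y₀ (chi : ∀ (X : Type) [MulAction (FreeGroup A) X], S →* Perm (P A X))
    {X : Type} [MulAction (FreeGroup A) X] (x₀ : X) : YP (chi X) :=
  ptS (chi X) 1 1 1 (1, 0, x₀)

/-- the budget -/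
def bud (C k₀ n : ℕ) : ℕ := 3 * (C * k₀) + 3 * (C * n) + n

/-- **(A')** the type of the base point only depends on the type of `x₀` -/
theorem type_base (hlin : LinH dl S chi Acc C) (hkd : ∀ b, (kd b).Ok dl) {n : ℕ} {x₀ : X}
    {x₀' : X'} (h : GoodAt Acc x₀ (C * bud C 0 n + 3 * bud C 0 n))
    (h' : GoodAt Acc x₀' (C * bud C 0 n + 3 * bud C 0 n))
    (hty : ∀ u : FreeGroup A, u.norm ≤ 2 * bud C 0 n → (u • x₀ = x₀ ↔ u • x₀' = x₀')) :
    TyEq (sg (pa kd chi X)) (sg (pa kd chi X')) n (fun _ : Fin 1 => y₀ chi x₀)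
      (fun _ => y₀ chi x₀') := by
  intro _ _ w hw
  let q : Pair A D X X' := ⟨1, 1, 1, 1, 1, 1, 1, 0, 0, x₀, x₀'⟩
  have hq : q.Ok dl Acc C 0 n (bud C 0 n) :=
    ⟨Or.inl rfl, Or.inl rfl, Or.inl rfl, Ball.one 0, h.mono (by simp [q]), h'.mono (by simp [q]),
      hty⟩
  exact hq.type hlin le_rfl hkd w hw

end single

end Crest.Agent.R185.Loc
end

-- ▼ part R185/Loc4
section

/-!
# R185 / LOC (4): small witnesses for types of single points of `Y(X)`
-/

set_option autoImplicit false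
set_option linter.unusedSectionVars false

namespace Crest.Agent.R185.Loc

open Equiv Crest.Agent.R185.Md191A Crest.Agent.R185.Md191B Crest.Agent.R185.Md191E
  Crest.Agent.R185.Hub Crest.Agent.R185.Smp

/-! ### clamps -/

theorem clampS (n : ℕ) (s : ℤ) : ∃ s' : ℤ, (s = s' ∨ (s < -(n : ℤ) ∧ s' < -(n : ℤ)) ∨
    ((n : ℤ) + 1 < s ∧ (n : ℤ) + 1 < s')) ∧ s'.natAbs ≤ n + 2 := by
  rcases lt_trichotomy s 0 with h | h | h
  · by_cases h1 : s < -(n : ℤ)
    · exact ⟨-(n : ℤ) - 1, Or.inr (Or.inl (by omega)), by omega⟩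
    · exact ⟨s, Or.inl rfl, by omega⟩
  · exact ⟨s, Or.inl rfl, by omega⟩
  · by_cases h1 : (n : ℤ) + 1 < s
    · exact ⟨(n : ℤ) + 2, Or.inr (Or.inr (by omega)), by omega⟩
    · exact ⟨s, Or.inl rfl, by omega⟩

theorem clampM (B : ℕ) (m : ℤ) : ∃ m' : ℤ, (m = m' ∨ (2 * (B : ℤ) < m ∧ 2 * (B : ℤ) < m') ∨
    (m < -(2 * (B : ℤ)) ∧ m' < -(2 * (B : ℤ)))) ∧ m'.natAbs ≤ 2 * B + 1 := by
  by_cases h1 : 2 * (B : ℤ) < m
  · exact ⟨2 * B + 1, Or.inr (Or.inl (by omega)), by omega⟩
  · by_cases h2 : m < -(2 * (B : ℤ))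
    · exact ⟨-(2 * B + 1), Or.inr (Or.inr (by omega)), by omega⟩
    · exact ⟨m, Or.inl rfl, by omega⟩

theorem exists_norm {A : Type} [DecidableEq A] (k : ℕ) (g : FreeGroup A) (hg : k ≤ g.norm) :
    ∃ g' : FreeGroup A, g'.norm = k := by
  induction hn : g.norm generalizing g with
  | zero => exact ⟨g, by omega⟩
  | succ n ih =>
    by_cases hk : k = n + 1
    · exact ⟨g, by omega⟩
    · have h1 : g = FreeGroup.mk g.toWord := FreeGroup.mk_toWord.symm
      have h2 : g.toWord.length = n + 1 := hn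
      cases hw : g.toWord with
      | nil => rw [hw] at h2; simp at h2
      | cons a w =>
        rw [hw] at h1 h2
        have h3 : g = FreeGroup.mk [a] * FreeGroup.mk w := by rw [h1, FreeGroup.mul_mk]; rfl
        have h4 : (FreeGroup.mk w).norm ≤ n := by
          have := FreeGroup.norm_mk_le (L₁ := w)
          simp only [List.length_cons] at h2
          omega
        have h5 : (FreeGroup.mk [a]).norm ≤ 1 := by
          have := FreeGroup.norm_mk_le (L₁ := [a])
          simpa using this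
        have h6 := FreeGroup.norm_mul_le (FreeGroup.mk [a]) (FreeGroup.mk w)
        rw [← h3] at h6
        exact ih (FreeGroup.mk w) (by omega) (by omega)

theorem clampG {A : Type} [DecidableEq A] (B : ℕ) (g : FreeGroup A) : ∃ g' : FreeGroup A,
    (g = g' ∨ (2 * B < g.norm ∧ 2 * B < g'.norm)) ∧ g'.norm ≤ 2 * B + 1 := by
  by_cases h : 2 * B < g.norm
  · obtain ⟨g', hg'⟩ := exists_norm (2 * B + 1) g (by omega)
    exact ⟨g', Or.inr (by omega), by omega⟩
  · exact ⟨g, Or.inl rfl, by omega⟩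

theorem Ball.zpow {D J : Type} [Group D] {dl : J → D} (j : J) (i : ℤ) :
    Ball dl i.natAbs (dl j ^ i) := by
  have h : ∀ n : ℕ, Ball dl n (dl j ^ n) := by
    intro n
    induction n with
    | zero => simpa using Ball.one 0
    | succ n ih => rw [pow_succ]; exact ih.mul (Ball.letter j)
  obtain ⟨n, rfl | rfl⟩ := i.eq_nat_or_neg
  · have := h n
    simpa using this
  · have := (h n).inv
    simpa using this

section single

variable {A : Type} [DecidableEq A] {D J : Type} [Group D] {dl : J → D} {S : Subgroup D}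
  {chi : ∀ (X : Type) [MulAction (FreeGroup A) X], S →* Perm (P A X)}
  {Acc : Set (FreeGroup A)} {C : ℕ}
  {X : Type} [MulAction (FreeGroup A) X] {B₀ : Type} {kd : B₀ → Kd D A}

/-- all the letters are available -/
structure Full (dl : J → D) (kd : B₀ → Kd D A) : Prop where
  d : ∀ j, ∃ b, kd b = Kd.d (dl j)
  s : ∃ b, kd b = Kd.s
  b : ∀ a, ∃ b, kd b = Kd.b a
  g : ∀ a, ∃ b, kd b = Kd.g a
  t : ∃ b, kd b = Kd.t
  ok : ∀ b, (kd b).Ok dl

/-! ### reaching points -/

theorem Ent.letter {x₀ : X} {f : Kd D A} (hf : ∃ b, kd b = f) (ε : Bool) {ρ : ℕ} {y : YP (chi X)}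
    (h : Ent (pa kd chi X) (y₀ chi x₀) ρ y) :
    Ent (pa kd chi X) (y₀ chi x₀) (ρ + 1) (sgn (kAct chi X f) ε y) := by
  obtain ⟨b, rfl⟩ := hf
  have := h.step (b, ε)
  rw [sg_sgn] at this
  exact this

theorem Ent.dword (hF : Full dl kd) {x₀ : X} {ρ k : ℕ} {s : ℤ} {x z : D} {p : P A X} {d : D}
    (hd : Ball dl k d) (h : Ent (pa kd chi X) (y₀ chi x₀) ρ (ptS (chi X) s x z p)) :
    Ent (pa kd chi X) (y₀ chi x₀) (ρ + k) (ptS (chi X) s (d * x) z p) := by
  obtain ⟨l, hl, rfl⟩ := hd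
  suffices h' : Ent (pa kd chi X) (y₀ chi x₀) (ρ + l.length)
      (ptS (chi X) s (FreeGroup.lift dl (FreeGroup.mk l) * x) z p) from h'.mono (by omega)
  clear hl
  induction l with
  | nil => simpa [← FreeGroup.one_eq_mk] using h
  | cons a l ih =>
    have h1 : (FreeGroup.mk (a :: l) : FreeGroup J) = FreeGroup.mk [a] * FreeGroup.mk l := by
      rw [FreeGroup.mul_mk]; rfl
    rw [h1, map_mul, mul_assoc]
    obtain ⟨a, b⟩ := a
    have h2 := Ent.letter (hF.d a) b ih
    rw [add_assoc] at h2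
    cases b
    · rw [sgn_false, kAct, dPi_pt] at h2
      simpa using h2
    · rw [sgn_true, kAct, dP_pt] at h2
      simpa using h2

/-- words in letters of `J` indexed by `A` -/
theorem Ent.aword {x₀ : X} {ρ : ℕ} {p : P A X} (f : FreeGroup A →* Perm (P A X))
    (K : A → Kd D A) (hK : ∀ a, ∃ b, kd b = K a)
    (hf : ∀ a, kAct chi X (K a) = jP (chi X) (f (FreeGroup.of a))) (g : FreeGroup A)
    (h : Ent (pa kd chi X) (y₀ chi x₀) ρ (ptS (chi X) 1 1 1 p)) :
    Ent (pa kd chi X) (y₀ chi x₀) (ρ + g.norm) (ptS (chi X) 1 1 1 (f g p)) := by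
  have key : ∀ l : List (A × Bool), Ent (pa kd chi X) (y₀ chi x₀) (ρ + l.length)
      (ptS (chi X) 1 1 1 (f (FreeGroup.mk l) p)) := by
    intro l
    induction l with
    | nil => simpa [← FreeGroup.one_eq_mk] using h
    | cons a l ih =>
      have h1 : (FreeGroup.mk (a :: l) : FreeGroup A) = FreeGroup.mk [a] * FreeGroup.mk l := by
        rw [FreeGroup.mul_mk]; rfl
      rw [h1, map_mul, Perm.mul_apply]
      obtain ⟨a, b⟩ := a
      have h2 := Ent.letter (hK a) b ih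
      rw [add_assoc] at h2
      cases b
      · have h3 : (FreeGroup.mk [(a, false)] : FreeGroup A) = (FreeGroup.of a)⁻¹ := rfl
        rw [sgn_false, hf, jPi_one] at h2
        rw [h3, map_inv]
        exact h2
      · have h3 : (FreeGroup.mk [(a, true)] : FreeGroup A) = FreeGroup.of a := rfl
        rw [sgn_true, hf, jP_one] at h2
        rw [h3]
        exact h2
  have := key g.toWord
  rwa [FreeGroup.mk_toWord] at this

theorem Ent.tword (hF : Full dl kd) {x₀ x : X} {ρ : ℕ} {m : ℤ} (i : ℤ)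
    (h : Ent (pa kd chi X) (y₀ chi x₀) ρ (ptS (chi X) 1 1 1 (1, m, x))) :
    Ent (pa kd chi X) (y₀ chi x₀) (ρ + i.natAbs) (ptS (chi X) 1 1 1 (1, m + i, x)) := by
  have key : ∀ n : ℕ, Ent (pa kd chi X) (y₀ chi x₀) (ρ + n) (ptS (chi X) 1 1 1 (1, m + n, x)) ∧
      Ent (pa kd chi X) (y₀ chi x₀) (ρ + n) (ptS (chi X) 1 1 1 (1, m - n, x)) := by
    intro n
    induction n with
    | zero => simpa using h
    | succ n ih =>
      obtain ⟨h1, h2⟩ := ih
      constructor
      · have h3 := Ent.letter hF.t true h1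
        rw [sgn_true, kAct, jP_one, dd_one] at h3
        have e : m + ((n + 1 : ℕ) : ℤ) = m + n + 1 := by push_cast; ring
        rw [e]; exact h3
      · have h3 := Ent.letter hF.t false h2
        rw [sgn_false, kAct, jPi_one, dd_inv_one] at h3
        have e : m - ((n + 1 : ℕ) : ℤ) = m - n - 1 := by push_cast; ring
        rw [e]; exact h3
  rcases Int.natAbs_eq i with h1 | h1
  · have := (key i.natAbs).1
    rw [← h1] at this
    exact this
  · have := (key i.natAbs).2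
    have e : m - (i.natAbs : ℤ) = m + i := by omega
    rw [e] at this
    exact this

theorem Ent.sword (hF : Full dl kd) {x₀ : X} {ρ : ℕ} {z : D} {p : P A X} (s : ℤ)
    (h : Ent (pa kd chi X) (y₀ chi x₀) ρ (ptS (chi X) 1 1 z p)) :
    Ent (pa kd chi X) (y₀ chi x₀) (ρ + (s - 1).natAbs) (ptS (chi X) s 1 z p) := by
  have key : ∀ n : ℕ, Ent (pa kd chi X) (y₀ chi x₀) (ρ + n) (ptS (chi X) (1 + n) 1 z p) ∧
      Ent (pa kd chi X) (y₀ chi x₀) (ρ + n) (ptS (chi X) (1 - n) 1 z p) := by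
    intro n
    induction n with
    | zero => simpa using h
    | succ n ih =>
      obtain ⟨h1, h2⟩ := ih
      constructor
      · have h3 := Ent.letter hF.s true h1
        rw [sgn_true, kAct, sP_pos (by omega)] at h3
        have e : (1 : ℤ) + ((n + 1 : ℕ) : ℤ) = 1 + n + 1 := by push_cast; ring
        rw [e]; exact h3
      · have h3 := Ent.letter hF.s false h2
        rw [sgn_false, kAct] at h3
        have e : (1 : ℤ) - ((n + 1 : ℕ) : ℤ) = 1 - n - 1 := by push_cast; ring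
        rw [e]
        by_cases hn : n = 0
        · subst hn
          simp only [Nat.cast_zero, sub_zero] at h3 ⊢
          rw [sPi_one, one_mul] at h3
          exact h3
        · rw [sPi_neg (by omega) S.one_mem] at h3
          exact h3
  rcases Int.natAbs_eq (s - 1) with h1 | h1
  · have := (key (s - 1).natAbs).1
    have e : 1 + ((s - 1).natAbs : ℤ) = s := by omega
    rw [e] at this
    exact this
  · have := (key (s - 1).natAbs).2
    have e : 1 - ((s - 1).natAbs : ℤ) = s := by omega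
    rw [e] at this
    exact this

/-- **reaching a point** -/
theorem Ent.reach (hF : Full dl kd) {x₀ : X} {s : ℤ} {x z : D} {k k' : ℕ} (hx : Ball dl k x)
    (hz : Ball dl k' z) (g : FreeGroup A) (m : ℤ) (l : FreeGroup A) :
    Ent (pa kd chi X) (y₀ chi x₀) (3 + l.norm + m.natAbs + g.norm + k' + s.natAbs + k)
      (ptS (chi X) s x z (g, m, l • x₀)) := by
  have h0 : Ent (pa kd chi X) (y₀ chi x₀) 0 (ptS (chi X) 1 1 1 (1, 0, x₀)) := Ent.base _ _
  have h1 := Ent.tword hF (-1) h0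
  have h2 := Ent.aword (ga A X) Kd.g hF.g (fun _ => rfl) l h1
  rw [ga_neg _ _ _ _ (by norm_num)] at h2
  have h3 := Ent.tword hF (m + 1) h2
  have h4 := Ent.aword (bp A X) Kd.b hF.b (fun _ => rfl) g h3
  rw [bp_apply] at h4
  have h5 := Ent.dword hF hz h4
  rw [ptS_reset one_pos, mul_one, mul_one] at h5
  have h6 := Ent.sword hF s h5
  have h7 := Ent.dword hF hx h6
  rw [mul_one, mul_one] at h7
  have e : (0 : ℤ) + -1 + (m + 1) = m := by ring
  rw [e] at h7
  refine h7.mono ?_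
  omega

/-! ### small points -/

/-- `N`-types of points `l x₀`, `|l| ≤ ρ`, have witnesses `l' x₀`, `|l'| ≤ b` -/
def TLx (x₀ : X) (N ρ b : ℕ) : Prop :=
  ∀ l : FreeGroup A, l.norm ≤ ρ → ∃ l' : FreeGroup A, l'.norm ≤ b ∧
    ∀ u : FreeGroup A, u.norm ≤ N → (u • l • x₀ = l • x₀ ↔ u • l' • x₀ = l' • x₀)

/-- single points have small witnesses of any prescribed height -/
def SP (η : D →* Multiplicative ℤ) (kd : B₀ → Kd D A)
    (chi : ∀ (X : Type) [MulAction (FreeGroup A) X], S →* Perm (P A X)) (x₀ : X)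
    (n w : ℕ) (y : YP (chi X)) : Prop :=
  ∀ t : ℤ, ∃ y' : YP (chi X), Ent (pa kd chi X) (y₀ chi x₀) (w + t.natAbs) y' ∧ hty η y' = t ∧
    ∀ l : List (B₀ × Bool), l.length ≤ n →
      (ev (sg (pa kd chi X)) l y = y ↔ ev (sg (pa kd chi X)) l y' = y')

/-- near points -/
theorem sp_near (hlin : LinH dl S chi Acc C) (hF : Full dl kd) {η : D →* Multiplicative ℤ}
    {κ : J} (hκ : η (dl κ) = Multiplicative.ofAdd 1) (hη : Hgt dl S η) {n ρ b : ℕ} {x₀ : X}
    (hTL : TLx (A := A) x₀ (2 * bud C n n) ρ b) {s : ℤ} {x z : D} (hx : Ball dl n x) {g : FreeGroup A}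
    {m : ℤ} {l : FreeGroup A} (hl : l.norm ≤ ρ) {R : ℕ} (hgood : GoodAt Acc x₀ R)
    (hR : C * bud C n n + 3 * bud C n n + C * g.norm + 2 * ρ ≤ R)
    (hR' : C * bud C n n + 3 * bud C n n + C * (2 * bud C n n + 1) + 2 * b ≤ R) :
    SP η kd chi x₀ n (b + 4 * bud C n n + 3 * n + 7) (ptS (chi X) s x z (g, m, l • x₀)) := by
  intro t
  obtain ⟨l', hl', hty'⟩ := hTL l hl
  obtain ⟨s', hs, hs'⟩ := clampS n s
  obtain ⟨g', hg, hg'⟩ := clampG (bud C n n) g
  obtain ⟨m', hm, hm'⟩ := clampM (bud C n n) m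
  set i : ℤ := t - Multiplicative.toAdd (η x) with hi
  have hxh := hη.ball hx
  let q : Pair A D X X := ⟨s, s', x, z, dl κ ^ i, g, g', m, m', l • x₀, l' • x₀⟩
  have hq : q.Ok dl Acc C n n (bud C n n) := by
    refine ⟨hs, hg, hm, hx, ?_, ?_, hty'⟩
    · exact hgood.smul l (by simp only [q]; omega)
    · have : C * g'.norm ≤ C * (2 * bud C n n + 1) := Nat.mul_le_mul_left _ hg'
      exact hgood.smul l' (by simp only [q]; omega)
  refine ⟨ptS (chi X) s' x (dl κ ^ i) (g', m', l' • x₀), ?_, ?_, ?_⟩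
  · refine (Ent.reach hF hx (Ball.zpow κ i) g' m' l').mono ?_
    omega
  · rw [hty, ze_pt, map_mul, map_zpow, hκ, toAdd_mul, toAdd_zpow, toAdd_ofAdd, hi]
    simp
  · intro w hw
    exact hq.type hlin le_rfl hF.ok w hw

/-- the relation for far points -/
def FarR (dl : J → D) (chi : ∀ (X : Type) [MulAction (FreeGroup A) X], S →* Perm (P A X))
    (s s' : ℤ) (x x' z z' : D) (p p' : P A X) (j : ℕ) (y y' : YP (chi X)) : Prop :=
  ∃ d : D, Ball dl j d ∧ y = ptS (chi X) s (d * x) z p ∧ y' = ptS (chi X) s' (d * x') z' p'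

theorem FarR.path {s s' : ℤ} (hs : s ≤ 0) (hs' : s' ≤ 0) {x x' z z' : D} {p p' : P A X} {n : ℕ}
    (hx : ∀ d, Ball dl n d → d * x ∉ S) (hx' : ∀ d, Ball dl n d → d * x' ∉ S)
    (hkd : ∀ b, (kd b).Ok dl) (w : List (B₀ × Bool)) (hw : w.length ≤ n) :
    FarR dl chi s s' x x' z z' p p' w.length
      (ev (sg (pa kd chi X)) w (ptS (chi X) s x z p))
      (ev (sg (pa kd chi X)) w (ptS (chi X) s' x' z' p')) := by
  induction w with
  | nil => exact ⟨1, Ball.one 0, by simp, by simp⟩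
  | cons a w ih =>
    simp only [List.length_cons] at hw
    obtain ⟨d, hd, h1, h2⟩ := ih (by omega)
    rw [ev_cons, ev_cons, sg_sgn, sg_sgn, h1, h2]
    have hdx := hx d (hd.mono (by omega))
    have hdx' := hx' d (hd.mono (by omega))
    obtain ⟨b, ε⟩ := a
    have hb := hkd b
    simp only [pa, List.length_cons]
    have stay : FarR dl chi s s' x x' z z' p p' (w.length + 1) (ptS (chi X) s (d * x) z p)
        (ptS (chi X) s' (d * x') z' p') := ⟨d, hd.mono (by omega), rfl, rfl⟩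
    have jstay : ∀ f : Perm (P A X), FarR dl chi s s' x x' z z' p p' (w.length + 1)
        (sgn (jP (chi X) f) ε (ptS (chi X) s (d * x) z p))
        (sgn (jP (chi X) f) ε (ptS (chi X) s' (d * x') z' p')) := by
      intro f
      cases ε
      · rw [sgn_false, jPi_ne _ (by omega), jPi_ne _ (by omega)]; exact stay
      · rw [sgn_true, jP_ne _ (by omega), jP_ne _ (by omega)]; exact stay
    cases hk : kd b with
    | d c =>
      rw [hk] at hb
      have hc : Ball dl 1 c := hb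
      cases ε
      · rw [sgn_false, kAct, dPi_pt, dPi_pt]
        refine ⟨c⁻¹ * d, ?_, by rw [mul_assoc], by rw [mul_assoc]⟩
        have := hc.inv.mul hd
        rwa [add_comm] at this
      · rw [sgn_true, kAct, dP_pt, dP_pt]
        refine ⟨c * d, ?_, by rw [mul_assoc], by rw [mul_assoc]⟩
        have := hc.mul hd
        rwa [add_comm] at this
    | s =>
      cases ε
      · rw [sgn_false, kAct, sPi_else hs hdx, sPi_else hs' hdx']; exact stay
      · rw [sgn_true, kAct, sP_else hs hdx, sP_else hs' hdx']; exact stay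
    | b a => exact jstay _
    | g a => exact jstay _
    | t => exact jstay _

/-- far points -/
theorem sp_far (hF : Full dl kd) {η : D →* Multiplicative ℤ}
    {κ : J} (hκ : η (dl κ) = Multiplicative.ofAdd 1) (hη : Hgt dl S η) {n b : ℕ} {x₀ : X}
    {s : ℤ} (hs : s ≤ 0) {x z : D} (hx : ∀ d, Ball dl n d → d * x ∉ S) {p : P A X} :
    SP η kd chi x₀ n (b + 4 * bud C n n + 3 * n + 7) (ptS (chi X) s x z p) := by
  intro t
  have hx' : ∀ d, Ball dl n d → d * dl κ ^ ((n : ℤ) + 1) ∉ S := by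
    intro d hd h1
    have h2 := hη.one _ h1
    have h3 := hη.ball hd
    have h4 := congrArg Multiplicative.toAdd h2
    rw [map_mul, map_zpow, hκ, toAdd_mul, toAdd_zpow, toAdd_ofAdd, toAdd_one] at h4
    simp at h4
    omega
  refine ⟨ptS (chi X) 0 (dl κ ^ ((n : ℤ) + 1)) (dl κ ^ (t - (n + 1))) (1, 0, (1 : FreeGroup A) • x₀),
    ?_, ?_, ?_⟩
  · refine (Ent.reach hF (Ball.zpow κ _) (Ball.zpow κ _) 1 0 1).mono ?_
    simp
    omega
  · rw [hty, ze_pt, map_mul, map_zpow, map_zpow, hκ, toAdd_mul, toAdd_zpow, toAdd_zpow,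
      toAdd_ofAdd]
    simp
  · intro w hw
    obtain ⟨d, hd, h1, h2⟩ := FarR.path (chi := chi) (X := X) hs le_rfl (z := z)
      (z' := dl κ ^ (t - (n + 1))) (p := p) (p' := (1, 0, (1 : FreeGroup A) • x₀)) hx hx' hF.ok w hw
    rw [h1, h2]
    have key : ∀ {s : ℤ} (_ : s ≤ 0) (x z : D) (p : P A X),
        ptS (chi X) s (d * x) z p = ptS (chi X) s x z p ↔ d = 1 := by
      intro s hs x z p
      constructor
      · intro h
        have := congrArg ze h
        rw [ze_pt, ze_pt, mul_assoc, mul_eq_right] at this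
        exact this
      · rintro rfl; rw [one_mul]
    rw [key hs, key le_rfl]

/-- the coordinates of a point reached by a short word -/
theorem coords (hlin : LinH dl S chi Acc C) (hkd : ∀ b, (kd b).Ok dl) {ρ : ℕ} {x₀ : X}
    (hgood : GoodAt Acc x₀ (C * bud C 0 ρ + 3 * bud C 0 ρ)) {y : YP (chi X)}
    (hy : Ent (pa kd chi X) (y₀ chi x₀) ρ y) :
    ∃ (s : ℤ) (x z : D) (g : FreeGroup A) (m : ℤ) (l : FreeGroup A), Ball dl ρ x ∧
      g.norm + l.norm ≤ bud C 0 ρ ∧ y = ptS (chi X) s x z (g, m, l • x₀) := by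
  obtain ⟨w, hw, rfl⟩ := hy
  let q : Pair A D X X := ⟨1, 1, 1, 1, 1, 1, 1, 0, 0, x₀, x₀⟩
  have hq : q.Ok dl Acc C 0 ρ (bud C 0 ρ) :=
    ⟨Or.inl rfl, Or.inl rfl, Or.inl rfl, Ball.one 0, hgood.mono (by simp [q]),
      hgood.mono (by simp [q]), fun _ _ => Iff.rfl⟩
  obtain ⟨σ, x, c, a, t, l, k, hσ, ⟨hk, hkj⟩, hb, h1, -⟩ :=
    Rel.path hq hlin le_rfl hkd (Rel.start (chi := chi) q hq.hx) w hw
  refine ⟨1 + σ, x, c, a, 0 + t, l, hk.mono (by omega), ?_, ?_⟩
  · have n5 : C * w.length ≤ C * ρ := Nat.mul_le_mul_left _ hw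
    unfold bud
    omega
  · have h2 : ev (sg (pa kd chi X)) w (y₀ chi x₀) =
        ptS (chi X) (1 + σ) x (c * 1) (a * 1, 0 + t, l • x₀) := h1
    rw [h2, mul_one, mul_one]

/-- the radius of the payloads -/
def rad (C n ρ : ℕ) : ℕ := bud C 0 ρ + C * (n + ρ)

/-- **(B'), single points** -/
theorem sp_all (hlin : LinH dl S chi Acc C) (hF : Full dl kd) {η : D →* Multiplicative ℤ}
    {κ : J} (hκ : η (dl κ) = Multiplicative.ofAdd 1) (hη : Hgt dl S η) {n ρ b : ℕ} {x₀ : X}
    (hTL : TLx (A := A) x₀ (2 * bud C n n) (rad C n ρ) b) {R : ℕ} (hgood : GoodAt Acc x₀ R)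
    (hR0 : C * bud C 0 ρ + 3 * bud C 0 ρ ≤ R)
    (hR1 : C * (ρ + n + bud C 0 ρ) + 2 * bud C 0 ρ ≤ R)
    (hR : C * bud C n n + 3 * bud C n n + C * rad C n ρ + 2 * rad C n ρ ≤ R)
    (hR' : C * bud C n n + 3 * bud C n n + C * (2 * bud C n n + 1) + 2 * b ≤ R)
    {y : YP (chi X)} (hy : Ent (pa kd chi X) (y₀ chi x₀) ρ y) :
    SP η kd chi x₀ n (b + 4 * bud C n n + 3 * n + 7) y := by
  obtain ⟨s, x, z, g, m, l, hx, hgl, rfl⟩ := coords hlin hF.ok (hgood.mono hR0) hy
  by_cases hs : 0 < s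
  · rw [ptS_reset hs]
    refine sp_near hlin hF hκ hη hTL (Ball.one n) ?_ hgood ?_ hR'
    · unfold rad; omega
    · have : C * g.norm ≤ C * rad C n ρ := Nat.mul_le_mul_left _ (by unfold rad; omega)
      omega
  · have hs' : s ≤ 0 := not_lt.1 hs
    by_cases hfar : ∀ d, Ball dl n d → d * x ∉ S
    · exact sp_far hF hκ hη hs' hfar
    · push Not at hfar
      obtain ⟨d, hd, hdx⟩ := hfar
      -- the representative `d⁻¹`
      have hb : Ball dl (ρ + n) (d * x) := by
        have := hd.mul hx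
        rwa [add_comm] at this
      obtain ⟨w, τ, v, hT, hv⟩ := hlin (ρ + n) ⟨d * x, hdx⟩ hb
      have h1 : ptS (chi X) s x z (g, m, l • x₀) =
          ptS (chi X) s d⁻¹ (d * x * z) (chi X ⟨d * x, hdx⟩ (g, m, l • x₀)) := by
        rw [ptS_eq_neg hs']
        exact ⟨rfl, ⟨d * x, hdx⟩, by simp, rfl, rfl⟩
      have hCg : C * (ρ + n + g.norm) ≤ C * (ρ + n + bud C 0 ρ) :=
        Nat.mul_le_mul_left _ (by omega)
      rw [h1, hv X (l • x₀) g m (hgood.smul l (by omega)), ← mul_smul]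
      have n1 := FreeGroup.norm_mul_le w g
      have n2 := FreeGroup.norm_mul_le (v g m) l
      have n3 := hT.w_le
      have n4 := hT.v_le g m
      have n5 : C * (ρ + n) = C * (n + ρ) := by ring
      refine sp_near hlin hF hκ hη hTL hd.inv ?_ hgood ?_ hR'
      · unfold rad; omega
      · have : C * (w * g).norm ≤ C * rad C n ρ := Nat.mul_le_mul_left _ (by unfold rad; omega)
        omega

end single

end Crest.Agent.R185.Loc
end

-- ▼ part R185/Loc5
section

/-!
# R185 / LOC (5): the cluster step, `T5` for `Y(X)`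
-/

set_option autoImplicit false
set_option linter.unusedSectionVars false

namespace Crest.Agent.R185.Loc

open Equiv Crest.Agent.R185.Md191A Crest.Agent.R185.Md191B Crest.Agent.R185.Md191E
  Crest.Agent.R185.Hub Crest.Agent.R185.Smp

/-! ### partial isomorphisms -/

section iso

variable {L Y : Type} {act : L → Y → Y} {ia : L → L}

/-- `P` is an `n`-partial isomorphism -/
def Iso (act : L → Y → Y) (n : ℕ) (P : Y → Y → Prop) : Prop :=
  ∀ w : List L, w.length ≤ n → ∀ y y' z z', P y y' → P z z' → (ev act w y = z ↔ ev act w y' = z')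

/-- adding one pair -/
def addP (P : Y → Y → Prop) (y y' : Y) (a b : Y) : Prop := P a b ∨ (a = y ∧ b = y')

theorem Iso.mono {n m : ℕ} {P : Y → Y → Prop} (h : Iso act n P) (hm : m ≤ n) : Iso act m P :=
  fun w hw => h w (hw.trans hm)

theorem Iso.two (hI : Inv act ia) {n : ℕ} {P : Y → Y → Prop} (h : Iso act n P) {u v : List L}
    (huv : u.length + v.length ≤ n) {y y' z z' : Y} (h1 : P y y') (h2 : P z z') :
    ev act u y = ev act v z ↔ ev act u y' = ev act v z' := by
  have h3 := h (iw ia v ++ u) (by simp; omega) y y' z z' h1 h2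
  rw [ev_append, ev_append] at h3
  constructor
  · intro h4
    have h5 := h3.1 (by rw [h4, ev_iw_left hI])
    rw [← h5, ev_iw_right hI]
  · intro h4
    have h5 := h3.2 (by rw [h4, ev_iw_left hI])
    rw [← h5, ev_iw_right hI]

theorem Iso.add_translate (hI : Inv act ia) {n : ℕ} {P : Y → Y → Prop} (h : Iso act (3 * n) P)
    {z z' : Y} (hz : P z z') (w : List L) (hw : w.length ≤ n) :
    Iso act n (addP P (ev act w z) (ev act w z')) := by
  rintro u hu a a' b b' (h1 | ⟨rfl, rfl⟩) (h2 | ⟨rfl, rfl⟩)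
  · exact h u (by omega) _ _ _ _ h1 h2
  · exact h.two hI (by omega) h1 hz
  · have := h.two hI (u := u ++ w) (v := []) (by simp; omega) hz h2
    rw [ev_append, ev_append, ev_nil, ev_nil] at this
    exact this
  · have := h.two hI (u := u ++ w) (v := w) (by simp; omega) hz hz
    rw [ev_append, ev_append] at this
    exact this

theorem Iso.add_far (hI : Inv act ia) {n : ℕ} {P : Y → Y → Prop} (h : Iso act n P) {y y' : Y}
    (hs : ∀ w : List L, w.length ≤ n → (ev act w y = y ↔ ev act w y' = y'))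
    (h1 : ∀ z z', P z z' → ∀ w : List L, w.length ≤ n → ev act w z ≠ y)
    (h2 : ∀ z z', P z z' → ∀ w : List L, w.length ≤ n → ev act w z' ≠ y') :
    Iso act n (addP P y y') := by
  rintro u hu a a' b b' (h3 | ⟨rfl, rfl⟩) (h4 | ⟨rfl, rfl⟩)
  · exact h u hu _ _ _ _ h3 h4
  · exact iff_of_false (h1 _ _ h3 u hu) (h2 _ _ h3 u hu)
  · refine iff_of_false (fun h5 => ?_) (fun h5 => ?_)
    · apply h1 _ _ h4 (iw ia u) (by simpa using hu)
      rw [← h5, ev_iw_left hI]
    · apply h2 _ _ h4 (iw ia u) (by simpa using hu)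
      rw [← h5, ev_iw_left hI]
  · exact hs u hu

end iso

/-! ### the cluster step -/

section cluster

variable {A : Type} [DecidableEq A] {D J : Type} [Group D] {dl : J → D} {S : Subgroup D}
  {chi : ∀ (X : Type) [MulAction (FreeGroup A) X], S →* Perm (P A X)}
  {Acc : Set (FreeGroup A)} {C : ℕ}
  {X : Type} [MulAction (FreeGroup A) X] {B₀ : Type} {kd : B₀ → Kd D A}

theorem hty_y₀ (η : D →* Multiplicative ℤ) (x₀ : X) : hty η (y₀ chi x₀) = 0 := by
  unfold hty y₀
  rw [ze_pt, mul_one, map_one, toAdd_one]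

theorem hty_ent {η : D →* Multiplicative ℤ} (hη : Hgt dl S η) (hkd : ∀ b, (kd b).Ok dl)
    {x₀ : X} {ρ : ℕ} {y : YP (chi X)} (hy : Ent (pa kd chi X) (y₀ chi x₀) ρ y) :
    |hty η y| ≤ ρ := by
  obtain ⟨u, hu, rfl⟩ := hy
  have h1 := hty_ev hη hkd u (y₀ chi x₀)
  rw [hty_y₀, sub_zero] at h1
  exact h1.trans (by exact_mod_cast hu)

theorem ent_word {x₀ : X} {ρ : ℕ} {y : YP (chi X)} (hy : Ent (pa kd chi X) (y₀ chi x₀) ρ y)
    (w : List (B₀ × Bool)) :
    Ent (pa kd chi X) (y₀ chi x₀) (ρ + w.length) (ev (sg (pa kd chi X)) w y) := by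
  obtain ⟨u, hu, rfl⟩ := hy
  exact ⟨w ++ u, by simp; omega, by rw [ev_append]⟩

/-- one more point -/
theorem cluster_step {η : D →* Multiplicative ℤ} (hη : Hgt dl S η) (hkd : ∀ b, (kd b).Ok dl)
    {x₀ : X} {n N w bb : ℕ} (hn : n ≤ N) {P : YP (chi X) → YP (chi X) → Prop}
    (hP : Iso (sg (pa kd chi X)) (3 * n) P)
    (hPb : ∀ z z', P z z' → Ent (pa kd chi X) (y₀ chi x₀) bb z')
    {y : YP (chi X)} (hy : SP η kd chi x₀ N w y) :
    ∃ y', Iso (sg (pa kd chi X)) n (addP P y y') ∧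
      Ent (pa kd chi X) (y₀ chi x₀) (bb + n + 1 + w) y' := by
  have hI := sg_inv (pa kd chi X)
  by_cases h : ∃ z z', P z z' ∧ ∃ u : List (B₀ × Bool), u.length ≤ n ∧
      ev (sg (pa kd chi X)) u z = y
  · obtain ⟨z, z', hz, u, hu, rfl⟩ := h
    refine ⟨ev (sg (pa kd chi X)) u z', hP.add_translate hI hz u hu, ?_⟩
    exact (ent_word (hPb z z' hz) u).mono (by omega)
  · push Not at h
    obtain ⟨y', h1, h2, h3⟩ := hy ((bb : ℤ) + n + 1)
    refine ⟨y', (hP.mono (by omega)).add_far hI (fun u hu => h3 u (hu.trans hn)) h ?_,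
      h1.mono (by omega)⟩
    intro z z' hz u hu h4
    have h5 := hty_ev hη hkd u z'
    have h6 := hty_ent hη hkd (hPb z z' hz)
    rw [h4, h2] at h5
    rw [abs_le] at h5 h6
    have h7 : (u.length : ℤ) ≤ n := by exact_mod_cast hu
    omega

/-- **`T5` from single points** -/
theorem t5_of_sp {η : D →* Multiplicative ℤ} (hη : Hgt dl S η) (hkd : ∀ b, (kd b).Ok dl)
    {x₀ : X} {n ρ w : ℕ}
    (hSP : ∀ y, Ent (pa kd chi X) (y₀ chi x₀) ρ y → SP η kd chi x₀ (27 * n) w y) :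
    T5 (pa kd chi X) (y₀ chi x₀) n ρ (40 * n + 4 + 4 * w) := by
  intro v hv
  let P0 : YP (chi X) → YP (chi X) → Prop := fun a b => a = y₀ chi x₀ ∧ b = y₀ chi x₀
  have h0 : Iso (sg (pa kd chi X)) (3 * (27 * n)) P0 := by
    rintro u - _ _ _ _ ⟨rfl, rfl⟩ ⟨rfl, rfl⟩
    exact Iff.rfl
  have b0 : ∀ z z', P0 z z' → Ent (pa kd chi X) (y₀ chi x₀) 0 z' := by
    rintro _ _ ⟨rfl, rfl⟩; exact Ent.base _ _
  obtain ⟨y1, i1, e1⟩ := cluster_step hη hkd (n := 27 * n) le_rfl h0 b0 (hSP _ (hv 0))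
  have b1 : ∀ z z', addP P0 (v 0) y1 z z' →
      Ent (pa kd chi X) (y₀ chi x₀) (0 + 27 * n + 1 + w) z' := by
    rintro _ _ (h | ⟨rfl, rfl⟩)
    · exact (b0 _ _ h).mono (by omega)
    · exact e1
  obtain ⟨y2, i2, e2⟩ := cluster_step hη hkd (n := 9 * n) (N := 27 * n) (by omega)
    (i1.mono (by omega)) b1 (hSP _ (hv 1))
  have b2 : ∀ z z', addP (addP P0 (v 0) y1) (v 1) y2 z z' →
      Ent (pa kd chi X) (y₀ chi x₀) (0 + 27 * n + 1 + w + 9 * n + 1 + w) z' := by
    rintro _ _ (h | ⟨rfl, rfl⟩)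
    · exact (b1 _ _ h).mono (by omega)
    · exact e2
  obtain ⟨y3, i3, e3⟩ := cluster_step hη hkd (n := 3 * n) (N := 27 * n) (by omega)
    (i2.mono (by omega)) b2 (hSP _ (hv 2))
  have b3 : ∀ z z', addP (addP (addP P0 (v 0) y1) (v 1) y2) (v 2) y3 z z' →
      Ent (pa kd chi X) (y₀ chi x₀)
        (0 + 27 * n + 1 + w + 9 * n + 1 + w + 3 * n + 1 + w) z' := by
    rintro _ _ (h | ⟨rfl, rfl⟩)
    · exact (b2 _ _ h).mono (by omega)
    · exact e3
  obtain ⟨y4, i4, e4⟩ := cluster_step hη hkd (n := n) (N := 27 * n) (by omega)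
    (i3.mono (by omega)) b3 (hSP _ (hv 3))
  have b4 : ∀ z z', addP (addP (addP (addP P0 (v 0) y1) (v 1) y2) (v 2) y3) (v 3) y4 z z' →
      Ent (pa kd chi X) (y₀ chi x₀) (40 * n + 4 + 4 * w) z' := by
    rintro _ _ (h | ⟨rfl, rfl⟩)
    · exact (b3 _ _ h).mono (by omega)
    · exact e4.mono (by omega)
  have q0 : (addP (addP (addP (addP P0 (v 0) y1) (v 1) y2) (v 2) y3) (v 3) y4)
      (y₀ chi x₀) (y₀ chi x₀) := Or.inl (Or.inl (Or.inl (Or.inl ⟨rfl, rfl⟩)))
  have q1 : (addP (addP (addP (addP P0 (v 0) y1) (v 1) y2) (v 2) y3) (v 3) y4) (v 0) y1 :=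
    Or.inl (Or.inl (Or.inl (Or.inr ⟨rfl, rfl⟩)))
  have q2 : (addP (addP (addP (addP P0 (v 0) y1) (v 1) y2) (v 2) y3) (v 3) y4) (v 1) y2 :=
    Or.inl (Or.inl (Or.inr ⟨rfl, rfl⟩))
  have q3 : (addP (addP (addP (addP P0 (v 0) y1) (v 1) y2) (v 2) y3) (v 3) y4) (v 2) y3 :=
    Or.inl (Or.inr ⟨rfl, rfl⟩)
  have q4 : (addP (addP (addP (addP P0 (v 0) y1) (v 1) y2) (v 2) y3) (v 3) y4) (v 3) y4 :=
    Or.inr ⟨rfl, rfl⟩
  refine ⟨![y1, y2, y3, y4], ?_, ?_⟩
  · intro l
    fin_cases l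
    · exact b4 _ _ q1
    · exact b4 _ _ q2
    · exact b4 _ _ q3
    · exact b4 _ _ q4
  · have key : ∀ i : Fin 5, (addP (addP (addP (addP P0 (v 0) y1) (v 1) y2) (v 2) y3) (v 3) y4)
        ((Fin.cons (y₀ chi x₀) v : Fin 5 → YP (chi X)) i)
        ((Fin.cons (y₀ chi x₀) ![y1, y2, y3, y4] : Fin 5 → YP (chi X)) i) := by
      intro i
      refine Fin.cases ?_ (fun j => ?_) i
      · exact q0
      · rw [Fin.cons_succ, Fin.cons_succ]
        fin_cases j
        · exact q1
        · exact q2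
        · exact q3
        · exact q4
    intro i j u hu
    exact i4 u hu _ _ _ _ (key i) (key j)

/-- the bound for the witnesses -/
def t5b (C b n : ℕ) : ℕ := 40 * n + 4 + 4 * (b + 4 * bud C (27 * n) (27 * n) + 3 * (27 * n) + 7)

/-- **(T5)** for the sheet layer -/
theorem t5 (hlin : LinH dl S chi Acc C) (hF : Full dl kd) {η : D →* Multiplicative ℤ}
    {κ : J} (hκ : η (dl κ) = Multiplicative.ofAdd 1) (hη : Hgt dl S η) {n ρ b : ℕ} {x₀ : X}
    (hTL : TLx (A := A) x₀ (2 * bud C (27 * n) (27 * n)) (rad C (27 * n) ρ) b) {R : ℕ}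
    (hgood : GoodAt Acc x₀ R)
    (hR0 : C * bud C 0 ρ + 3 * bud C 0 ρ ≤ R)
    (hR1 : C * (ρ + 27 * n + bud C 0 ρ) + 2 * bud C 0 ρ ≤ R)
    (hR : C * bud C (27 * n) (27 * n) + 3 * bud C (27 * n) (27 * n) + C * rad C (27 * n) ρ +
      2 * rad C (27 * n) ρ ≤ R)
    (hR' : C * bud C (27 * n) (27 * n) + 3 * bud C (27 * n) (27 * n) +
      C * (2 * bud C (27 * n) (27 * n) + 1) + 2 * b ≤ R) :
    T5 (pa kd chi X) (y₀ chi x₀) n ρ (t5b C b n) :=
  t5_of_sp hη hF.ok (fun _ hy => sp_all hlin hF hκ hη hTL hgood hR0 hR1 hR hR' hy)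

end cluster

/-! ### linear constants -/

section constants

variable {A : Type} [DecidableEq A] {D J : Type} [Group D] {dl : J → D} {S : Subgroup D}
  {chi : ∀ (X : Type) [MulAction (FreeGroup A) X], S →* Perm (P A X)}
  {Acc : Set (FreeGroup A)} {C : ℕ}
  {X X' : Type} [MulAction (FreeGroup A) X] [MulAction (FreeGroup A) X']
  {B₀ : Type} {kd : B₀ → Kd D A}

/-- the constant -/
def cst (C : ℕ) : ℕ := 1000 * (C + 1) * (C + 1) * (C + 1)

/-- **(A')** with one constant -/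
theorem type_base_cst (hlin : LinH dl S chi Acc C) (hkd : ∀ b, (kd b).Ok dl) {n : ℕ} {x₀ : X}
    {x₀' : X'} (h : GoodAt Acc x₀ (cst C * n)) (h' : GoodAt Acc x₀' (cst C * n))
    (hty : ∀ u : FreeGroup A, u.norm ≤ cst C * n → (u • x₀ = x₀ ↔ u • x₀' = x₀')) :
    TyEq (sg (pa kd chi X)) (sg (pa kd chi X')) n (fun _ : Fin 1 => y₀ chi x₀)
      (fun _ => y₀ chi x₀') := by
  have e1 : C * bud C 0 n + 3 * bud C 0 n ≤ cst C * n := by
    unfold bud cst; nlinarith [Nat.zero_le (C * C * C * n), Nat.zero_le (C * C * n),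
      Nat.zero_le (C * n), Nat.zero_le n]
  have e2 : 2 * bud C 0 n ≤ cst C * n := by
    unfold bud cst; nlinarith [Nat.zero_le (C * C * C * n), Nat.zero_le (C * C * n),
      Nat.zero_le (C * n), Nat.zero_le n]
  exact type_base hlin hkd (h.mono e1) (h'.mono e1) (fun u hu => hty u (hu.trans e2))

/-- **(T5)** with one constant -/
theorem t5_cst (hlin : LinH dl S chi Acc C) (hF : Full dl kd) {η : D →* Multiplicative ℤ}
    {κ : J} (hκ : η (dl κ) = Multiplicative.ofAdd 1) (hη : Hgt dl S η) {n ρ b : ℕ} {x₀ : X}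
    (hTL : TLx (A := A) x₀ (cst C * n) (cst C * (n + ρ)) b)
    (hgood : GoodAt Acc x₀ (cst C * (n + ρ + b + 1))) :
    T5 (pa kd chi X) (y₀ chi x₀) n ρ (t5b C b n) := by
  have z1 := Nat.zero_le (C * C * C * n)
  have z2 := Nat.zero_le (C * C * n)
  have z3 := Nat.zero_le (C * n)
  have z4 := Nat.zero_le (C * C * C * ρ)
  have z5 := Nat.zero_le (C * C * ρ)
  have z6 := Nat.zero_le (C * ρ)
  have z7 := Nat.zero_le (C * C * C * b)
  have z8 := Nat.zero_le (C * C * b)
  have z9 := Nat.zero_le (C * b)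
  have z10 := Nat.zero_le (C * C * C)
  have z11 := Nat.zero_le (C * C)
  have e1 : 2 * bud C (27 * n) (27 * n) ≤ cst C * n := by
    unfold bud cst; nlinarith
  have e2 : rad C (27 * n) ρ ≤ cst C * (n + ρ) := by
    unfold rad bud cst; nlinarith
  refine t5 hlin hF hκ hη (R := cst C * (n + ρ + b + 1)) ?_ hgood ?_ ?_ ?_ ?_
  · intro l hl
    obtain ⟨l', h1, h2⟩ := hTL l (hl.trans e2)
    exact ⟨l', h1, fun u hu => h2 u (hu.trans e1)⟩
  · unfold bud cst; nlinarith
  · unfold bud cst; nlinarith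
  · unfold rad bud cst; nlinarith
  · unfold bud cst; nlinarith

end constants

end Crest.Agent.R185.Loc
end

-- ▼ part R185/Loc6
section

/-!
# R185 / LOC (6): instantiation at `YY` and at `YS`
-/

set_option autoImplicit false
set_option linter.unusedSectionVars false

namespace Crest.Agent.R185.Loc

open Equiv Crest.Agent.R185.Md191A Crest.Agent.R185.Md191B Crest.Agent.R185.Md191C
  Crest.Agent.R185.Md191D Crest.Agent.R185.Md191E Crest.Agent.R185.Hub Crest.Agent.R185.Smp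

section inst

variable {A H ι : Type} [Group H] {L : Subgroup H} {ε : FreeGroup (Option A) →* H}
  {Acc : Set (FreeGroup A)} {κ : FreeGroup A → FreeGroup A}
  (hW : WitOK L ε Acc) (hκ : ∀ w ∈ Acc, κ w = 1) (gen : FreeGroup ι →* H)

/-- `χ̂` for all `X` -/
noncomputable abbrev chiY : ∀ (X : Type) [MulAction (FreeGroup A) X], SG L ε →* Perm (P A X) :=
  fun X _ => chiS X hW hκ

/-- the letters of `D` -/
def dlO : Option ι → DG L
  | none => kD L
  | some i => hD L (gen (FreeGroup.of i))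

/-- the kinds of the letters of `U` -/
def kdU : UL ι A → Kd (DG L) A
  | UL.h i => Kd.d (dlO gen (some i))
  | UL.k => Kd.d (dlO gen none)
  | UL.s => Kd.s
  | UL.b a => Kd.b a
  | UL.g a => Kd.g a
  | UL.d => Kd.t

theorem lY_eq (X : Type) [MulAction (FreeGroup A) X] :
    lY hW hκ gen X = pa (kdU gen) (chiY hW hκ) X := by
  funext x
  cases x <;> rfl

theorem th_eq {X : Type} [MulAction (FreeGroup A) X] (x : X) :
    Md191E.th hW hκ X x = y₀ (chiY hW hκ) x := by
  unfold y₀ Md191E.th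
  rw [ptS_pos _ one_pos]
  simp

theorem full : Full (A := A) (dlO (L := L) gen) (kdU gen) where
  d j := by
    rcases j with _ | i
    · exact ⟨UL.k, rfl⟩
    · exact ⟨UL.h i, rfl⟩
  s := ⟨UL.s, rfl⟩
  b a := ⟨UL.b a, rfl⟩
  g a := ⟨UL.g a, rfl⟩
  t := ⟨UL.d, rfl⟩
  ok b := by
    cases b
    · exact Ball.letter _
    · exact Ball.letter _
    all_goals trivial

/-- the exponent of `k` -/
noncomputable def expk (L : Subgroup H) : DG L →* Multiplicative ℤ :=
  liftD L 1 (Multiplicative.ofAdd 1) (fun _ _ => Commute.all _ _)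

theorem expk_k : expk L (dlO (L := L) gen none) = Multiplicative.ofAdd 1 :=
  liftD_k L 1 _ _

theorem expk_h (h : H) : expk L (hD L h) = 1 :=
  liftD_h L 1 _ _ h

theorem hgt : Hgt (dlO (L := L) gen) (SG L ε) (expk L) where
  one := by
    have : SG L ε ≤ (expk L).ker := by
      unfold SG
      rw [Subgroup.closure_le]
      rintro _ (⟨e, rfl⟩ | ⟨e, rfl⟩)
      · exact expk_h _
      · change expk L (kD L * hD L (ε e) * (kD L)⁻¹) = 1
        rw [map_mul, map_mul, expk_h, mul_one, ← map_mul, mul_inv_cancel, map_one]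
    exact fun e he => this he
  le j := by
    rcases j with _ | i
    · rw [expk_k]; simp
    · change (Multiplicative.toAdd (expk L (hD L (gen (FreeGroup.of i))))).natAbs ≤ 1
      rw [expk_h]; simp

variable [DecidableEq A] {C : ℕ}

/-- **(A')** for `YY` -/
theorem yy_base (hlin : LinH (dlO gen) (SG L ε) (chiY hW hκ) Acc C) {X X' : Type}
    [MulAction (FreeGroup A) X] [MulAction (FreeGroup A) X'] {n : ℕ} {x₀ : X} {x₀' : X'}
    (h : GoodAt Acc x₀ (cst C * n)) (h' : GoodAt Acc x₀' (cst C * n))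
    (ht : ∀ u : FreeGroup A, u.norm ≤ cst C * n → (u • x₀ = x₀ ↔ u • x₀' = x₀')) :
    TyEq (sg (lY hW hκ gen X)) (sg (lY hW hκ gen X')) n (fun _ : Fin 1 => Md191E.th hW hκ X x₀)
      (fun _ => Md191E.th hW hκ X' x₀') := by
  rw [lY_eq, lY_eq, th_eq, th_eq]
  exact type_base_cst hlin (full gen).ok h h' ht

/-- **(T5)** for `YY` -/
theorem yy_t5 (hlin : LinH (dlO gen) (SG L ε) (chiY hW hκ) Acc C) {X : Type}
    [MulAction (FreeGroup A) X] {n ρ b : ℕ} {x₀ : X}
    (hTL : TLx (A := A) x₀ (cst C * n) (cst C * (n + ρ)) b)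
    (hgood : GoodAt Acc x₀ (cst C * (n + ρ + b + 1))) :
    T5 (lY hW hκ gen X) (Md191E.th hW hκ X x₀) n ρ (t5b C b n) := by
  rw [lY_eq, th_eq]
  exact t5_cst hlin (full gen) (expk_k gen) (hgt gen) hTL hgood

end inst

/-! ### `X = F(A) ⧸ S` -/

section coset

open Crest.Agent.R185.Asm

variable {A : Type} [DecidableEq A]




variable {Acc' : Set (FreeGroup (Option (A × Bool)))} {S : Subgroup (FreeGroup A)}



variable {H ι : Type} [Group H] {L : Subgroup H} {ε : FreeGroup (Option (Option (A × Bool))) →* H}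
  {κ : FreeGroup (Option (A × Bool)) → FreeGroup (Option (A × Bool))} {C : ℕ}
  (W : WitFP L ε Acc' ι) (hW : WitOK L ε Acc') (hκ : ∀ w ∈ Acc', κ w = 1)



end coset

end Crest.Agent.R185.Loc
end

-- ▼ part R185/Glu424

/-!
# R185, glue: (H1) and (H2) of the hub from the local lemmas and the guard (helper424)
-/

set_option autoImplicit false
set_option linter.unusedSectionVars false

namespace Crest.Agent.R185.Glu

open Crest.Agent.R185.Wu Crest.Agent.R185.Hot Crest.Agent.R185.Smp Crest.Agent.R185.Asm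
  Crest.Agent.R185.Hub

/-! ### stripping -/

section strip

variable {A : Type} [DecidableEq A]

theorem norm_strip_mk (L : List (Option (A × Bool) × Bool)) :
    (strip A (FreeGroup.mk L)).norm ≤ L.length := by
  induction L with
  | nil =>
    rw [← FreeGroup.one_eq_mk, map_one]; simp
  | cons x L ih =>
    have h1 : (FreeGroup.mk (x :: L) : FreeGroup (Option (A × Bool))) =
        FreeGroup.mk [x] * FreeGroup.mk L := by rw [FreeGroup.mul_mk]; rfl
    rw [h1, map_mul]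
    refine (FreeGroup.norm_mul_le _ _).trans ?_
    have h2 : (strip A (FreeGroup.mk [x])).norm ≤ 1 := by
      have h3 : (strip A (FreeGroup.of x.1)).norm ≤ 1 := by
        obtain ⟨o, b⟩ := x
        cases o with
        | none => simp
        | some p =>
          rw [strip_some]
          exact FreeGroup.norm_mk_le
      obtain ⟨o, b⟩ := x
      cases b with
      | true => exact h3
      | false =>
        have h4 : (FreeGroup.mk [(o, false)] : FreeGroup (Option (A × Bool))) =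
            (FreeGroup.of o)⁻¹ := rfl
        rw [h4, map_inv, FreeGroup.norm_inv_eq]
        exact h3
    simp only [List.length_cons]
    omega

theorem norm_strip_le (w : FreeGroup (Option (A × Bool))) : (strip A w).norm ≤ w.norm := by
  have := norm_strip_mk w.toWord
  rwa [FreeGroup.mk_toWord] at this

theorem norm_posl_le (w : FreeGroup A) : (posl A w).norm ≤ w.norm := by
  have h : posl A w = FreeGroup.mk (w.toWord.map fun x => (some (x.1, true), x.2)) := by
    conv_lhs => rw [← FreeGroup.mk_toWord (x := w)]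
    rfl
  rw [h]
  refine FreeGroup.norm_mk_le.trans ?_
  rw [List.length_map]
  rfl

/-! ### the machine alphabet on `F(A) ⧸ S` -/

variable (S : Subgroup (FreeGroup A))

/-- `GoodAt` for the machine alphabet -/
def GoodM (AccM : Set (FreeGroup (Option (A × Bool)))) (S : Subgroup (FreeGroup A)) (r : ℕ) :
    Prop :=
  @Loc.GoodAt (Option (A × Bool)) _ (XS S) (actS A (XS S)) AccM (xS S) r

theorem smul_smul_xS (w v : FreeGroup A) : w • (v • xS S) = v • xS S ↔ v⁻¹ * w * v ∈ S := by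
  rw [← smul_xS S, mul_smul, mul_smul, inv_smul_eq_iff]

theorem Good.toM {Acc : Set (FreeGroup A)} {AccM : Set (FreeGroup (Option (A × Bool)))}
    (hAcc : ∀ w ∈ AccM, strip A w ∈ Acc) {r : ℕ} (h : Good Acc S r) : GoodM AccM S r := by
  intro w hw v hv
  change strip A w • (strip A v • xS S) = strip A v • xS S
  rw [smul_smul_xS]
  refine h _ (hAcc w hw) _ ?_
  have h1 := norm_strip_le w
  have h2 := norm_strip_le v
  omega

/-- agreement of types of the base points, machine alphabet -/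
def AgrM (S S' : Subgroup (FreeGroup A)) (r : ℕ) : Prop :=
  ∀ w : FreeGroup (Option (A × Bool)), w.norm ≤ r →
    (strip A w • xS S = xS S ↔ strip A w • xS S' = xS S')

theorem Agr.toM {S S' : Subgroup (FreeGroup A)} {r : ℕ} (h : Agr S S' r) : AgrM S S' r := by
  intro w hw
  rw [smul_xS, smul_xS]
  exact h _ ((norm_strip_le w).trans hw)

/-- small witnesses for types of points, machine alphabet -/
def TLM (S : Subgroup (FreeGroup A)) (n ρ b : ℕ) : Prop :=
  ∀ v : FreeGroup (Option (A × Bool)), v.norm ≤ ρ →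
    ∃ v' : FreeGroup (Option (A × Bool)), v'.norm ≤ b ∧
      ∀ u : FreeGroup (Option (A × Bool)), u.norm ≤ n →
        (strip A u • (strip A v • xS S) = strip A v • xS S ↔
          strip A u • (strip A v' • xS S) = strip A v' • xS S)

theorem TL1.toM {S : Subgroup (FreeGroup A)} {n ρ b : ℕ} (h : TL1 S n ρ b) : TLM S n ρ b := by
  intro v hv
  obtain ⟨v', h1, h2⟩ := h (strip A v) ((norm_strip_le v).trans hv)
  refine ⟨posl A v', (norm_posl_le v').trans h1, fun u hu => ?_⟩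
  rw [strip_posl, smul_smul_xS, smul_smul_xS]
  exact h2 _ ((norm_strip_le u).trans hu)

end strip

theorem TLM.mono {A : Type} [DecidableEq A] {S : Subgroup (FreeGroup A)} {n ρ b n' ρ' b' : ℕ}
    (h : TLM S n ρ b) (hn : n' ≤ n) (hρ : ρ' ≤ ρ) (hb : b ≤ b') : TLM S n' ρ' b' := by
  intro v hv
  obtain ⟨v', h1, h2⟩ := h v (hv.trans hρ)
  exact ⟨v', h1.trans hb, fun u hu => h2 u (hu.trans hn)⟩

theorem GoodM.mono {A : Type} [DecidableEq A] {S : Subgroup (FreeGroup A)}
    {AccM : Set (FreeGroup (Option (A × Bool)))} {r r' : ℕ} (h : GoodM AccM S r) (hr : r' ≤ r) :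
    GoodM AccM S r' := fun w hw v hv => h w hw v (hv.trans hr)

theorem AgrM.mono {A : Type} [DecidableEq A] {S S' : Subgroup (FreeGroup A)}
    {r r' : ℕ} (h : AgrM S S' r) (hr : r' ≤ r) :
    AgrM S S' r' := fun w hw => h w (hw.trans hr)

theorem T5.trivial {A Y : Type} {pa : A → Equiv.Perm Y} {y₀ : Y} {n ρ b : ℕ} (h : ρ ≤ b) :
    T5 pa y₀ n ρ b := fun w hw =>
  ⟨w, fun l => (hw l).mono h, fun _ _ _ _ => Iff.rfl⟩

/-! ### (H1) and (H2) -/

section glue

variable {G B U : Type} [Group G] [DecidableEq U]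
variable {Y : ℕ → Subgroup (FreeGroup GdL) → Type}
variable (AccM : ℕ → Set (FreeGroup (Option (GdL × Bool))))
variable (y₀ : ∀ e S, Y e S) (pa : ∀ e S, U → Equiv.Perm (Y e S))

/-- input (A'): the stabiliser of the base point of `Y` is determined locally -/
def LocA (C : ℕ) : Prop :=
  ∀ e S S' r, 1 ≤ r → GoodM (AccM e) S (C * r) → GoodM (AccM e) S' (C * r) →
    AgrM S S' (C * r) → ∀ u : FreeGroup U, u.norm ≤ r →
      (FreeGroup.lift (pa e S) u (y₀ e S) = y₀ e S ↔
        FreeGroup.lift (pa e S') u (y₀ e S') = y₀ e S')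

/-- input (T5'): small witnesses for types of 5-tuples -/
def LocB (C : ℕ) (β : ℕ → ℕ → ℕ) : Prop :=
  ∀ e S n ρ b, 1 ≤ n → β n b ≤ ρ → GoodM (AccM e) S (C * (n + ρ)) → TLM S (C * n) (C * ρ) b →
    T5 (pa e S) (y₀ e S) n ρ (β n b)

variable {AccM y₀ pa} {Acc : ℕ → Set (FreeGroup GdL)}
variable {M J C : ℕ} {lt : ℤ → Option (KLet U B)} {ix : KLet U B → ℤ} {e₀ : B → G}

/-- **(H1)** -/
theorem H1 (hAcc : ∀ e, ∀ w ∈ AccM e, strip GdL w ∈ Acc e) (hC : 1 ≤ C) (hM : 4 * C + 1 ≤ M)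
    (hA : LocA AccM y₀ pa C) (e : ℕ) (S S' : Subgroup (FreeGroup GdL)) (r : ℕ)
    (hS : Good (Acc e) S r) (hS' : Good (Acc e) S' r) (hSS : Agr S S' r) :
    Agr (gzS M lt e₀ (y₀ e S) (pa e S)) (gzS M lt e₀ (y₀ e S') (pa e S')) (2 * r + 1) := by
  intro w hw
  have hN : 2 * C * (r / (2 * C)) ≤ r := Nat.mul_div_le r (2 * C)
  have hN' : r < 2 * C * (r / (2 * C) + 1) := Nat.lt_mul_div_succ r (by omega)
  generalize r / (2 * C) = N at hN hN'
  refine gz_agree (N := N) (fun u hu => ?_) ?_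
  · rcases Nat.eq_zero_or_pos N with h0 | h0
    · have : u = 1 := by
        rw [← FreeGroup.norm_eq_zero]; omega
      subst this
      simp
    · have h1 : C * (2 * N) ≤ r := by
        calc C * (2 * N) = 2 * C * N := by ring
          _ ≤ r := hN
      exact hA e S S' (2 * N) (by omega) ((Good.toM S (hAcc e) hS).mono h1)
        ((Good.toM S' (hAcc e) hS').mono h1) ((Agr.toM hSS).mono h1) u hu
  · have h2 : (4 * C + 1) * (2 * N + 1) ≤ M * (2 * N + 1) := Nat.mul_le_mul_right _ hM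
    have h3 : (4 * C + 1) * (2 * N + 1) = 8 * (C * N) + 4 * C + 2 * N + 1 := by ring
    have h4 : 2 * C * (N + 1) = 2 * (C * N) + 2 * C := by ring
    omega

/-- the bound of (H2) -/
def beta2 (M J : ℕ) (β : ℕ → ℕ → ℕ) (n b : ℕ) : ℕ := gzbd M J (β (2 * (n / M)) b) n

/-- **(H2)** -/
theorem H2 (hAcc : ∀ e, ∀ w ∈ AccM e, strip GdL w ∈ Acc e) (hC : 1 ≤ C) (hM : 4 * C + 1 ≤ M)
    {ht : G → ℤ} {t : B} (hh : Height e₀ ht t) (hL : Lbl J lt ix) {β : ℕ → ℕ → ℕ}
    (hB : LocB AccM y₀ pa C β) (e : ℕ) (S : Subgroup (FreeGroup GdL)) (n ρ b : ℕ)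
    (_hn : 1 ≤ n) (hS : Good (Acc e) S ((n + 2 * ρ) / 2)) (hT : TL1 S (n / 2) (ρ / 2) b) :
    TL1 (gzS M lt e₀ (y₀ e S) (pa e S)) n ρ (beta2 M J β n b) := by
  refine gz_tl1 hh hL (by omega) (fun h0 => ?_)
  have h1 : M * (n / M) ≤ n := Nat.mul_div_le n M
  have h2 : M * (ρ / M) ≤ ρ := Nat.mul_div_le ρ M
  generalize n / M = n' at *
  generalize ρ / M = ρ' at *
  have h3 : (4 * C + 1) * n' ≤ M * n' := Nat.mul_le_mul_right _ hM
  have h4 : (4 * C + 1) * ρ' ≤ M * ρ' := Nat.mul_le_mul_right _ hM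
  have h5 : (4 * C + 1) * n' = 4 * (C * n') + n' := by ring
  have h6 : (4 * C + 1) * ρ' = 4 * (C * ρ') + ρ' := by ring
  have h7 : C * (2 * n') = 2 * (C * n') := by ring
  have h8 : C * (2 * n' + ρ') = 2 * (C * n') + C * ρ' := by ring
  rcases Nat.lt_or_ge ρ' (β (2 * n') b) with h9 | h9
  · exact T5.trivial h9.le
  · refine hB e S (2 * n') ρ' b (by omega) h9 ((Good.toM S (hAcc e) hS).mono ?_)
      ((TL1.toM hT).mono ?_ ?_ le_rfl)
    · rw [h8]; omega
    · rw [h7]; omega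
    · omega

/-! ### computability of the bound -/

theorem gzbd_eq (M J b n : ℕ) : gzbd M J b n =
    (4 * b + (2 * (n / M) + 1) + 3 + (2 * (n / M) + 1)) * (4 * (M * (J + 1)) + 6) + (n + 1) +
      2 * M + (n + 2) + (M * J + n + 1 + M) := by
  unfold gzbd zbd
  simp only [regF]
  ring

theorem primrec_gzbd (M J : ℕ) : Primrec₂ (gzbd M J) := by
  have hb : Primrec fun x : ℕ × ℕ => x.1 := Primrec.fst
  have hn : Primrec fun x : ℕ × ℕ => x.2 := Primrec.snd
  have hc : ∀ k : ℕ, Primrec fun _ : ℕ × ℕ => k := fun k => Primrec.const k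
  have hd : Primrec fun x : ℕ × ℕ => x.2 / M := Primrec.nat_div.comp hn (hc M)
  have hd2 : Primrec fun x : ℕ × ℕ => 2 * (x.2 / M) + 1 :=
    Primrec.nat_add.comp (Primrec.nat_mul.comp (hc 2) hd) (hc 1)
  have h1 : Primrec fun x : ℕ × ℕ =>
      (4 * x.1 + (2 * (x.2 / M) + 1) + 3 + (2 * (x.2 / M) + 1)) :=
    Primrec.nat_add.comp (Primrec.nat_add.comp (Primrec.nat_add.comp
      (Primrec.nat_mul.comp (hc 4) hb) hd2) (hc 3)) hd2
  have h2 : Primrec fun x : ℕ × ℕ =>
      (4 * x.1 + (2 * (x.2 / M) + 1) + 3 + (2 * (x.2 / M) + 1)) * (4 * (M * (J + 1)) + 6) :=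
    Primrec.nat_mul.comp h1 (hc _)
  have h3 : Primrec fun x : ℕ × ℕ =>
      (4 * x.1 + (2 * (x.2 / M) + 1) + 3 + (2 * (x.2 / M) + 1)) * (4 * (M * (J + 1)) + 6) +
        (x.2 + 1) + 2 * M + (x.2 + 2) + (M * J + x.2 + 1 + M) :=
    Primrec.nat_add.comp (Primrec.nat_add.comp (Primrec.nat_add.comp (Primrec.nat_add.comp h2
      (Primrec.nat_add.comp hn (hc 1))) (hc (2 * M))) (Primrec.nat_add.comp hn (hc 2)))
      (Primrec.nat_add.comp (Primrec.nat_add.comp (Primrec.nat_add.comp (hc (M * J)) hn) (hc 1))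
        (hc M))
  exact h3.of_eq (fun x => (gzbd_eq M J x.1 x.2).symm)

theorem beta2_computable (M J : ℕ) {β : ℕ → ℕ → ℕ} (hβ : Computable₂ β) :
    Computable₂ (beta2 M J β) := by
  have hd : Computable fun x : ℕ × ℕ => 2 * (x.1 / M) :=
    (Primrec.nat_mul.comp (Primrec.const 2)
      (Primrec.nat_div.comp Primrec.fst (Primrec.const M))).to_comp
  have h1 : Computable fun x : ℕ × ℕ => β (2 * (x.1 / M)) x.2 := hβ.comp hd Computable.snd
  exact (primrec_gzbd M J).to_comp.comp h1 Computable.fst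

end glue

end Crest.Agent.R185.Glu
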