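import Crest.Agent.R185.Comp3
import Mathlib.Data.Finite.Sigma
import Mathlib.Data.Finite.Sum

-- ▼ part R185/Comp4
section

/-!
# R185, block COMP, part 4: the complete machine (reading phase, evaluation, answer)
-/

set_option autoImplicit false

namespace Crest.Agent.R185.Comp

open StateTransition Turing Function Relation Turing.PartrecToTM2 Encodable

/-! ### single-step simulations -/

/-- If every step of `f₁` is simulated by a single step of `f₂`, and `f₂` halts, then `f₁` halts. -/
theorem sim_rev {α β : Type} {f₁ : α → Option α} {f₂ : β → Option β} {tr : α → β}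
    (h : ∀ a a', f₁ a = some a' → f₂ (tr a) = some (tr a')) {a : α} {b : β}
    (hr : Reaches f₂ (tr a) b) (hb : f₂ b = none) : ∃ a', Reaches f₁ a a' ∧ f₁ a' = none := by
  have key : ∀ x, Reaches f₂ x b → ∀ a, x = tr a → ∃ a', Reaches f₁ a a' ∧ f₁ a' = none := by
    intro x hx
    induction hx using ReflTransGen.head_induction_on with
    | refl =>
      intro a ha
      refine ⟨a, ReflTransGen.refl, ?_⟩
      cases h1 : f₁ a with
      | none => rfl
      | some a' =>
        have := h a a' h1
        rw [← ha, hb] at this
        cases this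
    | head hxy hyb ih =>
      rename_i x y
      intro a ha
      cases h1 : f₁ a with
      | none => exact ⟨a, ReflTransGen.refl, h1⟩
      | some a' =>
        have h2 := h a a' h1
        rw [← ha] at h2
        have h3 : y = tr a' := by
          have h4 : f₂ x = some y := hxy
          rw [h2] at h4
          exact (Option.some.inj h4).symm
        obtain ⟨a'', h4, h5⟩ := ih a' h3
        exact ⟨a'', ReflTransGen.head (show a' ∈ f₁ a from h1) h4, h5⟩
  exact key _ hr a rfl

theorem sim_fwd {α β : Type} {f₁ : α → Option α} {f₂ : β → Option β} {tr : α → β}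
    (h : ∀ a a', f₁ a = some a' → f₂ (tr a) = some (tr a')) {a a' : α}
    (hr : Reaches f₁ a a') : Reaches f₂ (tr a) (tr a') := by
  induction hr with
  | refl => exact ReflTransGen.refl
  | tail _ hbc ih => exact ih.tail (h _ _ hbc)

/-! ### the machine -/

section machine

variable {A Q : Type} [Encodable A]

/-- States of the complete machine. -/
inductive PQ (A Q : Type) [Encodable A]
  | s0
  | s1
  | rd
  | z (a : A)
  | w (a : A) (j : Fin (encode a + 1))
  | run (q : Q)
  | test
  | fin (b : Bool)

/-- `PQ` as a sum type -/
def PQ.toSum : PQ A Q → Fin 4 ⊕ A ⊕ (Σ a : A, Fin (encode a + 1)) ⊕ Q ⊕ Bool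
  | .s0 => .inl 0
  | .s1 => .inl 1
  | .rd => .inl 2
  | .test => .inl 3
  | .z a => .inr (.inl a)
  | .w a j => .inr (.inr (.inl ⟨a, j⟩))
  | .run q => .inr (.inr (.inr (.inl q)))
  | .fin b => .inr (.inr (.inr (.inr b)))

theorem PQ.toSum_injective : Injective (PQ.toSum (A := A) (Q := Q)) := by
  intro x y h
  cases x <;> cases y <;> simp_all [PQ.toSum]

instance [Finite A] [Finite Q] : Finite (PQ A Q) :=
  Finite.of_injective _ PQ.toSum_injective

/-- Lifting an instruction of the code machine. -/
def lifti : Ins Q K' Γ' → Ins (PQ A Q) (Option K') (Γ' ⊕ A)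
  | .goto q => .goto (.run q)
  | .push k a q => .push (some k) (.inl a) (.run q)
  | .pop k f => .pop (some k) fun o => .run (f (o.bind Sum.getLeft?))
  | .halt => .halt

open Classical in
/-- The complete machine, given the code machine `ins` with initial state `q0` and halting state
`qf`. -/
noncomputable def comb (ins : Q → Ins Q K' Γ') (q0 qf : Q) :
    PQ A Q → Ins (PQ A Q) (Option K') (Γ' ⊕ A)
  | .s0 => .push (some K'.main) (.inl Γ'.cons) .s1
  | .s1 => .push (some K'.main) (.inl Γ'.bit1) .rd
  | .rd => .pop none fun o => match o with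
      | some (.inr a) => .z a
      | _ => .run q0
  | .z a => .push (some K'.main) (.inl Γ'.bit0) (.w a ⟨encode a, Nat.lt_succ_self _⟩)
  | .w a j => if j.1 = 0 then .goto .rd
      else .push (some K'.main) (.inl Γ'.bit1) (.w a ⟨j.1 - 1, by have := j.2; omega⟩)
  | .run q => if q = qf then .goto .test else lifti (ins q)
  | .test => .pop (some K'.main) fun o => .fin (match o with
      | some (.inl Γ'.bit1) => true
      | _ => false)
  | .fin _ => .halt

/-- stacks of the complete machine -/
def liftS (T : List (Γ' ⊕ A)) (S : K' → List Γ') : Option K' → List (Γ' ⊕ A)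
  | none => T
  | some k => (S k).map Sum.inl

omit [Encodable A] in
theorem update_liftS_some (T : List (Γ' ⊕ A)) (S : K' → List Γ') (k : K') (L : List Γ') :
    update (liftS T S) (some k) (L.map Sum.inl) = liftS T (update S k L) := by
  funext j
  cases j with
  | none => simp [liftS]
  | some j =>
    by_cases h : j = k
    · subst h
      simp [liftS]
    · rw [update_of_ne (by simpa using h)]
      simp [liftS, update_of_ne h]

omit [Encodable A] in
theorem update_liftS_none (T T' : List (Γ' ⊕ A)) (S : K' → List Γ') :
    update (liftS T S) none T' = liftS T' S := by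
  funext j
  cases j with
  | none => simp [liftS]
  | some j => simp [liftS]

variable (ins : Q → Ins Q K' Γ') (q0 qf : Q)

theorem run_step (T : List (Γ' ⊕ A)) (hqf : ∀ q, ins q = .halt ↔ q = qf)
    (c c' : Q × (K' → List Γ')) (h : step ins c = some c') :
    step (comb ins q0 qf) ((.run c.1 : PQ A Q), liftS T c.2) = some (.run c'.1, liftS T c'.2) := by
  obtain ⟨q, S⟩ := c
  have hq : q ≠ qf := by
    intro hq
    rw [(step_eq_none ins).2 ((hqf q).2 hq)] at h
    cases h
  have hc : comb (A := A) ins q0 qf (.run q) = lifti (ins q) := by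
    simp [comb, hq]
  cases hi : ins q with
  | goto q' =>
    rw [hi] at hc
    rw [step_goto ins hi] at h
    cases h
    exact step_goto _ hc _
  | push k a q' =>
    rw [hi] at hc
    rw [step_push ins hi] at h
    cases h
    rw [show lifti (.push k a q') = .push (some k) (.inl a) (.run q') from rfl] at hc
    rw [step_push _ hc]
    have : (Sum.inl a :: liftS T S (some k) : List (Γ' ⊕ A)) = (a :: S k).map Sum.inl := rfl
    rw [this, update_liftS_some]
  | pop k f =>
    rw [hi] at hc
    rw [step_pop ins hi] at h
    cases h
    rw [show lifti (.pop k f) = .pop (some k) fun o => .run (f (o.bind Sum.getLeft?)) from rfl] at hc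
    rw [step_pop _ hc]
    have h1 : (liftS T S (some k)).tail = ((S k).tail).map Sum.inl := by
      simp [liftS]
    have h2 : (liftS T S (some k)).head?.bind Sum.getLeft? = (S k).head? := by
      cases h3 : S k <;> simp [liftS, h3]
    rw [h1, update_liftS_some, h2]
  | halt =>
    exact absurd ((hqf q).1 hi) hq

theorem read_letter (a : A) (L : List (Γ' ⊕ A)) (n : ℕ) (h1 : 1 ≤ n) (R : List Γ') :
    Reaches (step (comb ins q0 qf))
      ((.rd : PQ A Q), liftS (.inr a :: L) (K'.elim (trNat n ++ R) [] [] []))
      (.rd, liftS L (K'.elim (trNat (app (encode a) n) ++ R) [] [] [])) := by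
  -- the bit1 phase
  have hw : ∀ (j : ℕ) (hj : j < encode a + 1) (m : ℕ), Reaches (step (comb ins q0 qf))
      ((.w a ⟨j, hj⟩ : PQ A Q), liftS L (K'.elim (trNat m ++ R) [] [] []))
      (.rd, liftS L (K'.elim (trNat ((fun m => 2 * m + 1)^[j] m) ++ R) [] [] [])) := by
    intro j
    induction j with
    | zero =>
      intro hj m
      refine ReflTransGen.single ?_
      refine step_goto _ (q' := (.rd : PQ A Q)) ?_ _
      simp [comb]
    | succ j ih =>
      intro hj m
      have hj' : j < encode a + 1 := by omega
      refine ReflTransGen.head (b := ((.w a ⟨j, hj'⟩ : PQ A Q),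
        liftS L (K'.elim (trNat (2 * m + 1) ++ R) [] [] []))) ?_ (ih hj' (2 * m + 1))
      have hc : comb ins q0 qf (.w a ⟨j + 1, hj⟩) =
          .push (some K'.main) (.inl Γ'.bit1) (.w a ⟨j, hj'⟩) := by
        simp [comb]
      refine (step_push _ hc _).trans ?_
      have h2 : ((Sum.inl Γ'.bit1 : Γ' ⊕ A) :: liftS L (K'.elim (trNat m ++ R) [] [] [])
          (some K'.main)) = (trNat (2 * m + 1) ++ R).map Sum.inl := by
        rw [trNat_two_mul_add_one]
        rfl
      rw [h2, update_liftS_some, K'.elim_update_main]
  refine ReflTransGen.head (b := (.z a, liftS L (K'.elim (trNat n ++ R) [] [] []))) ?_ ?_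
  · have hc : comb ins q0 qf (.rd : PQ A Q) = .pop none fun o => match o with
      | some (.inr a) => .z a
      | _ => .run q0 := rfl
    refine (step_pop _ hc _).trans ?_
    simp [liftS, update_liftS_none]
  · refine ReflTransGen.head ?_ (hw (encode a) (Nat.lt_succ_self _) (2 * n))
    have hc : comb ins q0 qf (.z a : PQ A Q) =
        .push (some K'.main) (.inl Γ'.bit0) (.w a ⟨encode a, Nat.lt_succ_self _⟩) := rfl
    refine (step_push _ hc _).trans ?_
    have h2 : ((Sum.inl Γ'.bit0 : Γ' ⊕ A) :: liftS L (K'.elim (trNat n ++ R) [] [] [])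
        (some K'.main)) = (trNat (2 * n) ++ R).map Sum.inl := by
      rw [trNat_two_mul n h1]
      rfl
    rw [h2, update_liftS_some, K'.elim_update_main]

theorem read_word (w : List A) (n : ℕ) (h1 : 1 ≤ n) (R : List Γ') :
    Reaches (step (comb ins q0 qf))
      ((.rd : PQ A Q), liftS (w.map .inr) (K'.elim (trNat n ++ R) [] [] []))
      (.run q0, liftS [] (K'.elim (trNat (encF n w) ++ R) [] [] [])) := by
  induction w generalizing n with
  | nil =>
    refine ReflTransGen.single ?_
    have hc : comb ins q0 qf (.rd : PQ A Q) = .pop none fun o => match o with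
      | some (.inr a) => .z a
      | _ => .run q0 := rfl
    refine (step_pop _ hc _).trans ?_
    simp only [liftS, List.map_nil, List.head?_nil, List.tail_nil, Option.some.injEq,
      Prod.mk.injEq, true_and]
    exact update_liftS_none _ _ _
  | cons a w ih =>
    refine (read_letter ins q0 qf a (w.map .inr) n h1 R).trans ?_
    rw [encF_cons]
    apply ih
    have := le_app (encode a) n
    omega

theorem start_word (w : List A) :
    Reaches (step (comb ins q0 qf))
      ((.s0 : PQ A Q), liftS (w.map .inr) (fun _ => []))
      (.run q0, liftS [] (K'.elim (trList [encF 1 w]) [] [] [])) := by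
  have h0 : (fun _ => [] : K' → List Γ') = K'.elim [] [] [] [] := by
    funext k
    cases k <;> rfl
  rw [h0]
  refine ReflTransGen.head (b := (.s1, liftS (w.map .inr) (K'.elim [Γ'.cons] [] [] []))) ?_ ?_
  · have hc : comb ins q0 qf (.s0 : PQ A Q) = .push (some K'.main) (.inl Γ'.cons) .s1 := rfl
    refine (step_push _ hc _).trans ?_
    have h2 : ((Sum.inl Γ'.cons : Γ' ⊕ A) :: liftS (w.map .inr) (K'.elim [] [] [] [])
        (some K'.main)) = ([Γ'.cons]).map Sum.inl := rfl
    rw [h2, update_liftS_some, K'.elim_update_main]
  · refine ReflTransGen.head (b := (.rd, liftS (w.map .inr)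
      (K'.elim (trNat 1 ++ [Γ'.cons]) [] [] []))) ?_ ?_
    · have hc : comb ins q0 qf (.s1 : PQ A Q) = .push (some K'.main) (.inl Γ'.bit1) .rd := rfl
      refine (step_push _ hc _).trans ?_
      have h2 : ((Sum.inl Γ'.bit1 : Γ' ⊕ A) :: liftS (w.map .inr) (K'.elim [Γ'.cons] [] [] [])
          (some K'.main)) = (trNat 1 ++ [Γ'.cons]).map Sum.inl := by
        rw [trNat_one]
        rfl
      rw [h2, update_liftS_some, K'.elim_update_main]
    · exact read_word ins q0 qf w 1 le_rfl [Γ'.cons]

/-- the answer phase -/
theorem answer (b : Bool) :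
    ∃ S, Reaches (step (comb ins q0 qf))
      ((.run qf : PQ A Q), liftS [] (K'.elim (trList [cond b 1 0]) [] [] [])) (.fin b, S) := by
  have hc1 : comb ins q0 qf (.run qf : PQ A Q) = .goto .test := by simp [comb]
  have hc2 : comb ins q0 qf (.test : PQ A Q) = .pop (some K'.main) fun o => .fin (match o with
      | some (.inl Γ'.bit1) => true
      | _ => false) := rfl
  refine ⟨update (liftS [] (K'.elim (trList [cond b 1 0]) [] [] [])) (some K'.main)
      (liftS [] (K'.elim (trList [cond b 1 0]) [] [] []) (some K'.main)).tail,
    ReflTransGen.head (step_goto _ hc1 _) (ReflTransGen.single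
    ((step_pop _ hc2 _).trans ?_))⟩
  cases b
  · simp [liftS]
  · simp [liftS, trNat_one]

end machine

/-- **Main theorem of the block COMP.** For every partial recursive `f : List A →. Bool` over a
finite alphabet `A` there is a micro-step stack machine with finitely many states, stacks
`Option K'` (`none` is the input stack), stack alphabet `Γ' ⊕ A`, whose halting states are exactly
`qb true` and `qb false`, and which, started in `q0` with the word `w` on the input stack (first
letter on top) and all other stacks empty, halts in state `qb b` iff `b ∈ f w`. -/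
theorem exists_mach {A : Type} [Finite A] [Primcodable A] (f : List A →. Bool) (hf : Partrec f) :
    ∃ (Q : Type) (_ : Finite Q) (ins : Q → Ins Q (Option K') (Γ' ⊕ A)) (q0 : Q) (qb : Bool → Q),
      Injective qb ∧ (∀ q, ins q = .halt ↔ ∃ b, q = qb b) ∧
      ∀ w : List A, (eval (step ins) (q0, liftS (w.map .inr) (fun _ => []))).map Prod.fst =
        (f w).map qb := by
  obtain ⟨c, hc⟩ := exists_code_list f hf
  obtain ⟨Q, hQ, ins, q0, qf, hqf, hev⟩ := exists_code_mach c
  refine ⟨PQ A Q, inferInstance, comb ins q0 qf, .s0, .fin, ?_, ?_, ?_⟩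
  · intro b b' h
    cases h
    rfl
  · intro q
    cases q with
    | s0 => simp [comb]
    | s1 => simp [comb]
    | rd => simp [comb]
    | z a => simp [comb]
    | w a j => simp only [comb]; split_ifs <;> simp
    | run q =>
      simp only [comb]
      split_ifs with h
      · simp
      · have h1 : ins q ≠ .halt := fun h2 => h ((hqf q).1 h2)
        cases hi : ins q with
        | halt => exact absurd hi h1
        | goto q' => simp [lifti]
        | push k a q' => simp [lifti]
        | pop k f => simp [lifti]
    | test => simp [comb]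
    | fin b => simp [comb]
  · intro w
    have hr := start_word (A := A) ins q0 qf w
    rw [reaches_eval hr]
    have hev' := hev [encF 1 w]
    rw [hc w] at hev'
    -- forward direction
    have fwd : ∀ b ∈ f w, PQ.fin b ∈
        (eval (step (comb ins q0 qf)) ((.run q0 : PQ A Q),
          liftS [] (K'.elim (trList [encF 1 w]) [] [] []))).map Prod.fst := by
      intro b hb
      have h1 : (qf, K'.elim (trList [cond b 1 0]) [] [] []) ∈
          eval (step ins) (q0, K'.elim (trList [encF 1 w]) [] [] []) := by
        rw [hev']
        exact Part.mem_map _ (Part.mem_map _ hb)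
      have h2 := (mem_eval.1 h1).1
      have h3 := sim_fwd (tr := fun c : Q × (K' → List Γ') =>
        ((.run c.1 : PQ A Q), liftS ([] : List (Γ' ⊕ A)) c.2))
        (run_step (A := A) ins q0 qf [] hqf) h2
      obtain ⟨S, h4⟩ := answer (A := A) ins q0 qf b
      have h5 : ((.fin b : PQ A Q), S) ∈ eval (step (comb ins q0 qf)) ((.run q0 : PQ A Q),
          liftS [] (K'.elim (trList [encF 1 w]) [] [] [])) :=
        mem_eval.2 ⟨h3.trans h4, step_halt _ rfl _⟩
      exact Part.mem_map Prod.fst h5
    refine Part.ext fun x => ⟨fun hx => ?_, fun hx => ?_⟩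
    · rw [Part.mem_map_iff] at hx
      obtain ⟨⟨y, S⟩, hy, rfl⟩ := hx
      have hy' := mem_eval.1 hy
      obtain ⟨c', h1, h2⟩ := sim_rev (tr := fun c : Q × (K' → List Γ') =>
        ((.run c.1 : PQ A Q), liftS ([] : List (Γ' ⊕ A)) c.2))
        (run_step (A := A) ins q0 qf [] hqf) (a := (q0, K'.elim (trList [encF 1 w]) [] [] []))
        hy'.1 hy'.2
      have h3 : c' ∈ eval (step ins) (q0, K'.elim (trList [encF 1 w]) [] [] []) :=
        mem_eval.2 ⟨h1, h2⟩
      rw [hev', Part.mem_map_iff] at h3
      obtain ⟨v, hv, -⟩ := h3
      rw [Part.mem_map_iff] at hv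
      obtain ⟨b, hb, -⟩ := hv
      have h4 := Part.mem_unique (Part.mem_map Prod.fst hy) (fwd b hb)
      rw [h4]
      exact Part.mem_map _ hb
    · rw [Part.mem_map_iff] at hx
      obtain ⟨b, hb, rfl⟩ := hx
      exact fwd b hb

end Crest.Agent.R185.Comp
private theorem rz_f517d482f2 : type_of% @_root_.Crest.Agent.R185.Comp.PQ.toSum.eq_1 := @_root_.Crest.Agent.R185.Comp.PQ.toSum.eq_1 -- L74
private theorem rz_4cb3f7f108 : type_of% @_root_.Crest.Agent.R185.Comp.comb.eq_1 := @_root_.Crest.Agent.R185.Comp.comb.eq_1 -- L101
private theorem rz_e7c20c9238 : type_of% @_root_.Crest.Agent.R185.Comp.liftS.eq_1 := @_root_.Crest.Agent.R185.Comp.liftS.eq_1 -- L118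
private theorem rz_1efdb1f9e6 : type_of% @_root_.Crest.Agent.R185.Comp.lifti.eq_1 := @_root_.Crest.Agent.R185.Comp.lifti.eq_1 -- L92
end

-- ▼ part R185/Comp5

/-!
# R185, block COMP, part 5: corollaries

* `exists_mach_re`: a machine halting exactly on a given r.e. set of words;
* `exists_mach_dec`: a machine deciding a given computable set of words;
* `exists_univ_mach`: ONE machine over the alphabet `Option A` which, started with the text
  `none ^ e ++ w`, decides `Alg e w`, where the family `Alg` is an arbitrary computable family and
  `e` is a Kleene fixed point depending on `Alg`; the machine does not depend on `Alg`;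
* the history machine: an injective partial map.
-/

set_option autoImplicit false

namespace Crest.Agent.R185.Comp

open StateTransition Turing Function Relation Turing.PartrecToTM2 Encodable

section
variable {A : Type} [Finite A] [Primcodable A]



/-! ### The universal machine and Kleene's fixed point -/


/-- the exponent of a text -/
def textE (l : List (Option A)) : ℕ := (l.filter fun o => o.isNone).length

/-- the word of a text -/
def textW (l : List (Option A)) : List A := l.filterMap id



omit [Finite A] in
theorem textE_primrec : Primrec (textE (A := A)) := by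
  refine Primrec.list_length.comp ?_
  have h : Primrec₂ fun (_ : List (Option A)) (o : Option A) => bif o.isNone then some o else none := by
    have h1 : Primrec fun o : Option A => o.isNone := by
      have := Primrec.not.comp (Primrec.option_isSome (α := A))
      refine this.of_eq fun o => ?_
      cases o <;> rfl
    exact (Primrec.cond (h1.comp Primrec.snd) (Primrec.option_some.comp Primrec.snd)
      (Primrec.const none)).to₂
  refine (Primrec.listFilterMap Primrec.id h).of_eq fun l => ?_
  rw [← List.filterMap_eq_filter]
  congr 1
  funext o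
  cases o <;> rfl

omit [Finite A] in
theorem textW_primrec : Primrec (textW (A := A)) :=
  Primrec.listFilterMap Primrec.id Primrec.snd.to₂


end

/-! ### The history machine -/

section hist

variable {Q K A : Type} [DecidableEq K]







end hist

end Crest.Agent.R185.Comp
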