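import Crest.Agent.R292.RE
import Crest.Agent.R185.Comp5

-- ▼ part R185/Re1
section

/-!
# R185, tool "computability without algorithms", part 1

* `Der`: facts derivable from an r.e. system of rules form an r.e. predicate (`re_der`);
* `computable_of_graph`: a total function with an r.e. graph is computable;
* computable list operations with merely computable step functions;
* `exists_alg`: recursion on a rank with tables;
* `exists_alg_re`: the same with a positive and a negative r.e. certificate.
-/

set_option autoImplicit false

namespace Crest.Agent.R185.Re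

open Crest.Agent.R292 Encodable

variable {α β γ δ : Type*} [Primcodable α] [Primcodable β] [Primcodable γ] [Primcodable δ]

/-! ### small r.e. predicates -/


theorem re_of_computable {p : α → Prop} {f : α → Bool} (hf : Computable f)
    (h : ∀ a, p a ↔ f a = true) : REPred p :=
  re_of_stage (q := fun x => f x.1) (hf.comp Computable.fst) fun a => by simp [h a]

theorem re_eq {f g : α → β} (hf : Computable f) (hg : Computable g) :
    REPred fun a => f a = g a := by
  classical
  have h : Computable fun a => decide (f a = g a) :=
    (Primrec.eq (α := β)).decide.to_comp.comp hf hg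
  exact re_of_computable h fun a => by simp

theorem re_ne {f g : α → β} (hf : Computable f) (hg : Computable g) :
    REPred fun a => f a ≠ g a := by
  classical
  have h : Computable fun a => decide (f a = g a) :=
    (Primrec.eq (α := β)).decide.to_comp.comp hf hg
  exact re_of_computable (f := fun a => !decide (f a = g a)) (Primrec.not.to_comp.comp h)
    fun a => by simp

theorem re_mem_list {f : α → β} {L : α → List β} (hf : Computable f) (hL : Computable L) :
    REPred fun a => f a ∈ L a := by
  classical
  have h1 : PrimrecRel fun (l : List β) (b : β) => ∃ b' ∈ l, b' = b :=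
    PrimrecRel.exists_mem_list (R := fun (b' b : β) => b' = b) Primrec.eq
  obtain ⟨_, h2⟩ := h1
  have h := h2.to_comp.comp (hL.pair hf)
  exact re_of_computable h fun a => by simp

theorem re_ex₂ {p : α → β → Prop} (hp : REPred fun x : α × β => p x.1 x.2) :
    REPred (fun a => ∃ b, p a b) := re_ex (p := fun x : α × β => p x.1 x.2) hp

theorem re_ex_mem {p : α → β → Prop} (hp : REPred fun x : α × β => p x.1 x.2) {L : α → List β}
    (hL : Computable L) : REPred (fun a => ∃ b ∈ L a, p a b) := by
  refine re_ex (p := fun x : α × β => x.2 ∈ L x.1 ∧ p x.1 x.2) (re_and ?_ hp)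
  exact re_mem_list Computable.snd (hL.comp Computable.fst)

theorem re_all_mem₂ {p : α → β → Prop} (hp : REPred fun x : α × β => p x.1 x.2) {L : α → List β}
    (hL : Computable L) : REPred (fun a => ∀ b ∈ L a, p a b) :=
  re_all_mem (p := fun x : α × β => p x.1 x.2) hp hL

/-! ### graphs -/

/-- a partial function with an r.e. graph is partial recursive; uniformisation version -/
theorem exists_unif {p : α → β → Prop} (hp : REPred fun x : α × β => p x.1 x.2) :
    ∃ f : α →. β, Partrec f ∧ (∀ a, ∀ b ∈ f a, p a b) ∧ ∀ a, (∃ b, p a b) → (f a).Dom := by
  obtain ⟨q, hq, -, hqe⟩ := re_stage hp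
  let g : α → ℕ → Option β := fun a n =>
    (decode (α := β) n.unpair.1).bind fun b => bif q ((a, b), n.unpair.2) then some b else none
  have hg : Computable₂ g := by
    refine Primrec₂.to_comp ?_
    refine Primrec.option_bind
      (Primrec.decode.comp (Primrec.fst.comp (Primrec.unpair.comp Primrec.snd))) ?_
    exact (Primrec.cond (hq.comp (((Primrec.fst.comp Primrec.fst).pair Primrec.snd).pair
      (Primrec.snd.comp (Primrec.unpair.comp (Primrec.snd.comp Primrec.fst)))))
      (Primrec.option_some.comp Primrec.snd) (Primrec.const none)).to₂
  have hval : ∀ a n b, b ∈ g a n → p a b := by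
    intro a n b hb
    simp only [g, Option.mem_def, Option.bind_eq_some_iff] at hb
    obtain ⟨b', -, hb'⟩ := hb
    cases hc : q ((a, b'), n.unpair.2) with
    | false => rw [hc] at hb'; simp at hb'
    | true =>
      rw [hc] at hb'
      simp only [cond_true, Option.some.injEq] at hb'
      subst hb'
      exact (hqe (a, b')).2 ⟨_, hc⟩
  refine ⟨fun a => Nat.rfindOpt (g a), Partrec.rfindOpt hg, ?_, ?_⟩
  · intro a b hb
    obtain ⟨n, hn⟩ := Nat.rfindOpt_spec hb
    exact hval a n b hn
  · rintro a ⟨b, hb⟩
    obtain ⟨k, hk⟩ := (hqe (a, b)).1 hb
    rw [Nat.rfindOpt_dom]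
    refine ⟨Nat.pair (encode b) k, b, ?_⟩
    simp [g, hk]

theorem computable_of_graph {f : α → β} (hf : REPred fun x : α × β => f x.1 = x.2) :
    Computable f := by
  obtain ⟨g, hg, h1, h2⟩ := exists_unif (p := fun a b => f a = b) hf
  refine Partrec.of_eq (f := g) hg fun a => ?_
  have h3 := h2 a ⟨f a, rfl⟩
  have h4 := h1 a _ (Part.get_mem h3)
  change g a = Part.some (f a)
  rw [Part.eq_some_iff, h4]
  exact Part.get_mem h3



/-! ### derivations -/

/-- facts derivable by the rules `R l a` ("from all of `l` infer `a`") -/
inductive Der {α : Type*} (R : List α → α → Prop) : α → Prop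
  | mk (l : List α) (a : α) (h : R l a) (hl : ∀ b ∈ l, Der R b) : Der R a

/-- valid derivations -/
def Valid {α : Type*} (R : List α → α → Prop) : List (List α × α) → Prop
  | [] => True
  | x :: D => (R x.1 x.2 ∧ ∀ b ∈ x.1, b ∈ D.map Prod.snd) ∧ Valid R D

section der
variable {α : Type*} {R : List α → α → Prop}

theorem Valid.der : ∀ {D : List (List α × α)}, Valid R D → ∀ a ∈ D.map Prod.snd, Der R a
  | [], _, a, ha => by simp at ha
  | x :: D, h, a, ha => by
    obtain ⟨⟨h1, h2⟩, h3⟩ := h
    rw [List.map_cons, List.mem_cons] at ha
    rcases ha with rfl | ha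
    · exact Der.mk _ _ h1 fun b hb => Valid.der h3 b (h2 b hb)
    · exact Valid.der h3 a ha

theorem Valid.append : ∀ {D E : List (List α × α)}, Valid R D → Valid R E → Valid R (D ++ E)
  | [], E, _, hE => hE
  | x :: D, E, h, hE => by
    obtain ⟨⟨h1, h2⟩, h3⟩ := h
    refine ⟨⟨h1, fun b hb => ?_⟩, Valid.append h3 hE⟩
    change b ∈ List.map Prod.snd (D ++ E)
    rw [List.map_append, List.mem_append]
    exact Or.inl (h2 b hb)

theorem Der.exists_valid {a : α} (h : Der R a) :
    ∃ D : List (List α × α), Valid R D ∧ a ∈ D.map Prod.snd := by
  induction h with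
  | mk l a h hl ih =>
    have h1 : ∀ l' : List α, (∀ b ∈ l', ∃ D : List (List α × α), Valid R D ∧
        b ∈ D.map Prod.snd) → ∃ D : List (List α × α), Valid R D ∧
        ∀ b ∈ l', b ∈ D.map Prod.snd := by
      intro l'
      induction l' with
      | nil => intro _; exact ⟨[], trivial, by simp⟩
      | cons c l' ih' =>
        intro h'
        obtain ⟨D1, hD1, hc⟩ := h' c List.mem_cons_self
        obtain ⟨D2, hD2, h2⟩ := ih' fun b hb => h' b (List.mem_cons_of_mem _ hb)
        refine ⟨D1 ++ D2, hD1.append hD2, fun b hb => ?_⟩
        rw [List.map_append, List.mem_append]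
        rcases List.mem_cons.1 hb with rfl | hb
        · exact Or.inl hc
        · exact Or.inr (h2 b hb)
    obtain ⟨D, hD, h2⟩ := h1 l ih
    exact ⟨(l, a) :: D, ⟨⟨h, h2⟩, hD⟩, by simp⟩

theorem der_iff {a : α} : Der R a ↔ ∃ D : List (List α × α), Valid R D ∧ a ∈ D.map Prod.snd :=
  ⟨Der.exists_valid, fun ⟨_, hD, ha⟩ => hD.der a ha⟩

theorem valid_iff : ∀ {D : List (List α × α)}, Valid R D ↔ ∀ i ∈ List.range D.length,
    ∃ x : (List α × α) × List (List α × α), D.drop i = x.1 :: x.2 ∧ R x.1.1 x.1.2 ∧
      ∀ b ∈ x.1.1, b ∈ x.2.map Prod.snd
  | [] => by simp [Valid]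
  | x :: D => by
    rw [Valid, valid_iff (D := D)]
    constructor
    · rintro ⟨⟨h1, h2⟩, h3⟩ i hi
      rcases i with _ | i
      · exact ⟨(x, D), rfl, h1, h2⟩
      · rw [List.mem_range, List.length_cons, Nat.succ_lt_succ_iff] at hi
        exact h3 i (List.mem_range.2 hi)
    · intro h
      refine ⟨?_, fun i hi => ?_⟩
      · obtain ⟨y, hy, h1, h2⟩ := h 0 (by simp)
        rw [List.drop_zero, List.cons.injEq] at hy
        obtain ⟨h3, h4⟩ := hy
        rw [h3, h4]
        exact ⟨h1, h2⟩
      · rw [List.mem_range] at hi
        exact h (i + 1) (by simpa using hi)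

end der

theorem primrec_drop : Primrec₂ fun (n : ℕ) (l : List α) => l.drop n := by
  have h : Primrec₂ fun (l : List α) (n : ℕ) => (List.tail)^[n] l := by
    have := Primrec.nat_rec (f := fun l : List α => l) (g := fun (_ : List α) (p : ℕ × List α) =>
      p.2.tail) Primrec.id (Primrec.list_tail.comp (Primrec.snd.comp Primrec.snd)).to₂
    refine this.of_eq fun l n => ?_
    induction n with
    | zero => rfl
    | succ n ih => rw [Function.iterate_succ_apply', ← ih]
  refine (h.comp Primrec.snd Primrec.fst).of_eq fun x => ?_
  obtain ⟨n, l⟩ := x
  simp only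
  induction n generalizing l with
  | zero => rfl
  | succ n ih =>
    rw [Function.iterate_succ_apply, ih]
    cases l <;> simp

/-- **Derivable facts are r.e.** (uniformly in a parameter). -/
theorem re_der {R : γ → List α → α → Prop}
    (hR : REPred fun x : γ × List α × α => R x.1 x.2.1 x.2.2) :
    REPred fun x : γ × α => Der (R x.1) x.2 := by
  -- one step
  have h1 : REPred fun x : (γ × List (List α × α)) × (List α × α) × List (List α × α) =>
      R x.1.1 x.2.1.1 x.2.1.2 := by
    refine re_comp (p := fun x : γ × List α × α => R x.1 x.2.1 x.2.2) (f := fun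
      x : (γ × List (List α × α)) × (List α × α) × List (List α × α) =>
        (x.1.1, x.2.1.1, x.2.1.2)) hR ?_
    exact (Computable.fst.comp Computable.fst).pair (Computable.fst.comp Computable.snd)
  have h2 : REPred fun x : (List α × α) × List (List α × α) =>
      ∀ b ∈ x.1.1, b ∈ x.2.map Prod.snd := by
    refine re_all_mem₂ (p := fun (x : (List α × α) × List (List α × α)) (b : α) =>
      b ∈ x.2.map Prod.snd) ?_ (Computable.fst.comp Computable.fst)
    refine re_mem_list Computable.snd ?_
    exact (Primrec.list_map (Primrec.snd.comp Primrec.fst)
      (Primrec.snd.comp Primrec.snd).to₂).to_comp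
  have h3 : REPred fun y : (γ × List (List α × α)) × ℕ =>
      ∃ x : (List α × α) × List (List α × α), y.1.2.drop y.2 = x.1 :: x.2 ∧
        R y.1.1 x.1.1 x.1.2 ∧ ∀ b ∈ x.1.1, b ∈ x.2.map Prod.snd := by
    refine re_ex₂ (p := fun (y : (γ × List (List α × α)) × ℕ)
      (x : (List α × α) × List (List α × α)) => y.1.2.drop y.2 = x.1 :: x.2 ∧
        R y.1.1 x.1.1 x.1.2 ∧ ∀ b ∈ x.1.1, b ∈ x.2.map Prod.snd) ?_
    refine re_and ?_ (re_and ?_ ?_)
    · refine re_eq ?_ ?_
      · exact primrec_drop.to_comp.comp (Computable.snd.comp Computable.fst)
          (Computable.snd.comp (Computable.fst.comp Computable.fst))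
      · exact Computable.list_cons.comp (Computable.fst.comp Computable.snd)
          (Computable.snd.comp Computable.snd)
    · exact re_comp (f := fun x : ((γ × List (List α × α)) × ℕ) × (List α × α) ×
        List (List α × α) => (x.1.1, x.2)) h1
        ((Computable.fst.comp Computable.fst).pair Computable.snd)
    · exact re_comp (f := fun x : ((γ × List (List α × α)) × ℕ) × (List α × α) ×
        List (List α × α) => x.2) h2 Computable.snd
  have h4 : REPred fun y : γ × List (List α × α) => Valid (R y.1) y.2 := by
    have := re_all_mem₂ (p := fun (y : γ × List (List α × α)) (i : ℕ) =>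
      ∃ x : (List α × α) × List (List α × α), y.2.drop i = x.1 :: x.2 ∧
        R y.1 x.1.1 x.1.2 ∧ ∀ b ∈ x.1.1, b ∈ x.2.map Prod.snd)
      (L := fun y => List.range y.2.length) h3
      (Primrec.list_range.to_comp.comp (Computable.list_length.comp Computable.snd))
    exact this.of_eq fun y => valid_iff.symm
  have h5 : REPred fun z : (γ × α) × List (List α × α) => Valid (R z.1.1) z.2 ∧
      z.1.2 ∈ z.2.map Prod.snd := by
    refine re_and ?_ ?_
    · exact re_comp (f := fun z : (γ × α) × List (List α × α) => (z.1.1, z.2)) h4
        ((Computable.fst.comp Computable.fst).pair Computable.snd)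
    · refine re_mem_list (Computable.snd.comp Computable.fst) ?_
      exact (Primrec.list_map Primrec.snd (Primrec.snd.comp Primrec.snd).to₂).to_comp
  exact (re_ex h5).of_eq fun x => (der_iff (R := R x.1) (a := x.2)).symm

end Crest.Agent.R185.Re
private theorem rz_7d5ab32f69 : type_of% @_root_.Crest.Agent.R185.Re.Valid.eq_def := @_root_.Crest.Agent.R185.Re.Valid.eq_def -- L159
private theorem rz_032f01c37f : type_of% @_root_.Crest.Agent.R185.Re.Valid.eq_1 := @_root_.Crest.Agent.R185.Re.Valid.eq_1 -- L159
end

-- ▼ part R185/Re2

/-!
# R185, tool "computability without algorithms", part 2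

* computable list operations with merely computable step functions;
* `exists_alg`: recursion on a rank with tables;
* `exists_alg_re`: the same with a positive and a negative r.e. certificate;
* `exists_univ_mach_re`: ONE machine; for every r.e. specification `ρ e w b` there is an `e` such
  that the machine started with the text `none ^ e ++ w` answers according to `ρ e w`.
-/

set_option autoImplicit false

namespace Crest.Agent.R185.Re

open Crest.Agent.R292 Encodable

variable {α β γ δ : Type*} [Primcodable α] [Primcodable β] [Primcodable γ] [Primcodable δ]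

/-! ### computable list operations -/

theorem computable_foldl {f : α → List β} {g : α → γ} {h : α → γ × β → γ}
    (hf : Computable f) (hg : Computable g) (hh : Computable₂ h) :
    Computable fun a => (f a).foldl (fun s b => h a (s, b)) (g a) := by
  let st : α → ℕ × γ → γ := fun a p =>
    Option.casesOn (f a)[p.1]? p.2 (fun b => h a (p.2, b))
  have hst : Computable₂ st := by
    refine Computable.option_casesOn (o := fun x : α × ℕ × γ => (f x.1)[x.2.1]?)
      (f := fun x : α × ℕ × γ => x.2.2)
      (g := fun (x : α × ℕ × γ) (b : β) => h x.1 (x.2.2, b)) ?_ ?_ ?_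
    · exact Computable.list_getElem?.comp (hf.comp Computable.fst)
        (Computable.fst.comp Computable.snd)
    · exact Computable.snd.comp Computable.snd
    · exact hh.comp (Computable.fst.comp Computable.fst)
        ((Computable.snd.comp (Computable.snd.comp Computable.fst)).pair Computable.snd)
  have h1 := Computable.nat_rec (f := fun a => (f a).length) (g := g) (h := st)
    (Computable.list_length.comp hf) hg hst
  refine h1.of_eq fun a => ?_
  have key : ∀ n ≤ (f a).length, (Nat.rec (motive := fun _ => γ) (g a)
      (fun y IH => st a (y, IH)) n : γ) = ((f a).take n).foldl (fun s b => h a (s, b)) (g a) := by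
    intro n
    induction n with
    | zero => intro _; simp
    | succ n ih =>
      intro hn
      have hn' : n < (f a).length := hn
      have h2 : st a (n, ((f a).take n).foldl (fun s b => h a (s, b)) (g a)) =
          ((f a).take (n + 1)).foldl (fun s b => h a (s, b)) (g a) := by
        simp only [st]
        rw [List.getElem?_eq_getElem hn', List.take_succ_eq_append_getElem hn',
          List.foldl_append]
        rfl
      change st a (n, Nat.rec (motive := fun _ => γ) (g a) (fun y IH => st a (y, IH)) n) = _
      rw [ih hn'.le, h2]
  rw [key _ le_rfl, List.take_length]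

theorem computable_map {f : α → List β} {g : α → β → γ} (hf : Computable f)
    (hg : Computable₂ g) : Computable fun a => (f a).map (g a) := by
  have h := computable_foldl (f := f) (g := fun _ => ([] : List γ))
    (h := fun a (p : List γ × β) => p.1 ++ [g a p.2]) hf (Computable.const _) ?_
  · refine h.of_eq fun a => ?_
    have key : ∀ (l : List β) (s : List γ), l.foldl (fun s b => s ++ [g a b]) s =
        s ++ l.map (g a) := by
      intro l
      induction l with
      | nil => intro s; simp
      | cons b l ih => intro s; rw [List.foldl_cons, ih]; simp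
    simpa using key (f a) []
  · refine Computable.list_concat.comp (Computable.fst.comp Computable.snd) ?_
    exact hg.comp Computable.fst (Computable.snd.comp Computable.snd)

theorem computable_flatMap {f : α → List β} {g : α → β → List γ} (hf : Computable f)
    (hg : Computable₂ g) : Computable fun a => (f a).flatMap (g a) := by
  have h := computable_foldl (f := f) (g := fun _ => ([] : List γ))
    (h := fun a (p : List γ × β) => p.1 ++ g a p.2) hf (Computable.const _) ?_
  · refine h.of_eq fun a => ?_
    have key : ∀ (l : List β) (s : List γ), l.foldl (fun s b => s ++ g a b) s =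
        s ++ l.flatMap (g a) := by
      intro l
      induction l with
      | nil => intro s; simp
      | cons b l ih => intro s; rw [List.foldl_cons, ih]; simp
    simpa using key (f a) []
  · exact Computable.list_append.comp (Computable.fst.comp Computable.snd)
      (hg.comp Computable.fst (Computable.snd.comp Computable.snd))



theorem computable_foldr {f : α → List β} {g : α → γ} {h : α → β × γ → γ}
    (hf : Computable f) (hg : Computable g) (hh : Computable₂ h) :
    Computable fun a => (f a).foldr (fun b s => h a (b, s)) (g a) := by
  have h1 := computable_foldl (f := fun a => (f a).reverse) (g := g)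
    (h := fun a (p : γ × β) => h a (p.2, p.1)) (Computable.list_reverse.comp hf) hg ?_
  · refine h1.of_eq fun a => ?_
    rw [List.foldl_reverse]
  · exact hh.comp Computable.fst ((Computable.snd.comp Computable.snd).pair
      (Computable.fst.comp Computable.snd))

theorem computable_all {f : α → List β} {g : α → β → Bool} (hf : Computable f)
    (hg : Computable₂ g) : Computable fun a => (f a).all (g a) := by
  have h := computable_foldr (f := f) (g := fun _ => true)
    (h := fun a (p : β × Bool) => g a p.1 && p.2) hf (Computable.const _)
    (Primrec.and.to_comp.comp (hg.comp Computable.fst (Computable.fst.comp Computable.snd))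
      (Computable.snd.comp Computable.snd)).to₂
  refine h.of_eq fun a => ?_
  induction f a with
  | nil => rfl
  | cons b l ih => rw [List.foldr_cons, ih, List.all_cons]

theorem computable_any {f : α → List β} {g : α → β → Bool} (hf : Computable f)
    (hg : Computable₂ g) : Computable fun a => (f a).any (g a) := by
  have h := computable_foldr (f := f) (g := fun _ => false)
    (h := fun a (p : β × Bool) => g a p.1 || p.2) hf (Computable.const _)
    (Primrec.or.to_comp.comp (hg.comp Computable.fst (Computable.fst.comp Computable.snd))
      (Computable.snd.comp Computable.snd)).to₂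
  refine h.of_eq fun a => ?_
  induction f a with
  | nil => rfl
  | cons b l ih => rw [List.foldr_cons, ih, List.any_cons]


/-- a total computable decision from two complementary r.e. predicates -/
theorem exists_bool {p q : α → Prop} (hp : REPred p) (hq : REPred q) (h : ∀ a, q a ↔ ¬ p a) :
    ∃ f : α → Bool, Computable f ∧ ∀ a, f a = true ↔ p a := by
  have h1 : ComputablePred p := ComputablePred.computable_iff_re_compl_re'.2
    ⟨hp, hq.of_eq h⟩
  obtain ⟨f, hf, rfl⟩ := ComputablePred.computable_iff.1 h1
  exact ⟨f, hf, fun a => Iff.rfl⟩

/-! ### recursion on a rank with tables -/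

section tab
variable {W : Type*} [Primcodable W]

/-- the table of the function `f` on the list `l` -/
def tab {W : Type*} {δ : Type*} (f : W → δ) (l : List W) : List (W × δ) := l.map fun v => (v, f v)







end tab

/-! ### the words of length `< n` over a finite alphabet -/

section words
variable {A : Type*} [Finite A] [Primcodable A]

/-- the letters -/
noncomputable def letters (A : Type*) [Finite A] : List A := (Fintype.ofFinite A).elems.toList

omit [Primcodable A] in
theorem mem_letters (a : A) : a ∈ letters A := by
  unfold letters
  rw [Finset.mem_toList]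
  exact (Fintype.ofFinite A).complete a

/-- the words of length `n` -/
noncomputable def words (A : Type*) [Finite A] : ℕ → List (List A)
  | 0 => [[]]
  | n + 1 => (words A n).flatMap fun w => (letters A).map fun a => a :: w

omit [Primcodable A] in
theorem mem_words {n : ℕ} {w : List A} : w ∈ words A n ↔ w.length = n := by
  induction n generalizing w with
  | zero => simp [words]
  | succ n ih =>
    simp only [words, List.mem_flatMap, List.mem_map]
    constructor
    · rintro ⟨v, hv, a, -, rfl⟩
      simp [ih.1 hv]
    · intro h
      obtain ⟨a, v, rfl⟩ : ∃ a v, w = a :: v := by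
        cases w with
        | nil => simp at h
        | cons a v => exact ⟨a, v, rfl⟩
      exact ⟨v, ih.2 (by simpa using h), a, mem_letters a, rfl⟩

theorem computable_words : Computable (words A) := by
  have h : Computable fun n : ℕ => (Nat.rec (motive := fun _ => List (List A)) [[]]
      (fun _ IH => IH.flatMap fun w => (letters A).map fun a => a :: w) n : List (List A)) := by
    refine Computable.nat_rec (f := fun n : ℕ => n) (g := fun _ => [[]])
      (h := fun (_ : ℕ) (p : ℕ × List (List A)) =>
        p.2.flatMap fun w => (letters A).map fun a => a :: w) Computable.id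
        (Computable.const _) ?_
    refine computable_flatMap (f := fun x : ℕ × ℕ × List (List A) => x.2.2)
      (g := fun _ w => (letters A).map fun a => a :: w) (Computable.snd.comp Computable.snd) ?_
    refine (computable_map (f := fun _ : (ℕ × ℕ × List (List A)) × List A => letters A)
      (g := fun x a => a :: x.2) (Computable.const _) ?_).to₂
    exact Computable.list_cons.comp Computable.snd (Computable.snd.comp Computable.fst)
  refine h.of_eq fun n => ?_
  induction n with
  | zero => rfl
  | succ n ih => rw [words, ← ih]

/-- the words of length `< n` -/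
noncomputable def wordsLT (A : Type*) [Finite A] (n : ℕ) : List (List A) :=
  (List.range n).flatMap (words A)

omit [Primcodable A] in
theorem mem_wordsLT {n : ℕ} {w : List A} : w ∈ wordsLT A n ↔ w.length < n := by
  simp [wordsLT, mem_words]

theorem computable_wordsLT : Computable (wordsLT A) :=
  computable_flatMap (f := fun n : ℕ => List.range n) (g := fun _ m => words A m)
    Primrec.list_range.to_comp (computable_words.comp Computable.snd).to₂


end words

/-! ### The universal machine, relational version -/

section mach
open StateTransition Turing Turing.PartrecToTM2 Crest.Agent.R185.Comp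


end mach

end Crest.Agent.R185.Re
private theorem rz_b664507902 : type_of% @_root_.Crest.Agent.R185.Re.words.eq_def := @_root_.Crest.Agent.R185.Re.words.eq_def -- L331
private theorem rz_820797cfab : type_of% @_root_.Crest.Agent.R185.Re.words.eq_1 := @_root_.Crest.Agent.R185.Re.words.eq_1 -- L331
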