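import Crest.Agent.R185.Ev2
import Crest.Agent.R185.Hk1
import Crest.Agent.R185.Md191E
import Crest.Agent.R185.Ev6

-- ▼ part R185/She1
section

/-!
# R185, block H3, the sheet layer (1): the payload `P(X)` and `χ`
-/

set_option autoImplicit false

namespace Crest.Agent.R185.She

open Equiv Crest.Agent.R292 Crest.Agent.R185.Re Crest.Agent.R185.Ev Crest.Agent.R185.Md191A
  Crest.Agent.R185.Md191B Crest.Agent.R185.Md191C

/-! ### words -/

section words

theorem exists_one (B : Type) [Primcodable B] :
    ∃ f : List (B × Bool) → Bool, Computable f ∧ ∀ w, f w = true ↔ FreeGroup.mk w = 1 := by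
  classical
  refine ⟨fun w => decide (FreeGroup.reduce w = []), ?_, fun w => ?_⟩
  · have h := (Primrec.eq (α := List (B × Bool))).decide.to_comp.comp
      (Hk.reduce_primrec (A := B)).to_comp (Computable.const [])
    exact h
  · rw [decide_eq_true_iff, FreeGroup.one_eq_mk]
    constructor
    · intro h
      have h1 : FreeGroup.reduce w = FreeGroup.reduce [] := h
      exact FreeGroup.reduce.exact h1
    · intro h
      exact FreeGroup.reduce.sound h

theorem computable_inv (B : Type) [Primcodable B] :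
    Computable (FreeGroup.invRev : List (B × Bool) → List (B × Bool)) :=
  (Hk.invRev_primrec (A := B)).to_comp

theorem mk_eq_mk {B : Type} {w w' : List (B × Bool)} :
    FreeGroup.mk w = FreeGroup.mk w' ↔ FreeGroup.mk (FreeGroup.invRev w ++ w') = 1 := by
  rw [← FreeGroup.mul_mk, ← FreeGroup.inv_mk, inv_mul_eq_one]

theorem exists_mk {B : Type} (g : FreeGroup B) : ∃ w : List (B × Bool), FreeGroup.mk w = g :=
  Quot.exists_rep g

theorem lift_mk_single {B G : Type} [Group G] (f : B → G) (a : B) (b : Bool) :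
    FreeGroup.lift f (FreeGroup.mk [(a, b)]) = cond b (f a) (f a)⁻¹ := by
  rw [FreeGroup.lift_mk]; simp

end words

variable {σ W A ι RX : Type} [Primcodable W] [Primcodable A] [Primcodable ι] [Primcodable RX]
  {orc : σ → W → Prop}

/-! ### the payload -/

/-- raw points of `P(X)` -/
abbrev RP (A RX : Type) : Type := List (A × Bool) × (ℕ × ℕ) × RX

section payload

variable {X : σ → Type} (decX : ∀ s, RX → X s)

/-- the point -/
def decP (s : σ) (r : RP A RX) : P A (X s) :=
  (FreeGroup.mk r.1, (r.2.1.1 : ℤ) - (r.2.1.2 : ℤ), decX s r.2.2)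

omit [Primcodable A] [Primcodable RX] in
theorem decP_eq {s : σ} {r r' : RP A RX} : decP decX s r = decP decX s r' ↔
    (FreeGroup.mk (FreeGroup.invRev r.1 ++ r'.1) = 1 ∧ r.2.1.1 + r'.2.1.2 = r'.2.1.1 + r.2.1.2) ∧
      decX s r.2.2 = decX s r'.2.2 := by
  unfold decP
  rw [Prod.mk.injEq, Prod.mk.injEq, mk_eq_mk]
  constructor
  · rintro ⟨h1, h2, h3⟩
    exact ⟨⟨h1, by omega⟩, h3⟩
  · rintro ⟨⟨h1, h2⟩, h3⟩
    exact ⟨h1, by omega, h3⟩

theorem ore_eqP (hX : ORE orc fun s (x : RX × RX) => decX s x.1 = decX s x.2) :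
    ORE orc fun s (x : RP A RX × RP A RX) => decP decX s x.1 = decP decX s x.2 := by
  obtain ⟨one, h1, h2⟩ := exists_one A
  have c1 : Computable fun x : RP A RX × RP A RX => x.1.1 := Computable.fst.comp Computable.fst
  have c2 : Computable fun x : RP A RX × RP A RX => x.2.1 := Computable.fst.comp Computable.snd
  have cn (f : RP A RX × RP A RX → ℕ × ℕ) (g : RP A RX × RP A RX → ℕ × ℕ) (hf : Computable f)
      (hg : Computable g) : Computable fun x => (f x).1 + (g x).2 :=
    Primrec.nat_add.to_comp.comp (Computable.fst.comp hf) (Computable.snd.comp hg)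
  have m1 : Computable fun x : RP A RX × RP A RX => x.1.2.1 :=
    Computable.fst.comp (Computable.snd.comp Computable.fst)
  have m2 : Computable fun x : RP A RX × RP A RX => x.2.2.1 :=
    Computable.fst.comp (Computable.snd.comp Computable.snd)
  have ho : Computable fun x : RP A RX × RP A RX => one (FreeGroup.invRev x.1.1 ++ x.2.1) :=
    h1.comp (Computable.list_append.comp ((computable_inv A).comp c1) c2)
  have h3 : ORE orc fun s (x : RP A RX × RP A RX) =>
      (one (FreeGroup.invRev x.1.1 ++ x.2.1) = true ∧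
        x.1.2.1.1 + x.2.2.1.2 = x.2.2.1.1 + x.1.2.1.2) ∧ decX s x.1.2.2 = decX s x.2.2.2 := by
    refine ((ORE.eq ho (Computable.const true)).and (ORE.eq (cn _ _ m1 m2) (cn _ _ m2 m1))).and
      (hX.comp (f := fun x : RP A RX × RP A RX => (x.1.2.2, x.2.2.2)) ?_)
    exact (Computable.snd.comp (Computable.snd.comp Computable.fst)).pair
      (Computable.snd.comp (Computable.snd.comp Computable.snd))
  refine h3.congr fun s x => ?_
  rw [decP_eq, h2]

theorem ore_neP (hX : ORE orc fun s (x : RX × RX) => decX s x.1 ≠ decX s x.2) :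
    ORE orc fun s (x : RP A RX × RP A RX) => decP decX s x.1 ≠ decP decX s x.2 := by
  obtain ⟨one, h1, h2⟩ := exists_one A
  have c1 : Computable fun x : RP A RX × RP A RX => x.1.1 := Computable.fst.comp Computable.fst
  have c2 : Computable fun x : RP A RX × RP A RX => x.2.1 := Computable.fst.comp Computable.snd
  have cn (f : RP A RX × RP A RX → ℕ × ℕ) (g : RP A RX × RP A RX → ℕ × ℕ) (hf : Computable f)
      (hg : Computable g) : Computable fun x => (f x).1 + (g x).2 :=
    Primrec.nat_add.to_comp.comp (Computable.fst.comp hf) (Computable.snd.comp hg)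
  have m1 : Computable fun x : RP A RX × RP A RX => x.1.2.1 :=
    Computable.fst.comp (Computable.snd.comp Computable.fst)
  have m2 : Computable fun x : RP A RX × RP A RX => x.2.2.1 :=
    Computable.fst.comp (Computable.snd.comp Computable.snd)
  have ho : Computable fun x : RP A RX × RP A RX => one (FreeGroup.invRev x.1.1 ++ x.2.1) :=
    h1.comp (Computable.list_append.comp ((computable_inv A).comp c1) c2)
  have h3 : ORE orc fun s (x : RP A RX × RP A RX) =>
      (one (FreeGroup.invRev x.1.1 ++ x.2.1) ≠ true ∨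
        x.1.2.1.1 + x.2.2.1.2 ≠ x.2.2.1.1 + x.1.2.1.2) ∨ decX s x.1.2.2 ≠ decX s x.2.2.2 := by
    refine ((ORE.ne ho (Computable.const true)).or (ORE.ne (cn _ _ m1 m2) (cn _ _ m2 m1))).or
      (hX.comp (f := fun x : RP A RX × RP A RX => (x.1.2.2, x.2.2.2)) ?_)
    exact (Computable.snd.comp (Computable.snd.comp Computable.fst)).pair
      (Computable.snd.comp (Computable.snd.comp Computable.snd))
  refine h3.congr fun s x => ?_
  rw [Ne, decP_eq, ← h2]
  tauto

/-! ### silent letters on raw points -/

/-- raw `dd` -/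
def ddR (one : List (A × Bool) → Bool) (b : Bool) (r : RP A RX) : RP A RX :=
  bif one r.1 then (r.1, (bif b then (r.2.1.1 + 1, r.2.1.2) else (r.2.1.1, r.2.1.2 + 1)), r.2.2)
  else r

/-- raw `bp` -/
def bpR (a : A × Bool) (r : RP A RX) : RP A RX := (a :: r.1, r.2)

/-- raw `chi'`, letters -/
def chR (one : List (A × Bool) → Bool) (a : Option A × Bool) (r : RP A RX) : RP A RX :=
  Option.casesOn a.1 (ddR one a.2 r) (fun x => bpR (x, a.2) r)

/-- raw `chi'`, words -/
def chW (one : List (A × Bool) → Bool) (w : List (Option A × Bool)) (r : RP A RX) : RP A RX :=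
  w.foldr (fun a r => chR one a r) r

theorem computable_ddR {α : Type} [Primcodable α] {one : List (A × Bool) → Bool}
    (h : Computable one) {f : α → Bool} {g : α → RP A RX} (hf : Computable f)
    (hg : Computable g) : Computable fun x => ddR one (f x) (g x) := by
  unfold ddR
  have c1 : Computable fun x => (g x).1 := Computable.fst.comp hg
  have c2 : Computable fun x => (g x).2.1.1 :=
    Computable.fst.comp (Computable.fst.comp (Computable.snd.comp hg))
  have c3 : Computable fun x => (g x).2.1.2 :=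
    Computable.snd.comp (Computable.fst.comp (Computable.snd.comp hg))
  have c4 : Computable fun x => (g x).2.2 :=
    Computable.snd.comp (Computable.snd.comp hg)
  exact Computable.cond (h.comp c1) (c1.pair ((Computable.cond hf
    ((Computable.succ.comp c2).pair c3) (c2.pair (Computable.succ.comp c3))).pair c4)) hg

theorem computable_bpR {α : Type} [Primcodable α] {f : α → A × Bool} {g : α → RP A RX}
    (hf : Computable f) (hg : Computable g) : Computable fun x => bpR (f x) (g x) := by
  unfold bpR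
  exact (Computable.list_cons.comp hf (Computable.fst.comp hg)).pair (Computable.snd.comp hg)

theorem computable_chR {α : Type} [Primcodable α] {one : List (A × Bool) → Bool}
    (h : Computable one) {f : α → Option A × Bool} {g : α → RP A RX} (hf : Computable f)
    (hg : Computable g) : Computable fun x => chR one (f x) (g x) := by
  unfold chR
  refine Computable.option_casesOn (o := fun x => (f x).1)
    (f := fun x => ddR one (f x).2 (g x)) (g := fun x a => bpR (a, (f x).2) (g x)) ?_ ?_ ?_
  · exact Computable.fst.comp hf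
  · exact computable_ddR h (Computable.snd.comp hf) hg
  · exact computable_bpR (f := fun y : α × A => (y.2, (f y.1).2)) (g := fun y => g y.1)
      (Computable.snd.pair (Computable.snd.comp (hf.comp Computable.fst)))
      (hg.comp Computable.fst)

theorem computable_chW {α : Type} [Primcodable α] {one : List (A × Bool) → Bool}
    (h : Computable one) {f : α → List (Option A × Bool)} {g : α → RP A RX} (hf : Computable f)
    (hg : Computable g) : Computable fun x => chW one (f x) (g x) := by
  unfold chW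
  refine computable_foldr (f := f) (g := g) (h := fun _ y => chR one y.1 y.2) hf hg ?_
  exact computable_chR (α := α × ((Option A × Bool) × RP A RX)) (f := fun y => y.2.1)
    (g := fun y => y.2.2) h (Computable.fst.comp Computable.snd)
    (Computable.snd.comp Computable.snd)

omit [Primcodable A] [Primcodable RX] in
theorem decP_ddR {one : List (A × Bool) → Bool} (h : ∀ w, one w = true ↔ FreeGroup.mk w = 1)
    (s : σ) (b : Bool) (r : RP A RX) :
    decP decX s (ddR one b r) = (cond b (dd A (X s)) (dd A (X s))⁻¹) (decP decX s r) := by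
  obtain ⟨w, ⟨p, q⟩, x⟩ := r
  unfold ddR decP
  by_cases hw : FreeGroup.mk w = 1
  · have h1 := (h w).2 hw
    simp only [h1, cond_true, hw]
    cases b
    · simp only [cond_false, dd_inv_one]
      push_cast
      congr 2
      ring
    · simp only [cond_true, dd_one]
      push_cast
      congr 2
      ring
  · have h1 : one w = false := by
      rw [Bool.eq_false_iff]; intro h2; exact hw ((h w).1 h2)
    simp only [h1, cond_false]
    cases b
    · simp only [cond_false]; rw [dd_inv_ne A (X s) hw]
    · simp only [cond_true]; rw [dd_ne A (X s) hw]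

omit [Primcodable A] [Primcodable RX] in
theorem decP_bpR (s : σ) (a : A × Bool) (r : RP A RX) :
    decP decX s (bpR a r) = bp A (X s) (FreeGroup.mk [a]) (decP decX s r) := by
  obtain ⟨w, ⟨p, q⟩, x⟩ := r
  unfold bpR decP
  simp only [bp_apply]
  rw [mk_cons]

omit [Primcodable A] [Primcodable RX] in
theorem decP_chR {one : List (A × Bool) → Bool} (h : ∀ w, one w = true ↔ FreeGroup.mk w = 1)
    (s : σ) (a : Option A × Bool) (r : RP A RX) :
    decP decX s (chR one a r) = chi' A (X s) (FreeGroup.mk [a]) (decP decX s r) := by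
  obtain ⟨o, b⟩ := a
  unfold chR chi'
  rw [lift_mk_single]
  rcases o with _ | a
  · exact decP_ddR decX h s b r
  · change decP decX s (bpR (a, b) r) = _
    rw [decP_bpR]
    cases b
    · rw [mk_single_false, map_inv]; rfl
    · rw [mk_single_true]; rfl

omit [Primcodable A] [Primcodable RX] in
theorem decP_chW {one : List (A × Bool) → Bool} (h : ∀ w, one w = true ↔ FreeGroup.mk w = 1)
    (s : σ) (w : List (Option A × Bool)) (r : RP A RX) :
    decP decX s (chW one w r) = chi' A (X s) (FreeGroup.mk w) (decP decX s r) := by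
  induction w with
  | nil =>
    have : (FreeGroup.mk [] : FreeGroup (Option A)) = 1 := rfl
    rw [this, map_one]; rfl
  | cons a w ih =>
    rw [mk_cons, map_mul, Perm.mul_apply, ← ih, ← decP_chR decX h]
    rfl

end payload

/-! ### the witness -/

/-- the witness for one text -/
structure Wt (A ι : Type) where
  /-- the group -/
  H : Type
  /-- instance -/
  grp : Group H
  /-- the subgroup `L` -/
  L : Subgroup H
  /-- the embedding -/
  ε : FreeGroup (Option A) →* H
  /-- the accepted words -/
  Acc : Set (FreeGroup A)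
  /-- what is needed -/
  ok : WitOK L ε Acc
  /-- the gauge function -/
  κ : FreeGroup A → FreeGroup A
  /-- the gauge is trivial at accepted words -/
  hκ : ∀ w ∈ Acc, κ w = 1
  /-- values of words -/
  gen : FreeGroup ι →* H

attribute [instance] Wt.grp

namespace Wt

variable {A ι : Type} (T : Wt A ι)

/-- value of an `H`-word -/
def hval (h : List (ι × Bool)) : T.H := T.gen (FreeGroup.mk h)

/-- the letters of `D` -/
def dl (o : Option ι) : DG T.L := o.elim (kD T.L) (fun i => hD T.L (T.gen (FreeGroup.of i)))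

/-- value of a `D`-word -/
def dval (u : List (Option ι × Bool)) : DG T.L := FreeGroup.lift T.dl (FreeGroup.mk u)

/-- `S` -/
abbrev SS : Subgroup (DG T.L) := SG T.L T.ε

theorem hval_append (h h' : List (ι × Bool)) : T.hval (h ++ h') = T.hval h * T.hval h' := by
  unfold hval; rw [← FreeGroup.mul_mk, map_mul]

theorem hval_nil : T.hval [] = 1 := by
  unfold hval
  have : (FreeGroup.mk [] : FreeGroup ι) = 1 := rfl
  rw [this, map_one]

theorem hval_inv (h : List (ι × Bool)) : T.hval (FreeGroup.invRev h) = (T.hval h)⁻¹ := by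
  unfold hval; rw [← FreeGroup.inv_mk, map_inv]

theorem hval_cons (a : ι × Bool) (h : List (ι × Bool)) :
    T.hval (a :: h) = T.hval [a] * T.hval h := T.hval_append [a] h

theorem dval_append (h h' : List (Option ι × Bool)) : T.dval (h ++ h') = T.dval h * T.dval h' := by
  unfold dval; rw [← FreeGroup.mul_mk, map_mul]

theorem dval_nil : T.dval [] = 1 := by
  unfold dval
  have : (FreeGroup.mk [] : FreeGroup (Option ι)) = 1 := rfl
  rw [this, map_one]

theorem dval_inv (h : List (Option ι × Bool)) : T.dval (FreeGroup.invRev h) = (T.dval h)⁻¹ := by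
  unfold dval; rw [← FreeGroup.inv_mk, map_inv]


end Wt

/-- the computability input -/
structure WtC {A ι : Type} [Primcodable A] [Primcodable ι] (T : ℕ → Wt A ι) : Prop where
  epsW : ∀ e y, ∃ h : List (ι × Bool), (T e).hval h = (T e).ε y
  heps : REPred fun x : ℕ × List (ι × Bool) × List (Option A × Bool) =>
    (T x.1).hval x.2.1 = (T x.1).ε (FreeGroup.mk x.2.2)
  inL : REPred fun x : ℕ × List (ι × Bool) => (T x.1).hval x.2 ∈ (T x.1).L
  ninLE : REPred fun x : ℕ × List (ι × Bool) =>
    ¬ ∃ l ∈ (T x.1).L, ∃ y, (T x.1).hval x.2 = l * (T x.1).ε y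
  one : REPred fun x : ℕ × List (Option ι × Bool) => (T x.1).dval x.2 = 1
  ne : REPred fun x : ℕ × List (Option ι × Bool) => (T x.1).dval x.2 ≠ 1
  inS : REPred fun x : ℕ × List (Option ι × Bool) => (T x.1).dval x.2 ∈ (T x.1).SS
  ninS : REPred fun x : ℕ × List (Option ι × Bool) => (T x.1).dval x.2 ∉ (T x.1).SS
  kap : REPred fun x : ℕ × List (A × Bool) × List (A × Bool) =>
    FreeGroup.mk x.2.2 = (T x.1).κ (FreeGroup.mk x.2.1)

/-! ### the labelled letters -/

section lab

variable {X : σ → Type} [∀ s, MulAction (FreeGroup A) (X s)] {decX : ∀ s, RX → X s}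
  {aX : List (A × Bool) × RX → RX}

/-- label `v` if `n < 0` -/
def lbR (aX : List (A × Bool) × RX → RX) (v : List (A × Bool)) (r : RP A RX) : RP A RX :=
  bif decide (r.2.1.1 < r.2.1.2) then (r.1, r.2.1, aX (v, r.2.2)) else r

theorem computable_lbR {α : Type} [Primcodable α] (ha : Computable aX)
    {f : α → List (A × Bool)} {g : α → RP A RX} (hf : Computable f)
    (hg : Computable g) : Computable fun x => lbR aX (f x) (g x) := by
  unfold lbR
  have c2 : Computable fun x => (g x).2.1.1 :=
    Computable.fst.comp (Computable.fst.comp (Computable.snd.comp hg))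
  have c3 : Computable fun x => (g x).2.1.2 :=
    Computable.snd.comp (Computable.fst.comp (Computable.snd.comp hg))
  have c0 : Computable fun x => decide ((g x).2.1.1 < (g x).2.1.2) :=
    Primrec.nat_lt.decide.to_comp.comp c2 c3
  refine Computable.cond c0 ?_ hg
  exact (Computable.fst.comp hg).pair ((Computable.fst.comp (Computable.snd.comp hg)).pair
    (ha.comp (hf.pair (Computable.snd.comp (Computable.snd.comp hg)))))

omit [Primcodable A] [Primcodable RX] in
theorem decP_lbR (haX : ∀ s w r, decX s (aX (w, r)) = FreeGroup.mk w • decX s r) (s : σ)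
    (v : List (A × Bool)) (r : RP A RX) :
    decP decX s (lbR aX v r) = ((decP decX s r).1, (decP decX s r).2.1,
      (if (decP decX s r).2.1 < 0 then FreeGroup.mk v else 1) • (decP decX s r).2.2) := by
  obtain ⟨w, ⟨p, q⟩, x⟩ := r
  unfold lbR decP
  by_cases h : p < q
  · have h1 : (p : ℤ) - (q : ℤ) < 0 := by omega
    simp only [h, decide_true, cond_true, h1, if_true, haX]
  · have h1 : ¬ (p : ℤ) - (q : ℤ) < 0 := by omega
    simp only [h, decide_false, cond_false, h1, if_false, one_smul]

theorem rr_ga (ha : Computable aX)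
    (haX : ∀ s w r, decX s (aX (w, r)) = FreeGroup.mk w • decX s r) :
    RR orc (fun _ _ => True) (fun s (x : (A × Bool) × RP A RX) r' =>
      decP decX s r' = ga A (X s) (FreeGroup.mk [x.1]) (decP decX s x.2)) := by
  refine RR.fn (F := fun x : (A × Bool) × RP A RX => lbR aX [x.1] x.2) ?_ ?_
  · exact computable_lbR ha (Computable.list_cons.comp Computable.fst (Computable.const []))
      Computable.snd
  · intro s x _
    rw [decP_lbR haX]
    rfl

variable {T : ℕ → Wt A ι}

theorem rr_gau (hT : WtC T) (ha : Computable aX)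
    (haX : ∀ s w r, decX s (aX (w, r)) = FreeGroup.mk w • decX s r) :
    RR orc (fun _ _ => True) (fun s (x : ℕ × Bool × RP A RX) r' =>
      decP decX s r' = (cond x.2.1 (gauK A (X s) (T x.1).κ) (gauK A (X s) (T x.1).κ)⁻¹)
        (decP decX s x.2.2)) := by
  refine RR.choose (γ := List (A × Bool)) (c := fun _ y =>
    FreeGroup.mk y.2 = (T y.1.1).κ (FreeGroup.mk y.1.2.2.1)) ?_ ?_ ?_
  · refine ORE.re (re_comp hT.kap (f := fun y : (ℕ × Bool × RP A RX) × List (A × Bool) =>
      (y.1.1, y.1.2.2.1, y.2)) ?_)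
    exact (Computable.fst.comp Computable.fst).pair ((Computable.fst.comp (Computable.snd.comp
      (Computable.snd.comp Computable.fst))).pair Computable.snd)
  · intro s x _
    exact exists_mk ((T x.1).κ (FreeGroup.mk x.2.2.1))
  · refine RR.fn (F := fun y : (ℕ × Bool × RP A RX) × List (A × Bool) =>
      lbR aX (bif y.1.2.1 then y.2 else FreeGroup.invRev y.2) y.1.2.2) ?_ ?_
    · refine computable_lbR ha (Computable.cond ?_ Computable.snd
        ((computable_inv A).comp Computable.snd)) ?_
      · exact Computable.fst.comp (Computable.snd.comp Computable.fst)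
      · exact Computable.snd.comp (Computable.snd.comp Computable.fst)
    · rintro s ⟨⟨e, b, r⟩, v⟩ ⟨_, h⟩
      simp only at h ⊢
      rw [decP_lbR haX]
      cases b
      · simp only [cond_false]
        rw [gauK_inv_apply, ← FreeGroup.inv_mk, h]
        congr 2
        split_ifs <;> simp [decP]
      · simp only [cond_true]
        rw [gauK_apply, h]
        rfl

end lab

end Crest.Agent.R185.She
end

-- ▼ part R185/She2
section

/-!
# R185, block H3, the sheet layer (2): `χ̂ : S → Sym P(X)` on raw points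
-/

set_option autoImplicit false

namespace Crest.Agent.R185.She

open Equiv Crest.Agent.R292 Crest.Agent.R185.Re Crest.Agent.R185.Ev Crest.Agent.R185.Md191A
  Crest.Agent.R185.Md191B Crest.Agent.R185.Md191C

variable {σ W A ι RX : Type} [Primcodable W] [Primcodable A] [Primcodable ι] [Primcodable RX]
  {orc : σ → W → Prop} {X : σ → Type} [∀ s, MulAction (FreeGroup A) (X s)] {decX : ∀ s, RX → X s}
  {aX : List (A × Bool) × RX → RX} {T : ℕ → Wt A ι}

/-! ### `chiK`, `chi2` -/

theorem rr_chiK (hT : WtC T) (ha : Computable aX)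
    (haX : ∀ s w r, decX s (aX (w, r)) = FreeGroup.mk w • decX s r) :
    RR orc (fun _ _ => True) (fun s (x : ℕ × List (Option A × Bool) × RP A RX) r' =>
      decP decX s r' = chiK A (X s) (T x.1).κ (FreeGroup.mk x.2.1) (decP decX s x.2.2)) := by
  obtain ⟨one, h1, h2⟩ := exists_one A
  have hg := rr_gau (orc := orc) (decX := decX) hT ha haX
  have c1 : Computable fun x : ℕ × List (Option A × Bool) × RP A RX => (x.1, false, x.2.2) :=
    Computable.fst.pair ((Computable.const false).pair (Computable.snd.comp Computable.snd))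
  have c2 : Computable fun x : (ℕ × List (Option A × Bool) × RP A RX) × RP A RX =>
      (x.1.1, true, chW one x.1.2.1 x.2) := by
    refine (Computable.fst.comp Computable.fst).pair ((Computable.const true).pair ?_)
    exact computable_chW h1 (Computable.fst.comp (Computable.snd.comp Computable.fst))
      Computable.snd
  refine (hg.comp c1).bind (hg.comp c2) (fun _ _ _ _ _ => trivial) ?_
  intro s x r1 r2 _ h3 h4
  simp only [cond_false, cond_true] at h3 h4
  rw [h4, decP_chW decX h2, h3, chiK_apply]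
  rfl

theorem rr_chi2 (hT : WtC T) (ha : Computable aX)
    (haX : ∀ s w r, decX s (aX (w, r)) = FreeGroup.mk w • decX s r) :
    RR orc (fun _ _ => True)
      (fun s (x : ℕ × List (Option A × Bool) × RP A RX × Bool) (r' : RP A RX × Bool) =>
      (decP decX s r'.1, r'.2) =
        chi2 (X s) (T x.1).κ (FreeGroup.mk x.2.1) (decP decX s x.2.2.1, x.2.2.2)) := by
  obtain ⟨one, h1, h2⟩ := exists_one A
  have hg := rr_chiK (orc := orc) (decX := decX) hT ha haX
  have cb : Computable fun x : ℕ × List (Option A × Bool) × RP A RX × Bool => x.2.2.2 :=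
    Computable.snd.comp (Computable.snd.comp Computable.snd)
  have cp : Computable fun x : ℕ × List (Option A × Bool) × RP A RX × Bool => x.2.2.1 :=
    Computable.fst.comp (Computable.snd.comp Computable.snd)
  have cw : Computable fun x : ℕ × List (Option A × Bool) × RP A RX × Bool => x.2.1 :=
    Computable.fst.comp Computable.snd
  refine RR.cond cb ?_ ?_
  · have h3 := hg.comp (f := fun x : ℕ × List (Option A × Bool) × RP A RX × Bool =>
      (x.1, x.2.1, x.2.2.1)) (Computable.fst.pair (cw.pair cp))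
    refine RR.map (F := fun y => (y.2, true)) (h3.mono (fun _ _ _ => trivial)
      (fun _ _ _ _ h => h)) (Computable.snd.pair (Computable.const true)) ?_
    rintro s ⟨e, w, r, b⟩ r' ⟨_, rfl⟩ h4
    simp only at h4 ⊢
    rw [chi2_true, h4]
  · refine RR.fn (F := fun x : ℕ × List (Option A × Bool) × RP A RX × Bool =>
      (chW one x.2.1 x.2.2.1, false)) ((computable_chW h1 cw cp).pair (Computable.const false)) ?_
    rintro s ⟨e, w, r, b⟩ ⟨_, rfl⟩
    simp only
    rw [chi2_false, decP_chW decX h2]

/-! ### the two-copy set -/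

/-- raw points of `XX` -/
abbrev RXX (A ι RX : Type) : Type := List (ι × Bool) × RP A RX × Bool

/-- the point -/
noncomputable def decXX (decX : ∀ s, RX → X s) (T : Wt A ι) (s : σ) (z : RXX A ι RX) :
    XX (X s) T.κ T.ok.inj :=
  mk2 T.κ T.ok.inj (T.hval z.1) (decP decX s z.2.1) z.2.2

omit [Primcodable A] [Primcodable ι] [Primcodable RX] in
theorem mk2_move (T : Wt A ι) (s : σ) {h h' : T.H} {y : FreeGroup (Option A)}
    (hy : h'⁻¹ * h = T.ε y) (p : P A (X s)) (b : Bool) :
    mk2 T.κ T.ok.inj h p b =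
      mk2 T.κ T.ok.inj h' (chi2 (X s) T.κ y (p, b)).1 (chi2 (X s) T.κ y (p, b)).2 := by
  have h1 : h = h' * T.ε y := by rw [← hy]; group
  rw [h1, mk2_mul]
  cases b
  · rw [chi2_false]; rfl
  · rw [chi2_true]; rfl


omit [Primcodable A] [Primcodable ι] [Primcodable RX] in
theorem dval_some (T : Wt A ι) (i : ι) (b : Bool) :
    T.dval [(some i, b)] = hD T.L (T.hval [(i, b)]) := by
  unfold Wt.dval Wt.hval
  rw [lift_mk_single]
  cases b
  · rw [mk_single_false, map_inv, map_inv]; rfl
  · rfl

omit [Primcodable A] [Primcodable ι] [Primcodable RX] in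
theorem actX_none (T : Wt A ι) (s : σ) (b : Bool) :
    actX (X s) T.ok T.hκ (T.dval [(none, b)]) = kX (X s) T.ok T.hκ := by
  unfold Wt.dval
  rw [lift_mk_single]
  have h1 : T.dl none = kD T.L := rfl
  rw [h1]
  cases b
  · simp only [cond_false, map_inv, actX_k]; rfl
  · simp only [cond_true, actX_k]

/-- condition: the first coordinate is in `L E` -/
theorem ore_inLE (hT : WtC T) {α : Type} [Primcodable α] {f : α → ℕ} {g : α → List (ι × Bool)}
    (hf : Computable f) (hg : Computable g) : ORE orc fun (_ : σ)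
      (y : α × (List (ι × Bool) × List (Option A × Bool))) =>
      (T (f y.1)).hval (FreeGroup.invRev y.2.1 ++ g y.1) = (T (f y.1)).ε (FreeGroup.mk y.2.2) ∧
        (T (f y.1)).hval y.2.1 ∈ (T (f y.1)).L := by
  have cf : Computable fun y : α × (List (ι × Bool) × List (Option A × Bool)) => f y.1 :=
    hf.comp Computable.fst
  have cg : Computable fun y : α × (List (ι × Bool) × List (Option A × Bool)) => g y.1 :=
    hg.comp Computable.fst
  have ch : Computable fun y : α × (List (ι × Bool) × List (Option A × Bool)) => y.2.1 :=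
    Computable.fst.comp Computable.snd
  have cy : Computable fun y : α × (List (ι × Bool) × List (Option A × Bool)) => y.2.2 :=
    Computable.snd.comp Computable.snd
  refine ORE.and (ORE.re ?_) (ORE.re ?_)
  · exact re_comp hT.heps (f := fun y : α × (List (ι × Bool) × List (Option A × Bool)) =>
      (f y.1, FreeGroup.invRev y.2.1 ++ g y.1, y.2.2))
      (cf.pair ((Computable.list_append.comp ((computable_inv ι).comp ch) cg).pair cy))
  · exact re_comp hT.inL (f := fun y : α × (List (ι × Bool) × List (Option A × Bool)) =>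
      (f y.1, y.2.1)) (cf.pair ch)

omit [Primcodable RX] [Primcodable A] [Primcodable ι] in
theorem decXX_ne (T : Wt A ι) (s : σ) (z : RXX A ι RX)
    (h : ¬ ∃ l ∈ T.L, ∃ y, T.hval z.1 = l * T.ε y) :
    kX (X s) T.ok T.hκ (decXX decX T s z) = decXX decX T s z := by
  apply kX_else
  rintro ⟨l, p, b, hl, h1⟩
  unfold decXX at h1
  obtain ⟨y, h2, -, -⟩ := mk2_eq.1 h1
  exact h ⟨l, hl, y, by rw [h2]; group⟩

theorem rr_kX (hT : WtC T) (ha : Computable aX)
    (haX : ∀ s w r, decX s (aX (w, r)) = FreeGroup.mk w • decX s r) :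
    RR orc (fun _ _ => True) (fun s (x : ℕ × RXX A ι RX) z' =>
      decXX decX (T x.1) s z' = kX (X s) (T x.1).ok (T x.1).hκ (decXX decX (T x.1) s x.2)) := by
  have hin := ore_inLE (orc := orc) (σ := σ) hT (α := ℕ × RXX A ι RX) (f := fun x => x.1)
    (g := fun x => x.2.1) Computable.fst (Computable.fst.comp Computable.snd)
  refine RR.cases (c1 := fun _ x => ∃ y : List (ι × Bool) × List (Option A × Bool),
      (T x.1).hval (FreeGroup.invRev y.1 ++ x.2.1) = (T x.1).ε (FreeGroup.mk y.2) ∧
        (T x.1).hval y.1 ∈ (T x.1).L)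
    (c2 := fun _ x => ¬ ∃ l ∈ (T x.1).L, ∃ y, (T x.1).hval x.2.1 = l * (T x.1).ε y) ?_ ?_ ?_ ?_ ?_
  · exact hin.ex
  · exact ORE.re (re_comp hT.ninLE (f := fun x : ℕ × RXX A ι RX => (x.1, x.2.1))
      (Computable.fst.pair (Computable.fst.comp Computable.snd)))
  · intro s x _
    by_cases h : ∃ l ∈ (T x.1).L, ∃ y, (T x.1).hval x.2.1 = l * (T x.1).ε y
    · left
      obtain ⟨l, hl, y, hy⟩ := h
      obtain ⟨v, hv⟩ := hT.epsW x.1 y
      obtain ⟨w, rfl⟩ := exists_mk y
      have h1 : (T x.1).hval (x.2.1 ++ FreeGroup.invRev v) = l := by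
        rw [Wt.hval_append, Wt.hval_inv, hv, hy]; group
      refine ⟨(x.2.1 ++ FreeGroup.invRev v, w), ?_, ?_⟩
      · rw [Wt.hval_append, Wt.hval_inv, h1, hy]; group
      · rw [h1]; exact hl
    · exact Or.inr h
  · refine RR.choose hin (fun _ _ h => h.2) ?_
    have h1 := rr_chi2 (orc := orc) (decX := decX) hT ha haX
    have h2 := h1.comp (f := fun y : (ℕ × RXX A ι RX) ×
      (List (ι × Bool) × List (Option A × Bool)) => (y.1.1, y.2.2, y.1.2.2)) ?_
    · refine RR.map (F := fun (z : ((ℕ × RXX A ι RX) × (List (ι × Bool) ×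
        List (Option A × Bool))) × (RP A RX × Bool)) => (z.1.2.1, z.2.1, !z.2.2))
        (h2.mono (fun _ _ _ => trivial) (fun _ _ _ _ h => h)) ?_ ?_
      · exact (Computable.fst.comp (Computable.snd.comp Computable.fst)).pair
          ((Computable.fst.comp Computable.snd).pair
            (Primrec.not.to_comp.comp (Computable.snd.comp Computable.snd)))
      · rintro s ⟨⟨e, h, p, b⟩, h', y⟩ ⟨p', b'⟩ ⟨_, h3, h4⟩ h5
        simp only at h3 h4 h5 ⊢
        rw [Wt.hval_append, Wt.hval_inv] at h3
        unfold decXX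
        simp only
        rw [mk2_move (T e) s h3, kX_mem _ _ h4, ← h5]
    · exact (Computable.fst.comp Computable.fst).pair
        ((Computable.snd.comp Computable.snd).pair
          (Computable.snd.comp (Computable.snd.comp Computable.fst)))
  · refine RR.fn (F := fun x => x.2) Computable.snd ?_
    rintro s x ⟨_, h⟩
    exact (decXX_ne (T x.1) s x.2 h).symm

theorem rr_actX1 (hT : WtC T) (ha : Computable aX)
    (haX : ∀ s w r, decX s (aX (w, r)) = FreeGroup.mk w • decX s r) :
    RR orc (fun _ _ => True) (fun s (x : ℕ × (Option ι × Bool) × RXX A ι RX) z' =>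
      decXX decX (T x.1) s z' = actX (X s) (T x.1).ok (T x.1).hκ ((T x.1).dval [x.2.1])
        (decXX decX (T x.1) s x.2.2)) := by
  have co : Computable fun x : ℕ × (Option ι × Bool) × RXX A ι RX => x.2.1.1 :=
    Computable.fst.comp (Computable.fst.comp Computable.snd)
  have cs : Computable fun x : ℕ × (Option ι × Bool) × RXX A ι RX => x.2.1.1.isSome :=
    Primrec.option_isSome.to_comp.comp co
  refine RR.cond cs ?_ ?_
  · refine RR.fn (F := fun x : ℕ × (Option ι × Bool) × RXX A ι RX =>
      Option.casesOn x.2.1.1 x.2.2 (fun i => ((i, x.2.1.2) :: x.2.2.1, x.2.2.2))) ?_ ?_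
    · refine Computable.option_casesOn (o := fun x : ℕ × (Option ι × Bool) × RXX A ι RX =>
        x.2.1.1) (f := fun x => x.2.2) (g := fun x i => ((i, x.2.1.2) :: x.2.2.1, x.2.2.2)) co
        (Computable.snd.comp Computable.snd) ?_
      have c1 : Computable fun y : (ℕ × (Option ι × Bool) × RXX A ι RX) × ι => y.1.2.1.2 :=
        Computable.snd.comp (Computable.fst.comp (Computable.snd.comp Computable.fst))
      have c2 : Computable fun y : (ℕ × (Option ι × Bool) × RXX A ι RX) × ι => y.1.2.2.1 :=
        Computable.fst.comp (Computable.snd.comp (Computable.snd.comp Computable.fst))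
      have c3 : Computable fun y : (ℕ × (Option ι × Bool) × RXX A ι RX) × ι => y.1.2.2.2 :=
        Computable.snd.comp (Computable.snd.comp (Computable.snd.comp Computable.fst))
      exact (Computable.list_cons.comp (Computable.snd.pair c1) c2).pair c3
    · rintro s ⟨e, ⟨o, b⟩, h, p, c⟩ ⟨_, ho⟩
      rcases o with _ | i
      · simp at ho
      · simp only
        rw [dval_some]
        unfold decXX
        simp only
        rw [actX_h, Wt.hval_cons]
  · have h1 := (rr_kX (orc := orc) (decX := decX) hT ha haX).comp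
      (f := fun x : ℕ × (Option ι × Bool) × RXX A ι RX => (x.1, x.2.2))
      (Computable.fst.pair (Computable.snd.comp Computable.snd))
    refine h1.mono (fun _ _ _ => trivial) ?_
    rintro s ⟨e, ⟨o, b⟩, h, p, c⟩ z' ⟨_, ho⟩ h2
    rcases o with _ | i
    · simp only at h2 ⊢
      rw [h2, actX_none]
    · simp at ho

theorem rr_actX (hT : WtC T) (ha : Computable aX)
    (haX : ∀ s w r, decX s (aX (w, r)) = FreeGroup.mk w • decX s r) :
    RR orc (fun _ _ => True) (fun s (x : ℕ × List (Option ι × Bool) × RXX A ι RX) z' =>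
      decXX decX (T x.1) s z' = actX (X s) (T x.1).ok (T x.1).hκ ((T x.1).dval x.2.1)
        (decXX decX (T x.1) s x.2.2)) := by
  refine (rr_actX1 (orc := orc) (decX := decX) hT ha haX).pth.mono (fun _ _ _ => trivial) ?_
  intro s x z' _ h
  exact pth_free (f := (actX (X s) (T x.1).ok (T x.1).hκ).comp (FreeGroup.lift (T x.1).dl))
    (decXX decX (T x.1) s) h

theorem rr_chiS (hT : WtC T) (ha : Computable aX)
    (haX : ∀ s w r, decX s (aX (w, r)) = FreeGroup.mk w • decX s r) :
    RR orc (fun _ x => (T x.1).dval x.2.1 ∈ (T x.1).SS)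
      (fun s (x : ℕ × List (Option ι × Bool) × RP A RX) r' =>
      ∀ h : (T x.1).dval x.2.1 ∈ (T x.1).SS, decP decX s r' =
        chiS (X s) (T x.1).ok (T x.1).hκ ⟨_, h⟩ (decP decX s x.2.2)) := by
  have h1 := (rr_actX (orc := orc) (decX := decX) hT ha haX).comp
    (f := fun x : ℕ × List (Option ι × Bool) × RP A RX =>
      (x.1, x.2.1, (([] : List (ι × Bool)), x.2.2, true)))
    (Computable.fst.pair ((Computable.fst.comp Computable.snd).pair ((Computable.const _).pair
      ((Computable.snd.comp Computable.snd).pair (Computable.const _)))))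
  have h2 := rr_chiK (orc := orc) (decX := decX) hT ha haX
  -- the domain of the second step
  let c : (ℕ × List (Option ι × Bool) × RP A RX) × RXX A ι RX → List (Option A × Bool) → Prop :=
    fun x y => (T x.1.1).hval x.2.1 = (T x.1.1).ε (FreeGroup.mk y)
  have hc : ORE orc fun (_ : σ) (y : ((ℕ × List (Option ι × Bool) × RP A RX) × RXX A ι RX) ×
      List (Option A × Bool)) => c y.1 y.2 :=
    ORE.re (re_comp hT.heps (f := fun y : ((ℕ × List (Option ι × Bool) × RP A RX) × RXX A ι RX) ×
      List (Option A × Bool) => (y.1.1.1, y.1.2.1, y.2))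
      ((Computable.fst.comp (Computable.fst.comp Computable.fst)).pair
        ((Computable.fst.comp (Computable.snd.comp Computable.fst)).pair Computable.snd)))
  have h3 : RR orc (fun _ x => ∃ y, c x y) (fun s (x : (ℕ × List (Option ι × Bool) × RP A RX) ×
      RXX A ι RX) r' => ∃ y, c x y ∧ decP decX s r' =
        chiK A (X s) (T x.1.1).κ (FreeGroup.mk y) (decP decX s x.2.2.1)) := by
    refine RR.choose hc (fun _ _ h => h) ?_
    have h4 := h2.comp (f := fun y : ((ℕ × List (Option ι × Bool) × RP A RX) × RXX A ι RX) ×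
      List (Option A × Bool) => (y.1.1.1, y.2, y.1.2.2.1))
      ((Computable.fst.comp (Computable.fst.comp Computable.fst)).pair
        (Computable.snd.pair (Computable.fst.comp (Computable.snd.comp (Computable.snd.comp
          Computable.fst)))))
    refine h4.mono (fun _ _ _ => trivial) ?_
    rintro s ⟨x, y⟩ r' ⟨_, h5⟩ h6
    exact ⟨y, h5, h6⟩
  -- what we know of the end point
  have key : ∀ s (x : ℕ × List (Option ι × Bool) × RP A RX) (z : RXX A ι RX),
      decXX decX (T x.1) s z = actX (X s) (T x.1).ok (T x.1).hκ ((T x.1).dval x.2.1)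
        (decXX decX (T x.1) s ([], x.2.2, true)) → ∀ h : (T x.1).dval x.2.1 ∈ (T x.1).SS,
      ∃ y, (T x.1).hval z.1 = (T x.1).ε y ∧ z.2.2 = true ∧
        chiS (X s) (T x.1).ok (T x.1).hκ ⟨_, h⟩ (decP decX s x.2.2) =
          chiK A (X s) (T x.1).κ y (decP decX s z.2.1) := by
    intro s x z h4 h
    have h5 := chiS_spec (T x.1).ok (T x.1).hκ ⟨_, h⟩ (decP decX s x.2.2)
    have h6 : decXX decX (T x.1) s ([], x.2.2, true) =
        mk2 (T x.1).κ (T x.1).ok.inj 1 (decP decX s x.2.2) true := by
      unfold decXX; rw [Wt.hval_nil]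
    rw [h6] at h4
    have h7 := h4.trans h5
    unfold decXX at h7
    obtain ⟨y, h8, h9, h10⟩ := mk2_eq.1 h7
    refine ⟨y, ?_, h9.symm, ?_⟩
    · rw [eq_comm, mul_inv_eq_one] at h8
      exact h8
    · rw [h10, ← h9]; rfl
  refine (h1.mono (Dm' := fun _ x => (T x.1).dval x.2.1 ∈ (T x.1).SS) (fun _ _ _ => trivial)
    (fun _ _ _ _ h => h)).bind h3 ?_ ?_
  · intro s x z hx h4
    obtain ⟨y, h5, -, -⟩ := key s x z h4 hx
    obtain ⟨y, rfl⟩ := exists_mk y
    exact ⟨y, h5⟩
  · intro s x z r' hx h4 h5 h
    obtain ⟨y, h6, h7⟩ := h5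
    obtain ⟨y', h8, -, h9⟩ := key s x z h4 h
    have h10 : FreeGroup.mk y = y' := (T x.1).ok.inj (h6.symm.trans h8)
    rw [h9, h7, h10]

end Crest.Agent.R185.She
end

-- ▼ part R185/She3
section

/-!
# R185, block H3, the sheet layer (3): the points of `YY` and the letters
-/

set_option autoImplicit false
set_option linter.unusedSectionVars false

namespace Crest.Agent.R185.She

open Equiv Crest.Agent.R292 Crest.Agent.R185.Re Crest.Agent.R185.Ev Crest.Agent.R185.Md191A
  Crest.Agent.R185.Md191B Crest.Agent.R185.Md191C Crest.Agent.R185.Md191D Crest.Agent.R185.Md191E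

variable {σ W A ι RX : Type} [Primcodable W] [Primcodable A] [Primcodable ι] [Primcodable RX]
  {orc : σ → W → Prop} {X : σ → Type} [∀ s, MulAction (FreeGroup A) (X s)] {decX : ∀ s, RX → X s}
  {aX : List (A × Bool) × RX → RX} {T : ℕ → Wt A ι}

/-- raw words in the letters of `D` -/
abbrev RD (ι : Type) : Type := List (Option ι × Bool)

/-- raw points of `Q` -/
abbrev RQ (A ι RX : Type) : Type := RD ι × RP A RX

/-- raw points of `Ind` -/
abbrev RI (A ι RX : Type) : Type := RD ι × RQ A ι RX

/-- raw points of `YY` -/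
abbrev RY (A ι RX : Type) : Type := (ℕ × RI A ι RX) ⊕ (ℕ × RQ A ι RX)

variable (T) in
/-- decoding of `D` -/
def decD (e : ℕ) (_ : σ) (u : RD ι) : DG (T e).L := (T e).dval u

variable (T decX) in
/-- decoding of `P(X)` as a family -/
def decPe (_ : ℕ) (s : σ) (r : RP A RX) : P A (X s) := decP decX s r

variable (T decX) in
/-- decoding of `Q` -/
abbrev decQ (e : ℕ) (s : σ) : RQ A ι RX → DG (T e).L × P A (X s) :=
  dprod (decD T) (decPe decX) e s

variable (T decX) in
/-- decoding of `Ind` -/
noncomputable def decI (e : ℕ) (s : σ) (z : RI A ι RX) :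
    Ind (SG (T e).L (T e).ε) (sQ (T e).ok (T e).hκ (X s)) :=
  mkI _ _ ((T e).dval z.1) (decQ decX T e s z.2)

variable (T decX) in
/-- decoding of `YY` -/
noncomputable abbrev decY (e : ℕ) (s : σ) : RY A ι RX → YY (T e).ok (T e).hκ (X s) :=
  dsum (dprod (fun _ _ (n : ℕ) => n) (decI decX T)) (dprod (fun _ _ (n : ℕ) => n) (decQ decX T)) e s

/-! ### the codings -/

theorem lay_D (hT : WtC T) : Lay orc (Y := fun e (_ : σ) => DG (T e).L) (decD T) where
  eq := by
    refine (ORE.re (re_comp hT.one (f := fun x : ℕ × RD ι × RD ι =>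
      (x.1, FreeGroup.invRev x.2.1 ++ x.2.2)) ?_)).congr fun s x => ?_
    · exact Computable.fst.pair (Computable.list_append.comp ((computable_inv _).comp
        (Computable.fst.comp Computable.snd)) (Computable.snd.comp Computable.snd))
    · simp only [decD]
      rw [Wt.dval_append, Wt.dval_inv, inv_mul_eq_one]
  ne := by
    refine (ORE.re (re_comp hT.ne (f := fun x : ℕ × RD ι × RD ι =>
      (x.1, FreeGroup.invRev x.2.1 ++ x.2.2)) ?_)).congr fun s x => ?_
    · exact Computable.fst.pair (Computable.list_append.comp ((computable_inv _).comp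
        (Computable.fst.comp Computable.snd)) (Computable.snd.comp Computable.snd))
    · simp only [decD]
      rw [Wt.dval_append, Wt.dval_inv, ne_eq, ne_eq, inv_mul_eq_one]

theorem lay_P (h1 : ORE orc fun s (x : RX × RX) => decX s x.1 = decX s x.2)
    (h2 : ORE orc fun s (x : RX × RX) => decX s x.1 ≠ decX s x.2) :
    Lay orc (ε := ℕ) (Y := fun _ s => P A (X s)) (decPe decX) where
  eq := (ore_eqP (A := A) decX h1).comp (f := fun x : ℕ × RP A RX × RP A RX => x.2)
    Computable.snd
  ne := (ore_neP (A := A) decX h2).comp (f := fun x : ℕ × RP A RX × RP A RX => x.2)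
    Computable.snd

theorem lay_Q (hT : WtC T) (h1 : ORE orc fun s (x : RX × RX) => decX s x.1 = decX s x.2)
    (h2 : ORE orc fun s (x : RX × RX) => decX s x.1 ≠ decX s x.2) :
    Lay orc (Y := fun e s => DG (T e).L × P A (X s)) (decQ decX T) :=
  (lay_D hT).prod (lay_P h1 h2)

/-- the action of `S` on `Q` on raw points -/
theorem rr_star (hT : WtC T) (ha : Computable aX)
    (haX : ∀ s w r, decX s (aX (w, r)) = FreeGroup.mk w • decX s r) :
    RR orc (fun _ x => (T x.1).dval x.2.1 ∈ (T x.1).SS)
      (fun s (x : ℕ × RD ι × RQ A ι RX) r' =>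
      ∀ h : (T x.1).dval x.2.1 ∈ (T x.1).SS, decQ decX T x.1 s r' =
        sQ (T x.1).ok (T x.1).hκ (X s) ⟨_, h⟩ (decQ decX T x.1 s x.2.2)) := by
  have h1 := (rr_chiS (orc := orc) (decX := decX) hT ha haX).comp
    (f := fun x : ℕ × RD ι × RQ A ι RX => (x.1, x.2.1, x.2.2.2)) (by cpt)
  refine RR.map (F := fun y : (ℕ × RD ι × RQ A ι RX) × RP A RX =>
    (y.1.2.1 ++ y.1.2.2.1, y.2)) h1 (by cpt) ?_
  rintro s ⟨e, u, z, p⟩ p' hd h2 h
  have h3 := h2 h
  simp only at h3 h ⊢
  simp only [Prod.map_apply, decD, decPe, starQ_apply] at h3 ⊢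
  rw [Wt.dval_append, h3]

theorem lay_I (hT : WtC T) (ha : Computable aX)
    (haX : ∀ s w r, decX s (aX (w, r)) = FreeGroup.mk w • decX s r)
    (h1 : ORE orc fun s (x : RX × RX) => decX s x.1 = decX s x.2)
    (h2 : ORE orc fun s (x : RX × RX) => decX s x.1 ≠ decX s x.2) :
    Lay orc (Y := fun e s => Ind (SG (T e).L (T e).ε) (sQ (T e).ok (T e).hκ (X s)))
      (decI decX T) := by
  -- the element of `S`
  let g : ℕ × RI A ι RX × RI A ι RX → RD ι := fun x => FreeGroup.invRev x.2.2.1 ++ x.2.1.1
  have cg : Computable g := Computable.list_append.comp ((computable_inv _).comp (by cpt))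
    (by cpt)
  have hin : ORE orc fun (_ : σ) (x : ℕ × RI A ι RX × RI A ι RX) =>
      (T x.1).dval (g x) ∈ (T x.1).SS :=
    ORE.re (re_comp hT.inS (f := fun x : ℕ × RI A ι RX × RI A ι RX => (x.1, g x))
      (Computable.fst.pair cg))
  have hout : ORE orc fun (_ : σ) (x : ℕ × RI A ι RX × RI A ι RX) =>
      (T x.1).dval (g x) ∉ (T x.1).SS :=
    ORE.re (re_comp hT.ninS (f := fun x : ℕ × RI A ι RX × RI A ι RX => (x.1, g x))
      (Computable.fst.pair cg))
  have hs := (rr_star (orc := orc) (decX := decX) hT ha haX).comp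
    (f := fun x : ℕ × RI A ι RX × RI A ι RX => (x.1, g x, x.2.1.2))
    (Computable.fst.pair (cg.pair (by cpt)))
  have key : ∀ s (x : ℕ × RI A ι RX × RI A ι RX) (q : RQ A ι RX)
      (h : (T x.1).dval (g x) ∈ (T x.1).SS), decQ decX T x.1 s q =
        sQ (T x.1).ok (T x.1).hκ (X s) ⟨_, h⟩ (decQ decX T x.1 s x.2.1.2) →
      (decQ decX T x.1 s x.2.2.2 = decQ decX T x.1 s q ↔
        decI decX T x.1 s x.2.1 = decI decX T x.1 s x.2.2) := by
    intro s x q h hq
    unfold decI
    rw [mkI_eq, hq]
    have hg : (T x.1).dval (g x) = ((T x.1).dval x.2.2.1)⁻¹ * (T x.1).dval x.2.1.1 := by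
      simp only [g]; rw [Wt.dval_append, Wt.dval_inv]
    constructor
    · intro h3
      refine ⟨⟨_, h⟩, ?_, h3⟩
      simp only [hg]; group
    · rintro ⟨⟨d, hd⟩, h3, h4⟩
      have h5 : d = (T x.1).dval (g x) := by
        rw [hg, h3]; simp
      subst h5
      exact h4
  have key2 : ∀ s (x : ℕ × RI A ι RX × RI A ι RX),
      decI decX T x.1 s x.2.1 = decI decX T x.1 s x.2.2 → (T x.1).dval (g x) ∈ (T x.1).SS := by
    intro s x h
    unfold decI at h
    rw [mkI_eq] at h
    obtain ⟨⟨d, hd⟩, h3, h4⟩ := h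
    have hg : (T x.1).dval (g x) = d := by
      simp only [g]; rw [Wt.dval_append, Wt.dval_inv, h3]; simp
    rw [hg]; exact hd
  have hQ := lay_Q (orc := orc) (T := T) hT h1 h2
  constructor
  · have h3 := hs.test (Z := fun s (x : ℕ × RI A ι RX × RI A ι RX) =>
      decI decX T x.1 s x.2.1 = decI decX T x.1 s x.2.2)
      (q := fun s y => decQ decX T y.1.1 s y.1.2.2.2 = decQ decX T y.1.1 s y.2) hin
      (hQ.eq.comp (f := fun y : (ℕ × RI A ι RX × RI A ι RX) × RQ A ι RX =>
        (y.1.1, y.1.2.2.2, y.2)) (by cpt))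
      (fun s x q hd h4 => key s x q hd (h4 hd))
    exact h3.congr fun s x => ⟨fun h => ⟨key2 s x h, h⟩, fun h => h.2⟩
  · have h3 := hs.test (Z := fun s (x : ℕ × RI A ι RX × RI A ι RX) =>
      decI decX T x.1 s x.2.1 ≠ decI decX T x.1 s x.2.2)
      (q := fun s y => decQ decX T y.1.1 s y.1.2.2.2 ≠ decQ decX T y.1.1 s y.2) hin
      (hQ.ne.comp (f := fun y : (ℕ × RI A ι RX × RI A ι RX) × RQ A ι RX =>
        (y.1.1, y.1.2.2.2, y.2)) (by cpt))
      (fun s x q hd h4 => not_congr (key s x q hd (h4 hd)))
    refine (hout.or h3).congr fun s x => ?_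
    constructor
    · intro h
      by_cases hd : (T x.1).dval (g x) ∈ (T x.1).SS
      · exact Or.inr ⟨hd, h⟩
      · exact Or.inl hd
    · rintro (h | h)
      · exact fun h4 => h (key2 s x h4)
      · exact h.2

theorem lay_Y (hT : WtC T) (ha : Computable aX)
    (haX : ∀ s w r, decX s (aX (w, r)) = FreeGroup.mk w • decX s r)
    (h1 : ORE orc fun s (x : RX × RX) => decX s x.1 = decX s x.2)
    (h2 : ORE orc fun s (x : RX × RX) => decX s x.1 ≠ decX s x.2) :
    Lay orc (Y := fun e s => YY (T e).ok (T e).hκ (X s)) (decY decX T) :=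
  (Lay.const.prod (lay_I hT ha haX h1 h2)).sum (Lay.const.prod (lay_Q hT h1 h2))

end Crest.Agent.R185.She
end

-- ▼ part R185/She4

/-!
# R185, block H3, the sheet layer (4): the letters on `YY`
-/

set_option autoImplicit false
set_option linter.unusedSectionVars false

namespace Crest.Agent.R185.She

open Equiv Crest.Agent.R292 Crest.Agent.R185.Re Crest.Agent.R185.Ev Crest.Agent.R185.Md191A
  Crest.Agent.R185.Md191B Crest.Agent.R185.Md191C Crest.Agent.R185.Md191D Crest.Agent.R185.Md191E

variable {σ W A ι RX : Type} [Primcodable W] [Primcodable A] [Primcodable ι] [Primcodable RX]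
  {orc : σ → W → Prop} {X : σ → Type} [∀ s, MulAction (FreeGroup A) (X s)] {decX : ∀ s, RX → X s}
  {aX : List (A × Bool) × RX → RX} {T : ℕ → Wt A ι}

/-! ### the letters of `D` -/

theorem rlz_d (u : RD ι) : Rlz orc (decY decX T) (decY decX T)
    (fun e s => dYY (T e).ok (T e).hκ (X s) ((T e).dval u)) := by
  unfold Rlz
  apply RR.sum
  · refine RR.fn (F := fun x : ℕ × (ℕ × RI A ι RX) =>
      (Sum.inl (x.2.1, (u ++ x.2.2.1, x.2.2.2)) : RY A ι RX)) (by cpt) ?_
    rintro s ⟨e, n, x, q⟩ _
    change Sum.inl (n, mkI _ _ ((T e).dval (u ++ x)) (decQ decX T e s q)) = _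
    rw [Wt.dval_append]
    rfl
  · refine RR.fn (F := fun x : ℕ × (ℕ × RQ A ι RX) =>
      (Sum.inr (x.2.1, (u ++ x.2.2.1, x.2.2.2)) : RY A ι RX)) (by cpt) ?_
    rintro s ⟨e, n, z, p⟩ _
    change Sum.inr (n, ((T e).dval (u ++ z), decPe decX e s p)) = _
    rw [Wt.dval_append]
    rfl

/-! ### the payload letters -/

theorem rlz_j {j : ∀ s, Perm (P A (X s))}
    (h : RR orc (fun _ _ => True) (fun s (r : RP A RX) r' =>
      decP decX s r' = j s (decP decX s r))) : Rlz orc (decY decX T) (decY decX T)
    (fun e s => jYY (T e).ok (T e).hκ (X s) (j s)) := by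
  unfold Rlz
  apply RR.sum
  · refine RR.fn (F := fun x : ℕ × (ℕ × RI A ι RX) => (Sum.inl x.2 : RY A ι RX)) (by cpt) ?_
    rintro s ⟨e, n, x, q⟩ _
    rfl
  · apply RR.nat
    · have h1 := h.comp (f := fun x : ℕ × RQ A ι RX => x.2.2) (by cpt)
      refine RR.map (F := fun y : (ℕ × RQ A ι RX) × RP A RX =>
        (Sum.inr (0, (y.1.2.1, y.2)) : RY A ι RX)) h1 (by cpt) ?_
      rintro s ⟨e, z, p⟩ p' _ h2
      change Sum.inr (0, ((T e).dval z, decP decX s p')) = _
      simp only at h2
      rw [h2]
      rfl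
    · refine RR.fn (F := fun x : ℕ × ℕ × RQ A ι RX =>
        (Sum.inr (x.2.1 + 1, x.2.2) : RY A ι RX)) (by cpt) ?_
      rintro s ⟨e, n, q⟩ _
      rfl

/-! ### the shift -/

theorem ore_inS (hT : WtC T) {α : Type} [Primcodable α] {f : α → ℕ} {g : α → RD ι}
    (hf : Computable f) (hg : Computable g) :
    ORE orc fun (_ : σ) (x : α) => (T (f x)).dval (g x) ∈ (T (f x)).SS :=
  ORE.re (re_comp hT.inS (f := fun x : α => (f x, g x)) (hf.pair hg))

theorem ore_ninS (hT : WtC T) {α : Type} [Primcodable α] {f : α → ℕ} {g : α → RD ι}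
    (hf : Computable f) (hg : Computable g) :
    ORE orc fun (_ : σ) (x : α) => (T (f x)).dval (g x) ∉ (T (f x)).SS :=
  ORE.re (re_comp hT.ninS (f := fun x : α => (f x, g x)) (hf.pair hg))

theorem rlz_s (hT : WtC T) (ha : Computable aX)
    (haX : ∀ s w r, decX s (aX (w, r)) = FreeGroup.mk w • decX s r) :
    Rlz orc (decY decX T) (decY decX T) (fun e s => sYY (T e).ok (T e).hκ (X s)) := by
  unfold Rlz
  apply RR.sum
  · apply RR.nat
    · refine RR.cases (c1 := fun _ x => (T x.1).dval x.2.1 ∈ (T x.1).SS)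
        (c2 := fun _ x => (T x.1).dval x.2.1 ∉ (T x.1).SS) (ore_inS hT (by cpt) (by cpt))
        (ore_ninS hT (by cpt) (by cpt)) (fun _ _ _ => em _) ?_ ?_
      · have h1 := (rr_star (orc := orc) (decX := decX) hT ha haX).comp
          (f := fun x : ℕ × RI A ι RX => (x.1, x.2.1, x.2.2)) (by cpt)
        refine RR.map (F := fun y : (ℕ × RI A ι RX) × RQ A ι RX =>
          (Sum.inr (0, y.2) : RY A ι RX)) (h1.mono (fun _ _ h => h.2) (fun _ _ _ _ h => h))
          (by cpt) ?_
        rintro s ⟨e, x, q⟩ q' ⟨-, hx⟩ h2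
        change Sum.inr (0, decQ decX T e s q') =
          sh _ _ (Sum.inl (0, mkI _ _ ((T e).dval x) (decQ decX T e s q)))
        simp only at hx h2
        rw [sh_zero _ _ hx, h2 hx]
      · refine RR.fn (F := fun x : ℕ × RI A ι RX => (Sum.inl (0, x.2) : RY A ι RX)) (by cpt) ?_
        rintro s ⟨e, x, q⟩ ⟨-, hx⟩
        exact (sh_else _ _ hx 0 _).symm
    · refine RR.cases (c1 := fun _ x => (T x.1).dval x.2.2.1 ∈ (T x.1).SS)
        (c2 := fun _ x => (T x.1).dval x.2.2.1 ∉ (T x.1).SS) (ore_inS hT (by cpt) (by cpt))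
        (ore_ninS hT (by cpt) (by cpt)) (fun _ _ _ => em _) ?_ ?_
      · refine RR.fn (F := fun x : ℕ × ℕ × RI A ι RX => (Sum.inl (x.2.1, x.2.2) : RY A ι RX))
          (by cpt) ?_
        rintro s ⟨e, n, x, q⟩ ⟨-, hx⟩
        exact (sh_succ _ _ hx n _).symm
      · refine RR.fn (F := fun x : ℕ × ℕ × RI A ι RX => (Sum.inl (x.2.1 + 1, x.2.2) : RY A ι RX))
          (by cpt) ?_
        rintro s ⟨e, n, x, q⟩ ⟨-, hx⟩
        exact (sh_else _ _ hx (n + 1) _).symm
  · refine RR.fn (F := fun x : ℕ × (ℕ × RQ A ι RX) => (Sum.inr (x.2.1 + 1, x.2.2) : RY A ι RX))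
      (by cpt) ?_
    rintro s ⟨e, n, q⟩ _
    rfl

theorem rlz_s_inv (hT : WtC T) :
    Rlz orc (decY decX T) (decY decX T) (fun e s =>
      ((sYY (T e).ok (T e).hκ (X s))⁻¹ : Perm (YY (T e).ok (T e).hκ (X s)))) := by
  unfold Rlz
  apply RR.sum
  · refine RR.cases (c1 := fun _ x => (T x.1).dval x.2.2.1 ∈ (T x.1).SS)
        (c2 := fun _ x => (T x.1).dval x.2.2.1 ∉ (T x.1).SS) (ore_inS hT (by cpt) (by cpt))
        (ore_ninS hT (by cpt) (by cpt)) (fun _ _ _ => em _) ?_ ?_
    · refine RR.fn (F := fun x : ℕ × (ℕ × RI A ι RX) =>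
        (Sum.inl (x.2.1 + 1, x.2.2) : RY A ι RX)) (by cpt) ?_
      rintro s ⟨e, n, x, q⟩ ⟨-, hx⟩
      exact (sh_inv_inl _ _ hx n _).symm
    · refine RR.fn (F := fun x : ℕ × (ℕ × RI A ι RX) => (Sum.inl (x.2.1, x.2.2) : RY A ι RX))
        (by cpt) ?_
      rintro s ⟨e, n, x, q⟩ ⟨-, hx⟩
      exact (sh_inv_else _ _ hx n _).symm
  · apply RR.nat
    · refine RR.fn (F := fun x : ℕ × RQ A ι RX =>
        (Sum.inl (0, (([] : RD ι), x.2)) : RY A ι RX)) (by cpt) ?_
      rintro s ⟨e, q⟩ _
      change Sum.inl (0, mkI _ _ ((T e).dval []) (decQ decX T e s q)) = _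
      rw [Wt.dval_nil]
      rfl
    · refine RR.fn (F := fun x : ℕ × ℕ × RQ A ι RX => (Sum.inr (x.2.1, x.2.2) : RY A ι RX))
        (by cpt) ?_
      rintro s ⟨e, n, q⟩ _
      rfl

/-! ### all letters -/

theorem dval_single (T : Wt A ι) (a : Option ι) (b : Bool) :
    T.dval [(a, b)] = cond b (T.dl a) (T.dl a)⁻¹ := by
  unfold Wt.dval
  rw [lift_mk_single]

theorem rpm_Y (hT : WtC T) (ha : Computable aX)
    (haX : ∀ s w r, decX s (aX (w, r)) = FreeGroup.mk w • decX s r) (a : UL ι A) :
    RPm orc (decY decX T) (fun e s => lY (T e).ok (T e).hκ (T e).gen (X s) a) := by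
  obtain ⟨one, h1, h2⟩ := exists_one A
  rcases a with i | _ | _ | a | a | _
  · constructor
    · refine (rlz_d (orc := orc) (decX := decX) (T := T) [(some i, true)]).congr fun e s r => ?_
      rw [dval_single]; rfl
    · refine (rlz_d (orc := orc) (decX := decX) (T := T) [(some i, false)]).congr fun e s r => ?_
      change (dYY (T e).ok (T e).hκ (X s) (hD (T e).L ((T e).gen (FreeGroup.of i))))⁻¹ _ = _
      rw [← map_inv (dYY (T e).ok (T e).hκ (X s)), dval_single]
      rfl
  · constructor
    · refine (rlz_d (orc := orc) (decX := decX) (T := T) [(none, true)]).congr fun e s r => ?_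
      rw [dval_single]; rfl
    · refine (rlz_d (orc := orc) (decX := decX) (T := T) [(none, false)]).congr fun e s r => ?_
      change (dYY (T e).ok (T e).hκ (X s) (kD (T e).L))⁻¹ _ = _
      rw [← map_inv, dval_single]
      rfl
  · exact ⟨rlz_s hT ha haX, rlz_s_inv hT⟩
  · constructor
    · refine rlz_j (j := fun s => bp A (X s) (FreeGroup.of a)) ?_
      refine RR.fn (F := fun r : RP A RX => bpR (a, true) r)
        (computable_bpR (Computable.const _) Computable.id) fun s r _ => ?_
      rw [decP_bpR]; rfl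
    · refine (rlz_j (T := T) (j := fun s => (bp A (X s) (FreeGroup.of a))⁻¹) ?_).congr
        fun e s r => ?_
      · refine RR.fn (F := fun r : RP A RX => bpR (a, false) r)
          (computable_bpR (Computable.const _) Computable.id) fun s r _ => ?_
        rw [decP_bpR, ← map_inv]; rfl
      · change (jYY (T e).ok (T e).hκ (X s) (bp A (X s) (FreeGroup.of a)))⁻¹ _ = _
        rw [← map_inv]
  · have hg := rr_ga (orc := orc) (A := A) (decX := decX) ha haX
    constructor
    · refine rlz_j (j := fun s => ga A (X s) (FreeGroup.of a)) ?_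
      exact (hg.comp (f := fun r : RP A RX => ((a, true), r)) (by cpt)).mono
        (fun _ _ _ => trivial) (fun s r r' _ h => h)
    · refine (rlz_j (T := T) (j := fun s => (ga A (X s) (FreeGroup.of a))⁻¹) ?_).congr
        fun e s r => ?_
      · refine (hg.comp (f := fun r : RP A RX => ((a, false), r)) (by cpt)).mono
          (fun _ _ _ => trivial) (fun s r r' _ h => ?_)
        rw [h, ← map_inv]; rfl
      · change (jYY (T e).ok (T e).hκ (X s) (ga A (X s) (FreeGroup.of a)))⁻¹ _ = _
        rw [← map_inv]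
  · constructor
    · refine rlz_j (j := fun s => dd A (X s)) ?_
      refine RR.fn (F := fun r : RP A RX => ddR one true r)
        (computable_ddR h1 (Computable.const _) Computable.id) fun s r _ => ?_
      rw [decP_ddR decX h2]; rfl
    · refine (rlz_j (T := T) (j := fun s => (dd A (X s))⁻¹) ?_).congr fun e s r => ?_
      · refine RR.fn (F := fun r : RP A RX => ddR one false r)
          (computable_ddR h1 (Computable.const _) Computable.id) fun s r _ => ?_
        rw [decP_ddR decX h2]; rfl
      · change (jYY (T e).ok (T e).hκ (X s) (dd A (X s)))⁻¹ _ = _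
        rw [← map_inv]

/-! ### the base point -/

/-- raw base point -/
def rY0 (x : RX) : RY A ι RX := Sum.inr (0, (([] : RD ι), (([] : List (A × Bool)), (0, 0), x)))

theorem decY_rY0 (e : ℕ) (s : σ) (x : RX) :
    decY decX T e s (rY0 x) = Md191E.th (T e).ok (T e).hκ (X s) (decX s x) := by
  change Sum.inr (0, ((T e).dval [], decP decX s ([], (0, 0), x))) = _
  rw [Wt.dval_nil]
  rfl

end Crest.Agent.R185.She
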