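import Crest.Agent.R185.Tab3
import Crest.Agent.R185.Loc2
import Crest.Agent.R185.Glu424_Mg
import Crest.Agent.R185.Asm6
import Crest.Agent.R185.She4
import Crest.Agent.R185.Asm3
import Crest.Agent.R185.Ev5
import Crest.Agent.R185.Ev6
import Crest.Agent.R185.Smp10
import Crest.Agent.R185.Wit1
import Crest.Agent.R185.Re2
import Crest.Agent.Lib.RatPrimrec
import Crest.Agent.R185.Wit6
import Crest.Agent.R185.Hk1
import Crest.Agent.R185.Md191G
import Crest.Agent.R185.Clk9

-- ▼ part R185/Tab4
section

/-!
# R185, block LIN (TAB), part 4: the hypothesis `LinH` of block LOC (helper424)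
-/

set_option autoImplicit false
set_option linter.unusedSectionVars false

namespace Crest.Agent.R185.Tab

open Classical Equiv Crest.Agent.R185.Wit Crest.Agent.R185.Md191A Crest.Agent.R185.Md191B
  Crest.Agent.R185.Md191C

variable {R A : Type} [DecidableEq R] [DecidableEq A] (W : WS R A)

theorem LTab.toLoc {N : ℕ} {w : FreeGroup A} {τ : FreeGroup A → ℤ}
    {v : FreeGroup A → ℤ → FreeGroup A} (h : LTab N w τ v) : Loc.Tab N w τ v where
  w_le := h.hw
  τ_le g := by have := h.hτ g; rw [Int.abs_eq_natAbs] at this; exact_mod_cast this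
  τ_far := h.far
  v_le := h.hv
  v_far g g' m m' hg hm := h.congr hg hm


/-- **`LinH`** for `χ̂` in the gauge `κ` -/
theorem linH (hW : Archive W) :
    Loc.LinH (dlv W) (SG (Ls W) (eps W)) (fun X _ => chiS X (witOK W) (kap_spec W)) (AccG W) 9 := by
  rintro n ⟨e, he⟩ ⟨u, hu, rfl⟩
  obtain ⟨w, τ, v, h1, h2⟩ := lin W hW u he
  refine ⟨w, τ, v, (h1.mono (by omega)).toLoc, fun X _ x g m hx => ?_⟩
  exact h2 X x g m (fun w hw v hv => hx w hw v (hv.trans (by omega)))

/-- any gauge which is `1` on accepted words and the identity elsewhere -/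
theorem kap_eq {κ : FreeGroup A → FreeGroup A} (h1 : ∀ w ∈ AccG W, κ w = 1)
    (h2 : ∀ w, w ∉ AccG W → κ w = w) : κ = kap W := by
  funext y
  by_cases h : y ∈ AccG W
  · rw [h1 y h, kap_acc W h]
  · rw [h2 y h, kap_not W h]

/-- `LinH` for arbitrary proofs, any gauge and any family of letters `dl'` which are letters `dlv` -/
theorem linH' (hW : Archive W) {κ : FreeGroup A → FreeGroup A} (hOK : WitOK (Ls W) (eps W) (AccG W))
    (h1 : ∀ w ∈ AccG W, κ w = 1) (h2 : ∀ w, w ∉ AccG W → κ w = w)
    {J : Type} (dl' : J → DG (Ls W)) (f : J → DL W) (hf : ∀ j, dl' j = dlv W (f j)) :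
    Loc.LinH dl' (SG (Ls W) (eps W)) (fun X _ => chiS X hOK h1) (AccG W) 9 := by
  obtain rfl := kap_eq W h1 h2
  rintro n ⟨e, he⟩ ⟨u, hu, rfl⟩
  refine linH W hW n ⟨_, he⟩ ⟨u.map (fun x => (f x.1, x.2)), by simpa using hu, ?_⟩
  have h3 : FreeGroup.lift dl' = (FreeGroup.lift (dlv W)).comp (FreeGroup.map f) := by
    ext1 j
    simp [hf]
  have h4 := DFunLike.congr_fun h3 (FreeGroup.mk u)
  change FreeGroup.lift (dlv W) (FreeGroup.mk (u.map (fun x => (f x.1, x.2)))) =
    FreeGroup.lift dl' (FreeGroup.mk u)
  rw [h4]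
  rfl

end Crest.Agent.R185.Tab
end

-- ▼ part R185/Loc7
section

/-!
# R185 / LOC (7): `LocA`, `LocB` for the machine, and `HubOK`
-/

set_option autoImplicit false
set_option linter.unusedSectionVars false

namespace Crest.Agent.R185.Loc

open Crest.Agent.R185.Md191C Crest.Agent.R185.Md191D Crest.Agent.R185.Smp
  Crest.Agent.R185.Asm Crest.Agent.R185.Glu Crest.Agent.R185.Tab
open Crest.Agent.R185.Clk (UM PConn)
open Crest.Agent.R185.Wit (HL hlv Hg mx my ht Ls eps st Ch)

section machine

variable {A : Type} [Primcodable A] [DecidableEq A] (U : UM (A × Bool)) (e : ℕ)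

/-- the table property for the machine -/
theorem linU : LinH (dlO (L := Ls (U.ws e)) (FreeGroup.lift (hlA U e)))
    (SG (Ls (U.ws e)) (eps (U.ws e))) (chiY (Tab.witOK (U.ws e)) (kap_spec (U.ws e)))
    (AccG (U.ws e)) 9 := by
  refine linH' (U.ws e) (U.archive' e) (Tab.witOK (U.ws e)) (kap_spec (U.ws e))
    (fun w hw => kap_not (U.ws e) hw) _ (Option.map (eqU U e)) ?_
  rintro (_ | l)
  · rfl
  · change hD (Ls (U.ws e)) (FreeGroup.lift (hlA U e) (FreeGroup.of l)) =
      hD (Ls (U.ws e)) (hlv (eqU U e l))
    rw [FreeGroup.lift_apply_of, hlv_eqU]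

end machine

/-! ### `LocA`, `LocB` -/

theorem lift_eq_ev {L Y : Type} [DecidableEq L] (p : L → Equiv.Perm Y) (u : FreeGroup L) (y : Y) :
    FreeGroup.lift p u y = Smp.ev (sg p) u.toWord y := by
  rw [ev_sg, FreeGroup.mk_toWord]

variable (U : UM (GdL × Bool))

open Classical in
/-- the constant of `LocA`, `LocB` -/
theorem locA : LocA (fun e => AccG (U.ws e)) (fun e S => yU U e S) (fun e S => pU U e S)
    (2 * cst 9) := by
  intro e S S' r hr hS hS' hA u hu
  rw [lift_eq_ev, lift_eq_ev]
  refine @yy_base (Option (GdL × Bool)) _ (HU U) _ _ _ (AccG (U.ws e)) _ (Tab.witOK (U.ws e))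
    (kap_spec (U.ws e)) (FreeGroup.lift (hlA U e)) _ 9 (linU U e) (XS S) (XS S')
    (actS GdL (XS S)) (actS GdL (XS S')) r (xS S) (xS S') ?_ ?_ ?_ 0 0 u.toWord hu
  · exact GoodM.mono hS (by nlinarith)
  · exact GoodM.mono hS' (by nlinarith)
  · intro v hv
    exact hA v (by nlinarith)

theorem t5b_eq (b n : ℕ) : t5b 9 b n = 4 * b + 24124 * n + 32 := by
  unfold t5b bud; ring

open Classical in
theorem locB : LocB (fun e => AccG (U.ws e)) (fun e S => yU U e S) (fun e S => pU U e S)
    (2 * cst 9) (fun n b => t5b 9 b n) := by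
  intro e S n ρ b hn hρ hS hT
  have hρ' : t5b 9 b n ≤ ρ := hρ
  rw [t5b_eq] at hρ'
  refine @yy_t5 (Option (GdL × Bool)) _ (HU U) _ _ _ (AccG (U.ws e)) _ (Tab.witOK (U.ws e))
    (kap_spec (U.ws e)) (FreeGroup.lift (hlA U e)) _ 9 (linU U e) (XS S)
    (actS GdL (XS S)) n ρ b (xS S) ?_ ?_
  · refine TLM.mono hT ?_ ?_ le_rfl
    · rw [mul_assoc, two_mul]; exact Nat.le_add_left _ _
    · calc cst 9 * (n + ρ) ≤ cst 9 * (2 * ρ) := Nat.mul_le_mul_left _ (by omega)
        _ = 2 * cst 9 * ρ := by ring
  · refine GoodM.mono hS ?_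
    have h1 : n + ρ + b + 1 ≤ 2 * (n + ρ) := by omega
    calc cst 9 * (n + ρ + b + 1) ≤ cst 9 * (2 * (n + ρ)) := Nat.mul_le_mul_left _ h1
      _ = 2 * cst 9 * (n + ρ) := by ring

theorem t5b_computable : Computable₂ (fun n b => t5b 9 b n) := by
  have h : Primrec fun x : ℕ × ℕ => 4 * x.2 + 24124 * x.1 + 32 :=
    Primrec.nat_add.comp (Primrec.nat_add.comp
      (Primrec.nat_mul.comp (Primrec.const 4) Primrec.snd)
      (Primrec.nat_mul.comp (Primrec.const 24124) Primrec.fst)) (Primrec.const 32)
  exact (h.of_eq (fun x => (t5b_eq x.2 x.1).symm)).to_comp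

/-- **H1 and H2 of the hub** -/
theorem hubOK : HubOK := by
  classical
  intro U G B _ _ eG ht t hh
  have hC : 1 ≤ 2 * cst 9 := by unfold cst; norm_num
  have hAcc : ∀ e, ∀ w ∈ AccG (U.ws e), strip GdL w ∈ AccU U e :=
    fun e w hw => (mem_AccU U e).2 ⟨w, hw, rfl⟩
  refine ⟨4 * (2 * cst 9) + 1, by omega, beta2 (4 * (2 * cst 9) + 1) (JU U B) (fun n b => t5b 9 b n),
    beta2_computable _ _ t5b_computable, ?_, ?_⟩
  · intro e S S' r hS hS' hA
    exact Glu.H1 (AccM := fun e => AccG (U.ws e)) (y₀ := fun e S => yU U e S)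
      (pa := fun e S => pU U e S) hAcc hC le_rfl (locA U) e S S' r hS hS' hA
  · intro e S n ρ b hn hS hT
    exact Glu.H2 (AccM := fun e => AccG (U.ws e)) (y₀ := fun e S => yU U e S)
      (pa := fun e S => pU U e S) hAcc hC le_rfl hh (lblU U (B := B)) (locB U) e S n ρ b hn hS hT

end Crest.Agent.R185.Loc
end

-- ▼ part R185/She5
section

/-!
# R185, block H3, the sheet layer (5): `X = FreeGroup A ⧸ S`
-/

set_option autoImplicit false
set_option linter.unusedSectionVars false
set_option linter.style.haveILetI false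

namespace Crest.Agent.R185.She

open Equiv Crest.Agent.R292 Crest.Agent.R185.Re Crest.Agent.R185.Ev Crest.Agent.R185.Md191A
  Crest.Agent.R185.Md191B Crest.Agent.R185.Md191C Crest.Agent.R185.Md191D Crest.Agent.R185.Md191E
  Crest.Agent.R185.Asm

variable {A ι : Type} [Primcodable A] [Primcodable ι]

/-- the oracle -/
abbrev orcS (A : Type) : Subgroup (FreeGroup A) → List (A × Bool) → Prop :=
  fun s w => FreeGroup.mk w ∈ s

/-- `strip` of one letter -/
def str1 (x : Option (A × Bool) × Bool) : List (A × Bool) :=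
  Option.casesOn x.1 [] (fun p => [(p.1, !(xor p.2 x.2))])

/-- `strip` on raw words -/
def strR (w : List (Option (A × Bool) × Bool)) : List (A × Bool) := w.flatMap str1

theorem computable_str1 : Computable (str1 (A := A)) := by
  unfold str1
  refine Computable.option_casesOn (o := fun x : Option (A × Bool) × Bool => x.1)
    (f := fun _ => []) (g := fun x p => [(p.1, !(xor p.2 x.2))]) Computable.fst
    (Computable.const []) ?_
  have h1 : Computable fun y : (Option (A × Bool) × Bool) × (A × Bool) => y.2.1 := by cpt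
  have h2 : Computable fun y : (Option (A × Bool) × Bool) × (A × Bool) => y.2.2 := by cpt
  have h3 : Computable fun y : (Option (A × Bool) × Bool) × (A × Bool) => y.1.2 := by cpt
  have hx : Computable fun b : Bool × Bool => !(xor b.1 b.2) :=
    (Primrec.dom_finite (fun b : Bool × Bool => !(xor b.1 b.2))).to_comp
  exact Computable.list_cons.comp (h1.pair (Computable.comp (f := fun b : Bool × Bool =>
    !(xor b.1 b.2)) (g := fun y : (Option (A × Bool) × Bool) × (A × Bool) => (y.2.2, y.1.2))
    hx (h2.pair h3))) (Computable.const [])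

theorem computable_strR : Computable (strR (A := A)) :=
  computable_flatMap (f := fun w : List (Option (A × Bool) × Bool) => w)
    (g := fun _ x => str1 x) Computable.id (computable_str1.comp Computable.snd)

omit [Primcodable A] in
theorem strip_str1 (x : Option (A × Bool) × Bool) :
    strip A (FreeGroup.mk [x]) = FreeGroup.mk (str1 x) := by
  obtain ⟨o, b⟩ := x
  unfold strip
  rw [lift_mk_single]
  rcases o with _ | ⟨a, c⟩
  · cases b <;> simp [str1, ← FreeGroup.one_eq_mk]
  · cases b <;> cases c <;> simp [str1, FreeGroup.inv_mk, FreeGroup.invRev]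

omit [Primcodable A] in
theorem strip_strR (w : List (Option (A × Bool) × Bool)) :
    strip A (FreeGroup.mk w) = FreeGroup.mk (strR w) := by
  induction w with
  | nil => exact map_one _
  | cons x w ih =>
    rw [mk_cons, map_mul, ih, strip_str1, FreeGroup.mul_mk]
    rfl

/-- decoding of `XS` -/
def decXS (S : Subgroup (FreeGroup A)) (w : List (A × Bool)) : XS S :=
  ((FreeGroup.mk w : FreeGroup A) : FreeGroup A ⧸ S)

/-- raw action -/
def aXS (x : List (Option (A × Bool) × Bool) × List (A × Bool)) : List (A × Bool) :=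
  strR x.1 ++ x.2

theorem computable_aXS : Computable (aXS (A := A)) := by
  unfold aXS
  exact Computable.list_append.comp (computable_strR.comp Computable.fst) Computable.snd

omit [Primcodable A] in
theorem decXS_aXS (S : Subgroup (FreeGroup A)) (w : List (Option (A × Bool) × Bool))
    (r : List (A × Bool)) :
    letI := actS A (XS S)
    decXS S (aXS (w, r)) = FreeGroup.mk w • decXS S r := by
  letI := actS A (XS S)
  change ((FreeGroup.mk (strR w ++ r) : FreeGroup A) : FreeGroup A ⧸ S) =
    ((strip A (FreeGroup.mk w) * FreeGroup.mk r : FreeGroup A) : FreeGroup A ⧸ S)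
  rw [strip_strR, FreeGroup.mul_mk]

omit [Primcodable A] in
theorem decXS_eq (S : Subgroup (FreeGroup A)) (r r' : List (A × Bool)) :
    decXS S r = decXS S r' ↔ orcS A S (FreeGroup.invRev r ++ r') := by
  change ((FreeGroup.mk r : FreeGroup A) : FreeGroup A ⧸ S) = _ ↔ _
  rw [decXS, QuotientGroup.eq, FreeGroup.inv_mk, FreeGroup.mul_mk]

theorem ore_eqXS : ORE (orcS A) fun s (x : List (A × Bool) × List (A × Bool)) =>
    decXS s x.1 = decXS s x.2 :=
  (ORE.query (orc := orcS A) (f := fun x : List (A × Bool) × List (A × Bool) =>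
    FreeGroup.invRev x.1 ++ x.2) (Computable.list_append.comp
      ((computable_inv A).comp Computable.fst) Computable.snd)).congr
    fun s x => decXS_eq s x.1 x.2

theorem ore_neXS : ORE (orcS A) fun s (x : List (A × Bool) × List (A × Bool)) =>
    decXS s x.1 ≠ decXS s x.2 :=
  (ORE.nquery (orc := orcS A) (f := fun x : List (A × Bool) × List (A × Bool) =>
    FreeGroup.invRev x.1 ++ x.2) (Computable.list_append.comp
      ((computable_inv A).comp Computable.fst) Computable.snd)).congr
    fun s x => not_congr (decXS_eq s x.1 x.2)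

variable (T : ℕ → Wt (Option (A × Bool)) ι)

/-- raw points of `YS` -/
abbrev RYS (A ι : Type) : Type := RY (Option (A × Bool)) ι (List (A × Bool))

/-- decoding of `YS` -/
noncomputable def decYS (e : ℕ) (S : Subgroup (FreeGroup A)) :
    RYS A ι → YS (T e).ok (T e).hκ S :=
  @decY (Subgroup (FreeGroup A)) (Option (A × Bool)) ι (List (A × Bool)) (fun S => XS S)
    (fun S => actS A (XS S)) (fun S => decXS S) T e S

variable {T}

/-- **the coding of `YS`** -/
theorem lay_YS (hT : WtC T) : Lay (orcS A) (Y := fun e S => YS (T e).ok (T e).hκ S) (decYS T) :=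
  @lay_Y (Subgroup (FreeGroup A)) (List (A × Bool)) (Option (A × Bool)) ι (List (A × Bool)) _ _ _
    _ (orcS A) (fun S => XS S) (fun S => actS A (XS S)) (fun S => decXS S) aXS T hT computable_aXS
    (fun S w r => decXS_aXS S w r) ore_eqXS ore_neXS

/-- **the letters** -/
theorem rpm_YS (hT : WtC T) (a : UL ι (Option (A × Bool))) :
    RPm (orcS A) (decYS T) (fun e S => @lY (Option (A × Bool)) (T e).H ι (T e).grp (T e).L (T e).ε
      (T e).Acc (T e).κ (T e).ok (T e).hκ (T e).gen (XS S) (actS A (XS S)) a) :=
  @rpm_Y (Subgroup (FreeGroup A)) (List (A × Bool)) (Option (A × Bool)) ι (List (A × Bool)) _ _ _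
    _ (orcS A) (fun S => XS S) (fun S => actS A (XS S)) (fun S => decXS S) aXS T hT computable_aXS
    (fun S w r => decXS_aXS S w r) a


/-- **the base point** -/
theorem decYS_r0 (e : ℕ) (S : Subgroup (FreeGroup A)) :
    decYS T e S (rY0 ([] : List (A × Bool))) = yS (T e).ok (T e).hκ S :=
  @decY_rY0 (Subgroup (FreeGroup A)) (Option (A × Bool)) ι (List (A × Bool)) _ _ _
    (fun S => XS S) (fun S => actS A (XS S)) (fun S => decXS S) T e S []

end Crest.Agent.R185.She
end

-- ▼ part R185/Ev7
section

/-!
# R185, block H3 (7): codes of a group with decidable word problem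
-/

set_option autoImplicit false
set_option linter.unusedSectionVars false
set_option linter.unusedVariables false

namespace Crest.Agent.R185.Ev

open Crest.Agent.R292 Crest.Agent.R185.Re Crest.Agent.R185.Wu Crest.Agent.R185.Hot
  Crest.Agent.R185.Smp

section grp

variable {G B : Type} [Group G] [Primcodable B]

theorem decG_append (gB : B → G) (w w' : List (B × Bool)) :
    decG gB (w ++ w') = decG gB w * decG gB w' := by
  unfold decG
  rw [← map_mul, FreeGroup.mul_mk]

theorem decG_invRev (gB : B → G) (w : List (B × Bool)) :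
    decG gB (FreeGroup.invRev w) = (decG gB w)⁻¹ := by
  unfold decG
  rw [← map_inv, FreeGroup.inv_mk]

theorem computable_invRev : Computable (FreeGroup.invRev : List (B × Bool) → List (B × Bool)) := by
  have h : Computable fun w : List (B × Bool) => (w.map fun g => (g.1, !g.2)).reverse :=
    Computable.list_reverse.comp (Primrec.list_map Primrec.id
      ((Primrec.fst.comp Primrec.snd).pair (Primrec.not.comp
        (Primrec.snd.comp Primrec.snd))).to₂).to_comp
  exact h.of_eq fun w => rfl

variable {σ W ε : Type} [Primcodable W] [Primcodable ε] {orc : σ → W → Prop}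

/-- codes of a group with decidable word problem -/
theorem Lay.grp {gB : B → G}
    (hwp : ComputablePred fun w : List (B × Bool) => FreeGroup.lift gB (FreeGroup.mk w) = 1) :
    Lay orc (ε := ε) (Y := fun _ _ => G) (fun _ _ => decG gB) where
  eq := by
    have h1 : ORE orc (fun _ (x : ε × List (B × Bool) × List (B × Bool)) =>
        FreeGroup.lift gB (FreeGroup.mk (FreeGroup.invRev x.2.1 ++ x.2.2)) = 1) := by
      apply ORE.re
      exact re_comp hwp.to_re (f := fun x : ε × List (B × Bool) × List (B × Bool) =>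
        FreeGroup.invRev x.2.1 ++ x.2.2)
        (capp (computable_invRev.comp (by cpt)) (by cpt))
    refine h1.congr fun s x => ?_
    change _ ↔ decG gB _ = 1
    rw [decG_append, decG_invRev, inv_mul_eq_one]
  ne := by
    have h1 : ORE orc (fun _ (x : ε × List (B × Bool) × List (B × Bool)) =>
        ¬ FreeGroup.lift gB (FreeGroup.mk (FreeGroup.invRev x.2.1 ++ x.2.2)) = 1) := by
      apply ORE.re
      exact re_comp hwp.not.to_re (f := fun x : ε × List (B × Bool) × List (B × Bool) =>
        FreeGroup.invRev x.2.1 ++ x.2.2)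
        (capp (computable_invRev.comp (by cpt)) (by cpt))
    refine h1.congr fun s x => ?_
    change _ ↔ ¬ decG gB _ = 1
    rw [decG_append, decG_invRev, inv_mul_eq_one]

end grp

end Crest.Agent.R185.Ev
end

-- ▼ part R185/Ev8
section

/-!
# R185, block H3 (8): the guard on raw codes
-/

set_option autoImplicit false
set_option linter.unusedSectionVars false
set_option linter.unusedVariables false

namespace Crest.Agent.R185.Ev

open Crest.Agent.R292 Crest.Agent.R185.Re Crest.Agent.R185.Wu Crest.Agent.R185.Hot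
  Crest.Agent.R185.Smp

/-- codes of integers -/
abbrev RI : Type := ℕ × ℕ

/-- decoding of integers -/
def dI (p : RI) : ℤ := (p.1 : ℤ) - p.2

section cpt2

variable {α β : Type} [Primcodable α] [Primcodable β]

theorem cadd {f g : α → ℕ} (hf : Computable f) (hg : Computable g) :
    Computable fun a => f a + g a := Primrec.nat_add.to_comp.comp hf hg

theorem csub {f g : α → ℕ} (hf : Computable f) (hg : Computable g) :
    Computable fun a => f a - g a := Primrec.nat_sub.to_comp.comp hf hg


theorem cdiv {f g : α → ℕ} (hf : Computable f) (hg : Computable g) :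
    Computable fun a => f a / g a := Primrec.nat_div.to_comp.comp hf hg

theorem cmod {f g : α → ℕ} (hf : Computable f) (hg : Computable g) :
    Computable fun a => f a % g a := Primrec.nat_mod.to_comp.comp hf hg

end cpt2

/-- the code of the letter behind a door -/
def oI (M J : ℕ) (q : RI) : Option (Fin J) :=
  if (q.1 - q.2) / M = 0 then none else (List.finRange J)[(q.1 - q.2) / M - 1]?

theorem oI_comp (M J : ℕ) : Computable (oI M J) := by
  refine computable_ite_eq (cdiv (csub (by cpt) (by cpt)) (by cpt)) (by cpt) (by cpt) ?_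
  exact Computable.list_getElem?.comp (Computable.const _) (csub (cdiv (csub (by cpt) (by cpt)) (by cpt)) (by cpt))

theorem ltL_oI {C : Type} (L : List C) (M : ℕ) (q : RI) :
    ltL L (dI q / M) = (oI M L.length q).map L.get := by
  obtain ⟨a, b⟩ := q
  unfold oI ltL
  simp only
  have key : (1 ≤ dI (a, b) / (M : ℤ) ↔ (a - b) / M ≠ 0) ∧
      ((a - b) / M ≠ 0 → (dI (a, b) / (M : ℤ) - 1).toNat = (a - b) / M - 1) := by
    unfold dI
    simp only
    rcases le_total b a with h | h
    · have h1 : ((a : ℤ) - b) / (M : ℤ) = (((a - b) / M : ℕ) : ℤ) := by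
        rw [← Nat.cast_sub h]; norm_cast
      rw [h1]
      generalize (a - b) / M = k
      constructor
      · omega
      · intro h2; omega
    · have h1 : (a - b) / M = 0 := by rw [Nat.sub_eq_zero_of_le h, Nat.zero_div]
      have h2 : ((a : ℤ) - b) / (M : ℤ) ≤ 0 := by
        have h3 : ((a : ℤ) - b) ≤ 0 := by omega
        rcases Nat.eq_zero_or_pos M with h4 | h4
        · simp [h4]
        · exact Int.ediv_nonpos_of_nonpos_of_neg h3 (by exact_mod_cast h4)
      rw [h1]
      constructor
      · constructor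
        · intro h3; omega
        · intro h3; exact absurd rfl h3
      · intro h3; exact absurd rfl h3
  by_cases h : (a - b) / M = 0
  · rw [if_neg (fun h1 => key.1.1 h1 h), if_pos h]; rfl
  · rw [if_pos (key.1.2 h), if_neg h, key.2 h]
    rcases lt_or_ge ((a - b) / M - 1) L.length with h1 | h1
    · rw [List.getElem?_eq_getElem h1, List.getElem?_eq_getElem (by simpa using h1)]
      simp
    · rw [List.getElem?_eq_none h1, List.getElem?_eq_none (by simpa using h1)]
      rfl

section guard

variable {σ W ε : Type} [Primcodable W] [Primcodable ε] {orc : σ → W → Prop}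
variable {Z : ε → σ → Type} {R : Type} [Primcodable R] {dec : ∀ e s, R → Z e s}

/-- decoding of integers as a family -/
abbrev cI : ε → σ → RI → ℤ := fun _ _ => dI

theorem Lay.int : Lay orc (ε := ε) (Y := fun _ _ => ℤ) cI where
  eq := by
    refine (ORE.eq (f := fun x : ε × RI × RI => x.2.1.1 + x.2.2.2)
      (g := fun x : ε × RI × RI => x.2.2.1 + x.2.1.2) (cadd (by cpt) (by cpt))
      (cadd (by cpt) (by cpt))).congr fun s x => ?_
    obtain ⟨e, ⟨a, b⟩, ⟨c, d⟩⟩ := x
    simp only [cI, dI]
    omega
  ne := by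
    refine (ORE.ne (f := fun x : ε × RI × RI => x.2.1.1 + x.2.2.2)
      (g := fun x : ε × RI × RI => x.2.2.1 + x.2.1.2) (cadd (by cpt) (by cpt))
      (cadd (by cpt) (by cpt))).congr fun s x => ?_
    obtain ⟨e, ⟨a, b⟩, ⟨c, d⟩⟩ := x
    simp only [cI, dI]
    omega

/-- raw codes of guard points -/
abbrev RGd (R : Type) : Type := (RI × RI × RI) × R

/-- decoding of guard points -/
abbrev decGd (dec : ∀ e s, R → Z e s) : ∀ e s, RGd R → GX (Z e s) :=
  dprod (Y := fun _ _ => GP) (Y' := Z)
    (dprod (Y := fun _ _ => ℤ) (Y' := fun _ _ => ℤ × ℤ) cI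
      (dprod (Y := fun _ _ => ℤ) (Y' := fun _ _ => ℤ) cI cI)) dec

theorem Lay.guard (h : Lay orc dec) : Lay orc (decGd dec) :=
  (Lay.int.prod (Lay.int.prod Lay.int)).prod h

variable {C : Type} {p : ∀ e s, C → Equiv.Perm (Z e s)}

/-- the labels -/
theorem rr_sig (M : ℕ) (L : List C) (hp : ∀ c, RP orc dec (fun e s => p e s c)) (b : Bool) :
    RR orc (fun _ _ => True) (fun s (x : ε × RI × R) r' =>
      dec x.1 s r' = (if b then sig (ltL L) (p x.1 s) (dI x.2.1 / M) else
        (sig (ltL L) (p x.1 s) (dI x.2.1 / M))⁻¹) (dec x.1 s x.2.2)) := by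
  have h1 : RR orc (fun _ _ => True) (fun s (x : ε × Option (Fin L.length) × R) r' =>
      dec x.1 s r' = (if b then ((x.2.1.map L.get).elim 1 (p x.1 s) : Equiv.Perm (Z x.1 s)) else
        ((x.2.1.map L.get).elim 1 (p x.1 s))⁻¹) (dec x.1 s x.2.2)) := by
    apply RR.finite
    rintro (_ | i)
    · refine RR.fn (F := fun x : ε × R => x.2) (by cpt) ?_
      rintro s ⟨e, r⟩ _
      cases b <;> simp
    · cases b
      · exact RR.mono (hp (L.get i)).2 (fun _ _ h => h) (fun s x r' _ h => h)
      · exact RR.mono (hp (L.get i)).1 (fun _ _ h => h) (fun s x r' _ h => h)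
  have h2 : Computable fun x : ε × RI × R => oI M L.length x.2.1 :=
    (oI_comp M L.length).comp (by cpt)
  refine RR.mono (RR.comp (f := fun x : ε × RI × R => (x.1, oI M L.length x.2.1, x.2.2)) h1
    (by cpt)) (fun _ _ h => h) ?_
  rintro s ⟨e, q, r⟩ r' _ h3
  simp only at h3 ⊢
  rw [h3]
  unfold sig
  rw [ltL_oI]

/-- the door condition -/
theorem door_iff (M : ℕ) (q : RI) : Door M (dI q) ↔ (q.1 % M = q.2 % M ∧ q.1 ≠ q.2) := by
  obtain ⟨a, b⟩ := q
  unfold Door dI
  simp only
  have h1 : (M : ℤ) ∣ (a : ℤ) - b ↔ a % M = b % M := by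
    rw [← Nat.modEq_iff_dvd]
    constructor
    · intro h; exact h.symm
    · intro h; exact h.symm
  rw [h1]
  constructor
  · rintro ⟨h2, h3⟩; exact ⟨h2, by omega⟩
  · rintro ⟨h2, h3⟩; exact ⟨h2, by omega⟩

variable {α : Type} [Primcodable α]

theorem ore_door (M : ℕ) {f : α → RI} (hf : Computable f) :
    ORE orc (fun _ x => Door M (dI (f x))) := by
  refine (ORE.and (ORE.eq (f := fun x => (f x).1 % M) (g := fun x => (f x).2 % M)
    (cmod (cfst hf) (by cpt)) (cmod (csnd hf) (by cpt)))
    (ORE.ne (f := fun x => (f x).1) (g := fun x => (f x).2) (cfst hf) (csnd hf))).congr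
    fun s x => door_iff M (f x)

theorem ore_ndoor (M : ℕ) {f : α → RI} (hf : Computable f) :
    ORE orc (fun _ x => ¬ Door M (dI (f x))) := by
  refine (ORE.or (ORE.ne (f := fun x => (f x).1 % M) (g := fun x => (f x).2 % M)
    (cmod (cfst hf) (by cpt)) (cmod (csnd hf) (by cpt)))
    (ORE.eq (f := fun x => (f x).1) (g := fun x => (f x).2) (cfst hf) (csnd hf))).congr
    fun s x => by rw [door_iff M (f x)]; tauto

theorem ore_eqk (k : ℕ) {f : α → RI} (hf : Computable f) :
    ORE orc (fun _ x => dI (f x) = k) := by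
  refine (ORE.eq (f := fun x => (f x).1) (g := fun x => (f x).2 + k) (cfst hf)
    (cadd (csnd hf) (by cpt))).congr fun s x => ?_
  unfold dI; omega

theorem ore_nek (k : ℕ) {f : α → RI} (hf : Computable f) :
    ORE orc (fun _ x => ¬ dI (f x) = k) := by
  refine (ORE.ne (f := fun x => (f x).1) (g := fun x => (f x).2 + k) (cfst hf)
    (cadd (csnd hf) (by cpt))).congr fun s x => ?_
  unfold dI; omega

theorem ore_neg {f : α → RI} (hf : Computable f) : ORE orc (fun _ x => dI (f x) < 0) := by
  have h1 : ORE orc (fun _ (x : α × ℕ) => (f x.1).2 = (f x.1).1 + x.2 + 1) :=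
    ORE.eq (csnd (hf.comp (by cpt))) (cadd (cadd (cfst (hf.comp (by cpt))) (by cpt)) (by cpt))
  refine h1.ex.congr fun s x => ?_
  simp only
  unfold dI
  constructor
  · intro h; exact ⟨(f x).2 - (f x).1 - 1, by omega⟩
  · rintro ⟨k, h⟩; omega

theorem ore_nneg {f : α → RI} (hf : Computable f) : ORE orc (fun _ x => ¬ dI (f x) < 0) := by
  have h1 : ORE orc (fun _ (x : α × ℕ) => (f x.1).1 = (f x.1).2 + x.2) :=
    ORE.eq (cfst (hf.comp (by cpt))) (cadd (csnd (hf.comp (by cpt))) (by cpt))
  refine h1.ex.congr fun s x => ?_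
  simp only
  unfold dI
  constructor
  · intro h; exact ⟨(f x).1 - (f x).2, by omega⟩
  · rintro ⟨k, h⟩; omega

theorem dI_succ (a b : ℕ) : dI (a + 1, b) = dI (a, b) + 1 := by simp only [dI]; omega

theorem dI_pred (a b : ℕ) : dI (a, b + 1) = dI (a, b) - 1 := by simp only [dI]; omega

theorem rlz_x (M : ℕ) (L : List C) (hp : ∀ c, RP orc dec (fun e s => p e s c)) (b : Bool) :
    Rlz orc (decGd dec) (decGd dec) (fun e s => gstep M (sig (ltL L) (p e s)) (.x, b)) := by
  cases b
  · refine RR.fn (F := fun x : ε × RGd R => (((x.2.1.1.1, x.2.1.1.2 + 1), x.2.1.2), x.2.2))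
      (by cpt) ?_
    rintro s ⟨e, ⟨⟨a, b⟩, j, n⟩, r⟩ _
    change (((dI (a, b + 1), dI j, dI n), dec e s r) : GX (Z e s)) =
      ((dI (a, b) - 1, dI j, dI n), dec e s r)
    rw [dI_pred]
  · refine RR.fn (F := fun x : ε × RGd R => (((x.2.1.1.1 + 1, x.2.1.1.2), x.2.1.2), x.2.2))
      (by cpt) ?_
    rintro s ⟨e, ⟨⟨a, b⟩, j, n⟩, r⟩ _
    change (((dI (a + 1, b), dI j, dI n), dec e s r) : GX (Z e s)) =
      ((dI (a, b) + 1, dI j, dI n), dec e s r)
    rw [dI_succ]

theorem rlz_t (M : ℕ) (L : List C) (hp : ∀ c, RP orc dec (fun e s => p e s c)) (b : Bool) :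
    Rlz orc (decGd dec) (decGd dec) (fun e s => gstep M (sig (ltL L) (p e s)) (.t, b)) := by
  refine RR.cases (c1 := fun _ (x : ε × RGd R) => dI x.2.1.1 = (0 : ℕ) ∧ dI x.2.1.2.1 = (0 : ℕ))
    (c2 := fun _ (x : ε × RGd R) => ¬ dI x.2.1.1 = (0 : ℕ) ∨ ¬ dI x.2.1.2.1 = (0 : ℕ))
    ((ore_eqk 0 (by cpt)).and (ore_eqk 0 (by cpt))) ((ore_nek 0 (by cpt)).or (ore_nek 0 (by cpt)))
    (fun s x _ => by tauto) ?_ ?_
  · cases b
    · refine RR.fn (F := fun x : ε × RGd R =>
        ((x.2.1.1, x.2.1.2.1, (x.2.1.2.2.1, x.2.1.2.2.2 + 1)), x.2.2)) (by cpt) ?_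
      rintro s ⟨e, ⟨i, j, ⟨a, b⟩⟩, r⟩ ⟨-, h1, h2⟩
      change (((dI i, dI j, dI (a, b + 1)), dec e s r) : GX (Z e s)) =
        ((if dI i = 0 ∧ dI j = 0 then (dI i, dI j, dI (a, b) - 1) else (dI i, dI j, dI (a, b))),
          dec e s r)
      rw [if_pos ⟨h1, h2⟩, dI_pred]
    · refine RR.fn (F := fun x : ε × RGd R =>
        ((x.2.1.1, x.2.1.2.1, (x.2.1.2.2.1 + 1, x.2.1.2.2.2)), x.2.2)) (by cpt) ?_
      rintro s ⟨e, ⟨i, j, ⟨a, b⟩⟩, r⟩ ⟨-, h1, h2⟩
      change (((dI i, dI j, dI (a + 1, b)), dec e s r) : GX (Z e s)) =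
        ((if dI i = 0 ∧ dI j = 0 then (dI i, dI j, dI (a, b) + 1) else (dI i, dI j, dI (a, b))),
          dec e s r)
      rw [if_pos ⟨h1, h2⟩, dI_succ]
  · refine RR.fn (F := fun x : ε × RGd R => x.2) (by cpt) ?_
    rintro s ⟨e, ⟨i, j, n⟩, r⟩ ⟨-, h1⟩
    have h2 : ¬ (dI i = 0 ∧ dI j = 0) := by
      rintro ⟨h3, h4⟩
      rcases h1 with h1 | h1
      · exact h1 h3
      · exact h1 h4
    cases b
    · change (((dI i, dI j, dI n), dec e s r) : GX (Z e s)) =
        ((if dI i = 0 ∧ dI j = 0 then (dI i, dI j, dI n - 1) else (dI i, dI j, dI n)), dec e s r)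
      rw [if_neg h2]
    · change (((dI i, dI j, dI n), dec e s r) : GX (Z e s)) =
        ((if dI i = 0 ∧ dI j = 0 then (dI i, dI j, dI n + 1) else (dI i, dI j, dI n)), dec e s r)
      rw [if_neg h2]

theorem rlz_y (M : ℕ) (L : List C) (hp : ∀ c, RP orc dec (fun e s => p e s c)) (b : Bool) :
    Rlz orc (decGd dec) (decGd dec) (fun e s => gstep M (sig (ltL L) (p e s)) (.y, b)) := by
  refine RR.cases (c1 := fun _ (x : ε × RGd R) => Door M (dI x.2.1.1))
    (c2 := fun _ (x : ε × RGd R) => ¬ Door M (dI x.2.1.1))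
    (ore_door M (by cpt)) (ore_ndoor M (by cpt)) (fun s x _ => em _) ?_ ?_
  · cases b
    · refine RR.cases (c1 := fun _ (x : ε × RGd R) =>
        dI x.2.1.2.1 = (1 : ℕ) ∧ dI x.2.1.2.2 < 0) (c2 := fun _ (x : ε × RGd R) =>
        ¬ dI x.2.1.2.1 = (1 : ℕ) ∨ ¬ dI x.2.1.2.2 < 0)
        ((ore_eqk 1 (by cpt)).and (ore_neg (by cpt))) ((ore_nek 1 (by cpt)).or (ore_nneg (by cpt)))
        (fun s x _ => by tauto) ?_ ?_
      · refine RR.map (RR.mono (RR.comp (f := fun x : ε × RGd R => (x.1, x.2.1.1, x.2.2))
          (rr_sig M L hp false) (by cpt)) (fun _ _ _ => trivial) (fun _ _ _ _ h => h))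
          (F := fun x : (ε × RGd R) × R =>
          ((x.1.2.1.1, (x.1.2.1.2.1.1, x.1.2.1.2.1.2 + 1), x.1.2.1.2.2), x.2)) (by cpt) ?_
        rintro s ⟨e, ⟨i, ⟨a, b⟩, n⟩, r⟩ r' ⟨⟨-, h1⟩, h2, h3⟩ h4
        simp only [Bool.false_eq_true, if_false] at h1 h2 h3 h4 ⊢
        change (((dI i, dI (a, b + 1), dI n), dec e s r') : GX (Z e s)) =
          ((if Door M (dI i) then (dI i, dI (a, b) - 1, dI n) else (dI i, dI (a, b), dI n)),
          (if Door M (dI i) ∧ dI (a, b) = 1 ∧ dI n < 0 then
            (sig (ltL L) (p e s) (dI i / M))⁻¹ else 1) (dec e s r))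
        rw [if_pos h1, if_pos ⟨h1, h2, h3⟩, dI_pred, h4]
      · refine RR.fn (F := fun x : ε × RGd R =>
          ((x.2.1.1, (x.2.1.2.1.1, x.2.1.2.1.2 + 1), x.2.1.2.2), x.2.2)) (by cpt) ?_
        rintro s ⟨e, ⟨i, ⟨a, b⟩, n⟩, r⟩ ⟨⟨-, h1⟩, h2⟩
        simp only at h1 h2 ⊢
        change (((dI i, dI (a, b + 1), dI n), dec e s r) : GX (Z e s)) =
          ((if Door M (dI i) then (dI i, dI (a, b) - 1, dI n) else (dI i, dI (a, b), dI n)),
          (if Door M (dI i) ∧ dI (a, b) = 1 ∧ dI n < 0 then
            (sig (ltL L) (p e s) (dI i / M))⁻¹ else 1) (dec e s r))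
        rw [if_pos h1, if_neg, dI_pred]
        · rfl
        · rintro ⟨-, h3, h4⟩
          rcases h2 with h2 | h2
          · exact h2 h3
          · exact h2 h4
    · refine RR.cases (c1 := fun _ (x : ε × RGd R) =>
        dI x.2.1.2.1 = (0 : ℕ) ∧ dI x.2.1.2.2 < 0) (c2 := fun _ (x : ε × RGd R) =>
        ¬ dI x.2.1.2.1 = (0 : ℕ) ∨ ¬ dI x.2.1.2.2 < 0)
        ((ore_eqk 0 (by cpt)).and (ore_neg (by cpt))) ((ore_nek 0 (by cpt)).or (ore_nneg (by cpt)))
        (fun s x _ => by tauto) ?_ ?_
      · refine RR.map (RR.mono (RR.comp (f := fun x : ε × RGd R => (x.1, x.2.1.1, x.2.2))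
          (rr_sig M L hp true) (by cpt)) (fun _ _ _ => trivial) (fun _ _ _ _ h => h))
          (F := fun x : (ε × RGd R) × R =>
          ((x.1.2.1.1, (x.1.2.1.2.1.1 + 1, x.1.2.1.2.1.2), x.1.2.1.2.2), x.2)) (by cpt) ?_
        rintro s ⟨e, ⟨i, ⟨a, b⟩, n⟩, r⟩ r' ⟨⟨-, h1⟩, h2, h3⟩ h4
        simp only [if_true] at h1 h2 h3 h4 ⊢
        change (((dI i, dI (a + 1, b), dI n), dec e s r') : GX (Z e s)) =
          ((if Door M (dI i) then (dI i, dI (a, b) + 1, dI n) else (dI i, dI (a, b), dI n)),
          (if Door M (dI i) ∧ dI (a, b) = 0 ∧ dI n < 0 then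
            sig (ltL L) (p e s) (dI i / M) else 1) (dec e s r))
        rw [if_pos h1, if_pos ⟨h1, h2, h3⟩, dI_succ, h4]
      · refine RR.fn (F := fun x : ε × RGd R =>
          ((x.2.1.1, (x.2.1.2.1.1 + 1, x.2.1.2.1.2), x.2.1.2.2), x.2.2)) (by cpt) ?_
        rintro s ⟨e, ⟨i, ⟨a, b⟩, n⟩, r⟩ ⟨⟨-, h1⟩, h2⟩
        simp only at h1 h2 ⊢
        change (((dI i, dI (a + 1, b), dI n), dec e s r) : GX (Z e s)) =
          ((if Door M (dI i) then (dI i, dI (a, b) + 1, dI n) else (dI i, dI (a, b), dI n)),
          (if Door M (dI i) ∧ dI (a, b) = 0 ∧ dI n < 0 then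
            sig (ltL L) (p e s) (dI i / M) else 1) (dec e s r))
        rw [if_pos h1, if_neg, dI_succ]
        · rfl
        · rintro ⟨-, h3, h4⟩
          rcases h2 with h2 | h2
          · exact h2 h3
          · exact h2 h4
  · refine RR.fn (F := fun x : ε × RGd R => x.2) (by cpt) ?_
    rintro s ⟨e, ⟨i, j, n⟩, r⟩ ⟨-, h1⟩
    simp only at h1
    cases b
    · change (((dI i, dI j, dI n), dec e s r) : GX (Z e s)) =
        ((if Door M (dI i) then (dI i, dI j - 1, dI n) else (dI i, dI j, dI n)),
        (if Door M (dI i) ∧ dI j = 1 ∧ dI n < 0 then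
          (sig (ltL L) (p e s) (dI i / M))⁻¹ else 1) (dec e s r))
      rw [if_neg h1, if_neg (fun h => h1 h.1)]
      rfl
    · change (((dI i, dI j, dI n), dec e s r) : GX (Z e s)) =
        ((if Door M (dI i) then (dI i, dI j + 1, dI n) else (dI i, dI j, dI n)),
        (if Door M (dI i) ∧ dI j = 0 ∧ dI n < 0 then
          sig (ltL L) (p e s) (dI i / M) else 1) (dec e s r))
      rw [if_neg h1, if_neg (fun h => h1 h.1)]
      rfl

/-- **the guard letters are realised in both directions** -/
theorem rp_gperm (M : ℕ) (L : List C) (hp : ∀ c, RP orc dec (fun e s => p e s c)) (a : GdL) :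
    RP orc (decGd dec) (fun e s => gperm M (sig (ltL L) (p e s)) a) := by
  cases a with
  | x => exact ⟨rlz_x M L hp true, rlz_x M L hp false⟩
  | y => exact ⟨rlz_y M L hp true, rlz_y M L hp false⟩
  | t => exact ⟨rlz_t M L hp true, rlz_t M L hp false⟩

end guard

end Crest.Agent.R185.Ev
end

-- ▼ part R185/Ev9
section

/-!
# R185, block H3 (9): membership in the stabiliser `gzS` is r.e. and co-r.e. in the oracle
-/

set_option autoImplicit false
set_option linter.unusedSectionVars false
set_option linter.unusedVariables false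

namespace Crest.Agent.R185.Ev

open Crest.Agent.R292 Crest.Agent.R185.Re Crest.Agent.R185.Wu Crest.Agent.R185.Hot
  Crest.Agent.R185.Smp

instance finite_GdL : Finite GdL := by
  have : Function.Surjective (fun i : Fin 3 => (![GdL.x, GdL.y, GdL.t] i)) := by
    intro a
    cases a with
    | x => exact ⟨0, rfl⟩
    | y => exact ⟨1, rfl⟩
    | t => exact ⟨2, rfl⟩
  exact Finite.of_surjective _ this

section stage

variable {σ W ε : Type} [Primcodable W] [Primcodable ε] {orc : σ → W → Prop}
variable {Y : ε → σ → Type} {R : Type} [Primcodable R] {dec : ∀ e s, R → Y e s}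
variable {G A B : Type} [Group G] [Primcodable B] {gB : B → G}
variable {y₀ : ∀ e s, Y e s} {r₀ : ε → R} {pa : ∀ e s, A → Equiv.Perm (Y e s)}

/-- **H3, guard + ZZ layer** -/
theorem ore_gzS [Primcodable GdL] (M : ℕ) (L : List (KLet A B))
    (hwp : ComputablePred fun w : List (B × Bool) => FreeGroup.lift gB (FreeGroup.mk w) = 1)
    (h : Lay orc dec) (hr : Computable r₀) (hy : ∀ e s, dec e s (r₀ e) = y₀ e s)
    (hpa : ∀ a, RP orc dec (fun e s => pa e s a)) :
    ORE orc (fun s (x : ε × List (GdL × Bool)) =>
      FreeGroup.mk x.2 ∈ gzS M (ltL L) gB (y₀ x.1 s) (pa x.1 s)) := by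
  have hG : Lay orc (ε := ε) (Y := fun _ _ => G) (fun _ _ => decG gB) := Lay.grp hwp
  have hk := fun c => rp_kact (A := A) h hG hr hy hpa c
  have hg := fun a => rp_gperm M L (p := fun e s => kact gB (y₀ e s) (pa e s)) hk a
  exact ore_fix (p := fun e s => gzP M (ltL L) gB (y₀ e s) (pa e s))
    (r₀ := fun _ : ε => ((((0, 0), (0, 0), (0, 0)), Sum.inr (Sum.inl 0)) : RGd (RZ R B)))
    (y₀ := fun e s => gz0 G (Y e s)) (h.zz hG).guard hg (ccst _) (fun e s => rfl)

theorem ore_ngzS [Primcodable GdL] (M : ℕ) (L : List (KLet A B))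
    (hwp : ComputablePred fun w : List (B × Bool) => FreeGroup.lift gB (FreeGroup.mk w) = 1)
    (h : Lay orc dec) (hr : Computable r₀) (hy : ∀ e s, dec e s (r₀ e) = y₀ e s)
    (hpa : ∀ a, RP orc dec (fun e s => pa e s a)) :
    ORE orc (fun s (x : ε × List (GdL × Bool)) =>
      ¬ FreeGroup.mk x.2 ∈ gzS M (ltL L) gB (y₀ x.1 s) (pa x.1 s)) := by
  have hG : Lay orc (ε := ε) (Y := fun _ _ => G) (fun _ _ => decG gB) := Lay.grp hwp
  have hk := fun c => rp_kact (A := A) h hG hr hy hpa c
  have hg := fun a => rp_gperm M L (p := fun e s => kact gB (y₀ e s) (pa e s)) hk a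
  exact ore_nfix (p := fun e s => gzP M (ltL L) gB (y₀ e s) (pa e s))
    (r₀ := fun _ : ε => ((((0, 0), (0, 0), (0, 0)), Sum.inr (Sum.inl 0)) : RGd (RZ R B)))
    (y₀ := fun e s => gz0 G (Y e s)) (h.zz hG).guard hg (ccst _) (fun e s => rfl)

end stage

section final

variable {ε : Type} [Primcodable ε]
variable {Y : ε → Subgroup (FreeGroup GdL) → Type} {R : Type} [Primcodable R]
  {dec : ∀ e s, R → Y e s}
variable {G A B : Type} [Group G] [Primcodable B] {gB : B → G}
variable {y₀ : ∀ e s, Y e s} {r₀ : ε → R} {pa : ∀ e s, A → Equiv.Perm (Y e s)}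

/-- the oracle: membership in the subgroup -/
def orcS [Primcodable GdL] (s : Subgroup (FreeGroup GdL)) (w : List (GdL × Bool)) : Prop :=
  FreeGroup.mk w ∈ s

/-- **H3**: all levels of `Φ e S := Stab (guard base point over ZZ G (Y e S))` are computable -/
theorem levels_gzS [Primcodable GdL] (M : ℕ) (L : List (KLet A B))
    (hwp : ComputablePred fun w : List (B × Bool) => FreeGroup.lift gB (FreeGroup.mk w) = 1)
    (h : Lay orcS dec) (hr : Computable r₀) (hy : ∀ e s, dec e s (r₀ e) = y₀ e s)
    (hpa : ∀ a, RP orcS dec (fun e s => pa e s a))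
    {Φ : ε → Subgroup (FreeGroup GdL) → Subgroup (FreeGroup GdL)}
    (hΦ : ∀ e s, Φ e s = gzS M (ltL L) gB (y₀ e s) (pa e s)) :
    ComputablePred fun x : ε × ℕ × List (GdL × Bool) =>
      FreeGroup.mk x.2.2 ∈ (Φ x.1)^[x.2.1] (⊤ : Subgroup (FreeGroup GdL)) := by
  apply computable_levels (Φ := Φ)
  · exact (ore_gzS (orc := orcS) M L hwp h hr hy hpa).congr fun s x => by rw [hΦ]
  · exact (ore_ngzS (orc := orcS) M L hwp h hr hy hpa).congr fun s x => by rw [hΦ]

theorem lev_eq {A : Type} {Φ : ε → Subgroup (FreeGroup A) → Subgroup (FreeGroup A)} (e : ε)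
    (i : ℕ) : Hub.lev Φ e i = (Φ e)^[i] (⊤ : Subgroup (FreeGroup A)) := by
  induction i with
  | zero => rfl
  | succ i ih =>
    rw [Function.iterate_succ_apply', ← ih]
    rfl

/-- **H3 in the format of `Hub.hub_machine`** -/
theorem H3_gzS [Primcodable GdL] (M : ℕ) (L : List (KLet A B))
    (hwp : ComputablePred fun w : List (B × Bool) => FreeGroup.lift gB (FreeGroup.mk w) = 1)
    (h : Lay orcS dec) (hr : Computable r₀) (hy : ∀ e s, dec e s (r₀ e) = y₀ e s)
    (hpa : ∀ a, RP orcS dec (fun e s => pa e s a))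
    {Φ : ε → Subgroup (FreeGroup GdL) → Subgroup (FreeGroup GdL)}
    (hΦ : ∀ e s, Φ e s = gzS M (ltL L) gB (y₀ e s) (pa e s)) :
    ComputablePred fun x : ε × ℕ × List (GdL × Bool) =>
      FreeGroup.mk x.2.2 ∈ Hub.lev Φ x.1 x.2.1 := by
  have h1 := levels_gzS M L hwp h hr hy hpa hΦ
  have h2 : (fun x : ε × ℕ × List (GdL × Bool) => FreeGroup.mk x.2.2 ∈ Hub.lev Φ x.1 x.2.1) =
      fun x : ε × ℕ × List (GdL × Bool) =>
      FreeGroup.mk x.2.2 ∈ (Φ x.1)^[x.2.1] (⊤ : Subgroup (FreeGroup GdL)) := by
    funext x
    rw [lev_eq]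
  rw [h2]
  exact h1

end final

end Crest.Agent.R185.Ev
end

-- ▼ part R185/She6
section

/-!
# R185, block H3 (6): `LevOK` from the computability of the witness
-/

set_option autoImplicit false
set_option linter.unusedSectionVars false
set_option linter.style.haveILetI false

namespace Crest.Agent.R185.She

open Equiv Crest.Agent.R292 Crest.Agent.R185.Re Crest.Agent.R185.Ev
  Crest.Agent.R185.Md191C Crest.Agent.R185.Md191D Crest.Agent.R185.Md191E
  Crest.Agent.R185.Asm Crest.Agent.R185.Smp
open Crest.Agent.R185.Clk (UM)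
open Crest.Agent.R185.Wit (Hg Ls eps)
open Crest.Agent.R185.Tab (AccG kap kap_spec)

section family

variable {A : Type} [Primcodable A] [DecidableEq A]

/-- the family of witnesses -/
noncomputable def TU (U : UM (A × Bool)) (e : ℕ) : Wt (Option (A × Bool)) (HU U) where
  H := Hg (U.ws e)
  grp := inferInstance
  L := Ls (U.ws e)
  ε := eps (U.ws e)
  Acc := AccG (U.ws e)
  ok := Tab.witOK (U.ws e)
  κ := kap (U.ws e)
  hκ := kap_spec (U.ws e)
  gen := FreeGroup.lift (hlA U e)

end family

/-- **H3 from the computability of the witness** -/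
theorem levOK_of (h : ∀ U : UM (GdL × Bool), WtC (TU U)) : Asm.LevOK := by
  intro U G B _ _ _ eG hwp M
  have hT := h U
  have hlay := lay_YS (T := TU U) hT
  refine Ev.H3_gzS (ε := ℕ) (Y := fun e S => YU U e S) (dec := decYS (TU U))
    (y₀ := fun e S => yU U e S) (pa := fun e S => pU U e S) (r₀ := fun _ => rY0 [])
    (Φ := Phi U eG M) M (allL (KLet (UU U) B)) hwp ?_ (Computable.const _) ?_ ?_ ?_
  · exact hlay
  · intro e S
    exact decYS_r0 (T := TU U) e S
  · intro a
    exact rpm_YS (T := TU U) hT a
  · intro e S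
    rfl

end Crest.Agent.R185.She
end

-- ▼ part R185/Cw459A
section

/-!
# R185, computability of the witness, part A: raw points of an affine rule system

`Tm S` is Primcodable; `fs`, `bs`, the letters and the evaluation of words are primitive recursive
on raw points `S.V × Tm S`.
-/

set_option autoImplicit false
set_option linter.unusedSectionVars false

namespace Crest.Agent.R185.Cw

open Crest.Agent.R185.Wit Crest.Agent.Lib.RatPrimrec

/-! ### general tools -/

section tools

variable {α β γ σ : Type*} [Primcodable α] [Primcodable β] [Primcodable γ] [Primcodable σ]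

/-- a function with a finite first argument is primitive recursive if all its sections are -/
theorem primrec₂_of_finite [Finite α] {f : α → β → σ} (h : ∀ a, Primrec (f a)) : Primrec₂ f := by
  obtain ⟨n, ⟨e⟩⟩ := Finite.exists_equiv_fin α
  have h1 : Primrec₂ fun (i : Fin n) (b : β) => f (e.symm i) b :=
    Primrec.fin_curry₁.2 fun i => h _
  have h2 : Primrec (e : α → Fin n) := Primrec.dom_finite _
  refine (h1.comp (h2.comp Primrec.fst) Primrec.snd).of_eq fun x => ?_
  simp

/-- division of an integer by a positive integer -/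
theorem primrec_ediv_pos {f g : α → ℤ} (hf : Primrec f) (hg : Primrec g) (h : ∀ a, 0 < g a) :
    Primrec fun a => f a / g a := by
  refine (primrec_int_div_nat.comp hf (primrec_toNat.comp hg)).of_eq fun a => ?_
  rw [Int.toNat_of_nonneg (h a).le]

theorem primrec_emod_pos {f g : α → ℤ} (hf : Primrec f) (hg : Primrec g) (h : ∀ a, 0 < g a) :
    Primrec fun a => f a % g a := by
  refine (primrec_int_sub.comp hf (primrec_int_mul.comp hg (primrec_ediv_pos hf hg h))).of_eq
    fun a => ?_
  rw [Int.emod_def]

end tools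

variable {S : Sys}

/-! ### codes of terms -/

/-- code of a term -/
def tcode : Tm S → Option S.Q × List (S.Lam × Option S.V)
  | .base q => (q, [])
  | .fwd l e s => ((tcode s).1, (l, some e) :: (tcode s).2)
  | .bwd l s => ((tcode s).1, (l, none) :: (tcode s).2)

/-- the term of a code -/
def tdec (q : Option S.Q) : List (S.Lam × Option S.V) → Tm S
  | [] => .base q
  | (l, some e) :: L => .fwd l e (tdec q L)
  | (l, none) :: L => .bwd l (tdec q L)

theorem tdec_tcode (s : Tm S) : tdec (tcode s).1 (tcode s).2 = s := by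
  induction s with
  | base q => rfl
  | fwd l e s ih => simp only [tcode, tdec, ih]
  | bwd l s ih => simp only [tcode, tdec, ih]

theorem tcode_tdec (q : Option S.Q) (L : List (S.Lam × Option S.V)) : tcode (tdec q L) = (q, L) := by
  induction L with
  | nil => rfl
  | cons x L ih =>
    obtain ⟨l, _ | e⟩ := x
    · simp only [tdec, tcode, ih]
    · simp only [tdec, tcode, ih]

/-- terms as lists -/
def tequiv : Tm S ≃ Option S.Q × List (S.Lam × Option S.V) where
  toFun := tcode
  invFun x := tdec x.1 x.2
  left_inv := tdec_tcode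
  right_inv x := tcode_tdec x.1 x.2

@[simp] theorem tequiv_base (q : Option S.Q) : tequiv (.base q) = (q, []) := rfl
@[simp] theorem tequiv_fwd (l : S.Lam) (e : S.V) (s : Tm S) :
    tequiv (.fwd l e s) = ((tequiv s).1, (l, some e) :: (tequiv s).2) := rfl
@[simp] theorem tequiv_bwd (l : S.Lam) (s : Tm S) :
    tequiv (.bwd l s) = ((tequiv s).1, (l, none) :: (tequiv s).2) := rfl

/-- raw points -/
abbrev Pt (S : Sys) : Type := S.V × Tm S

/-- the raw point of a point -/
def cp (p : Om S) : Pt S := (p.1, p.2.1)

theorem cp_inj : Function.Injective (cp (S := S)) := by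
  rintro ⟨c, s, hs⟩ ⟨c', s', hs'⟩ h
  simp only [cp, Prod.mk.injEq] at h
  obtain ⟨rfl, rfl⟩ := h
  rfl

section prim

variable [Primcodable S.Q] [Primcodable S.Lam]

instance instTm : Primcodable (Tm S) := Primcodable.ofEquiv _ tequiv

theorem primrec_tequiv : Primrec (tequiv (S := S)) := Primrec.of_equiv

theorem primrec_tequiv_symm : Primrec (tequiv (S := S)).symm := Primrec.of_equiv_symm

variable [Finite S.Lam]

theorem primrec_B : Primrec S.B := Primrec.dom_finite _

theorem primrec_app {α : Type*} [Primcodable α] {n : ℕ} {f : α → Fin n → ℤ} {g : α → Fin n}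
    (hf : Primrec f) (hg : Primrec g) : Primrec fun a => f a (g a) :=
  Primrec.fin_app.comp hf hg

theorem primrec_quo : Primrec fun x : S.Lam × S.V => quo x.1 x.2 := by
  refine Primrec.fin_curry.2 ?_
  refine primrec_ediv_pos (f := fun y : (S.Lam × S.V) × Fin S.k => y.1.2 y.2)
    (g := fun y : (S.Lam × S.V) × Fin S.k => S.B y.1.1 y.2) ?_ ?_ (fun y => S.Bpos _ _)
  · exact primrec_app (Primrec.snd.comp Primrec.fst) Primrec.snd
  · exact primrec_app (primrec_B.comp (Primrec.fst.comp Primrec.fst)) Primrec.snd

theorem primrec_res : Primrec fun x : S.Lam × S.V => res x.1 x.2 := by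
  refine Primrec.fin_curry.2 ?_
  refine primrec_emod_pos (f := fun y : (S.Lam × S.V) × Fin S.k => y.1.2 y.2)
    (g := fun y : (S.Lam × S.V) × Fin S.k => S.B y.1.1 y.2) ?_ ?_ (fun y => S.Bpos _ _)
  · exact primrec_app (Primrec.snd.comp Primrec.fst) Primrec.snd
  · exact primrec_app (primrec_B.comp (Primrec.fst.comp Primrec.fst)) Primrec.snd

theorem primrec_mulB : Primrec fun x : S.Lam × S.V => mulB x.1 x.2 := by
  refine Primrec.fin_curry.2 ?_
  exact primrec_int_mul.comp (primrec_app (primrec_B.comp (Primrec.fst.comp Primrec.fst))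
    Primrec.snd) (primrec_app (Primrec.snd.comp Primrec.fst) Primrec.snd)

theorem primrec_vadd {n : ℕ} : Primrec₂ fun (v w : Fin n → ℤ) => v + w := by
  refine Primrec.fin_curry.2 ?_
  exact primrec_int_add.comp (primrec_app (Primrec.fst.comp Primrec.fst) Primrec.snd)
    (primrec_app (Primrec.snd.comp Primrec.fst) Primrec.snd)

/-- equality tests -/
theorem primrec_deq {α β : Type*} [Primcodable α] [Primcodable β] [DecidableEq β] {f g : α → β}
    (hf : Primrec f) (hg : Primrec g) : Primrec fun a => decide (f a = g a) := by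
  refine ((Primrec.eq (α := β)).decide.comp hf hg).of_eq fun a => ?_
  exact decide_eq_decide.2 Iff.rfl

/-- `fs` on codes -/
def fsC (l : S.Lam) (x : S.V × (Option S.Q × List (S.Lam × Option S.V))) :
    Option S.Q × List (S.Lam × Option S.V) :=
  List.casesOn x.2.2
    (bif decide (x.2.1 = some (S.src l)) && decide (x.1 = S.a l) then (some (S.tgt l), [])
      else (x.2.1, [(l, some x.1)]))
    (fun y t => bif decide (y.1 = l) && (decide (x.1 = 0) && !y.2.isSome) then (x.2.1, t)
      else (x.2.1, (l, some x.1) :: x.2.2))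

omit [Primcodable S.Q] [Primcodable S.Lam] [Finite S.Lam] in
theorem tequiv_fs (l : S.Lam) (e : S.V) (s : Tm S) :
    tequiv (fs l e s) = fsC l (e, tequiv s) := by
  cases s with
  | base q =>
    by_cases h : q = some (S.src l) <;> by_cases h2 : e = S.a l <;> simp [h, h2, fs, fsC]
  | fwd l' e' s' =>
    simp [fs, fsC]
  | bwd l' s' =>
    by_cases h : l' = l <;> by_cases h2 : e = 0 <;> simp [h, h2, fs, fsC]

theorem primrec_fs (l : S.Lam) : Primrec fun x : S.V × Tm S => fs l x.1 x.2 := by
  have h1 : Primrec (fsC l) := by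
    unfold fsC
    refine Primrec.list_casesOn (f := fun x : S.V × (Option S.Q × List (S.Lam × Option S.V)) =>
      x.2.2) (g := fun x => bif decide (x.2.1 = some (S.src l)) && decide (x.1 = S.a l) then
        (some (S.tgt l), []) else (x.2.1, [(l, some x.1)]))
      (h := fun x (p : (S.Lam × Option S.V) × List (S.Lam × Option S.V)) =>
        bif decide (p.1.1 = l) && (decide (x.1 = 0) && !p.1.2.isSome) then (x.2.1, p.2)
      else (x.2.1, (l, some x.1) :: x.2.2)) (Primrec.snd.comp Primrec.snd) ?_ ?_
    · refine Primrec.cond ?_ (Primrec.const _) ?_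
      · exact Primrec.and.comp (primrec_deq (Primrec.fst.comp Primrec.snd) (Primrec.const _))
          (primrec_deq Primrec.fst (Primrec.const _))
      · exact (Primrec.fst.comp Primrec.snd).pair (Primrec.list_cons.comp
          ((Primrec.const l).pair (Primrec.option_some.comp Primrec.fst)) (Primrec.const []))
    · refine Primrec.cond ?_ ?_ ?_
      · refine Primrec.and.comp (primrec_deq (Primrec.fst.comp (Primrec.fst.comp Primrec.snd))
          (Primrec.const _)) (Primrec.and.comp (primrec_deq (Primrec.fst.comp Primrec.fst)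
          (Primrec.const _)) ?_)
        exact Primrec.not.comp (Primrec.option_isSome.comp (Primrec.snd.comp
          (Primrec.fst.comp Primrec.snd)))
      · exact ((Primrec.fst.comp Primrec.snd).comp Primrec.fst).pair
          (Primrec.snd.comp Primrec.snd)
      · exact ((Primrec.fst.comp Primrec.snd).comp Primrec.fst).pair
          (Primrec.list_cons.comp ((Primrec.const l).pair (Primrec.option_some.comp
            (Primrec.fst.comp Primrec.fst))) ((Primrec.snd.comp Primrec.snd).comp Primrec.fst))
  refine (primrec_tequiv_symm.comp (h1.comp (Primrec.fst.pair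
    (primrec_tequiv.comp Primrec.snd)))).of_eq fun x => ?_
  rw [← tequiv_fs, Equiv.symm_apply_apply]

/-- `bs` on codes -/
def bsC (l : S.Lam) (x : Option S.Q × List (S.Lam × Option S.V)) :
    S.V × (Option S.Q × List (S.Lam × Option S.V)) :=
  List.casesOn x.2
    (bif decide (x.1 = some (S.tgt l)) then (S.a l, (some (S.src l), []))
      else (0, (x.1, [(l, none)])))
    (fun y t => bif decide (y.1 = l) && y.2.isSome then (y.2.getD 0, (x.1, t))
      else (0, (x.1, (l, none) :: x.2)))

omit [Primcodable S.Q] [Primcodable S.Lam] [Finite S.Lam] in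
theorem tequiv_bs (l : S.Lam) (s : Tm S) :
    ((bs l s).1, tequiv (bs l s).2) = bsC l (tequiv s) := by
  cases s with
  | base q =>
    by_cases h : q = some (S.tgt l) <;> simp [h, bs, bsC]
  | fwd l' e' s' =>
    by_cases h : l' = l <;> simp [h, bs, bsC]
  | bwd l' s' =>
    simp [bs, bsC]

theorem primrec_bs (l : S.Lam) : Primrec fun s : Tm S => bs l s := by
  have h1 : Primrec (bsC l) := by
    unfold bsC
    refine Primrec.list_casesOn (f := fun x : Option S.Q × List (S.Lam × Option S.V) =>
      x.2) (g := fun x => bif decide (x.1 = some (S.tgt l)) then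
        (S.a l, (some (S.src l), [])) else (0, (x.1, [(l, none)])))
      (h := fun x (p : (S.Lam × Option S.V) × List (S.Lam × Option S.V)) =>
        bif decide (p.1.1 = l) && p.1.2.isSome then (p.1.2.getD 0, (x.1, p.2))
      else (0, (x.1, (l, none) :: x.2))) Primrec.snd ?_ ?_
    · refine Primrec.cond ?_ (Primrec.const _) ?_
      · exact primrec_deq Primrec.fst (Primrec.const _)
      · exact (Primrec.const 0).pair (Primrec.fst.pair (Primrec.const _))
    · refine Primrec.cond ?_ ?_ ?_
      · exact Primrec.and.comp (primrec_deq (Primrec.fst.comp (Primrec.fst.comp Primrec.snd))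
          (Primrec.const _)) (Primrec.option_isSome.comp (Primrec.snd.comp
          (Primrec.fst.comp Primrec.snd)))
      · exact (Primrec.option_getD.comp (Primrec.snd.comp (Primrec.fst.comp Primrec.snd))
          (Primrec.const 0)).pair ((Primrec.fst.comp Primrec.fst).pair
          (Primrec.snd.comp Primrec.snd))
      · exact (Primrec.const 0).pair ((Primrec.fst.comp Primrec.fst).pair
          (Primrec.list_cons.comp (Primrec.const (l, none)) (Primrec.snd.comp Primrec.fst)))
  have h2 : Primrec fun x : S.V × (Option S.Q × List (S.Lam × Option S.V)) =>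
      (x.1, tequiv.symm x.2) := Primrec.fst.pair (primrec_tequiv_symm.comp Primrec.snd)
  refine (h2.comp (h1.comp primrec_tequiv)).of_eq fun s => ?_
  rw [← tequiv_bs]
  simp

end prim

/-! ### letters and words on raw points -/

/-- raw letters of `H` -/
abbrev HLr (S : Sys) : Type := Fin S.k ⊕ S.Lam ⊕ S.Q

/-- action of a letter on raw points -/
def lact (x : HLr S × Bool) (p : Pt S) : Pt S :=
  match x with
  | (.inl j, true) => (Pi.single j 1 + p.1, p.2)
  | (.inl j, false) => (-(Pi.single j 1) + p.1, p.2)
  | (.inr (.inl l), true) => (quo l p.1, fs l (res l p.1) p.2)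
  | (.inr (.inl l), false) => (mulB l p.1 + (bs l p.2).1, (bs l p.2).2)
  | (.inr (.inr _), _) => p

/-- action of a word on raw points -/
def evP (u : List (HLr S × Bool)) (p : Pt S) : Pt S := u.foldr lact p

@[simp] theorem evP_nil (p : Pt S) : evP [] p = p := rfl
@[simp] theorem evP_cons (x : HLr S × Bool) (u : List (HLr S × Bool)) (p : Pt S) :
    evP (x :: u) p = lact x (evP u p) := rfl

section prim2

variable [Primcodable S.Q] [Primcodable S.Lam] [Finite S.Lam] [Finite S.Q]

theorem primrec_lact : Primrec₂ (lact (S := S)) := by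
  refine primrec₂_of_finite fun x => ?_
  rcases x with ⟨j | l | q, _ | _⟩
  · exact (primrec_vadd.comp (Primrec.const _) Primrec.fst).pair Primrec.snd
  · exact (primrec_vadd.comp (Primrec.const _) Primrec.fst).pair Primrec.snd
  · exact (primrec_vadd.comp (primrec_mulB.comp ((Primrec.const l).pair Primrec.fst))
      (Primrec.fst.comp ((primrec_bs l).comp Primrec.snd))).pair
      (Primrec.snd.comp ((primrec_bs l).comp Primrec.snd))
  · exact (primrec_quo.comp ((Primrec.const l).pair Primrec.fst)).pair
      ((primrec_fs l).comp ((primrec_res.comp ((Primrec.const l).pair Primrec.fst)).pair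
        Primrec.snd))
  · exact Primrec.id
  · exact Primrec.id

theorem primrec_evP : Primrec₂ (evP (S := S)) := by
  refine Primrec.list_foldr (f := fun x : List (HLr S × Bool) × Pt S => x.1)
    (g := fun x : List (HLr S × Bool) × Pt S => x.2)
    (h := fun _ (y : (HLr S × Bool) × Pt S) => lact y.1 y.2) Primrec.fst Primrec.snd ?_
  exact primrec_lact.comp (Primrec.fst.comp Primrec.snd) (Primrec.snd.comp Primrec.snd)

end prim2

end Crest.Agent.R185.Cw
private theorem rz_42a8c0e52c : type_of% @_root_.Crest.Agent.R185.Cw.lact.eq_1 := @_root_.Crest.Agent.R185.Cw.lact.eq_1 -- L256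
private theorem rz_5c1ce8bc5d : type_of% @_root_.Crest.Agent.R185.Cw.tcode.eq_def := @_root_.Crest.Agent.R185.Cw.tcode.eq_def -- L53
private theorem rz_48611a40db : type_of% @_root_.Crest.Agent.R185.Cw.tcode.eq_1 := @_root_.Crest.Agent.R185.Cw.tcode.eq_1 -- L53
private theorem rz_91bdca53c9 : type_of% @_root_.Crest.Agent.R185.Cw.tdec.eq_def := @_root_.Crest.Agent.R185.Cw.tdec.eq_def -- L59
private theorem rz_ddc697c943 : type_of% @_root_.Crest.Agent.R185.Cw.tdec.eq_1 := @_root_.Crest.Agent.R185.Cw.tdec.eq_1 -- L59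
end

-- ▼ part R185/Cw459B
section

/-!
# R185, computability of the witness, part B: words in the letters of `H`

`hvl W u : Hg W` is the value of a word; `Rep l f` says that the list `l` of signed raw points
represents the element `f` of the free group on the points.
-/

set_option autoImplicit false
set_option linter.unusedSectionVars false

namespace Crest.Agent.R185.Cw

open Crest.Agent.R185.Wit

variable {R A : Type} [DecidableEq R] [DecidableEq A] (W : WS R A)

/-- values of the raw letters -/
def hlr : HLr W.toSys → Hg W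
  | .inl j => SemidirectProduct.inr (mx (S := W.toSys) (Pi.single j 1))
  | .inr (.inl l) => SemidirectProduct.inr (my (S := W.toSys) l)
  | .inr (.inr q) => ht W q

/-- values of the raw words -/
def hvl (u : List (HLr W.toSys × Bool)) : Hg W := FreeGroup.lift (hlr W) (FreeGroup.mk u)

/-- value of a signed letter -/
def sgn (x : HLr W.toSys × Bool) : Hg W := cond x.2 (hlr W x.1) (hlr W x.1)⁻¹

@[simp] theorem hvl_nil : hvl W [] = 1 := by simp [hvl, FreeGroup.lift_mk]

@[simp] theorem hvl_cons (x : HLr W.toSys × Bool) (u : List (HLr W.toSys × Bool)) :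
    hvl W (x :: u) = sgn W x * hvl W u := by simp [hvl, FreeGroup.lift_mk, sgn]

theorem hvl_append (u v : List (HLr W.toSys × Bool)) : hvl W (u ++ v) = hvl W u * hvl W v := by
  simp [hvl, ← FreeGroup.mul_mk]

theorem hvl_invRev (u : List (HLr W.toSys × Bool)) : hvl W (FreeGroup.invRev u) = (hvl W u)⁻¹ := by
  simp [hvl, ← FreeGroup.inv_mk]

theorem cp_act_sgn (x : HLr W.toSys × Bool) (p : Om W.toSys) :
    cp (act W.toSys (sgn W x).right p) = lact x (cp p) := by
  rcases x with ⟨j | l | q, _ | _⟩
  · simp only [sgn, cond_false, hlr, SemidirectProduct.inv_right, SemidirectProduct.right_inr]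
    rw [map_inv, act_mx]
    rfl
  · simp only [sgn, cond_true, hlr, SemidirectProduct.right_inr]
    rw [act_mx]
    rfl
  · simp only [sgn, cond_false, hlr, SemidirectProduct.inv_right, SemidirectProduct.right_inr]
    rw [map_inv, act_my]
    rfl
  · simp only [sgn, cond_true, hlr, SemidirectProduct.right_inr]
    rw [act_my]
    rfl
  · simp only [sgn, cond_false, hlr, ht, SemidirectProduct.inv_right, SemidirectProduct.right_inl]
    simp [lact]
  · simp only [sgn, cond_true, hlr, ht, SemidirectProduct.right_inl]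
    simp [lact]

theorem cp_act_hvl (u : List (HLr W.toSys × Bool)) (p : Om W.toSys) :
    cp (act W.toSys (hvl W u).right p) = evP u (cp p) := by
  induction u with
  | nil => simp
  | cons x u ih =>
    rw [hvl_cons, SemidirectProduct.mul_right, map_mul, Equiv.Perm.mul_apply, cp_act_sgn, ih,
      evP_cons]

/-! ### representation of elements of the free group on the points -/

variable {W}

/-- the signed raw points `l` represent `f` -/
def Rep (l : List (Pt W.toSys × Bool)) (f : FreeGroup (Om W.toSys)) : Prop :=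
  ∃ L : List (Om W.toSys × Bool), f = FreeGroup.mk L ∧ L.map (Prod.map cp id) = l

theorem Rep.one : Rep (W := W) [] 1 := ⟨[], FreeGroup.one_eq_mk, rfl⟩

theorem Rep.of (ω : Om W.toSys) (b : Bool) : Rep (W := W) [(cp ω, b)]
    (cond b (FreeGroup.of ω) (FreeGroup.of ω)⁻¹) := by
  refine ⟨[(ω, b)], ?_, rfl⟩
  cases b
  · rfl
  · rfl

theorem Rep.mul {l l' : List (Pt W.toSys × Bool)} {f f' : FreeGroup (Om W.toSys)}
    (h : Rep l f) (h' : Rep l' f') : Rep (l ++ l') (f * f') := by
  obtain ⟨L, rfl, rfl⟩ := h
  obtain ⟨L', rfl, rfl⟩ := h'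
  exact ⟨L ++ L', FreeGroup.mul_mk, List.map_append⟩

theorem Rep.act {l : List (Pt W.toSys × Bool)} {f : FreeGroup (Om W.toSys)} (h : Rep l f)
    (σ : Equiv.Perm (Om W.toSys)) (τ : Pt W.toSys → Pt W.toSys) (hτ : ∀ p, cp (σ p) = τ (cp p)) :
    Rep (l.map fun y => (τ y.1, y.2)) ((fgAut σ : MulAut (FreeGroup (Om W.toSys))) f) := by
  obtain ⟨L, rfl, rfl⟩ := h
  refine ⟨L.map fun y => (σ y.1, y.2), rfl, ?_⟩
  simp only [List.map_map]
  apply List.map_congr_left
  intro y _
  simp [hτ]

theorem map_reduce {α β : Type*} [DecidableEq α] [DecidableEq β] {f : α → β}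
    (hf : Function.Injective f) (L : List (α × Bool)) :
    (FreeGroup.reduce L).map (Prod.map f id) = FreeGroup.reduce (L.map (Prod.map f id)) := by
  induction L with
  | nil => rfl
  | cons x L ih =>
    rw [List.map_cons, FreeGroup.reduce.cons, FreeGroup.reduce.cons, ← ih]
    cases h : FreeGroup.reduce L with
    | nil => rfl
    | cons y t =>
      simp only [List.map_cons, Prod.map_fst, Prod.map_snd, id_eq, hf.eq_iff]
      split_ifs
      · rfl
      · rfl

theorem Rep.reduce {l : List (Pt W.toSys × Bool)} {f : FreeGroup (Om W.toSys)} (h : Rep l f) :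
    f.toWord.map (Prod.map cp id) = FreeGroup.reduce l := by
  obtain ⟨L, rfl, rfl⟩ := h
  rw [FreeGroup.toWord_mk, map_reduce cp_inj]

theorem Rep.eq_iff {l l' : List (Pt W.toSys × Bool)} {f f' : FreeGroup (Om W.toSys)}
    (h : Rep l f) (h' : Rep l' f') : f = f' ↔ FreeGroup.reduce l = FreeGroup.reduce l' := by
  rw [← h.reduce, ← h'.reduce, ← FreeGroup.toWord_inj]
  constructor
  · intro h; rw [h]
  · intro h
    exact List.map_injective_iff.2 (cp_inj.prodMap Function.injective_id) h

theorem Rep.eq_one_iff {l : List (Pt W.toSys × Bool)} {f : FreeGroup (Om W.toSys)}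
    (h : Rep l f) : f = 1 ↔ FreeGroup.reduce l = [] := by
  rw [h.eq_iff Rep.one]; rfl

theorem Rep.mem_FC_iff {l : List (Pt W.toSys × Bool)} {f : FreeGroup (Om W.toSys)} (h : Rep l f)
    {T : Set (Om W.toSys)} {t : Pt W.toSys → Bool} (ht : ∀ ω, t (cp ω) = true ↔ ω ∈ T) :
    f ∈ FC T ↔ (FreeGroup.reduce l).all (fun y => t y.1) = true := by
  rw [← h.reduce, mem_FC, List.all_eq_true]
  constructor
  · intro h1 y hy
    obtain ⟨x, hx, rfl⟩ := List.mem_map.1 hy
    exact (ht _).2 (h1 x hx)
  · intro h1 x hx
    exact (ht _).1 (h1 _ (List.mem_map.2 ⟨x, hx, rfl⟩))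

/-! ### the signed raw points of a word -/

/-- the point of a letter -/
def tl (x : HLr W.toSys × Bool) : List (Pt W.toSys × Bool) :=
  match x with
  | (.inr (.inr q), b) => [((0, .base (some q)), b)]
  | _ => []

/-- one letter -/
def stp (x : HLr W.toSys × Bool) (acc : List (Pt W.toSys × Bool)) : List (Pt W.toSys × Bool) :=
  tl x ++ acc.map fun y => (lact x y.1, y.2)

/-- the signed raw points of a word -/
def pts (u : List (HLr W.toSys × Bool)) : List (Pt W.toSys × Bool) := u.foldr stp []

@[simp] theorem pts_nil : pts (W := W) [] = [] := rfl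
@[simp] theorem pts_cons (x : HLr W.toSys × Bool) (u : List (HLr W.toSys × Bool)) :
    pts (x :: u) = stp x (pts u) := rfl

theorem rep_tl (x : HLr W.toSys × Bool) : Rep (tl x) (sgn W x).left := by
  rcases x with ⟨j | l | q, _ | _⟩
  · simp only [tl, sgn, cond_false, hlr, SemidirectProduct.inv_left, SemidirectProduct.left_inr,
      inv_one, map_one]
    exact Rep.one
  · exact Rep.one
  · simp only [tl, sgn, cond_false, hlr, SemidirectProduct.inv_left, SemidirectProduct.left_inr,
      inv_one, map_one]
    exact Rep.one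
  · exact Rep.one
  · simp only [tl, sgn, cond_false, hlr, ht, SemidirectProduct.inv_left,
      SemidirectProduct.left_inl, SemidirectProduct.right_inl, inv_one, map_one,
      MulAut.one_apply]
    exact Rep.of (cfg (S := W.toSys) q 0) false
  · exact Rep.of (cfg (S := W.toSys) q 0) true

theorem rep_pts (u : List (HLr W.toSys × Bool)) : Rep (pts u) (hvl W u).left := by
  induction u with
  | nil => simpa using Rep.one
  | cons x u ih =>
    rw [hvl_cons, SemidirectProduct.mul_left, pts_cons]
    exact (rep_tl x).mul (ih.act _ _ (cp_act_sgn W x))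

/-! ### sub-words -/

/-- rule letters -/
def isRl : HLr W.toSys × Bool → Bool
  | (.inr (.inl (.inl _)), _) => true
  | _ => false

/-- the word of the rule letters -/
def rlW (u : List (HLr W.toSys × Bool)) : List (HLr W.toSys × Bool) := u.filter isRl

/-- input letters -/
def aL : HLr W.toSys × Bool → Option (A × Bool)
  | (.inr (.inl (.inr a)), b) => some (a, !b)
  | _ => none

/-- the word of the input letters -/
def wA (u : List (HLr W.toSys × Bool)) : List (A × Bool) := u.filterMap aL

/-- the raw letter of an input letter -/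
def ipL (y : A × Bool) : HLr W.toSys × Bool := (.inr (.inl (.inr y.1)), !y.2)

/-- the raw word of a word of input letters -/
def ipW (w : List (A × Bool)) : List (HLr W.toSys × Bool) := w.map ipL

theorem sgn_ipL (y : A × Bool) : sgn W (ipL y) = SemidirectProduct.inr (ip W (FreeGroup.mk [y])) := by
  obtain ⟨a, b⟩ := y
  cases b with
  | false =>
    have h : (FreeGroup.mk [(a, false)] : FreeGroup A) = (FreeGroup.of a)⁻¹ := rfl
    rw [h, map_inv, ip_of, inv_inv]
    rfl
  | true =>
    have h : (FreeGroup.mk [(a, true)] : FreeGroup A) = FreeGroup.of a := rfl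
    rw [h, ip_of, map_inv]
    rfl

theorem hvl_ipW (w : List (A × Bool)) :
    hvl W (ipW w) = SemidirectProduct.inr (ip W (FreeGroup.mk w)) := by
  induction w with
  | nil => simp [ipW, ← FreeGroup.one_eq_mk]
  | cons y w ih =>
    have h : (FreeGroup.mk (y :: w) : FreeGroup A) = FreeGroup.mk [y] * FreeGroup.mk w := by
      rw [FreeGroup.mul_mk]; rfl
    rw [h, map_mul, map_mul, ← ih, ← sgn_ipL]
    exact hvl_cons W _ _

theorem rA_sgn (x : HLr W.toSys × Bool) :
    rA W (sgn W x).right = FreeGroup.mk (aL x).toList := by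
  rcases x with ⟨j | (r | a) | q, _ | _⟩
  · simp only [sgn, cond_false, hlr, SemidirectProduct.inv_right, SemidirectProduct.right_inr]
    rw [map_inv, rA_mx]; rfl
  · simp only [sgn, cond_true, hlr, SemidirectProduct.right_inr]
    rw [rA_mx]; rfl
  · simp only [sgn, cond_false, hlr, SemidirectProduct.inv_right, SemidirectProduct.right_inr]
    rw [map_inv, rA_inl]; rfl
  · simp only [sgn, cond_true, hlr, SemidirectProduct.right_inr]
    rw [rA_inl]; rfl
  · simp only [sgn, cond_false, hlr, SemidirectProduct.inv_right, SemidirectProduct.right_inr]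
    rw [map_inv, rA_inr, inv_inv]; rfl
  · simp only [sgn, cond_true, hlr, SemidirectProduct.right_inr]
    rw [rA_inr]; rfl
  · simp only [sgn, cond_false, hlr, ht, SemidirectProduct.inv_right, SemidirectProduct.right_inl]
    rw [inv_one, map_one]; rfl
  · simp only [sgn, cond_true, hlr, ht, SemidirectProduct.right_inl]
    rw [map_one]; rfl

theorem wH_hvl (u : List (HLr W.toSys × Bool)) : wH W (hvl W u) = FreeGroup.mk (wA u) := by
  unfold wH
  induction u with
  | nil => simp [wA, ← FreeGroup.one_eq_mk]
  | cons x u ih =>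
    rw [hvl_cons, SemidirectProduct.mul_right, map_mul, ih, rA_sgn, FreeGroup.mul_mk]
    unfold wA
    rw [List.filterMap_cons]
    cases aL x <;> rfl

theorem iR_rR_sgn (x : HLr W.toSys × Bool) :
    iR W (rR W (sgn W x).right) = (hvl W (if isRl x then [x] else [])).right := by
  rcases x with ⟨j | (r | a) | q, _ | _⟩
  · simp only [sgn, cond_false, hlr, SemidirectProduct.inv_right, SemidirectProduct.right_inr]
    rw [map_inv, rR_mx]; simp [isRl]
  · simp only [sgn, cond_true, hlr, SemidirectProduct.right_inr]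
    rw [rR_mx]; simp [isRl]
  · simp only [isRl, if_true, hvl_cons, hvl_nil, mul_one]
    simp only [sgn, cond_false, hlr, SemidirectProduct.inv_right, SemidirectProduct.right_inr]
    rw [map_inv, rR_inl, map_inv, iR_of]
  · simp only [isRl, if_true, hvl_cons, hvl_nil, mul_one]
    simp only [sgn, cond_true, hlr, SemidirectProduct.right_inr]
    rw [rR_inl, iR_of]
  · simp only [sgn, cond_false, hlr, SemidirectProduct.inv_right, SemidirectProduct.right_inr]
    rw [map_inv, rR_inr]; simp [isRl]
  · simp only [sgn, cond_true, hlr, SemidirectProduct.right_inr]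
    rw [rR_inr]; simp [isRl]
  · simp only [sgn, cond_false, hlr, ht, SemidirectProduct.inv_right, SemidirectProduct.right_inl]
    simp [isRl]
  · simp only [sgn, cond_true, hlr, ht, SemidirectProduct.right_inl]
    simp [isRl]

theorem hvl_rlW (u : List (HLr W.toSys × Bool)) :
    (hvl W (rlW u)).right = iR W (rR W (hvl W u).right) := by
  induction u with
  | nil => simp [rlW]
  | cons x u ih =>
    rw [hvl_cons, SemidirectProduct.mul_right, map_mul, map_mul, ← ih, iR_rR_sgn]
    unfold rlW
    rw [List.filter_cons]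
    split_ifs
    · rw [hvl_cons, hvl_cons, hvl_nil, mul_one, SemidirectProduct.mul_right]
    · simp

/-- the raw base point of the word problem -/
def pt0 : Pt W.toSys := (0, .base none)

/-- equality in `M` -/
theorem right_eq_iff {u v : List (HLr W.toSys × Bool)} :
    (hvl W u).right = (hvl W v).right ↔ evP u (pt0 (W := W)) = evP v pt0 := by
  have h : (pt0 (W := W)) = cp (star (S := W.toSys)) := rfl
  rw [h, ← cp_act_hvl, ← cp_act_hvl, cp_inj.eq_iff]
  exact ⟨fun h => by rw [h], fun h => eq_of_act_star h⟩

/-! ### the word problem of `H` -/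

theorem hvl_eq_one_iff {u : List (HLr W.toSys × Bool)} :
    hvl W u = 1 ↔ evP u (pt0 (W := W)) = pt0 ∧ FreeGroup.reduce (pts u) = [] := by
  have h := right_eq_iff (W := W) (u := u) (v := [])
  rw [hvl_nil, evP_nil] at h
  rw [← h, ← (rep_pts u).eq_one_iff]
  constructor
  · intro h; rw [h]; exact ⟨rfl, rfl⟩
  · rintro ⟨h1, h2⟩
    exact SemidirectProduct.ext h2 h1

end Crest.Agent.R185.Cw
private theorem rz_f478c7cc41 : type_of% @_root_.Crest.Agent.R185.Cw.hlr.eq_1 := @_root_.Crest.Agent.R185.Cw.hlr.eq_1 -- L21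
private theorem rz_2ef2a6812e : type_of% @_root_.Crest.Agent.R185.Cw.isRl.eq_1 := @_root_.Crest.Agent.R185.Cw.isRl.eq_1 -- L192
private theorem rz_2aba633614 : type_of% @_root_.Crest.Agent.R185.Cw.tl.eq_1 := @_root_.Crest.Agent.R185.Cw.tl.eq_1 -- L150
end

-- ▼ part R185/Cw459C
section

/-!
# R185, computability of the witness, part C: Boolean tests for `Ch`, `Start`, `Ls`, `EL`, `eps`

All tests are total Boolean functions on raw data, their specifications are proved here, their
computability in the next part.
-/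

set_option autoImplicit false
set_option linter.unusedSectionVars false

namespace Crest.Agent.R185.Cw

open Crest.Agent.R185.Wit

variable {R A : Type} [DecidableEq R] [DecidableEq A] {W : WS R A}

/-! ### the rule orbit of the halting configuration -/

/-- test for `Ch`, given a test `cd` for real configurations -/
def chT (cd : W.Q × W.toSys.V → Bool) : W.toSys.V → Tm W.toSys → Bool
  | c, .base (some q) => cd (q, c)
  | _, .base none => false
  | c, .fwd (.inl r) e s => chT cd (mulB (S := W.toSys) (.inl r) c + e) s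
  | _, .fwd (.inr _) _ _ => false
  | c, .bwd (.inl r) s => decide (res (S := W.toSys) (.inl r) c = 0) &&
      chT cd (quo (S := W.toSys) (.inl r) c) s
  | _, .bwd (.inr _) _ => false

/-- `cd` decides connection to the halting configuration -/
def CdOK (cd : W.Q × W.toSys.V → Bool) : Prop := ∀ c, cd c = true ↔ Cn W c (W.qh, 0)

variable {cd : W.Q × W.toSys.V → Bool}

theorem CdOK.step (h : CdOK cd) (r : R) (c : W.toSys.V) :
    cd (W.srcR r, mulB (S := W.toSys) (.inl r) c + W.a (.inl r)) = cd (W.tgtR r, c) := by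
  have h1 : Cn W (W.srcR r, mulB (S := W.toSys) (.inl r) c + W.a (.inl r)) (W.tgtR r, c) :=
    .rel _ _ (.mk r c)
  rw [Bool.eq_iff_iff, h, h]
  exact ⟨fun h2 => (h1.symm).trans _ _ _ h2, fun h2 => h1.trans _ _ _ h2⟩

theorem chT_lperm (h : CdOK cd) (r : R) (c : W.toSys.V) (s : Tm W.toSys) :
    chT cd (quo (S := W.toSys) (.inl r) c)
      (fs (S := W.toSys) (.inl r) (res (S := W.toSys) (.inl r) c) s) = chT cd c s := by
  have key : ∀ s : Tm W.toSys, chT cd (quo (S := W.toSys) (.inl r) c)
      (.fwd (S := W.toSys) (.inl r) (res (S := W.toSys) (.inl r) c) s) = chT cd c s := by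
    intro s
    rw [chT, mulB_quo_add_res]
  cases s with
  | base q =>
    simp only [fs]
    split_ifs with h1
    · obtain ⟨rfl, h2⟩ := h1
      have h3 := mulB_quo_add_res (S := W.toSys) (.inl r) c
      rw [h2] at h3
      change cd (W.tgtR r, quo (S := W.toSys) (.inl r) c) = cd (W.srcR r, c)
      rw [← h.step]
      exact congrArg (fun x => cd (W.srcR r, x)) h3
    · exact key _
  | fwd l' e' s' =>
    simp only [fs]
    exact key _
  | bwd l' s' =>
    simp only [fs]
    split_ifs with h1
    · obtain ⟨rfl, h2⟩ := h1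
      rw [chT, h2]
      simp
    · exact key _

theorem chT_iR (h : CdOK cd) (p : FreeGroup R) (ω : Om W.toSys) :
    chT cd (act W.toSys (iR W p) ω).1 (act W.toSys (iR W p) ω).2.1 = chT cd ω.1 ω.2.1 := by
  refine iR_induction (P := fun ω ω' => chT cd ω'.1 ω'.2.1 = chT cd ω.1 ω.2.1) (fun _ => rfl)
    ?_ ?_ p ω
  · intro r ω ω' h1
    rw [← h1]
    exact chT_lperm h r _ _
  · intro r ω ω' h1
    rw [← h1]
    exact (chT_lperm h r _ _).symm

theorem act_my_mem_Ch (r : R) {ω : Om W.toSys} (h : ω ∈ Ch W) :
    lperm (S := W.toSys) (.inl r) ω ∈ Ch W := by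
  have := act_iR_Ch W (FreeGroup.of r) h
  rwa [iR_of, act_my] at this

theorem act_my_inv_mem_Ch (r : R) {ω : Om W.toSys} (h : ω ∈ Ch W) :
    (lperm (S := W.toSys) (.inl r))⁻¹ ω ∈ Ch W := by
  have := act_iR_Ch W (FreeGroup.of r)⁻¹ h
  rwa [map_inv, iR_of, map_inv, act_my] at this

theorem mem_Ch_of_chT (h : CdOK cd) (s : Tm W.toSys) : ∀ (c : W.toSys.V) (hs : Valid s),
    chT cd c s = true → ((c, ⟨s, hs⟩) : Om W.toSys) ∈ Ch W := by
  induction s with
  | base q =>
    intro c hs h1
    cases q with
    | none => simp [chT] at h1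
    | some q =>
      rw [chT, h] at h1
      obtain ⟨p, hp⟩ := exists_iR_of_Cn h1.symm
      exact ⟨p, hp⟩
  | fwd l e s ih =>
    intro c hs h1
    rcases l with r | x
    · rw [chT] at h1
      have h2 := ih _ hs.1 h1
      have h3 := act_my_mem_Ch r h2
      have h4 : lperm (S := W.toSys) (.inl r) ((mulB (S := W.toSys) (.inl r) c + e, ⟨s, hs.1⟩) :
          Om W.toSys) = (c, ⟨.fwd (.inl r) e s, hs⟩) := by
        rw [lperm_apply]
        refine Prod.ext ?_ (Subtype.ext ?_)
        · exact quo_mulB_add hs.2.1 c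
        · change fs (S := W.toSys) (.inl r) (res (S := W.toSys) (.inl r)
            (mulB (S := W.toSys) (.inl r) c + e)) s = _
          rw [res_mulB_add hs.2.1]
          have := fs_bs (l := (Sum.inl r : W.toSys.Lam)) hs
          simpa [bs] using this
      rwa [h4] at h3
    · simp [chT] at h1
  | bwd l s ih =>
    intro c hs h1
    rcases l with r | x
    · rw [chT, Bool.and_eq_true, decide_eq_true_eq] at h1
      have h2 := ih _ hs.1 h1.2
      have h3 := act_my_inv_mem_Ch r h2
      have h4 : bs (S := W.toSys) (.inl r) s = (0, .bwd (.inl r) s) := by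
        have := bs_fs (l := (Sum.inl r : W.toSys.Lam)) (e := 0) hs
        simpa [fs] using this
      have h5 : (lperm (S := W.toSys) (.inl r))⁻¹ ((quo (S := W.toSys) (.inl r) c, ⟨s, hs.1⟩) :
          Om W.toSys) = (c, ⟨.bwd (.inl r) s, hs⟩) := by
        rw [lperm_symm_apply]
        refine Prod.ext ?_ (Subtype.ext ?_)
        · simp only [h4, add_zero]
          have := mulB_quo_add_res (S := W.toSys) (.inl r) c
          rw [h1.1, add_zero] at this
          exact this
        · simp only [h4]
      rwa [h5] at h3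
    · simp [chT] at h1

/-- one letter of the test -/
def chS (s : Bool × W.toSys.V) (x : W.toSys.Lam × Option W.toSys.V) : Bool × W.toSys.V :=
  match x with
  | (.inl r, some e) => (s.1, mulB (S := W.toSys) (.inl r) s.2 + e)
  | (.inl r, none) => (s.1 && decide (res (S := W.toSys) (.inl r) s.2 = 0),
      quo (S := W.toSys) (.inl r) s.2)
  | (.inr _, _) => (false, s.2)

/-- end of the test -/
def chE (cd : W.Q × W.toSys.V → Bool) (q : Option W.Q) (s : Bool × W.toSys.V) : Bool :=
  s.1 && Option.casesOn q false (fun q => cd (q, s.2))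

theorem chE_false (cd : W.Q × W.toSys.V → Bool) (q : Option W.Q) (c : W.toSys.V)
    (L : List (W.toSys.Lam × Option W.toSys.V)) : chE cd q (L.foldl chS (false, c)) = false := by
  induction L generalizing c with
  | nil => rfl
  | cons x L ih =>
    rw [List.foldl_cons]
    rcases x with ⟨r | a, _ | e⟩
    · exact ih _
    · exact ih _
    · exact ih _
    · exact ih _

theorem chT_eq (cd : W.Q × W.toSys.V → Bool) (s : Tm W.toSys) : ∀ c : W.toSys.V,
    chT cd c s = chE cd (tequiv s).1 ((tequiv s).2.foldl chS (true, c)) := by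
  induction s with
  | base q =>
    intro c
    cases q <;> rfl
  | fwd l e s ih =>
    intro c
    rcases l with r | x
    · rw [chT, ih]
      rfl
    · rw [chT, tequiv_fwd, List.foldl_cons]
      exact (chE_false cd _ _ _).symm
  | bwd l s ih =>
    intro c
    rcases l with r | x
    · rw [chT, ih, tequiv_bwd, List.foldl_cons]
      simp only [chS, Bool.true_and]
      cases decide (res (S := W.toSys) (Sum.inl r) c = 0)
      · rw [Bool.false_and, chE_false]
      · rw [Bool.true_and]
    · rw [chT, tequiv_bwd, List.foldl_cons]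
      exact (chE_false cd _ _ _).symm

/-- test for `Ch` on raw points -/
def chP (cd : W.Q × W.toSys.V → Bool) (p : Pt W.toSys) : Bool :=
  chE cd (tequiv p.2).1 ((tequiv p.2).2.foldl chS (true, p.1))

theorem chP_iff (h : CdOK cd) (ω : Om W.toSys) : chP cd (cp ω) = true ↔ ω ∈ Ch W := by
  unfold chP
  rw [← chT_eq]
  constructor
  · intro h1
    exact mem_Ch_of_chT h _ _ ω.2.2 h1
  · rintro ⟨p, rfl⟩
    refine (chT_iR h p (hl W)).trans ?_
    change chT cd 0 (.base (some W.qh)) = true
    rw [chT, h]
    exact .refl _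

/-! ### start points -/

/-- raw start points, the text is an argument -/
def stR (W : WS R A) (tx : W.toSys.V) (w : List (A × Bool)) : Pt W.toSys :=
  evP (ipW w) (tx, .base (some W.qin))

theorem cp_st (w : List (A × Bool)) : cp (st W (FreeGroup.mk w)) = stR W W.tx w := by
  unfold st stR
  have := cp_act_hvl W (ipW w) (cfg (S := W.toSys) W.qin W.tx)
  rw [hvl_ipW, SemidirectProduct.right_inr] at this
  exact this

/-- test for start points -/
noncomputable def stT [Finite A] (W : WS R A) (tx : W.toSys.V) (p : Pt W.toSys) : Bool :=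
  (Re.wordsLT (A × Bool) (3 * ((p.1 W.I).natAbs + len p.2) + 1)).any
    fun w => decide (stR W tx w = p)

theorem stT_iff [Finite A] (ω : Om W.toSys) :
    stT W W.tx (cp ω) = true ↔ ω ∈ Start W := by
  unfold stT
  rw [List.any_eq_true]
  constructor
  · rintro ⟨w, -, hw⟩
    refine ⟨FreeGroup.mk w, ?_⟩
    apply cp_inj
    rw [cp_st]
    simpa using hw
  · rintro ⟨g, rfl⟩
    have hS : Sm W (((st W g).1 W.I).natAbs + len (st W g).2.1) (st W g) := by
      refine ⟨?_, by omega⟩
      have hb := W.hb
      have h1 : (((st W g).1 W.I).natAbs + len (st W g).2.1) <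
          2 ^ (((st W g).1 W.I).natAbs + len (st W g).2.1) := Nat.lt_two_pow_self
      have h2 : ((2:ℤ)) ^ (((st W g).1 W.I).natAbs + len (st W g).2.1) ≤
          W.b ^ (((st W g).1 W.I).natAbs + len (st W g).2.1) := pow_le_pow_left₀ (by norm_num) hb _
      have h3 : ((((st W g).1 W.I).natAbs + len (st W g).2.1 : ℕ) : ℤ) <
          2 ^ (((st W g).1 W.I).natAbs + len (st W g).2.1) := by exact_mod_cast h1
      have h4 : |(st W g).1 W.I| ≤ ((((st W g).1 W.I).natAbs + len (st W g).2.1 : ℕ) : ℤ) := by
        rw [Int.abs_eq_natAbs]; push_cast; omega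
      omega
    have h5 := start_bound hS
    refine ⟨g.toWord, ?_, ?_⟩
    · rw [Re.mem_wordsLT]
      exact Nat.lt_succ_of_le h5
    · rw [decide_eq_true_eq, ← cp_st, FreeGroup.mk_toWord]

/-! ### the subgroup `L` -/

/-- test for `L` -/
def inLT (cd : W.Q × W.toSys.V → Bool) (u : List (HLr W.toSys × Bool)) : Bool :=
  decide (evP u (pt0 (W := W)) = evP (rlW u) pt0) &&
    (FreeGroup.reduce (pts u)).all fun y => chP cd y.1

theorem inLT_iff (h : CdOK cd) (u : List (HLr W.toSys × Bool)) :
    inLT cd u = true ↔ hvl W u ∈ Ls W := by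
  unfold inLT
  rw [Bool.and_eq_true, decide_eq_true_eq, ← right_eq_iff, hvl_rlW, mem_Ls,
    ← (rep_pts u).mem_FC_iff (T := Ch W) (chP_iff h)]
  refine and_congr_left fun _ => ⟨fun h1 => ⟨_, h1⟩, ?_⟩
  rintro ⟨p, hp⟩
  rw [hp, rR_iR]

/-! ### the subgroup `E` -/

/-- test for `E` -/
noncomputable def inET [Finite A] (W : WS R A) (tx : W.toSys.V)
    (u : List (HLr W.toSys × Bool)) : Bool :=
  decide (evP u (pt0 (W := W)) = evP (ipW (wA u)) pt0) &&
    (FreeGroup.reduce (pts u)).all fun y => stT W tx y.1

theorem mem_range_eps {h : Hg W} : h ∈ (eps W).range ↔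
    h.right = ip W (wH W h) ∧ h.left ∈ FC (Start W) := by
  constructor
  · rintro ⟨x, rfl⟩
    refine ⟨?_, eps_left_mem W x⟩
    rw [wH, eps_right, rA_ip]
  · rintro ⟨h1, h2⟩
    obtain ⟨x, hx⟩ := exists_eps W h2 (wH W h)
    exact ⟨x, hx.trans (SemidirectProduct.ext rfl h1.symm)⟩

theorem inET_iff [Finite A] (u : List (HLr W.toSys × Bool)) :
    inET W W.tx u = true ↔ hvl W u ∈ (eps W).range := by
  unfold inET
  rw [Bool.and_eq_true, decide_eq_true_eq, ← right_eq_iff, mem_range_eps, wH_hvl, hvl_ipW,
    SemidirectProduct.right_inr, ← (rep_pts u).mem_FC_iff (T := Start W) stT_iff]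

/-! ### the set `EL` -/

/-- all elements after the longest `p`-prefix satisfy `C` -/
def dwAll {α : Type*} (p C : α → Bool) (l : List α) : Bool :=
  (l.foldr (fun x (s : Bool × Bool) => (bif p x then s.1 else C x && s.2, C x && s.2))
    (true, true)).1

theorem dwAll_eq {α : Type*} (p C : α → Bool) (l : List α) :
    dwAll p C l = (l.dropWhile p).all C := by
  have key : l.foldr (fun x (s : Bool × Bool) => (bif p x then s.1 else C x && s.2, C x && s.2))
      (true, true) = ((l.dropWhile p).all C, l.all C) := by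
    induction l with
    | nil => rfl
    | cons x l ih =>
      rw [List.foldr_cons, ih, List.dropWhile_cons]
      cases h : p x <;> simp
  unfold dwAll
  rw [key]

/-- test for `EL` -/
noncomputable def inELT [Finite A] (W : WS R A) (cd : W.Q × W.toSys.V → Bool) (tx : W.toSys.V)
    (u : List (HLr W.toSys × Bool)) : Bool :=
  decide (evP u (pt0 (W := W)) = evP (ipW (wA u) ++ rlW u) pt0) &&
    dwAll (fun y => stT W tx y.1) (fun y => chP cd (evP (ipW (FreeGroup.invRev (wA u))) y.1))
      (FreeGroup.reduce (pts u))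

theorem map_dropWhile {α β : Type*} (f : α → β) (p : β → Bool) (l : List α) :
    (l.map f).dropWhile p = (l.dropWhile (p ∘ f)).map f := by
  induction l with
  | nil => rfl
  | cons x l ih =>
    rw [List.map_cons, List.dropWhile_cons, List.dropWhile_cons]
    simp only [Function.comp]
    split_ifs with h
    · exact ih
    · rfl

theorem inELT_iff [Finite A] (h : CdOK cd) (u : List (HLr W.toSys × Bool)) :
    inELT W cd W.tx u = true ↔ hvl W u ∈ EL W := by
  classical
  unfold inELT
  rw [Bool.and_eq_true, decide_eq_true_eq, ← right_eq_iff, mem_EL_iff, wH_hvl, hvl_append,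
    SemidirectProduct.mul_right, hvl_ipW, SemidirectProduct.right_inr, hvl_rlW, dwAll_eq,
    ← (rep_pts u).reduce, map_dropWhile, List.all_eq_true]
  refine and_congr ⟨fun h1 => ⟨_, h1⟩, ?_⟩ ?_
  · rintro ⟨p, hp⟩
    rw [hp, map_mul, rR_ip, one_mul, rR_iR]
  · have h1 : ((fun y : Pt W.toSys × Bool => stT W W.tx y.1) ∘ Prod.map cp id) =
        fun x : Om W.toSys × Bool => decide (x.1 ∈ Start W) := by
      funext x
      rw [Bool.eq_iff_iff]
      simp only [Function.comp, Prod.map_fst, decide_eq_true_eq]
      exact stT_iff x.1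
    rw [h1]
    have h2 : ((hvl W u).left.toWord.dropWhile fun x => decide (x.1 ∈ Start W)) =
        dpW (Start W) (hvl W u).left := by
      unfold dpW
      congr 1
    rw [h2]
    have h3 : ∀ ω : Om W.toSys, chP cd (evP (ipW (FreeGroup.invRev (wA u))) (cp ω)) = true ↔
        ω ∈ Chw W (FreeGroup.mk (wA u)) := by
      intro ω
      rw [← cp_act_hvl, chP_iff h, hvl_ipW, SemidirectProduct.right_inr, ← FreeGroup.inv_mk,
        map_inv, map_inv]
      constructor
      · intro h4
        exact ⟨_, h4, Equiv.apply_symm_apply _ _⟩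
      · rintro ⟨t, ht, rfl⟩
        rw [show (act W.toSys (ip W (FreeGroup.mk (wA u))))⁻¹
          (act W.toSys (ip W (FreeGroup.mk (wA u))) t) = t from Equiv.symm_apply_apply _ _]
        exact ht
    constructor
    · intro h4 y hy
      exact (h3 y.1).1 (h4 _ (List.mem_map.2 ⟨y, hy, rfl⟩))
    · intro h4 y hy
      obtain ⟨x, hx, rfl⟩ := List.mem_map.1 hy
      exact (h3 x.1).2 (h4 x hx)

/-! ### the map `eps` -/

/-- the points of the letters of `F(A ∪ {t})` -/
def tlE (W : WS R A) (tx : W.toSys.V) (x : Option A × Bool) : List (Pt W.toSys × Bool) :=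
  match x.1 with
  | none => [((tx, .base (some W.qin)), x.2)]
  | some _ => []

/-- the action of the letters of `F(A ∪ {t})` on raw points -/
def lactE (x : Option A × Bool) (p : Pt W.toSys) : Pt W.toSys :=
  match x.1 with
  | none => p
  | some a => lact (ipL (a, x.2)) p

/-- the signed points of a word in `A ∪ {t}` -/
def ptsE (W : WS R A) (tx : W.toSys.V) (x : List (Option A × Bool)) : List (Pt W.toSys × Bool) :=
  x.foldr (fun y acc => tlE W tx y ++ acc.map fun z => (lactE y z.1, z.2)) []

/-- the word in `A` -/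
def wE (x : List (Option A × Bool)) : List (A × Bool) :=
  x.filterMap fun y => y.1.map fun a => (a, y.2)

theorem prA_mk (x : List (Option A × Bool)) : prA (FreeGroup.mk x) = FreeGroup.mk (wE x) := by
  induction x with
  | nil => simp [wE, ← FreeGroup.one_eq_mk]
  | cons y x ih =>
    have h : (FreeGroup.mk (y :: x) : FreeGroup (Option A)) = FreeGroup.mk [y] * FreeGroup.mk x := by
      rw [FreeGroup.mul_mk]; rfl
    rw [h, map_mul, ih]
    obtain ⟨_ | a, _ | _⟩ := y
    · simp [prA, FreeGroup.lift_mk, wE]
    · simp [prA, FreeGroup.lift_mk, wE]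
    · simp only [prA, FreeGroup.lift_mk, List.map_cons, List.map_nil, List.prod_cons,
        List.prod_nil, mul_one, cond_false, Option.elim, wE, List.filterMap_cons, Option.map_some]
      have h2 : ((FreeGroup.of a)⁻¹ : FreeGroup A) = FreeGroup.mk [(a, false)] := rfl
      rw [h2, FreeGroup.mul_mk]; rfl
    · simp only [prA, FreeGroup.lift_mk, List.map_cons, List.map_nil, List.prod_cons,
        List.prod_nil, mul_one, cond_true, Option.elim, wE, List.filterMap_cons, Option.map_some]
      have h2 : ((FreeGroup.of a) : FreeGroup A) = FreeGroup.mk [(a, true)] := rfl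
      rw [h2, FreeGroup.mul_mk]; rfl

theorem eps_mk_cons (y : Option A × Bool) (x : List (Option A × Bool)) :
    eps W (FreeGroup.mk (y :: x)) = eps W (FreeGroup.mk [y]) * eps W (FreeGroup.mk x) := by
  rw [← map_mul, FreeGroup.mul_mk]; rfl

theorem eps_letter_some (a : A) (b : Bool) : eps W (FreeGroup.mk [(some a, b)]) =
    sgn W (ipL (a, b)) := by
  rw [sgn_ipL]
  cases b with
  | false =>
    have h : (FreeGroup.mk [(some a, false)] : FreeGroup (Option A)) =
      (FreeGroup.of (some a))⁻¹ := rfl
    have h2 : (FreeGroup.mk [(a, false)] : FreeGroup A) = (FreeGroup.of a)⁻¹ := rfl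
    rw [h, h2, map_inv, map_inv, map_inv, eps_some]
  | true =>
    have h : (FreeGroup.mk [(some a, true)] : FreeGroup (Option A)) =
      (FreeGroup.of (some a)) := rfl
    have h2 : (FreeGroup.mk [(a, true)] : FreeGroup A) = FreeGroup.of a := rfl
    rw [h, h2, eps_some]

theorem eps_letter_none (b : Bool) : eps W (FreeGroup.mk [(none, b)]) =
    cond b (te W) (te W)⁻¹ := by
  cases b with
  | false =>
    have h : (FreeGroup.mk [(none, false)] : FreeGroup (Option A)) =
      (FreeGroup.of none)⁻¹ := rfl
    rw [h, map_inv, eps_none]; rfl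
  | true =>
    have h : (FreeGroup.mk [(none, true)] : FreeGroup (Option A)) =
      (FreeGroup.of none) := rfl
    rw [h, eps_none]; rfl

theorem rep_ptsE (x : List (Option A × Bool)) :
    Rep (ptsE W W.tx x) (eps W (FreeGroup.mk x)).left := by
  induction x with
  | nil => 
    rw [← FreeGroup.one_eq_mk, map_one]; exact Rep.one
  | cons y x ih =>
    rw [eps_mk_cons, SemidirectProduct.mul_left]
    change Rep (tlE W W.tx y ++ (ptsE W W.tx x).map fun z => (lactE y z.1, z.2)) _
    obtain ⟨_ | a, b⟩ := y
    · refine Rep.mul ?_ ?_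
      · rw [eps_letter_none]
        cases b
        · simp only [te, cond_false, SemidirectProduct.inv_left, SemidirectProduct.left_inl,
            SemidirectProduct.right_inl, inv_one, map_one, MulAut.one_apply]
          exact Rep.of (cfg (S := W.toSys) W.qin W.tx) false
        · exact Rep.of (cfg (S := W.toSys) W.qin W.tx) true
      · refine ih.act _ _ ?_
        intro p
        rw [eps_letter_none]
        cases b <;> simp [te, lactE]
    · refine Rep.mul ?_ ?_
      · rw [eps_letter_some]
        have := rep_tl (W := W) (ipL (a, b))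
        exact this
      · refine ih.act _ _ ?_
        intro p
        rw [eps_letter_some]
        exact cp_act_sgn W _ p

/-- test for `hvl u = eps x` -/
def epsT (W : WS R A) (tx : W.toSys.V) (u : List (HLr W.toSys × Bool))
    (x : List (Option A × Bool)) : Bool :=
  decide (evP u (pt0 (W := W)) = evP (ipW (wE x)) pt0) &&
    decide (FreeGroup.reduce (pts u) = FreeGroup.reduce (ptsE W tx x))

theorem epsT_iff (u : List (HLr W.toSys × Bool)) (x : List (Option A × Bool)) :
    epsT W W.tx u x = true ↔ hvl W u = eps W (FreeGroup.mk x) := by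
  unfold epsT
  rw [Bool.and_eq_true, decide_eq_true_eq, decide_eq_true_eq, ← right_eq_iff,
    ← (rep_pts u).eq_iff (rep_ptsE x), hvl_ipW, SemidirectProduct.right_inr, ← prA_mk, ← eps_right]
  constructor
  · rintro ⟨h1, h2⟩
    exact SemidirectProduct.ext h2 h1
  · intro h; rw [h]; exact ⟨rfl, rfl⟩

/-- test for `hvl u = 1` -/
def oneT (u : List (HLr W.toSys × Bool)) : Bool :=
  decide (evP u (pt0 (W := W)) = pt0) && decide (FreeGroup.reduce (pts u) = [])

theorem oneT_iff (u : List (HLr W.toSys × Bool)) : oneT u = true ↔ hvl W u = 1 := by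
  unfold oneT
  rw [Bool.and_eq_true, decide_eq_true_eq, decide_eq_true_eq, hvl_eq_one_iff]

end Crest.Agent.R185.Cw
private theorem rz_9764a46d32 : type_of% @_root_.Crest.Agent.R185.Cw.chS.eq_1 := @_root_.Crest.Agent.R185.Cw.chS.eq_1 -- L144
private theorem rz_0f336b046a : type_of% @_root_.Crest.Agent.R185.Cw.chT.eq_def := @_root_.Crest.Agent.R185.Cw.chT.eq_def -- L22
private theorem rz_79a72e9ce0 : type_of% @_root_.Crest.Agent.R185.Cw.chT.eq_1 := @_root_.Crest.Agent.R185.Cw.chT.eq_1 -- L22
end

-- ▼ part R185/Cw459D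
section

/-!
# R185, computability of the witness, part D: the tests of part C are computable

The text vector `tx` is an argument everywhere, so everything is uniform in the program.
-/

set_option autoImplicit false
set_option linter.unusedSectionVars false

namespace Crest.Agent.R185.Cw

open Crest.Agent.R185.Wit Crest.Agent.Lib.RatPrimrec Crest.Agent.R185.Re

variable {R A : Type} [DecidableEq R] [DecidableEq A] {W : WS R A}
variable [Primcodable R] [Primcodable A] [Finite R] [Finite A] [Primcodable W.Q] [Finite W.Q]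

/-! ### words -/

theorem primrec_stp : Primrec₂ (stp (W := W)) := by
  refine primrec₂_of_finite fun x => ?_
  unfold stp
  refine Primrec.list_append.comp (Primrec.const _) (Primrec.list_map Primrec.id ?_)
  exact ((primrec_lact.comp (Primrec.const x) (Primrec.fst.comp Primrec.snd)).pair
    (Primrec.snd.comp Primrec.snd)).to₂

theorem primrec_pts : Primrec (pts (W := W)) := by
  refine Primrec.list_foldr (f := fun u : List (HLr W.toSys × Bool) => u)
    (g := fun _ => ([] : List (Pt W.toSys × Bool)))
    (h := fun _ (p : (HLr W.toSys × Bool) × List (Pt W.toSys × Bool)) => stp p.1 p.2)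
    Primrec.id (Primrec.const _) ?_
  exact primrec_stp.comp (Primrec.fst.comp Primrec.snd) (Primrec.snd.comp Primrec.snd)

theorem primrec_redpts : Primrec fun u : List (HLr W.toSys × Bool) =>
    FreeGroup.reduce (pts u) := Hk.reduce_primrec.comp primrec_pts

theorem primrec_rlW : Primrec (rlW (W := W)) := by
  have h : Primrec fun u : List (HLr W.toSys × Bool) =>
      u.filterMap fun x => if isRl x then some x else none := by
    refine Primrec.listFilterMap Primrec.id ?_
    exact ((Primrec.dom_finite fun x : HLr W.toSys × Bool => if isRl x then some x else none).comp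
      Primrec.snd).to₂
  refine h.of_eq fun u => ?_
  unfold rlW
  induction u with
  | nil => rfl
  | cons x u ih =>
    rw [List.filterMap_cons, List.filter_cons, ← ih]
    cases isRl x <;> rfl

theorem primrec_wA : Primrec (wA (W := W)) := by
  refine Primrec.listFilterMap Primrec.id ?_
  exact ((Primrec.dom_finite (aL (W := W))).comp Primrec.snd).to₂

theorem primrec_ipW : Primrec (ipW (W := W)) := by
  refine Primrec.list_map Primrec.id ?_
  exact ((Primrec.dom_finite (ipL (W := W))).comp Primrec.snd).to₂

theorem primrec_wE : Primrec (wE (A := A)) := by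
  refine Primrec.listFilterMap Primrec.id ?_
  exact ((Primrec.dom_finite fun y : Option A × Bool => y.1.map fun a => (a, y.2)).comp
    Primrec.snd).to₂

/-! ### the test for `Ch` -/

theorem primrec_chS : Primrec₂ (chS (W := W)) := by
  have h : Primrec₂ fun (l : W.toSys.Lam) (y : (Bool × W.toSys.V) × Option W.toSys.V) =>
      chS y.1 (l, y.2) := by
    refine primrec₂_of_finite fun l => ?_
    rcases l with r | x
    · have h1 : Primrec fun y : (Bool × W.toSys.V) × Option W.toSys.V =>
          (Option.casesOn y.2 (y.1.1 && decide (res (S := W.toSys) (.inl r) y.1.2 = 0),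
            quo (S := W.toSys) (.inl r) y.1.2)
            (fun e => (y.1.1, mulB (S := W.toSys) (.inl r) y.1.2 + e)) : Bool × W.toSys.V) := by
        refine Primrec.option_casesOn (o := fun y : (Bool × W.toSys.V) × Option W.toSys.V => y.2)
          (f := fun y => (y.1.1 && decide (res (S := W.toSys) (.inl r) y.1.2 = 0),
            quo (S := W.toSys) (.inl r) y.1.2))
          (g := fun y e => (y.1.1, mulB (S := W.toSys) (.inl r) y.1.2 + e)) Primrec.snd ?_ ?_
        · refine Primrec.pair (Primrec.and.comp (Primrec.fst.comp Primrec.fst)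
            (primrec_deq (primrec_res.comp ((Primrec.const _).pair
              (Primrec.snd.comp Primrec.fst))) (Primrec.const _)))
            (primrec_quo.comp ((Primrec.const _).pair (Primrec.snd.comp Primrec.fst)))
        · exact Primrec.pair (Primrec.fst.comp (Primrec.fst.comp Primrec.fst))
            (primrec_vadd.comp (primrec_mulB.comp ((Primrec.const _).pair
              (Primrec.snd.comp (Primrec.fst.comp Primrec.fst)))) Primrec.snd)
      refine h1.of_eq fun y => ?_
      obtain ⟨s, _ | e⟩ := y <;> rfl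
    · refine ((Primrec.const false).pair (Primrec.snd.comp Primrec.fst)).of_eq fun y => ?_
      obtain ⟨s, _ | e⟩ := y <;> rfl
  exact h.comp (Primrec.fst.comp Primrec.snd) (Primrec.fst.pair (Primrec.snd.comp Primrec.snd))

variable {cd : W.Q × W.toSys.V → Bool}

theorem computable_chP (hcd : Computable cd) : Computable (chP (W := W) cd) := by
  have h1 : Primrec fun p : Pt W.toSys => (tequiv p.2).2.foldl chS (true, p.1) := by
    refine Primrec.list_foldl (f := fun p : Pt W.toSys => (tequiv p.2).2)
      (g := fun p : Pt W.toSys => (true, p.1))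
      (h := fun _ (x : (Bool × W.toSys.V) × (W.toSys.Lam × Option W.toSys.V)) => chS x.1 x.2)
      (Primrec.snd.comp (primrec_tequiv.comp Primrec.snd)) ((Primrec.const _).pair Primrec.fst) ?_
    exact primrec_chS.comp (Primrec.fst.comp Primrec.snd) (Primrec.snd.comp Primrec.snd)
  have h2 : Computable fun x : Option W.Q × (Bool × W.toSys.V) => chE cd x.1 x.2 := by
    unfold chE
    refine Primrec.and.to_comp.comp (Computable.fst.comp Computable.snd) ?_
    refine Computable.option_casesOn (o := fun x : Option W.Q × (Bool × W.toSys.V) => x.1)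
      (f := fun _ => false) (g := fun x q => cd (q, x.2.2)) Computable.fst (Computable.const _) ?_
    exact hcd.comp (Computable.snd.pair (Computable.snd.comp
      (Computable.snd.comp Computable.fst)))
  exact h2.comp (((Primrec.fst.comp (primrec_tequiv.comp Primrec.snd)).pair h1).to_comp)

/-! ### start points -/

theorem primrec_stR : Primrec₂ (stR W) := by
  unfold stR
  exact primrec_evP.comp (primrec_ipW.comp Primrec.snd) (Primrec.fst.pair (Primrec.const _))

theorem primrec_len : Primrec (len : Tm W.toSys → ℕ) := by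
  refine (Primrec.list_length.comp (Primrec.snd.comp primrec_tequiv)).of_eq fun s => ?_
  induction s with
  | base q => rfl
  | fwd l e s ih => rw [tequiv_fwd, List.length_cons, ih]; rfl
  | bwd l s ih => rw [tequiv_bwd, List.length_cons, ih]; rfl

theorem computable_stT : Computable₂ (stT W) := by
  unfold stT
  refine computable_any (f := fun x : W.toSys.V × Pt W.toSys =>
    wordsLT (A × Bool) (3 * ((x.2.1 W.I).natAbs + len x.2.2) + 1))
    (g := fun x w => decide (stR W x.1 w = x.2)) ?_ ?_
  · refine computable_wordsLT.comp ?_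
    refine Primrec.to_comp ?_
    refine Primrec.succ.comp (Primrec.nat_mul.comp (Primrec.const 3)
      (Primrec.nat_add.comp ?_ (primrec_len.comp (Primrec.snd.comp Primrec.snd))))
    exact primrec_natAbs.comp (primrec_app (Primrec.fst.comp Primrec.snd) (Primrec.const _))
  · exact (primrec_deq (primrec_stR.comp (Primrec.fst.comp Primrec.fst) Primrec.snd)
      (Primrec.snd.comp Primrec.fst)).to_comp

/-! ### the tests -/

theorem primrec_evEq {α : Type*} [Primcodable α] {f g : α → List (HLr W.toSys × Bool)}
    (hf : Primrec f) (hg : Primrec g) :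
    Primrec fun a => decide (evP (f a) (pt0 (W := W)) = evP (g a) pt0) :=
  primrec_deq (primrec_evP.comp hf (Primrec.const _)) (primrec_evP.comp hg (Primrec.const _))

theorem computable_inLT (hcd : Computable cd) : Computable (inLT (W := W) cd) := by
  have h1 : Computable fun u : List (HLr W.toSys × Bool) =>
      decide (evP u (pt0 (W := W)) = evP (rlW u) pt0) :=
    (primrec_evEq Primrec.id primrec_rlW).to_comp
  have h3 : Computable₂ fun (_ : List (HLr W.toSys × Bool)) (y : Pt W.toSys × Bool) =>
      chP cd y.1 := (computable_chP hcd).comp (Computable.fst.comp Computable.snd)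
  have h2 : Computable fun u : List (HLr W.toSys × Bool) =>
      (FreeGroup.reduce (pts u)).all fun y => chP cd y.1 :=
    computable_all (f := fun u : List (HLr W.toSys × Bool) => FreeGroup.reduce (pts u))
      (g := fun (_ : List (HLr W.toSys × Bool)) y => chP cd y.1) primrec_redpts.to_comp h3
  exact Primrec.and.to_comp.comp h1 h2

theorem computable_inET : Computable₂ (inET W) := by
  have h1 : Computable fun x : W.toSys.V × List (HLr W.toSys × Bool) =>
      decide (evP x.2 (pt0 (W := W)) = evP (ipW (wA x.2)) pt0) :=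
    (primrec_evEq Primrec.snd (primrec_ipW.comp (primrec_wA.comp Primrec.snd))).to_comp
  have h3 : Computable₂ fun (x : W.toSys.V × List (HLr W.toSys × Bool))
      (y : Pt W.toSys × Bool) => stT W x.1 y.1 :=
    computable_stT.comp (Computable.fst.comp Computable.fst) (Computable.fst.comp Computable.snd)
  have h4 : Computable fun x : W.toSys.V × List (HLr W.toSys × Bool) =>
      FreeGroup.reduce (pts x.2) := primrec_redpts.to_comp.comp Computable.snd
  have h2 : Computable fun x : W.toSys.V × List (HLr W.toSys × Bool) =>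
      (FreeGroup.reduce (pts x.2)).all fun y => stT W x.1 y.1 :=
    computable_all (f := fun x : W.toSys.V × List (HLr W.toSys × Bool) =>
      FreeGroup.reduce (pts x.2))
      (g := fun (x : W.toSys.V × List (HLr W.toSys × Bool)) y => stT W x.1 y.1) h4 h3
  exact Primrec.and.to_comp.comp h1 h2

theorem computable_dwAll {α β : Type*} [Primcodable α] [Primcodable β] {p C : α → β → Bool}
    {l : α → List β} (hp : Computable₂ p) (hC : Computable₂ C) (hl : Computable l) :
    Computable fun a => dwAll (p a) (C a) (l a) := by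
  unfold dwAll
  refine Computable.fst.comp (computable_foldr (f := l) (g := fun _ => (true, true))
    (h := fun a (x : β × (Bool × Bool)) => (bif p a x.1 then x.2.1 else C a x.1 && x.2.2,
      C a x.1 && x.2.2)) hl (Computable.const _) ?_)
  have h1 : Computable fun y : α × (β × (Bool × Bool)) => C y.1 y.2.1 && y.2.2.2 :=
    Primrec.and.to_comp.comp (hC.comp Computable.fst (Computable.fst.comp Computable.snd))
      (Computable.snd.comp (Computable.snd.comp Computable.snd))
  exact Computable.pair (Computable.cond (hp.comp Computable.fst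
    (Computable.fst.comp Computable.snd)) (Computable.fst.comp
      (Computable.snd.comp Computable.snd)) h1) h1

theorem computable_inELT (hcd : Computable cd) :
    Computable₂ fun (tx : W.toSys.V) (u : List (HLr W.toSys × Bool)) => inELT W cd tx u := by
  have h0 : Primrec fun x : W.toSys.V × List (HLr W.toSys × Bool) =>
      ipW (wA x.2) ++ rlW x.2 :=
    Primrec.list_append.comp (primrec_ipW.comp (primrec_wA.comp Primrec.snd))
      (primrec_rlW.comp Primrec.snd)
  have h1 : Computable fun x : W.toSys.V × List (HLr W.toSys × Bool) =>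
      decide (evP x.2 (pt0 (W := W)) = evP (ipW (wA x.2) ++ rlW x.2) pt0) :=
    (primrec_evEq Primrec.snd h0).to_comp
  have h3 : Computable₂ fun (x : W.toSys.V × List (HLr W.toSys × Bool))
      (y : Pt W.toSys × Bool) => stT W x.1 y.1 :=
    computable_stT.comp (Computable.fst.comp Computable.fst) (Computable.fst.comp Computable.snd)
  have h4 : Computable fun x : W.toSys.V × List (HLr W.toSys × Bool) =>
      FreeGroup.reduce (pts x.2) := primrec_redpts.to_comp.comp Computable.snd
  have h6 : Primrec fun z : (W.toSys.V × List (HLr W.toSys × Bool)) × (Pt W.toSys × Bool) =>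
      evP (ipW (FreeGroup.invRev (wA z.1.2))) z.2.1 :=
    primrec_evP.comp (primrec_ipW.comp (Hk.invRev_primrec.comp (primrec_wA.comp
      (Primrec.snd.comp Primrec.fst)))) (Primrec.fst.comp Primrec.snd)
  have h5 : Computable₂ fun (x : W.toSys.V × List (HLr W.toSys × Bool))
      (y : Pt W.toSys × Bool) => chP cd (evP (ipW (FreeGroup.invRev (wA x.2))) y.1) :=
    (computable_chP hcd).comp h6.to_comp
  have h2 := computable_dwAll
    (p := fun (x : W.toSys.V × List (HLr W.toSys × Bool)) (y : Pt W.toSys × Bool) =>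
      stT W x.1 y.1)
    (C := fun (x : W.toSys.V × List (HLr W.toSys × Bool)) (y : Pt W.toSys × Bool) =>
      chP cd (evP (ipW (FreeGroup.invRev (wA x.2))) y.1)) h3 h5 h4
  exact Primrec.and.to_comp.comp h1 h2

theorem primrec_ptsE : Primrec₂ (ptsE W) := by
  unfold ptsE
  refine Primrec.list_foldr (f := fun x : W.toSys.V × List (Option A × Bool) => x.2)
    (g := fun _ => ([] : List (Pt W.toSys × Bool)))
    (h := fun x (p : (Option A × Bool) × List (Pt W.toSys × Bool)) =>
      tlE W x.1 p.1 ++ p.2.map fun z => (lactE p.1 z.1, z.2))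
    Primrec.snd (Primrec.const _) ?_
  have h1 : Primrec₂ fun (y : Option A × Bool) (z : W.toSys.V × List (Pt W.toSys × Bool)) =>
      tlE W z.1 y ++ z.2.map fun z => (lactE y z.1, z.2) := by
    refine primrec₂_of_finite fun y => ?_
    refine Primrec.list_append.comp ?_ (Primrec.list_map Primrec.snd ?_)
    · obtain ⟨_ | a, b⟩ := y
      · exact Primrec.list_cons.comp ((Primrec.fst.pair (Primrec.const _)).pair
          (Primrec.const _)) (Primrec.const _)
      · exact Primrec.const _
    · obtain ⟨_ | a, b⟩ := y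
      · exact (Primrec.fst.comp Primrec.snd).pair (Primrec.snd.comp Primrec.snd)
      · exact (primrec_lact.comp (Primrec.const _) (Primrec.fst.comp Primrec.snd)).pair
          (Primrec.snd.comp Primrec.snd)
  exact h1.comp (Primrec.fst.comp Primrec.snd) ((Primrec.fst.comp Primrec.fst).pair
    (Primrec.snd.comp Primrec.snd))

theorem primrec_epsT : Primrec fun x : W.toSys.V × List (HLr W.toSys × Bool) ×
    List (Option A × Bool) => epsT W x.1 x.2.1 x.2.2 := by
  unfold epsT
  refine Primrec.and.comp (primrec_evEq (Primrec.fst.comp Primrec.snd) (primrec_ipW.comp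
    (primrec_wE.comp (Primrec.snd.comp Primrec.snd)))) ?_
  exact primrec_deq (primrec_redpts.comp (Primrec.fst.comp Primrec.snd))
    (Hk.reduce_primrec.comp (primrec_ptsE.comp Primrec.fst (Primrec.snd.comp Primrec.snd)))

theorem computable_epsT {α : Type*} [Primcodable α] {t : α → W.toSys.V}
    {u : α → List (HLr W.toSys × Bool)} {x : α → List (Option A × Bool)} (ht : Computable t)
    (hu : Computable u) (hx : Computable x) : Computable fun a => epsT W (t a) (u a) (x a) :=
  primrec_epsT.to_comp.comp (ht.pair (hu.pair hx))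

theorem primrec_oneT : Primrec (oneT (W := W)) := by
  unfold oneT
  refine Primrec.and.comp (primrec_deq (primrec_evP.comp Primrec.id (Primrec.const _))
    (Primrec.const _)) ?_
  exact primrec_deq primrec_redpts (Primrec.const _)

end Crest.Agent.R185.Cw
end

-- ▼ part R185/Cw459E
section

/-!
# R185, computability of the witness, part E: the group `D`

Tests for `d = 1` and `d ∈ S` for words `d` in the letters of `D`, and their computability.
-/

set_option autoImplicit false
set_option linter.unusedSectionVars false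

namespace Crest.Agent.R185.Cw

open Crest.Agent.R185.Wit Crest.Agent.Lib.RatPrimrec Crest.Agent.R185.Re
open Crest.Agent.R185.Md191C Crest.Agent.R185.Md191G

/-! ### free reduction over a Boolean equality -/

section red

variable {β α : Type*}

/-- one step of the reduction -/
def redBS (q : β → β → Bool) (x : β × Bool) (l : List (β × Bool)) : List (β × Bool) :=
  Option.casesOn l.head? [x] fun y => bif q x.1 y.1 && decide (x.2 = !y.2) then l.tail else x :: l

/-- the reduction -/
def redB (q : β → β → Bool) (l : List (β × Bool)) : List (β × Bool) := l.foldr (redBS q) []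

theorem map_redB [DecidableEq α] {q : β → β → Bool} {f : β → α}
    (hq : ∀ a b, q a b = true ↔ f a = f b) (l : List (β × Bool)) :
    (redB q l).map (fun x => (f x.1, x.2)) = FreeGroup.reduce (l.map fun x => (f x.1, x.2)) := by
  unfold redB
  induction l with
  | nil => rfl
  | cons x l ih =>
    rw [List.foldr_cons, List.map_cons, FreeGroup.reduce.cons, ← ih]
    cases List.foldr (redBS q) [] l with
    | nil => rfl
    | cons y t =>
      simp only [redBS, List.head?_cons, List.tail_cons, List.map_cons]
      by_cases h : f x.1 = f y.1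
      · rw [(hq _ _).2 h]
        by_cases h2 : x.2 = !y.2
        · simp [h, h2]
        · simp [h, h2]
      · have : q x.1 y.1 = false := by
          rw [Bool.eq_false_iff]; intro h3; exact h ((hq _ _).1 h3)
        rw [this]
        simp [h]

theorem computable_redB {γ : Type*} [Primcodable β] [Primcodable γ] {q : β → β → Bool}
    (hq : Computable₂ q) {l : γ → List (β × Bool)} (hl : Computable l) :
    Computable fun a => redB q (l a) := by
  unfold redB
  refine computable_foldr (f := l) (g := fun _ => []) (h := fun _ (p : (β × Bool) ×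
    List (β × Bool)) => redBS q p.1 p.2) hl (Computable.const _) ?_
  have h1 : Computable fun p : (β × Bool) × List (β × Bool) => redBS q p.1 p.2 := by
    unfold redBS
    refine Computable.option_casesOn (o := fun p : (β × Bool) × List (β × Bool) => p.2.head?)
      (f := fun p => [p.1]) (g := fun p y => bif q p.1.1 y.1 && decide (p.1.2 = !y.2) then
        p.2.tail else p.1 :: p.2) ?_ ?_ ?_
    · exact Primrec.list_head?.to_comp.comp Computable.snd
    · exact (Primrec.list_cons.comp Primrec.fst (Primrec.const [])).to_comp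
    · refine Computable.cond ?_ ?_ ?_
      · refine Primrec.and.to_comp.comp (hq.comp ?_ ?_) ?_
        · exact Computable.fst.comp (Computable.fst.comp Computable.fst)
        · exact Computable.fst.comp Computable.snd
        · exact (primrec_deq (Primrec.snd.comp (Primrec.fst.comp Primrec.fst))
            (Primrec.not.comp (Primrec.snd.comp Primrec.snd))).to_comp
      · exact (Primrec.list_tail.comp (Primrec.snd.comp Primrec.fst)).to_comp
      · exact (Primrec.list_cons.comp (Primrec.fst.comp Primrec.fst)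
          (Primrec.snd.comp Primrec.fst)).to_comp
  exact h1.comp Computable.snd

/-- test for `path true true` -/
def pathB (l : List (β × Bool)) : Bool :=
  (l.foldr (fun x (s : Bool × Bool) => (x.2 && s.2, !x.2 && s.1)) (true, false)).1

theorem pathB_iff {β : Type} (l : List (β × Bool)) : pathB l = true ↔ path true true l := by
  have key : ((l.foldr (fun x (s : Bool × Bool) => (x.2 && s.2, !x.2 && s.1))
      (true, false)).1 = true ↔ path true true l) ∧
      ((l.foldr (fun x (s : Bool × Bool) => (x.2 && s.2, !x.2 && s.1))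
      (true, false)).2 = true ↔ path false true l) := by
    induction l with
    | nil => simp
    | cons x l ih =>
      rw [List.foldr_cons, path_cons, path_cons]
      constructor
      · rw [Bool.and_eq_true, ih.2]; rfl
      · rw [Bool.and_eq_true, ih.1]; simp
  exact key.1

theorem primrec_pathB [Primcodable β] : Primrec (pathB (β := β)) := by
  unfold pathB
  refine Primrec.fst.comp (Primrec.list_foldr (f := fun l : List (β × Bool) => l)
    (g := fun _ => (true, false)) (h := fun _ (p : (β × Bool) × (Bool × Bool)) =>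
      (p.1.2 && p.2.2, !p.1.2 && p.2.1)) Primrec.id (Primrec.const _) ?_)
  have hx : Primrec fun y : List (β × Bool) × ((β × Bool) × (Bool × Bool)) => y.2.1.2 :=
    Primrec.snd.comp (Primrec.fst.comp Primrec.snd)
  have h1 : Primrec fun y : List (β × Bool) × ((β × Bool) × (Bool × Bool)) => y.2.2.1 :=
    Primrec.fst.comp (Primrec.snd.comp Primrec.snd)
  have h2 : Primrec fun y : List (β × Bool) × ((β × Bool) × (Bool × Bool)) => y.2.2.2 :=
    Primrec.snd.comp (Primrec.snd.comp Primrec.snd)
  exact (Primrec.and.comp hx h2).pair (Primrec.and.comp (Primrec.not.comp hx) h1)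

end red

/-! ### words in the letters of `D` -/

variable {R A : Type} [DecidableEq R] [DecidableEq A] (W : WS R A)

/-- values of the letters of `D` -/
def dlr (o : Option (HLr W.toSys)) : DG (Ls W) := o.elim (kD (Ls W)) fun a => hD (Ls W) (hlr W a)

/-- values of the words in the letters of `D` -/
def dvl (d : List (Option (HLr W.toSys) × Bool)) : DG (Ls W) :=
  FreeGroup.lift (dlr W) (FreeGroup.mk d)

/-- value of a signed letter -/
def dsg (x : Option (HLr W.toSys) × Bool) : DG (Ls W) := cond x.2 (dlr W x.1) (dlr W x.1)⁻¹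

@[simp] theorem dvl_nil : dvl W [] = 1 := by simp [dvl, FreeGroup.lift_mk]

@[simp] theorem dvl_cons (x : Option (HLr W.toSys) × Bool)
    (u : List (Option (HLr W.toSys) × Bool)) : dvl W (x :: u) = dsg W x * dvl W u := by
  simp [dvl, FreeGroup.lift_mk, dsg]

variable {W}

/-- the `H`-word of a `D`-word -/
def dh (d : List (Option (HLr W.toSys) × Bool)) : List (HLr W.toSys × Bool) :=
  d.filterMap fun x => x.1.map fun a => (a, x.2)

/-- one letter -/
def kst (x : Option (HLr W.toSys) × Bool) (acc : List (List (HLr W.toSys × Bool) × Bool)) :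
    List (List (HLr W.toSys × Bool) × Bool) :=
  match x with
  | (none, b) => ([], b) :: acc
  | (some a, b) => acc.map fun y => ((a, b) :: y.1, y.2)

/-- the occurrences of `k` -/
def kp (d : List (Option (HLr W.toSys) × Bool)) : List (List (HLr W.toSys × Bool) × Bool) :=
  d.foldr kst []

/-- the coset of a raw word -/
def cst (u : List (HLr W.toSys × Bool)) : Hg W ⧸ Ls W := ((hvl W u : Hg W) : Hg W ⧸ Ls W)

theorem dvl_right (d : List (Option (HLr W.toSys) × Bool)) : (dvl W d).right = hvl W (dh d) := by
  induction d with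
  | nil => simp [dh]
  | cons x d ih =>
    rw [dvl_cons, SemidirectProduct.mul_right, ih]
    obtain ⟨_ | a, b⟩ := x
    · have h1 : (dsg W (none, b)).right = 1 := by
        cases b
        · simp [dsg, dlr, kD]
        · simp [dsg, dlr, kD]
      rw [h1, one_mul]
      rfl
    · have h1 : (dsg W (some a, b)).right = sgn W (a, b) := by
        cases b
        · simp [dsg, dlr, hD, sgn]
        · simp [dsg, dlr, hD, sgn]
      rw [h1, ← hvl_cons]
      rfl

theorem dvl_left (d : List (Option (HLr W.toSys) × Bool)) : (dvl W d).left =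
    FreeGroup.mk ((kp d).map fun y => (cst y.1, y.2)) := by
  induction d with
  | nil => exact FreeGroup.one_eq_mk
  | cons x d ih =>
    rw [dvl_cons, SemidirectProduct.mul_left, ih]
    obtain ⟨_ | a, b⟩ := x
    · have h1 : (dsg W (none, b)).right = 1 := by
        cases b
        · simp [dsg, dlr, kD]
        · simp [dsg, dlr, kD]
      have h2 : (dsg W (none, b)).left = FreeGroup.mk [(cst (W := W) [], b)] := by
        have h3 : cst (W := W) [] = ((1 : Hg W) : Hg W ⧸ Ls W) := by rw [cst, hvl_nil]
        rw [h3]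
        cases b
        · simp only [dsg, dlr, kD, cond_false, Option.elim, SemidirectProduct.inv_left,
            SemidirectProduct.left_inl, SemidirectProduct.right_inl, inv_one, map_one,
            MulAut.one_apply]
          rfl
        · rfl
      rw [h1, h2, map_one, MulAut.one_apply, FreeGroup.mul_mk]
      rfl
    · have h1 : (dsg W (some a, b)).right = sgn W (a, b) := by
        cases b
        · simp [dsg, dlr, hD, sgn]
        · simp [dsg, dlr, hD, sgn]
      have h2 : (dsg W (some a, b)).left = 1 := by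
        cases b
        · simp [dsg, dlr, hD]
        · simp [dsg, dlr, hD]
      rw [h1, h2, one_mul, qact_mk]
      change _ = FreeGroup.mk (((kp d).map fun y => ((a, b) :: y.1, y.2)).map
        fun y => (cst y.1, y.2))
      rw [List.map_map, List.map_map]
      congr 1

variable {cd : W.Q × W.toSys.V → Bool}

/-- equality of cosets -/
def cstT (cd : W.Q × W.toSys.V → Bool) (u v : List (HLr W.toSys × Bool)) : Bool :=
  inLT cd (FreeGroup.invRev u ++ v)

theorem cstT_iff (h : CdOK cd) (u v : List (HLr W.toSys × Bool)) :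
    cstT cd u v = true ↔ cst (W := W) u = cst v := by
  unfold cstT cst
  rw [inLT_iff h, hvl_append, hvl_invRev, QuotientGroup.eq]

/-- the reduced list of the occurrences of `k` -/
def kr (cd : W.Q × W.toSys.V → Bool) (d : List (Option (HLr W.toSys) × Bool)) :
    List (List (HLr W.toSys × Bool) × Bool) := redB (cstT cd) (kp d)

/-- test for `d = 1` -/
def doneT (cd : W.Q × W.toSys.V → Bool) (d : List (Option (HLr W.toSys) × Bool)) : Bool :=
  (kr cd d).isEmpty && oneT (dh d)

theorem doneT_iff (h : CdOK cd) (d : List (Option (HLr W.toSys) × Bool)) :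
    doneT cd d = true ↔ dvl W d = 1 := by
  classical
  unfold doneT
  rw [Bool.and_eq_true, oneT_iff, ← dvl_right, List.isEmpty_iff]
  have h1 := map_redB (f := cst (W := W)) (cstT_iff h) (kp d)
  have h2 : kr cd d = [] ↔ (dvl W d).left = 1 := by
    rw [dvl_left, ← FreeGroup.toWord_eq_nil_iff, FreeGroup.toWord_mk, ← h1, List.map_eq_nil_iff]
    rfl
  rw [h2]
  constructor
  · rintro ⟨h3, h4⟩; exact SemidirectProduct.ext h3 h4
  · intro h3; rw [h3]; exact ⟨rfl, rfl⟩

/-- test for `d ∈ S` -/
noncomputable def inST [Finite A] (W : WS R A) (cd : W.Q × W.toSys.V → Bool) (tx : W.toSys.V)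
    (d : List (Option (HLr W.toSys) × Bool)) : Bool :=
  inET W tx (dh d) && (pathB (kr cd d) && (kr cd d).all fun y => inELT W cd tx y.1)

theorem inE_cst (u : List (HLr W.toSys × Bool)) :
    inE (Ls W) (eps W) (cst u) ↔ hvl W u ∈ EL W := by
  unfold inE cst
  constructor
  · rintro ⟨e, he⟩
    rw [eq_comm, QuotientGroup.eq] at he
    exact ⟨e, _, he, by group⟩
  · rintro ⟨e, l, hl, he⟩
    refine ⟨e, ?_⟩
    rw [eq_comm, QuotientGroup.eq, he]
    simpa using hl

theorem inST_iff [Finite A] (h : CdOK cd) (d : List (Option (HLr W.toSys) × Bool)) :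
    inST W cd W.tx d = true ↔ dvl W d ∈ SG (Ls W) (eps W) := by
  classical
  unfold inST
  rw [mem_SG_iff, Bool.and_eq_true, Bool.and_eq_true, inET_iff, ← dvl_right, pathB_iff,
    List.all_eq_true]
  have h1 := map_redB (f := cst (W := W)) (cstT_iff h) (kp d)
  have h2 : (dvl W d).left.toWord = (kr cd d).map fun y => (cst y.1, y.2) := by
    rw [dvl_left, FreeGroup.toWord_mk, ← h1]; rfl
  rw [h2]
  refine and_congr Iff.rfl (and_congr ?_ ?_)
  · constructor
    · intro h3
      exact path_map _ h3
    · intro h3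
      have : ∀ (l : List (List (HLr W.toSys × Bool) × Bool)) (b : Bool),
          path b true (l.map fun y => (cst (W := W) y.1, y.2)) → path b true l := by
        intro l
        induction l with
        | nil => intro b h; exact h
        | cons x l ih =>
          intro b h
          rw [List.map_cons, path_cons] at h
          exact ⟨h.1, ih _ h.2⟩
      exact this _ _ h3
  · constructor
    · intro h3 x hx
      obtain ⟨y, hy, rfl⟩ := List.mem_map.1 hx
      exact (inE_cst y.1).2 ((inELT_iff h y.1).1 (h3 y hy))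
    · intro h3 y hy
      exact (inELT_iff h y.1).2 ((inE_cst y.1).1 (h3 _ (List.mem_map.2 ⟨y, hy, rfl⟩)))

/-! ### computability -/

section comp

variable [Primcodable R] [Primcodable A] [Finite R] [Finite A] [Primcodable W.Q] [Finite W.Q]

theorem primrec_dh : Primrec (dh (W := W)) := by
  refine Primrec.listFilterMap Primrec.id ?_
  exact ((Primrec.dom_finite fun x : Option (HLr W.toSys) × Bool =>
    x.1.map fun a => (a, x.2)).comp Primrec.snd).to₂

theorem primrec_kp : Primrec (kp (W := W)) := by
  have h1 : Primrec₂ (kst (W := W)) := by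
    refine primrec₂_of_finite fun x => ?_
    obtain ⟨_ | a, b⟩ := x
    · exact Primrec.list_cons.comp (Primrec.const _) Primrec.id
    · exact Primrec.list_map Primrec.id ((Primrec.list_cons.comp (Primrec.const _)
        (Primrec.fst.comp Primrec.snd)).pair (Primrec.snd.comp Primrec.snd)).to₂
  refine Primrec.list_foldr (f := fun d : List (Option (HLr W.toSys) × Bool) => d)
    (g := fun _ => ([] : List (List (HLr W.toSys × Bool) × Bool)))
    (h := fun _ (p : (Option (HLr W.toSys) × Bool) × List (List (HLr W.toSys × Bool) × Bool)) =>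
      kst p.1 p.2) Primrec.id (Primrec.const _) ?_
  exact h1.comp (Primrec.fst.comp Primrec.snd) (Primrec.snd.comp Primrec.snd)

theorem computable_cstT (hcd : Computable cd) : Computable₂ (cstT (W := W) cd) := by
  have h1 : Primrec fun x : List (HLr W.toSys × Bool) × List (HLr W.toSys × Bool) =>
      FreeGroup.invRev x.1 ++ x.2 :=
    Primrec.list_append.comp (Hk.invRev_primrec.comp Primrec.fst) Primrec.snd
  exact (computable_inLT hcd).comp h1.to_comp

theorem computable_kr (hcd : Computable cd) : Computable (kr (W := W) cd) :=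
  computable_redB (computable_cstT hcd) primrec_kp.to_comp

theorem computable_doneT (hcd : Computable cd) : Computable (doneT (W := W) cd) := by
  have h1 : Computable fun d : List (Option (HLr W.toSys) × Bool) => (kr cd d).isEmpty := by
    have h2 : Primrec fun l : List (List (HLr W.toSys × Bool) × Bool) => l.isEmpty := by
      refine (Primrec.not.comp (Primrec.option_isSome.comp Primrec.list_head?)).of_eq fun l => ?_
      cases l <;> rfl
    exact h2.to_comp.comp (computable_kr hcd)
  exact Primrec.and.to_comp.comp h1 (primrec_oneT.comp primrec_dh).to_comp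

theorem computable_inST (hcd : Computable cd) :
    Computable₂ fun (tx : W.toSys.V) (d : List (Option (HLr W.toSys) × Bool)) =>
      inST W cd tx d := by
  have h1 : Computable fun x : W.toSys.V × List (Option (HLr W.toSys) × Bool) =>
      inET W x.1 (dh x.2) :=
    computable_inET.comp Computable.fst (primrec_dh.to_comp.comp Computable.snd)
  have h2 : Computable fun x : W.toSys.V × List (Option (HLr W.toSys) × Bool) =>
      kr cd x.2 := (computable_kr hcd).comp Computable.snd
  have h3 : Computable fun x : W.toSys.V × List (Option (HLr W.toSys) × Bool) =>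
      pathB (kr cd x.2) := primrec_pathB.to_comp.comp h2
  have h5 : Computable₂ fun (x : W.toSys.V × List (Option (HLr W.toSys) × Bool))
      (y : List (HLr W.toSys × Bool) × Bool) => inELT W cd x.1 y.1 :=
    (computable_inELT hcd).comp (Computable.fst.comp Computable.fst)
      (Computable.fst.comp Computable.snd)
  have h4 : Computable fun x : W.toSys.V × List (Option (HLr W.toSys) × Bool) =>
      (kr cd x.2).all fun y => inELT W cd x.1 y.1 :=
    computable_all (f := fun x : W.toSys.V × List (Option (HLr W.toSys) × Bool) => kr cd x.2)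
      (g := fun x y => inELT W cd x.1 y.1) h2 h5
  exact Primrec.and.to_comp.comp h1 (Primrec.and.to_comp.comp h3 h4)

end comp

end Crest.Agent.R185.Cw
end

-- ▼ part R185/Cw459F
section

/-!
# R185, computability of the witness, part F: the family `U.ws e`

All questions about words in the letters of `H` and `D` are decidable, uniformly in the program `e`.
-/

set_option autoImplicit false
set_option linter.unusedSectionVars false

namespace Crest.Agent.R185.Cw

open Crest.Agent.R185.Wit Crest.Agent.R185.Re
open Crest.Agent.R185.Md191C Crest.Agent.R185.Md191G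
open Crest.Agent.R185.Clk (UM PConn)

variable {A : Type} [Finite A] [Primcodable A] [DecidableEq A] (U : UM A)

instance instPQ (e : ℕ) : Primcodable (U.ws e).Q := inferInstanceAs (Primcodable (Fin U.nQ))
instance instFQ (e : ℕ) : Finite (U.ws e).Q := inferInstanceAs (Finite (Fin U.nQ))

/-- the letters of `H` -/
abbrev HU : Type := Fin U.nK ⊕ (Fin U.nR ⊕ Option A) ⊕ Fin U.nQ

/-- values of the letters of `H` -/
def hlu (e : ℕ) : HU U → Hg (U.ws e) :=
  Sum.elim (fun j => SemidirectProduct.inr (mx (S := (U.ws e).toSys) (Pi.single j 1)))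
    (Sum.elim (fun l => SemidirectProduct.inr (my (S := (U.ws e).toSys) l))
      (fun q => ht (U.ws e) q))

/-- values of the words in the letters of `H` -/
def hval (e : ℕ) (u : List (HU U × Bool)) : Hg (U.ws e) :=
  FreeGroup.lift (hlu U e) (FreeGroup.mk u)

/-- values of the words in the letters of `D` -/
def dval (e : ℕ) (d : List (Option (HU U) × Bool)) : DG (Ls (U.ws e)) :=
  FreeGroup.lift (fun o : Option (HU U) => o.elim (kD (Ls (U.ws e)))
    fun a => hD (Ls (U.ws e)) (hlu U e a)) (FreeGroup.mk d)

theorem hlr_eq (e : ℕ) : (hlr (U.ws e) : HU U → Hg (U.ws e)) = hlu U e := by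
  funext a
  rcases a with j | l | q <;> rfl

theorem hvl_eq (e : ℕ) (u : List (HU U × Bool)) : hvl (U.ws e) u = hval U e u := by
  unfold hval
  rw [← hlr_eq]
  rfl

theorem dvl_eq (e : ℕ) (d : List (Option (HU U) × Bool)) : dvl (U.ws e) d = dval U e d := by
  unfold dval
  rw [← hlr_eq]
  rfl

/-- the text -/
theorem computable_tx : Computable fun e : ℕ => (U.start e [] : Fin U.nK → ℤ) :=
  U.start_comp.comp (Computable.id.pair (Computable.const []))

theorem exists_cd : ∃ cd : Fin U.nQ × (Fin U.nK → ℤ) → Bool, Computable cd ∧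
    ∀ e : ℕ, CdOK (W := U.ws e) cd := by
  obtain ⟨cd, hcd, h⟩ := ComputablePred.computable_iff.1 U.dec
  refine ⟨cd, hcd, fun e c => ?_⟩
  rw [← (congrFun h c : _ = (cd c = true))]
  exact (U.Cn_iff e c _).symm

/-- the decision procedure for the real configurations -/
noncomputable def cdU : Fin U.nQ × (Fin U.nK → ℤ) → Bool := (exists_cd U).choose

theorem computable_cdU : Computable (cdU U) := (exists_cd U).choose_spec.1

theorem cdU_ok (e : ℕ) : CdOK (W := U.ws e) (cdU U) := (exists_cd U).choose_spec.2 e

theorem pred_of {α : Type*} [Primcodable α] {p : α → Prop} {f : α → Bool} (hf : Computable f)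
    (h : ∀ a, f a = true ↔ p a) : ComputablePred p :=
  ComputablePred.computable_iff.2 ⟨f, hf, funext fun a => propext (h a).symm⟩

/-! ### the tests do not depend on the program -/


set_option smartUnfolding false in
theorem inLT_ws (cd : Fin U.nQ × (Fin U.nK → ℤ) → Bool) (e : ℕ) (u : List (HU U × Bool)) :
    inLT (W := U.ws 0) cd u = inLT (W := U.ws e) cd u := rfl


set_option smartUnfolding false in
theorem inELT_ws (cd : Fin U.nQ × (Fin U.nK → ℤ) → Bool) (tx : Fin U.nK → ℤ) (e : ℕ)
    (u : List (HU U × Bool)) : inELT (U.ws 0) cd tx u = inELT (U.ws e) cd tx u := rfl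

set_option smartUnfolding false in
theorem epsT_ws (tx : Fin U.nK → ℤ) (e : ℕ) (u : List (HU U × Bool))
    (x : List (Option (Option A) × Bool)) :
    epsT (U.ws 0) tx u x = epsT (U.ws e) tx u x := rfl

set_option smartUnfolding false in
theorem doneT_ws (cd : Fin U.nQ × (Fin U.nK → ℤ) → Bool) (e : ℕ)
    (d : List (Option (HU U) × Bool)) :
    doneT (W := U.ws 0) cd d = doneT (W := U.ws e) cd d := rfl

set_option smartUnfolding false in
theorem inST_ws (cd : Fin U.nQ × (Fin U.nK → ℤ) → Bool) (tx : Fin U.nK → ℤ) (e : ℕ)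
    (d : List (Option (HU U) × Bool)) :
    inST (U.ws 0) cd tx d = inST (U.ws e) cd tx d := rfl

set_option smartUnfolding false in
theorem chP_ws (cd : Fin U.nQ × (Fin U.nK → ℤ) → Bool) (tx : Fin U.nK → ℤ) (e : ℕ)
    (w : List (Option A × Bool)) :
    chP (W := U.ws 0) cd (stR (U.ws 0) tx w) = chP (W := U.ws e) cd (stR (U.ws e) tx w) := rfl

/-! ### the predicates -/


theorem comp_L : ComputablePred fun x : ℕ × List (HU U × Bool) =>
    hval U x.1 x.2 ∈ Ls (U.ws x.1) := by
  refine pred_of (f := fun x : ℕ × List (HU U × Bool) => inLT (W := U.ws 0) (cdU U) x.2) ?_ ?_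
  · exact (computable_inLT (W := U.ws 0) (computable_cdU U)).comp Computable.snd
  · intro x
    have h := inLT_ws U (cdU U) x.1 x.2
    exact (iff_of_eq (congrArg (· = true) h)).trans ((inLT_iff (cdU_ok U x.1) x.2).trans
      (iff_of_eq (congrArg (· ∈ Ls (U.ws x.1)) (hvl_eq U x.1 x.2))))


theorem comp_EL : ComputablePred fun x : ℕ × List (HU U × Bool) =>
    hval U x.1 x.2 ∈ EL (U.ws x.1) := by
  refine pred_of (f := fun x : ℕ × List (HU U × Bool) =>
    inELT (U.ws 0) (cdU U) (U.start x.1 []) x.2) ?_ ?_
  · exact (computable_inELT (W := U.ws 0) (computable_cdU U)).comp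
      ((computable_tx U).comp Computable.fst) Computable.snd
  · intro x
    have h := inELT_ws U (cdU U) (U.start x.1 []) x.1 x.2
    exact (iff_of_eq (congrArg (· = true) h)).trans ((inELT_iff (cdU_ok U x.1) x.2).trans
      (iff_of_eq (congrArg (· ∈ EL (U.ws x.1)) (hvl_eq U x.1 x.2))))

theorem comp_eps : ComputablePred fun x : ℕ × List (HU U × Bool) ×
    List (Option (Option A) × Bool) => hval U x.1 x.2.1 = eps (U.ws x.1) (FreeGroup.mk x.2.2) := by
  refine pred_of (f := fun x : ℕ × List (HU U × Bool) × List (Option (Option A) × Bool) =>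
    epsT (U.ws 0) (U.start x.1 []) x.2.1 x.2.2) ?_ ?_
  · exact computable_epsT (W := U.ws 0) ((computable_tx U).comp Computable.fst)
      (Computable.fst.comp Computable.snd) (Computable.snd.comp Computable.snd)
  · intro x
    have h := epsT_ws U (U.start x.1 []) x.1 x.2.1 x.2.2
    exact (iff_of_eq (congrArg (· = true) h)).trans ((epsT_iff (W := U.ws x.1) x.2.1 x.2.2).trans
      (iff_of_eq (congrArg (· = eps (U.ws x.1) (FreeGroup.mk x.2.2)) (hvl_eq U x.1 x.2.1))))

theorem comp_done : ComputablePred fun x : ℕ × List (Option (HU U) × Bool) =>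
    dval U x.1 x.2 = 1 := by
  refine pred_of (f := fun x : ℕ × List (Option (HU U) × Bool) =>
    doneT (W := U.ws 0) (cdU U) x.2) ?_ ?_
  · exact (computable_doneT (W := U.ws 0) (computable_cdU U)).comp Computable.snd
  · intro x
    have h := doneT_ws U (cdU U) x.1 x.2
    exact (iff_of_eq (congrArg (· = true) h)).trans ((doneT_iff (cdU_ok U x.1) x.2).trans
      (iff_of_eq (congrArg (· = 1) (dvl_eq U x.1 x.2))))

theorem comp_S : ComputablePred fun x : ℕ × List (Option (HU U) × Bool) =>
    dval U x.1 x.2 ∈ SG (Ls (U.ws x.1)) (eps (U.ws x.1)) := by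
  refine pred_of (f := fun x : ℕ × List (Option (HU U) × Bool) =>
    inST (U.ws 0) (cdU U) (U.start x.1 []) x.2) ?_ ?_
  · exact (computable_inST (W := U.ws 0) (computable_cdU U)).comp
      ((computable_tx U).comp Computable.fst) Computable.snd
  · intro x
    have h := inST_ws U (cdU U) (U.start x.1 []) x.1 x.2
    exact (iff_of_eq (congrArg (· = true) h)).trans ((inST_iff (cdU_ok U x.1) x.2).trans
      (iff_of_eq (congrArg (· ∈ SG (Ls (U.ws x.1)) (eps (U.ws x.1))) (dvl_eq U x.1 x.2))))

theorem comp_acc : ComputablePred fun x : ℕ × List (Option A × Bool) =>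
    st (U.ws x.1) (FreeGroup.mk x.2) ∈ Ch (U.ws x.1) := by
  refine pred_of (f := fun x : ℕ × List (Option A × Bool) =>
    chP (W := U.ws 0) (cdU U) (stR (U.ws 0) (U.start x.1 []) x.2)) ?_ ?_
  · exact (computable_chP (W := U.ws 0) (computable_cdU U)).comp
      ((primrec_stR (W := U.ws 0)).to_comp.comp ((computable_tx U).comp Computable.fst)
        Computable.snd)
  · intro x
    have h := chP_ws U (cdU U) (U.start x.1 []) x.1 x.2
    have h2 : cp (st (U.ws x.1) (FreeGroup.mk x.2)) = stR (U.ws x.1) (U.start x.1 []) x.2 :=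
      cp_st (W := U.ws x.1) x.2
    have h3 := chP_iff (cdU_ok U x.1) (st (U.ws x.1) (FreeGroup.mk x.2))
    exact (iff_of_eq (congrArg (· = true) (h.trans (congrArg (chP (W := U.ws x.1) (cdU U))
      h2.symm)))).trans h3

theorem mem_LE_iff {W : WS (Fin U.nR) (Option A)} {h : Hg W} :
    (∃ l ∈ Ls W, ∃ y, h = l * eps W y) ↔ h⁻¹ ∈ EL W := by
  constructor
  · rintro ⟨l, hl, y, rfl⟩
    exact ⟨y⁻¹, l⁻¹, inv_mem hl, by rw [mul_inv_rev, map_inv]⟩
  · rintro ⟨y, l, hl, h1⟩
    refine ⟨l⁻¹, inv_mem hl, y⁻¹, ?_⟩
    rw [map_inv, ← mul_inv_rev, ← h1, inv_inv]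

theorem comp_LE : ComputablePred fun x : ℕ × List (HU U × Bool) =>
    ∃ l ∈ Ls (U.ws x.1), ∃ y, hval U x.1 x.2 = l * eps (U.ws x.1) y := by
  obtain ⟨f, hf, h⟩ := ComputablePred.computable_iff.1 (comp_EL U)
  refine pred_of (f := fun x : ℕ × List (HU U × Bool) => f (x.1, FreeGroup.invRev x.2)) ?_ ?_
  · exact hf.comp (Computable.fst.pair (Hk.invRev_primrec.to_comp.comp Computable.snd))
  · intro x
    rw [mem_LE_iff, ← (congrFun h (x.1, FreeGroup.invRev x.2) : _ = (f _ = true))]
    simp only [hval, ← FreeGroup.inv_mk, map_inv]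

end Crest.Agent.R185.Cw
end

-- ▼ part R185/AsmW
section

/-!
# R185 / ASSEMBLY: computability of the witness in the form needed by the sheet layer (helper958)
-/

set_option autoImplicit false
set_option linter.unusedSectionVars false

namespace Crest.Agent.R185.Asm

open Crest.Agent.R292 Crest.Agent.R185.Re Crest.Agent.R185.She
open Crest.Agent.R185.Md191C Crest.Agent.R185.Md191D
open Crest.Agent.R185.Clk (UM)
open Crest.Agent.R185.Wit (Hg Ls eps st Ch HL hlv)
open Crest.Agent.R185.Tab (AccG kap kap_spec)

variable {A : Type} [Finite A] [Primcodable A] [DecidableEq A] (U : UM (A × Bool))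


theorem dvalU (e : ℕ) (u : List (Option (HU U) × Bool)) : (TU U e).dval u = Cw.dval U e u := by
  unfold Wt.dval Cw.dval
  congr 2
  funext o
  rcases o with _ | i
  · rfl
  · change hD (Ls (U.ws e)) (FreeGroup.lift (hlA U e) (FreeGroup.of i)) = _
    rw [FreeGroup.lift_apply_of]
    rfl

theorem epsWU (e : ℕ) (y : FreeGroup (Option (Option (A × Bool)))) :
    ∃ h : List (HU U × Bool), (TU U e).hval h = eps (U.ws e) y := by
  refine ⟨((wfp U e).θ y).toWord, ?_⟩
  have h1 : (TU U e).hval (((wfp U e).θ y).toWord) = (wfp U e).gen ((wfp U e).θ y) := by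
    rw [wfp_gen]
    change FreeGroup.lift (hlA U e) (FreeGroup.mk _) = _
    rw [FreeGroup.mk_toWord]
  rw [h1]
  exact (wfp U e).hθ y

theorem kapU : REPred fun x : ℕ × List (Option (A × Bool) × Bool) × List (Option (A × Bool) × Bool) =>
    FreeGroup.mk x.2.2 = (TU U x.1).κ (FreeGroup.mk x.2.1) := by
  obtain ⟨f, hf, h⟩ := ComputablePred.computable_iff.1 (Cw.comp_acc U)
  let B := Option (A × Bool) × Bool
  have h1 : Primrec fun x : ℕ × List B × List B => FreeGroup.reduce x.2.2 :=
    Hk.reduce_primrec.comp (Primrec.snd.comp Primrec.snd)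
  have h2 : Primrec fun x : ℕ × List B × List B => FreeGroup.reduce x.2.1 :=
    Hk.reduce_primrec.comp (Primrec.fst.comp Primrec.snd)
  have c1 : Computable fun x : ℕ × List B × List B => decide (FreeGroup.reduce x.2.2 = []) :=
    (Primrec.eq.decide.comp h1 (Primrec.const [])).to_comp
  have c2 : Computable fun x : ℕ × List B × List B =>
      decide (FreeGroup.reduce x.2.2 = FreeGroup.reduce x.2.1) :=
    (Primrec.eq.decide.comp h1 h2).to_comp
  have c3 : Computable fun x : ℕ × List B × List B => f (x.1, x.2.1) :=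
    hf.comp (Computable.fst.pair (Computable.fst.comp Computable.snd))
  refine re_of_computable (f := fun x : ℕ × List B × List B => bif f (x.1, x.2.1) then
    decide (FreeGroup.reduce x.2.2 = []) else
    decide (FreeGroup.reduce x.2.2 = FreeGroup.reduce x.2.1)) (Computable.cond c3 c1 c2) ?_
  rintro ⟨e, u, v⟩
  have h3 : (st (U.ws e) (FreeGroup.mk u) ∈ Ch (U.ws e)) = (f (e, u) = true) := congrFun h (e, u)
  change FreeGroup.mk v = Tab.kap (U.ws e) (FreeGroup.mk u) ↔ _
  by_cases h4 : f (e, u) = true
  · have h5 : FreeGroup.mk u ∈ AccG (U.ws e) := by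
      change st (U.ws e) (FreeGroup.mk u) ∈ Ch (U.ws e)
      rw [h3]; exact h4
    rw [Tab.kap_acc _ h5]
    simp only [h4, cond_true, decide_eq_true_eq]
    rw [← FreeGroup.toWord_eq_nil_iff, FreeGroup.toWord_mk]
  · have h5 : FreeGroup.mk u ∉ AccG (U.ws e) := by
      change ¬ st (U.ws e) (FreeGroup.mk u) ∈ Ch (U.ws e)
      rw [h3]; exact h4
    rw [Tab.kap_not _ h5]
    rw [Bool.not_eq_true] at h4
    simp only [h4, cond_false, decide_eq_true_eq]
    rw [← FreeGroup.toWord_mk, ← FreeGroup.toWord_mk, FreeGroup.toWord_inj]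

theorem wtC' : WtC (TU U) where
  epsW := epsWU U
  heps := (Cw.comp_eps U).to_re
  inL := (Cw.comp_L U).to_re
  ninLE := (Cw.comp_LE U).not.to_re
  one := (Cw.comp_done U).to_re.of_eq fun x => by rw [dvalU]; rfl
  ne := (Cw.comp_done U).not.to_re.of_eq fun x => by rw [dvalU]; rfl
  inS := (Cw.comp_S U).to_re.of_eq fun x => by rw [dvalU]; rfl
  ninS := (Cw.comp_S U).not.to_re.of_eq fun x => by rw [dvalU]; rfl
  kap := kapU U

end Crest.Agent.R185.Asm
end

-- ▼ part R185/Asm7

/-!
# R185 / ASSEMBLY (7): the embedding theorem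
-/

set_option autoImplicit false

namespace Crest.Agent.R185.Asm

/-- **Every finitely generated group with solvable word problem embeds in a finitely presented simple
group of type `F∞`.** -/
theorem embedding (G : Type*) [Group G] (k : ℕ) (s : Fin k → G)
    (hgen : Subgroup.closure (Set.range s) = ⊤)
    (hdec : ComputablePred fun w : List (Fin k × Bool) =>
      FreeGroup.lift s (FreeGroup.mk w) = 1) :
    ∃ (S : Type) (_ : Group S) (f : G →* S),
      Group.IsFinitelyPresented S ∧ IsSimpleGroup S ∧
      Crest.Topology.HasFiniteTypeClassifyingComplex S ∧ Function.Injective f :=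
  emb_final Loc.hubOK (She.levOK_of wtC') G k s hgen hdec

end Crest.Agent.R185.Asm
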