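import Crest.Agent.R185.Att2
import Crest.Agent.R197.TCWBuild
import Crest.Prelude.Def_FiniteTypeClassifying

/-!
# Row 185, block T1, part 3: compactness, the CW structure on the quotient, final theorem
-/

set_option autoImplicit false
set_option linter.unusedSectionVars false

open Set Metric Topology
open Crest.Agent.R197 (OrbSep)

namespace Crest.Agent.R185.Att

/-! ### compact sets in one attachment -/

section att

variable {G : Type} [Group G] {Z : Type} [TopologicalSpace Z] [MulAction G Z]
  {m : ℕ} {C : Type} {φ : C → C(S m, Z)}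

/-- a compact set meets only finitely many open cells -/
theorem finite_cells [T1Space Z] {K : Set (GAtt G φ)} (hK : IsCompact K) [T2Space (GAtt G φ)] :
    {p : G × C | ∃ x : B m, inB φ p.1 p.2 x ∈ K}.Finite := by
  classical
  set P := {p : G × C | ∃ x : B m, inB φ p.1 p.2 x ∈ K} with hP
  choose! f hf using fun (p : G × C) (hp : p ∈ P) => hp
  let T : Set (GAtt G φ) := (fun p => inB φ p.1 p.2 (f p)) '' P
  have hcl : ∀ T' ⊆ T, IsClosed T' := by
    intro T' hT'
    rw [isClosed_iff]
    constructor
    · convert isClosed_empty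
      ext z
      simp only [mem_preimage, mem_empty_iff_false, iff_false]
      intro hz
      obtain ⟨p, -, hp⟩ := hT' hz
      exact inB_ne_inZ hp
    · intro g c
      have : (chr φ g c ⁻¹' T').Subsingleton := by
        intro x hx y hy
        obtain ⟨p, -, hp⟩ := hT' hx
        obtain ⟨q, -, hq⟩ := hT' hy
        induction x using D.cases' with
        | hS x => rw [chr_sd] at hp; exact absurd hp inB_ne_inZ
        | hB x =>
          induction y using D.cases' with
          | hS y => rw [chr_sd] at hq; exact absurd hq inB_ne_inZ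
          | hB y =>
            rw [chr_bd, inB_inj] at hp hq
            have h1 : p = (g, c) := Prod.ext hp.1 hp.2.1
            have h2 : q = (g, c) := Prod.ext hq.1 hq.2.1
            rw [← hp.2.2, ← hq.2.2, h1, h2]
      exact this.isClosed
  have hTK : T ⊆ K := by
    rintro _ ⟨p, hp, rfl⟩
    exact hf p hp
  have hTc : IsCompact T := hK.of_isClosed_subset (hcl T Subset.rfl) hTK
  have hTd : IsDiscrete T := by
    constructor
    rw [discreteTopology_iff_forall_isClosed]
    intro s
    have h := (hcl (Subtype.val '' s) (by rintro _ ⟨x, -, rfl⟩; exact x.2)).preimage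
      (continuous_subtype_val (p := fun x => x ∈ T))
    rwa [preimage_image_eq _ Subtype.val_injective] at h
  have hTf : T.Finite := hTc.finite hTd
  refine Finite.of_finite_image hTf ?_
  intro p _ q _ h
  have := inB_inj.1 h
  exact Prod.ext this.1 this.2.1

end att

variable {G : Type} [Group G] (F : ∀ (m : ℕ) (X : GSp G), Cells X m)

/-! ### topology of a stage -/


theorem tower_isClosed_iff {n : ℕ} {K : Set (tower F (n + 1)).Z} :
    IsClosed K ↔ IsClosed (inc F n ⁻¹' K) ∧ ∀ g c, IsClosed (chn F n g c ⁻¹' K) :=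
  isClosed_iff (φ := (F n (tower F n)).φ)



/-! ### compact sets in the union -/

theorem compact_subset_range {K : Set (Un F)} (hK : IsCompact K) : ∃ n, K ⊆ range (jj F n) := by
  by_contra hcon
  push Not at hcon
  have h1 : ∀ n, ∃ y ∈ K, n ≤ y.1 := by
    intro n
    obtain ⟨y, hy, hy'⟩ := not_subset.1 (hcon n)
    refine ⟨y, hy, ?_⟩
    by_contra hlt
    exact hy' (exists_jj F y (not_le.1 hlt))
  choose y hyK hyn using h1
  let T : ℕ → Set (Un F) := fun n => {p | ∃ k, n ≤ k ∧ y k = p}
  have hcl : ∀ n, IsClosed (T n) := by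
    intro n
    rw [un_isClosed_iff]
    intro k
    have hfin : (jj F k ⁻¹' T n).Finite := by
      refine ((finite_Iio k).image fun i => y i).preimage
        ((jj_injective F k).injOn) |>.subset ?_
      rintro z ⟨i, -, hi⟩
      refine ⟨i, ?_, hi⟩
      have := jj_lt F k z
      rw [← hi] at this
      exact lt_of_le_of_lt (hyn i) this
    exact hfin.isClosed
  obtain ⟨n, hn⟩ := hK.elim_directed_cover (fun n => (T n)ᶜ) (fun n => (hcl n).isOpen_compl)
    (by
      intro p _
      rw [mem_iUnion]
      refine ⟨p.1 + 1, ?_⟩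
      rintro ⟨k, hk, hkp⟩
      have := hyn k
      rw [hkp] at this
      omega)
    (by
      intro a b
      refine ⟨max a b, ?_, ?_⟩
      · apply compl_subset_compl.2
        rintro p ⟨k, hk, hkp⟩
        exact ⟨k, (le_max_left _ _).trans hk, hkp⟩
      · apply compl_subset_compl.2
        rintro p ⟨k, hk, hkp⟩
        exact ⟨k, (le_max_right _ _).trans hk, hkp⟩)
  exact hn (hyK n) ⟨n, le_rfl, rfl⟩

/-- inclusions between stages -/
theorem exists_inc {k n : ℕ} (h : k ≤ n) :
    ∃ i : C((tower F k).Z, (tower F n).Z), (∀ z, jj F n (i z) = jj F k z) ∧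
      ∀ (g : G) z, i (g • z) = g • i z := by
  induction n, h using Nat.le_induction with
  | base => exact ⟨ContinuousMap.id _, fun _ => rfl, fun _ _ => rfl⟩
  | succ n hn ih =>
    obtain ⟨i, hi, hi'⟩ := ih
    exact ⟨(inc F n).comp i, hi, fun g z => congrArg (inc F n) (hi' g z)⟩

/-- the stage inclusion into the union is a closed embedding -/
theorem isClosedEmbedding_jj (n : ℕ) : IsClosedEmbedding (jj F n) := by
  refine IsClosedEmbedding.of_continuous_injective_isClosedMap (continuous_jj F n)
    (jj_injective F n) ?_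
  intro K hK
  rw [un_isClosed_iff]
  intro k
  induction k with
  | zero =>
    convert isClosed_empty
    ext z; exact z.elim
  | succ k ih =>
    refine (tower_isClosed_iff F).2 ⟨ih, fun g c => ?_⟩
    rcases Nat.lt_or_ge k n with hkn | hkn
    · obtain ⟨i, hi, -⟩ := exists_inc F (Nat.succ_le_of_lt hkn)
      have : chn F k g c ⁻¹' (jj F (k + 1) ⁻¹' (jj F n '' K)) =
          (i.comp (chn F k g c)) ⁻¹' K := by
        ext x
        constructor
        · rintro ⟨z, hz, hzx⟩
          have h1 : jj F n (i (chn F k g c x)) = jj F n z := (hi _).trans hzx.symm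
          have h2 := jj_injective F n h1
          show i (chn F k g c x) ∈ K
          rw [h2]; exact hz
        · intro h
          exact ⟨_, h, hi _⟩
      rw [this]
      exact hK.preimage (ContinuousMap.continuous _)
    · have : chn F k g c ⁻¹' (jj F (k + 1) ⁻¹' (jj F n '' K)) =
          sd k '' ((fun s => g • atm F k c s) ⁻¹' (jj F k ⁻¹' (jj F n '' K))) := by
        ext x
        constructor
        · intro hx
          induction x using D.cases' with
          | hB x =>
            exfalso
            obtain ⟨z, hz, hzx⟩ := hx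
            rw [chn_bd, jj_opn] at hzx
            have h1 := jj_lt F n z
            rw [hzx] at h1
            have h2 : (pt F k g c x).1 = k := rfl
            omega
          | hS x =>
            refine ⟨x, ?_, rfl⟩
            have h1 : jj F (k + 1) (chn F k g c (sd k x)) ∈ jj F n '' K := hx
            rw [chn_sd] at h1
            exact h1
        · rintro ⟨s, hs, rfl⟩
          show jj F (k + 1) (chn F k g c (sd k s)) ∈ jj F n '' K
          rw [chn_sd]
          exact hs
      rw [this]
      have h2 : IsClosed ((fun s => g • atm F k c s) ⁻¹' (jj F k ⁻¹' (jj F n '' K))) :=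
        ih.preimage ((atm F k c).continuous.const_smul g)
      exact (h2.isCompact.image (sd k).continuous).isClosed

/-- a map from a compact space to the union factors through a stage -/
theorem exists_factor {A : Type*} [TopologicalSpace A] [CompactSpace A] (f : C(A, Un F)) :
    ∃ n, ∃ f' : C(A, (tower F n).Z), ∀ a, jj F n (f' a) = f a := by
  obtain ⟨n, hn⟩ := compact_subset_range F (isCompact_range f.continuous)
  choose g hg using fun a => hn (mem_range_self a)
  refine ⟨n, ⟨g, ?_⟩, hg⟩
  rw [(isClosedEmbedding_jj F n).continuous_iff]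
  have : jj F n ∘ g = f := funext hg
  rw [this]; exact f.continuous


/-! ### the CW structure -/

/-- `cw_build` with control of the cells -/
theorem cw_build' {X : Type} [TopologicalSpace X] [T2Space X] (cell : ℕ → Type)
    (Φ : ∀ n, cell n → (Fin n → ℝ) → X)
    (cont : ∀ n i, ContinuousOn (Φ n i) (Metric.closedBall 0 1))
    (inj : ∀ n i, Set.InjOn (Φ n i) (Metric.ball 0 1))
    (sat : ∀ n i x y, x ∈ Metric.ball (0 : Fin n → ℝ) 1 → y ∈ Metric.sphere (0 : Fin n → ℝ) 1 →
      Φ n i x ≠ Φ n i y)
    (disj : ∀ n m i j x y, x ∈ Metric.ball (0 : Fin n → ℝ) 1 → y ∈ Metric.ball (0 : Fin m → ℝ) 1 →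
      Φ n i x = Φ m j y → (⟨n, i⟩ : Σ n, cell n) = ⟨m, j⟩)
    (bd : ∀ n i, ∃ I : Π m, Finset (cell m), ∀ x ∈ Metric.sphere (0 : Fin n → ℝ) 1,
      ∃ m, m < n ∧ ∃ j ∈ I m, ∃ y ∈ Metric.closedBall (0 : Fin m → ℝ) 1, Φ m j y = Φ n i x)
    (weak : ∀ A : Set X, (∀ n i, IsClosed (Φ n i ⁻¹' A ∩ Metric.closedBall 0 1)) → IsClosed A)
    (un : ∀ x, ∃ n i, ∃ y ∈ Metric.closedBall (0 : Fin n → ℝ) 1, Φ n i y = x) :
    ∃ C : _root_.Topology.CWComplex (Set.univ : Set X),
      ∀ n, Nonempty (_root_.Topology.RelCWComplex.cell (Set.univ : Set X) n ≃ cell n) := by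
  let C : _root_.Topology.CWComplex (Set.univ : Set X) :=
    { cell := cell
      map := fun n i => (inj n i).toPartialEquiv (Φ n i) (ball 0 1)
      source_eq := fun n i => rfl
      continuousOn := fun n i => cont n i
      continuousOn_symm := fun n i =>
        Crest.Agent.R197.cw_build_symm (Φ n i) (cont n i) (inj n i) (sat n i)
      pairwiseDisjoint' := by
        rintro ⟨n, i⟩ - ⟨m, j⟩ - hne
        rw [Function.onFun, Set.disjoint_left]
        rintro x ⟨y, hy, hyx⟩ ⟨z, hz, hzx⟩
        exact hne (disj n m i j y z hy hz (hyx.trans hzx.symm))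
      mapsTo' := by
        intro n i
        obtain ⟨I, hI⟩ := bd n i
        refine ⟨I, fun x hx => ?_⟩
        obtain ⟨m, hm, j, hj, y, hy, hyx⟩ := hI x hx
        simp only [mem_iUnion]
        exact ⟨m, hm, j, hj, y, hy, hyx⟩
      closed' := by
        intro A _ hA
        refine weak A fun n i => ?_
        have h1 : IsClosed (A ∩ Φ n i '' closedBall 0 1) := hA n i
        have h2 := (cont n i).preimage_isClosed_of_isClosed isClosed_closedBall h1
        have h3 : closedBall (0 : Fin n → ℝ) 1 ∩ Φ n i ⁻¹' (A ∩ Φ n i '' closedBall 0 1) =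
            Φ n i ⁻¹' A ∩ closedBall 0 1 := by
          ext x
          constructor
          · rintro ⟨hx, hxA, -⟩
            exact ⟨hxA, hx⟩
          · rintro ⟨hxA, hx⟩
            exact ⟨hx, hxA, mem_image_of_mem _ hx⟩
        rw [← h3]
        exact h2
      union' := by
        rw [eq_univ_iff_forall]
        intro x
        obtain ⟨n, i, y, hy, hyx⟩ := un x
        simp only [mem_iUnion]
        exact ⟨n, i, y, hy, hyx⟩ }
  exact ⟨C, fun n => ⟨Equiv.refl _⟩⟩

/-- retraction of `ℝ^n` to the ball -/
noncomputable def ret (n : ℕ) (x : Fin n → ℝ) : D n :=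
  ⟨(max 1 ‖x‖)⁻¹ • x, by
    rw [mem_closedBall_zero_iff, norm_smul, norm_inv, Real.norm_of_nonneg (by positivity)]
    rw [inv_mul_le_iff₀ (by positivity)]
    simp⟩

theorem continuous_ret (n : ℕ) : Continuous (ret n) := by
  apply Continuous.subtype_mk
  exact ((continuous_const.max continuous_norm).inv₀ fun x => by positivity).smul continuous_id

theorem ret_of_mem {n : ℕ} {x : Fin n → ℝ} (hx : x ∈ closedBall (0 : Fin n → ℝ) 1) :
    ret n x = ⟨x, hx⟩ := by
  apply Subtype.ext
  have : ‖x‖ ≤ 1 := mem_closedBall_zero_iff.1 hx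
  simp [ret, max_eq_left this]

/-- the quotient complex -/
abbrev Qt : Type := MulAction.orbitRel.Quotient G (Un F)

/-- projection -/
def prj (y : Un F) : Qt F := Quotient.mk (MulAction.orbitRel G (Un F)) y

theorem prj_smul (g : G) (y : Un F) : prj F (g • y) = prj F y :=
  Quotient.sound' ⟨g, rfl⟩

theorem prj_eq {y y' : Un F} (h : prj F y = prj F y') : ∃ g : G, g • y' = y := by
  have := Quotient.exact' h
  exact this

theorem continuous_prj : Continuous (prj F) := continuous_quotient_mk'


theorem prj_fst {y y' : Un F} (h : prj F y = prj F y') : y.1 = y'.1 := by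
  obtain ⟨g, rfl⟩ := prj_eq F h
  rfl

/-- characteristic maps of the quotient -/
noncomputable def Phi (n : ℕ) (c : cel F n) (x : Fin n → ℝ) : Qt F := prj F (Chr F n 1 c (ret n x))

theorem Phi_ball {n : ℕ} (c : cel F n) {x : Fin n → ℝ} (hx : x ∈ ball (0 : Fin n → ℝ) 1) :
    Phi F n c x = prj F (pt F n 1 c ⟨x, hx⟩) := by
  have h1 : ret n x = bd n ⟨x, hx⟩ := ret_of_mem (ball_subset_closedBall hx)
  unfold Phi
  rw [h1, Chr_bd]

theorem Phi_sphere {n : ℕ} (c : cel F n) {x : Fin n → ℝ} (hx : x ∈ sphere (0 : Fin n → ℝ) 1) :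
    Phi F n c x = prj F (jj F n (atm F n c ⟨x, hx⟩)) := by
  have h1 : ret n x = sd n ⟨x, hx⟩ := ret_of_mem (sphere_subset_closedBall hx)
  unfold Phi
  rw [h1, Chr_sd, one_smul]

theorem exists_cw : ∃ _ : T2Space (Qt F), ∃ C : _root_.Topology.CWComplex (Set.univ : Set (Qt F)),
      ∀ n, Nonempty (_root_.Topology.RelCWComplex.cell (Set.univ : Set (Qt F)) n ≃ cel F n) := by
  have ht2 : T2Space (Qt F) := Crest.Agent.R197.abs_t2 (un_orbSep F)
  refine ⟨ht2, ?_⟩
  refine cw_build' (cel F) (Phi F) ?_ ?_ ?_ ?_ ?_ ?_ ?_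
  · intro n c
    exact ((continuous_prj F).comp
      ((Chr F n 1 c).continuous.comp (continuous_ret n))).continuousOn
  · intro n c x hx y hy h
    rw [Phi_ball F c hx, Phi_ball F c hy] at h
    obtain ⟨g, hg⟩ := prj_eq F h
    rw [un_smul, pt_inj] at hg
    exact congrArg Subtype.val hg.2.2.symm
  · intro n c x y hx hy h
    rw [Phi_ball F c hx, Phi_sphere F c hy] at h
    have h1 := prj_fst F h
    have h2 := jj_lt F n (atm F n c ⟨y, hy⟩)
    have h3 : (pt F n 1 c ⟨x, hx⟩).1 = n := rfl
    omega
  · intro n k c d x y hx hy h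
    rw [Phi_ball F c hx, Phi_ball F d hy] at h
    have h1 : n = k := prj_fst F h
    subst h1
    obtain ⟨g, hg⟩ := prj_eq F h
    rw [un_smul, pt_inj] at hg
    rw [hg.2.1]
  · intro n c
    haveI : ∀ k, Fintype (cel F k) := fun k => Fintype.ofFinite _
    refine ⟨fun k => Finset.univ, fun x hx => ?_⟩
    rw [Phi_sphere F c hx]
    set z := jj F n (atm F n c ⟨x, hx⟩) with hz
    have h1 : z.1 < n := jj_lt F n _
    obtain ⟨k, g, d, y⟩ := z
    refine ⟨k, h1, d, Finset.mem_univ _, y, ball_subset_closedBall y.2, ?_⟩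
    rw [Phi_ball F d y.2]
    have h2 : (⟨k, g, d, y⟩ : Un F) = g • pt F k 1 d y := by
      rw [un_smul, mul_one]; rfl
    rw [h2, prj_smul]
  · intro A hA
    have hq : IsQuotientMap (prj F) := isQuotientMap_quotient_mk'
    rw [← hq.isClosed_preimage]
    rw [un_isClosed_iff_cells]
    intro n g c
    have h1 : Chr F n g c ⁻¹' (prj F ⁻¹' A) = Subtype.val ⁻¹' (Phi F n c ⁻¹' A ∩ closedBall 0 1) := by
      ext x
      have h2 : Phi F n c (x : Fin n → ℝ) = prj F (Chr F n g c x) := by
        unfold Phi
        rw [ret_of_mem x.2]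
        have h3 : Chr F n g c x = g • Chr F n 1 c x := by rw [smul_Chr, mul_one]
        rw [h3, prj_smul]
      constructor
      · intro h
        exact ⟨by rw [mem_preimage, h2]; exact h, x.2⟩
      · rintro ⟨h, -⟩
        rw [mem_preimage, h2] at h
        exact h
    rw [h1]
    exact (hA n c).preimage continuous_subtype_val
  · intro q
    induction q using Quotient.inductionOn' with | _ y => ?_
    obtain ⟨k, g, d, y⟩ := y
    refine ⟨k, d, y, ball_subset_closedBall y.2, ?_⟩
    rw [Phi_ball F d y.2]
    have h2 : (⟨k, g, d, y⟩ : Un F) = g • pt F k 1 d y := by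
      rw [un_smul, mul_one]; rfl
    show _ = prj F ⟨k, g, d, y⟩
    rw [h2, prj_smul]

/-- **Final step of the realisation.** -/
theorem final (hc : ContractibleSpace (Un F)) : Crest.Topology.HasFiniteTypeClassifyingComplex G := by
  obtain ⟨ht2, C, hC⟩ := exists_cw F
  obtain ⟨y⟩ : Nonempty (Un F) := inferInstance
  refine ⟨Qt F, inferInstance, C, ht2, ⟨fun n => ?_⟩,
    Crest.Agent.R197.abs_hasContractibleCover (un_orbSep F) (un_free F),
    prj F y, Crest.Agent.R197.abs_pi1 (un_orbSep F) (un_free F) y⟩
  obtain ⟨e⟩ := hC n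
  exact Finite.of_equiv _ e.symm

end Crest.Agent.R185.Att
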