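import Crest.Agent.R185.QMain
import Crest.Agent.R185.QTh

-- ▼ part R185/QFr1
section

/-!
# Row 185 (Q2), frames 1: merges and normal forms in `M` (helper424)
-/

set_option autoImplicit false

namespace Crest.Agent.R185.Q

open Classical

variable {Γ Y : Type} [Group Γ] [MulAction Γ Y]

/-! ### gluing two functions -/

/-- the function with `mf a b u ∘ sh u = a` and `mf a b u ∘ ch u = b` -/
noncomputable def mf (a b : W Y → W Y) (u : Y) : W Y → W Y
  | [] => a []
  | (y, 0) :: t => if y = u then b t else a ((y, 0) :: t)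
  | (y, n + 1) :: t => if y = u then a ((y, n) :: t) else a ((y, n + 1) :: t)

theorem mf_sh (a b : W Y → W Y) (u : Y) : mf a b u ∘ sh u = a := by
  funext w
  rcases w with _ | ⟨⟨y, n⟩, t⟩
  · rfl
  · by_cases h : y = u
    · subst h
      simp [sh_cons, mf]
    · cases n with
      | zero => simp [sh_cons, mf, h]
      | succ n => simp [sh_cons, mf, h]

theorem mf_ch (a b : W Y → W Y) (u : Y) : mf a b u ∘ ch u = b := by
  funext w
  simp [mf]

theorem mf_unique {a b F : W Y → W Y} {u : Y} (h1 : F ∘ sh u = a) (h2 : F ∘ ch u = b) :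
    mf a b u = F := by
  funext w
  rcases cover u w with ⟨v, rfl⟩ | ⟨v, rfl⟩
  · have := congrFun (mf_sh a b u) v
    rw [← h1] at this
    rw [← h1]; exact this
  · have := congrFun (mf_ch a b u) v
    rw [← h2] at this
    rw [← h2]; exact this

theorem mf_adm {a b : W Y → W Y} (ha : Adm Γ a) (hb : Adm Γ b) (u : Y) : Adm Γ (mf a b u) :=
  Adm.split u _ (by rwa [mf_sh]) (by rwa [mf_ch])

theorem mf_range {a b : W Y → W Y} {u : Y} (w : W Y) :
    (∃ v, mf a b u w = a v) ∨ ∃ v, mf a b u w = b v := by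
  rcases cover u w with ⟨v, rfl⟩ | ⟨v, rfl⟩
  · exact Or.inl ⟨v, congrFun (mf_sh a b u) v⟩
  · exact Or.inr ⟨v, congrFun (mf_ch a b u) v⟩

theorem mf_inj {a b : W Y → W Y} (ha : Function.Injective a) (hb : Function.Injective b)
    (hd : Dj a b) (u : Y) : Function.Injective (mf a b u) := by
  intro w w' h
  rcases cover u w with ⟨v, rfl⟩ | ⟨v, rfl⟩ <;> rcases cover u w' with ⟨v', rfl⟩ | ⟨v', rfl⟩
  · have h1 := congrFun (mf_sh a b u) v
    have h2 := congrFun (mf_sh a b u) v'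
    simp only [Function.comp_apply] at h1 h2
    rw [h1, h2] at h
    rw [ha h]
  · have h1 := congrFun (mf_sh a b u) v
    have h2 := congrFun (mf_ch a b u) v'
    simp only [Function.comp_apply] at h1 h2
    rw [h1, h2] at h
    exact absurd h (hd _ _)
  · have h1 := congrFun (mf_ch a b u) v
    have h2 := congrFun (mf_sh a b u) v'
    simp only [Function.comp_apply] at h1 h2
    rw [h1, h2] at h
    exact absurd h.symm (hd _ _)
  · have h1 := congrFun (mf_ch a b u) v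
    have h2 := congrFun (mf_ch a b u) v'
    simp only [Function.comp_apply] at h1 h2
    rw [h1, h2] at h
    rw [hb h]

theorem mf_comm {a b b' : W Y → W Y} {u u' : Y} (h : u ≠ u') :
    mf (mf a b' u') b u = mf (mf a b u) b' u' := by
  apply mf_unique
  · symm
    apply mf_unique
    · rw [Function.comp_assoc, sh_comm, ← Function.comp_assoc, mf_sh, mf_sh]
    · rw [Function.comp_assoc, sh_ch_ne (Ne.symm h), mf_ch]
  · have : (ch u : W Y → W Y) = sh u' ∘ ch u := (sh_ch_ne h).symm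
    rw [this, ← Function.comp_assoc, mf_sh, mf_ch]

/-! ### normal forms -/

/-- words in `sh`, `ch`, followed by a label -/
inductive M0 (Γ : Type) {Y : Type} [Group Γ] [MulAction Γ Y] : (W Y → W Y) → Prop
  | lab (γ : Γ) : M0 Γ (ac γ)
  | cs (y : Y) (m : W Y → W Y) : M0 Γ m → M0 Γ (sh y ∘ m)
  | cc (y : Y) (m : W Y → W Y) : M0 Γ m → M0 Γ (ch y ∘ m)

theorem M0.ac_comp {m : W Y → W Y} (h : M0 Γ m) : ∀ γ : Γ, M0 Γ (ac γ ∘ m) := by
  induction h with
  | lab δ => intro γ; rw [← ac_mul]; exact M0.lab _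
  | cs y m _ ih => intro γ; rw [← Function.comp_assoc, ac_sh, Function.comp_assoc]; exact M0.cs _ _ (ih γ)
  | cc y m _ ih => intro γ; rw [← Function.comp_assoc, ac_ch, Function.comp_assoc]; exact M0.cc _ _ (ih γ)

theorem M.m0 {m : W Y → W Y} (h : M Γ m) : M0 Γ m := by
  induction h with
  | one => rw [← ac_one (Γ := Γ)]; exact M0.lab 1
  | cs y m _ ih => exact M0.cs _ _ ih
  | cc y m _ ih => exact M0.cc _ _ ih
  | ca γ m _ ih => exact ih.ac_comp γ

/-- shift vector -/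
noncomputable def shv (v : Y →₀ ℕ) : W Y → W Y
  | [] => []
  | p :: t => (p.1, p.2 + v p.1) :: t

theorem shv_zero : (shv (0 : Y →₀ ℕ) : W Y → W Y) = id := by
  funext w
  cases w with
  | nil => rfl
  | cons p t => simp [shv]

theorem shv_add (v v' : Y →₀ ℕ) : shv (v + v') = shv v ∘ shv v' := by
  funext w
  cases w with
  | nil => rfl
  | cons p t => simp [shv]; omega

theorem shv_single (y : Y) : shv (Finsupp.single y 1) = sh y := by
  funext w
  cases w with
  | nil => rfl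
  | cons p t =>
    simp only [shv, sh_cons]
    by_cases h : p.1 = y
    · simp [h]
    · simp [h]

/-- normal form -/
noncomputable def nf (w : W Y) (v : Y →₀ ℕ) (γ : Γ) : W Y → W Y := fun t => w ++ shv v (ac γ t)

theorem M0.nf {m : W Y → W Y} (h : M0 Γ m) : ∃ w v, ∃ γ : Γ, m = nf w v γ := by
  induction h with
  | lab γ => exact ⟨[], 0, γ, by funext t; simp [Q.nf, shv_zero]⟩
  | cs y m _ ih =>
    obtain ⟨w, v, γ, rfl⟩ := ih
    cases w with
    | nil =>
      refine ⟨[], Finsupp.single y 1 + v, γ, ?_⟩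
      funext t
      simp [Q.nf, shv_add, shv_single]
    | cons p w =>
      refine ⟨sh y [p] ++ w, v, γ, ?_⟩
      funext t
      simp [Q.nf, sh_cons]
  | cc y m _ ih =>
    obtain ⟨w, v, γ, rfl⟩ := ih
    refine ⟨(y, 0) :: w, v, γ, ?_⟩
    funext t
    simp [Q.nf]

theorem M_shv (v : Y →₀ ℕ) : M Γ (shv v) := by
  induction v using Finsupp.induction_linear with
  | zero => rw [shv_zero]; exact M.one
  | add v v' h h' => rw [shv_add]; exact h.comp h'
  | single y n =>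
    induction n with
    | zero => simp only [Finsupp.single_zero]; rw [shv_zero]; exact M.one
    | succ n ih => rw [Finsupp.single_add, shv_add, shv_single]; exact ih.comp (M_sh y)

theorem M_app (w : W Y) : M Γ (fun t => w ++ t) := by
  induction w with
  | nil => exact M.one
  | cons p w ih =>
    have h1 : M Γ (shv (Finsupp.single p.1 p.2) ∘ (ch p.1 ∘ fun t => w ++ t)) :=
      (M_shv _).comp (M.cc _ _ ih)
    have : (fun t => (p :: w) ++ t) = shv (Finsupp.single p.1 p.2) ∘ (ch p.1 ∘ fun t => w ++ t) := by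
      funext t
      simp [shv]
    rw [this]; exact h1

theorem M_nf (w : W Y) (v : Y →₀ ℕ) (γ : Γ) : M Γ (nf w v γ) :=
  ((M_app w).comp (M_shv v)).comp (M_ac γ)

theorem nf_sh (w : W Y) (v : Y →₀ ℕ) (γ : Γ) (u : Y) :
    nf w v γ ∘ sh u = nf w (v + Finsupp.single (γ • u) 1) γ := by
  funext t
  have := congrFun (ac_sh γ u) t
  simp only [Function.comp_apply] at this
  simp only [nf, Function.comp_apply, this, shv_add, shv_single]

theorem nf_ch (w : W Y) (v : Y →₀ ℕ) (γ : Γ) (u : Y) (l : Γ) :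
    nf w v γ ∘ ch u ∘ ac l = nf (w ++ [(γ • u, v (γ • u))]) 0 (γ * l) := by
  funext t
  have h0 : shv (0 : Y →₀ ℕ) (ac (γ * l) t) = ac (γ * l) t := congrFun shv_zero _
  simp only [nf, Function.comp_apply, ch_apply, ac_cons, h0]
  rw [ac_mul]
  simp [shv]

theorem nf_inj [FaithfulSMul Γ Y] {w w' : W Y} {v v' : Y →₀ ℕ} {γ γ' : Γ}
    (h : nf w v γ = nf w' v' γ') : w = w' ∧ v = v' ∧ γ = γ' := by
  have h0 : w = w' := by
    have := congrFun h []
    simpa [nf, shv] using this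
  subst h0
  have h1 : ∀ y n, ((γ • y, n + v (γ • y)) : Y × ℕ) = (γ' • y, n + v' (γ' • y)) := by
    intro y n
    have := congrFun h [(y, n)]
    simpa [nf, shv] using this
  have h2 : γ = γ' := by
    apply FaithfulSMul.eq_of_smul_eq_smul (α := Y)
    intro y
    have := h1 y 0
    simp only [Prod.mk.injEq] at this
    exact this.1
  subst h2
  refine ⟨rfl, ?_, rfl⟩
  ext y
  have := h1 (γ⁻¹ • y) 0
  simpa using this

/-- two different right factors `sh` -/
theorem M.sh_sh [FaithfulSMul Γ Y] {m m' : W Y → W Y} (hm : M Γ m) (hm' : M Γ m') {u u' : Y}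
    (hu : u ≠ u') (h : m ∘ sh u = m' ∘ sh u') :
    ∃ m'', M Γ m'' ∧ m = m'' ∘ sh u' ∧ m' = m'' ∘ sh u := by
  obtain ⟨w, v, γ, rfl⟩ := hm.m0.nf
  obtain ⟨w', v', γ', rfl⟩ := hm'.m0.nf
  rw [nf_sh, nf_sh] at h
  obtain ⟨rfl, h2, rfl⟩ := nf_inj h
  have hne : γ • u ≠ γ • u' := fun e => hu (smul_left_cancel γ e)
  have e1 : v - Finsupp.single (γ • u') 1 + Finsupp.single (γ • u') 1 = v := by
    ext y
    have := DFunLike.congr_fun h2 y
    simp only [Finsupp.add_apply, Finsupp.single_apply, Finsupp.tsub_apply] at this ⊢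
    by_cases h1 : γ • u' = y
    · subst h1
      simp [hne] at this ⊢
      omega
    · simp [h1]
  refine ⟨nf w (v - Finsupp.single (γ • u') 1) γ, M_nf _ _ _, ?_, ?_⟩
  · rw [nf_sh, e1]
  · rw [nf_sh]
    congr 1
    ext y
    have := DFunLike.congr_fun h2 y
    simp only [Finsupp.add_apply, Finsupp.single_apply, Finsupp.tsub_apply] at this ⊢
    by_cases h1 : γ • u' = y
    · subst h1
      simp [hne] at this ⊢
      omega
    · simp [h1] at this ⊢
      exact this.symm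

theorem M.sh_cancel [FaithfulSMul Γ Y] {m m' : W Y → W Y} (hm : M Γ m) (hm' : M Γ m') {u : Y}
    (h : m ∘ sh u = m' ∘ sh u) : m = m' := by
  obtain ⟨w, v, γ, rfl⟩ := hm.m0.nf
  obtain ⟨w', v', γ', rfl⟩ := hm'.m0.nf
  rw [nf_sh, nf_sh] at h
  obtain ⟨rfl, h2, rfl⟩ := nf_inj h
  rw [add_right_cancel h2]

theorem M.sh_ch [FaithfulSMul Γ Y] {m m' : W Y → W Y} (hm : M Γ m) (hm' : M Γ m') {u u' : Y} {l : Γ}
    (h : m ∘ sh u = m' ∘ ch u' ∘ ac l) : False := by
  obtain ⟨w, v, γ, rfl⟩ := hm.m0.nf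
  obtain ⟨w', v', γ', rfl⟩ := hm'.m0.nf
  rw [nf_sh, nf_ch] at h
  obtain ⟨-, h2, -⟩ := nf_inj h
  have := DFunLike.congr_fun h2 (γ • u)
  simp at this

theorem M.ch_ch {m m' : W Y → W Y} (hm : M Γ m) (hm' : M Γ m') {u u' : Y} {l l' : Γ}
    (h : m ∘ ch u ∘ ac l = m' ∘ ch u' ∘ ac l') : m [] = m' [] := by
  obtain ⟨w, v, γ, rfl⟩ := hm.m0.nf
  obtain ⟨w', v', γ', rfl⟩ := hm'.m0.nf
  have := congrFun h []
  simp only [nf, shv, Function.comp_apply, ac_nil, ch_apply, ac_cons] at this ⊢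
  have h2 := List.append_inj' this rfl
  simp [h2.1]

end Crest.Agent.R185.Q
private theorem rz_028404381c : type_of% @_root_.Crest.Agent.R185.Q.mf.eq_1 := @_root_.Crest.Agent.R185.Q.mf.eq_1 -- L19
private theorem rz_29036462bc : type_of% @_root_.Crest.Agent.R185.Q.shv.eq_1 := @_root_.Crest.Agent.R185.Q.shv.eq_1 -- L116
end

-- ▼ part R185/QFr2

/-!
# Row 185 (Q2), frames 2: frames, merges, the diamond property (helper424)
-/

set_option autoImplicit false

namespace Crest.Agent.R185.Q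

open Classical

variable {Γ Y : Type} [Group Γ] [MulAction Γ Y]

/-- raw frames: an index set and a family of charts -/
abbrev Fr0 (Y : Type) : Type := Finset ℕ × (ℕ → W Y → W Y)

/-- frames -/
structure IsFr (Γ : Type) {Y : Type} [Group Γ] [MulAction Γ Y] (x : Fr0 Y) : Prop where
  adm : ∀ i ∈ x.1, Adm Γ (x.2 i)
  inj : ∀ i ∈ x.1, Function.Injective (x.2 i)
  dj : ∀ i ∈ x.1, ∀ j ∈ x.1, i ≠ j → Dj (x.2 i) (x.2 j)
  cov : ∀ u, ∃ i ∈ x.1, ∃ v, x.2 i v = u

/-- `y` is an expansion of `x` -/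
def fle (Γ : Type) {Y : Type} [Group Γ] [MulAction Γ Y] (x y : Fr0 Y) : Prop :=
  ∀ j ∈ y.1, ∃ i ∈ x.1, ∃ m, M Γ m ∧ y.2 j = x.2 i ∘ m

theorem fle_refl (x : Fr0 Y) : fle Γ x x := fun j hj => ⟨j, hj, id, M.one, rfl⟩

theorem fle_trans (x y z : Fr0 Y) (h : fle Γ x y) (h' : fle Γ y z) : fle Γ x z := by
  intro j hj
  obtain ⟨i, hi, m, hm, e⟩ := h' j hj
  obtain ⟨k, hk, m', hm', e'⟩ := h i hi
  exact ⟨k, hk, m' ∘ m, hm'.comp hm, by rw [e, e']; rfl⟩

theorem IsFr.eq_of {x : Fr0 Y} (hx : IsFr Γ x) {i j : ℕ} (hi : i ∈ x.1) (hj : j ∈ x.1) {a b : W Y}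
    (h : x.2 i a = x.2 j b) : i = j ∧ a = b := by
  by_cases hij : i = j
  · subst hij
    exact ⟨rfl, hx.inj i hi h⟩
  · exact absurd h (hx.dj i hi j hj hij a b)

/-- merge data -/
structure Mg (Γ Y : Type) where
  i : ℕ
  j : ℕ
  u : Y
  l : Γ

/-- validity of a merge for an index set -/
def Mg.Valid (e : Mg Γ Y) (I : Finset ℕ) : Prop := e.i ∈ I ∧ e.j ∈ I ∧ e.i ≠ e.j

/-- compatibility of merges -/
def Cmp (e v : Mg Γ Y) : Prop := e.j ≠ v.j ∧ e.i ≠ v.j ∧ v.i ≠ e.j ∧ (e.i = v.i → e.u ≠ v.u)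

omit [Group Γ] [MulAction Γ Y] in
theorem Cmp.symm {e v : Mg Γ Y} (h : Cmp e v) : Cmp v e :=
  ⟨h.1.symm, h.2.2.1, h.2.1, fun a b => h.2.2.2 a.symm b.symm⟩

/-- the merged frame -/
noncomputable def mrg (x : Fr0 Y) (e : Mg Γ Y) : Fr0 Y :=
  (x.1.erase e.j, Function.update x.2 e.i (mf (x.2 e.i) (x.2 e.j ∘ ac e.l) e.u))

theorem mrg_fst (x : Fr0 Y) (e : Mg Γ Y) : (mrg x e).1 = x.1.erase e.j := rfl

theorem mrg_i (x : Fr0 Y) (e : Mg Γ Y) :
    (mrg x e).2 e.i = mf (x.2 e.i) (x.2 e.j ∘ ac e.l) e.u := by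
  simp [mrg]

theorem mrg_ne (x : Fr0 Y) (e : Mg Γ Y) {k : ℕ} (h : k ≠ e.i) : (mrg x e).2 k = x.2 k := by
  simp [mrg, h]

theorem card_mrg {x : Fr0 Y} {e : Mg Γ Y} (he : e.Valid x.1) : (mrg x e).1.card + 1 = x.1.card := by
  rw [mrg_fst]
  exact Finset.card_erase_add_one he.2.1

theorem Valid.mrg {x : Fr0 Y} {e v : Mg Γ Y} (hv : v.Valid x.1) (h : Cmp e v) :
    v.Valid (mrg x e).1 := by
  refine ⟨?_, ?_, hv.2.2⟩
  · rw [mrg_fst, Finset.mem_erase]; exact ⟨h.2.2.1, hv.1⟩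
  · rw [mrg_fst, Finset.mem_erase]; exact ⟨h.1.symm, hv.2.1⟩

theorem IsFr.mrg {x : Fr0 Y} (hx : IsFr Γ x) {e : Mg Γ Y} (he : e.Valid x.1) : IsFr Γ (mrg x e) := by
  obtain ⟨hi, hj, hij⟩ := he
  have hdj : Dj (x.2 e.i) (x.2 e.j ∘ ac e.l) := fun a b h => hx.dj _ hi _ hj hij _ _ h
  refine ⟨?_, ?_, ?_, ?_⟩
  · intro k hk
    rw [mrg_fst, Finset.mem_erase] at hk
    by_cases h : k = e.i
    · subst h
      rw [mrg_i]
      exact mf_adm (hx.adm _ hi) ((hx.adm _ hj).comp_ac _) _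
    · rw [mrg_ne _ _ h]; exact hx.adm _ hk.2
  · intro k hk
    rw [mrg_fst, Finset.mem_erase] at hk
    by_cases h : k = e.i
    · subst h
      rw [mrg_i]
      exact mf_inj (hx.inj _ hi) ((hx.inj _ hj).comp (ac_inj _)) hdj _
    · rw [mrg_ne _ _ h]; exact hx.inj _ hk.2
  · have key : ∀ k ∈ x.1, k ≠ e.i → k ≠ e.j →
        Dj (mf (x.2 e.i) (x.2 e.j ∘ ac e.l) e.u) (x.2 k) := by
      intro k hk h1 h2 a b h
      rcases mf_range (a := x.2 e.i) (b := x.2 e.j ∘ ac e.l) (u := e.u) a with ⟨v, hv⟩ | ⟨v, hv⟩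
      · rw [hv] at h; exact hx.dj _ hi _ hk (Ne.symm h1) _ _ h
      · rw [hv] at h; exact hx.dj _ hj _ hk (Ne.symm h2) _ _ h
    intro k hk k' hk' hne
    rw [mrg_fst, Finset.mem_erase] at hk hk'
    by_cases h : k = e.i
    · subst h
      have h' : k' ≠ e.i := Ne.symm hne
      rw [mrg_i, mrg_ne _ _ h']
      exact key _ hk'.2 h' hk'.1
    · by_cases h' : k' = e.i
      · subst h'
        rw [mrg_i, mrg_ne _ _ h]
        exact (key _ hk.2 h hk.1).symm
      · rw [mrg_ne _ _ h, mrg_ne _ _ h']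
        exact hx.dj _ hk.2 _ hk'.2 hne
  · intro w
    obtain ⟨k, hk, v, rfl⟩ := hx.cov w
    have hie : e.i ∈ (Q.mrg x e).1 := by rw [mrg_fst, Finset.mem_erase]; exact ⟨hij, hi⟩
    by_cases h : k = e.i
    · subst h
      refine ⟨e.i, hie, sh e.u v, ?_⟩
      rw [mrg_i]
      exact congrFun (mf_sh _ _ _) v
    · by_cases h' : k = e.j
      · subst h'
        obtain ⟨v', rfl⟩ := ac_surj e.l v
        refine ⟨e.i, hie, ch e.u v', ?_⟩
        rw [mrg_i]
        exact congrFun (mf_ch _ _ _) v'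
      · refine ⟨k, ?_, v, ?_⟩
        · rw [mrg_fst, Finset.mem_erase]; exact ⟨h', hk⟩
        · rw [mrg_ne _ _ h]

theorem mrg_le {x : Fr0 Y} {e : Mg Γ Y} (he : e.Valid x.1) : fle Γ (mrg x e) x := by
  obtain ⟨hi, hj, hij⟩ := he
  have hie : e.i ∈ (Q.mrg x e).1 := by rw [mrg_fst, Finset.mem_erase]; exact ⟨hij, hi⟩
  intro k hk
  by_cases h : k = e.i
  · subst h
    exact ⟨e.i, hie, sh e.u, M_sh _, by rw [mrg_i, mf_sh]⟩
  · by_cases h' : k = e.j
    · subst h'
      refine ⟨e.i, hie, ch e.u ∘ ac e.l⁻¹, (M_ch _).comp (M_ac _), ?_⟩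
      rw [mrg_i, ← Function.comp_assoc, mf_ch, Function.comp_assoc, ac_comp_inv]; rfl
    · exact ⟨k, by rw [mrg_fst, Finset.mem_erase]; exact ⟨h', hk⟩, id, M.one, by rw [mrg_ne _ _ h]; rfl⟩

theorem mrg_comm {x : Fr0 Y} {e v : Mg Γ Y} (h : Cmp e v) : mrg (mrg x v) e = mrg (mrg x e) v := by
  obtain ⟨h1, h2, h3, h4⟩ := h
  apply Prod.ext
  · rw [mrg_fst, mrg_fst, mrg_fst, mrg_fst, Finset.erase_right_comm]
  · funext k
    by_cases hk : k = e.i
    · subst hk
      rw [mrg_i]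
      by_cases hv : e.i = v.i
      · have hj1 : (mrg x v).2 e.j = x.2 e.j := mrg_ne _ _ (Ne.symm h3)
        have hj2 : (mrg x e).2 v.j = x.2 v.j := mrg_ne _ _ (Ne.symm h2)
        rw [hj1]
        have e1 : (mrg (mrg x e) v).2 e.i = (mrg (mrg x e) v).2 v.i := by rw [hv]
        rw [e1, mrg_i, hj2]
        have e2 : (mrg x v).2 e.i = mf (x.2 v.i) (x.2 v.j ∘ ac v.l) v.u := by rw [hv, mrg_i]
        have e3 : (mrg x e).2 v.i = mf (x.2 e.i) (x.2 e.j ∘ ac e.l) e.u := by rw [← hv, mrg_i]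
        rw [e2, e3, ← hv]
        exact mf_comm (h4 hv)
      · rw [mrg_ne x v hv, mrg_ne x v (Ne.symm h3), mrg_ne _ v hv, mrg_i]
    · rw [mrg_ne _ e hk]
      by_cases hv : k = v.i
      · subst hv
        rw [mrg_i, mrg_i, mrg_ne _ e hk, mrg_ne _ e (Ne.symm h2)]
      · rw [mrg_ne _ v hv, mrg_ne _ v hv, mrg_ne _ e hk]

/-- data of `y ≤ mrg x e` -/
theorem le_mrg_data {x y : Fr0 Y} {e : Mg Γ Y} (he : e.Valid x.1) (h : fle Γ y (mrg x e)) :
    ∃ k ∈ y.1, ∃ m, M Γ m ∧ mf (x.2 e.i) (x.2 e.j ∘ ac e.l) e.u = y.2 k ∘ m ∧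
      x.2 e.i = y.2 k ∘ m ∘ sh e.u ∧ x.2 e.j = y.2 k ∘ m ∘ ch e.u ∘ ac e.l⁻¹ := by
  obtain ⟨k, hk, m, hm, E⟩ := h e.i (by rw [mrg_fst, Finset.mem_erase]; exact ⟨he.2.2, he.1⟩)
  rw [mrg_i] at E
  refine ⟨k, hk, m, hm, E, ?_, ?_⟩
  · rw [← Function.comp_assoc, ← E, mf_sh]
  · have : (y.2 k ∘ m ∘ ch e.u ∘ ac e.l⁻¹ : W Y → W Y) = ((y.2 k ∘ m) ∘ ch e.u) ∘ ac e.l⁻¹ := rfl
    rw [this, ← E, mf_ch, Function.comp_assoc, ac_comp_inv]; rfl

/-- the diamond property -/
theorem diamond [FaithfulSMul Γ Y] {x y : Fr0 Y} (hy : IsFr Γ y) (hx : IsFr Γ x)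
    {e v : Mg Γ Y} (he : e.Valid x.1) (hv : v.Valid x.1) (hne : e ≠ v)
    (h1 : fle Γ y (mrg x e)) (h2 : fle Γ y (mrg x v)) :
    Cmp e v ∧ fle Γ y (mrg (mrg x v) e) := by
  obtain ⟨k, hk, m, hm, E0, E1, E2⟩ := le_mrg_data he h1
  obtain ⟨k', hk', m', hm', E0', E1', E2'⟩ := le_mrg_data hv h2
  -- equality of charts in `y`
  have cancel : ∀ {a b : W Y → W Y}, y.2 k ∘ a = y.2 k' ∘ b → k = k' ∧ a = b := by
    intro a b h
    have hkk : k = k' := (hy.eq_of hk hk' (congrFun h [])).1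
    subst hkk
    exact ⟨rfl, funext fun w => hy.inj k hk (congrFun h w)⟩
  have hcmp : Cmp e v := by
    refine ⟨?_, ?_, ?_, ?_⟩
    · -- e.j ≠ v.j
      intro hjj
      rw [hjj, E2'] at E2
      obtain ⟨hkk, E3⟩ := cancel E2.symm
      subst hkk
      have hroot := M.ch_ch hm hm' E3
      have hii : e.i = v.i := by
        refine (hx.eq_of he.1 hv.1 (a := []) (b := []) ?_).1
        rw [E1, E1']
        simp [hroot]
      have E4 : m ∘ sh e.u = m' ∘ sh v.u := by
        have := E1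
        rw [hii, E1'] at this
        exact (cancel this.symm).2
      by_cases huu : e.u = v.u
      · rw [huu] at E4 E3
        have hmm := hm.sh_cancel hm' E4
        subst hmm
        apply hne
        have hl : e.l = v.l := by
          have h3 : ∀ t, ac e.l⁻¹ t = (ac v.l⁻¹ t : W Y) := fun t => by
            have := hm.inj (congrFun E3 t)
            simpa using this
          have h4 : e.l⁻¹ = v.l⁻¹ := by
            apply FaithfulSMul.eq_of_smul_eq_smul (α := Y)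
            intro z
            have := h3 [(z, 0)]
            simpa using this
          exact inv_injective h4
        obtain ⟨ei, ej, eu, el⟩ := e
        obtain ⟨vi, vj, vu, vl⟩ := v
        simp only at hii hjj huu hl
        subst hii hjj huu hl
        rfl
      · obtain ⟨m'', hm'', F1, F2⟩ := M.sh_sh hm hm' huu E4
        rw [F1, F2] at E3
        have := congrFun E3 []
        simp only [Function.comp_apply, ac_nil, ch_apply] at this
        have h3 := hm''.inj this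
        simp only [sh_cons, List.cons.injEq, Prod.mk.injEq] at h3
        exact huu h3.1.1
    · -- e.i ≠ v.j
      intro hij
      rw [hij, E2'] at E1
      obtain ⟨hkk, E3⟩ := cancel E1.symm
      exact M.sh_ch hm hm' E3
    · -- v.i ≠ e.j
      intro hij
      rw [hij, E2] at E1'
      obtain ⟨hkk, E3⟩ := cancel E1'
      exact M.sh_ch hm' hm E3.symm
    · intro hii huu
      have E4 : m ∘ sh e.u = m' ∘ sh e.u := by
        have := E1
        rw [hii, E1', ← huu] at this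
        exact (cancel this.symm).2
      have hmm := hm.sh_cancel hm' E4
      have hkk : k = k' := by
        have := E1
        rw [hii, E1'] at this
        exact (cancel this.symm).1
      subst hkk hmm
      have hjj : e.j = v.j := by
        refine (hx.eq_of he.2.1 hv.2.1 (a := []) (b := []) ?_).1
        rw [E2, E2']
        simp [huu]
      -- now the labels must agree as well, contradiction with `hne`
      rw [hjj, E2'] at E2
      obtain ⟨-, E3⟩ := cancel E2.symm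
      apply hne
      have hl : e.l = v.l := by
        rw [huu] at E3
        have h3 : ∀ t, ac e.l⁻¹ t = (ac v.l⁻¹ t : W Y) := fun t => by
          have := hm.inj (congrFun E3 t)
          simpa using this
        have h4 : e.l⁻¹ = v.l⁻¹ := by
          apply FaithfulSMul.eq_of_smul_eq_smul (α := Y)
          intro z
          have := h3 [(z, 0)]
          simpa using this
        exact inv_injective h4
      obtain ⟨ei, ej, eu, el⟩ := e
      obtain ⟨vi, vj, vu, vl⟩ := v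
      simp only at hii hjj huu hl
      subst hii hjj huu hl
      rfl
  refine ⟨hcmp, ?_⟩
  obtain ⟨c1, c2, c3, c4⟩ := hcmp
  intro t ht
  rw [mrg_fst, mrg_fst, Finset.mem_erase, Finset.mem_erase] at ht
  obtain ⟨ht1, ht2, ht3⟩ := ht
  by_cases hti : t = e.i
  · subst hti
    rw [mrg_i, mrg_ne x v (Ne.symm c3)]
    by_cases hii : e.i = v.i
    · -- same parent
      have huu := c4 hii
      have E4 : y.2 k ∘ m ∘ sh e.u = y.2 k' ∘ m' ∘ sh v.u := by rw [← E1, hii, E1']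
      obtain ⟨hkk, E5⟩ := cancel E4
      subst hkk
      obtain ⟨m'', hm'', F1, F2⟩ := M.sh_sh hm hm' huu E5
      refine ⟨k, hk, m'', hm'', ?_⟩
      have e2 : (mrg x v).2 e.i = mf (x.2 v.i) (x.2 v.j ∘ ac v.l) v.u := by rw [hii, mrg_i]
      rw [e2, E0']
      apply mf_unique
      · rw [F2]; rfl
      · rw [E2, F1]
        have : ((y.2 k ∘ (m'' ∘ sh v.u) ∘ ch e.u ∘ ac e.l⁻¹) ∘ ac e.l : W Y → W Y) =
            y.2 k ∘ m'' ∘ (sh v.u ∘ ch e.u) ∘ (ac e.l⁻¹ ∘ ac e.l) := rfl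
        rw [this, ac_inv_comp, sh_ch_ne huu]; rfl
    · rw [mrg_ne x v hii]
      exact ⟨k, hk, m, hm, E0⟩
  · rw [mrg_ne _ _ hti]
    by_cases htv : t = v.i
    · subst htv
      rw [mrg_i]
      exact ⟨k', hk', m', hm', E0'⟩
    · rw [mrg_ne _ _ htv]
      obtain ⟨a, ha, n, hn, E⟩ := h1 t (by rw [mrg_fst, Finset.mem_erase]; exact ⟨ht1, ht3⟩)
      rw [mrg_ne _ _ hti] at E
      exact ⟨a, ha, n, hn, E⟩

end Crest.Agent.R185.Q
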