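import Mathlib

-- ▼ part R185/U1
section

/-!
# R185 / UNIV (1): Steinberg relations for words

`x i j a` (`i ≠ j` in `Fin 5`, `a : Option X`, `none` = the unit) in a group `G` satisfying the
Steinberg relations on letters.  `W x w i j` is the element for a word `w : List X`; all Steinberg
relations for words follow (Krstić–McCool).
-/

set_option autoImplicit false

namespace Crest.Agent.R185.Univ

open scoped commutatorElement

variable {G : Type*} [Group G]

/-- the three-term identity used everywhere -/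
theorem comm_assoc {X Y Z : G} (hXZ : Commute X Z) (hcd : Commute ⁅X, Y⁆ ⁅Y, Z⁆)
    (hdZ : Commute ⁅Y, Z⁆ Z) : ⁅X, ⁅Y, Z⁆⁆ = ⁅⁅X, Y⁆, Z⁆ := by
  have h1 : X * Y * X⁻¹ = ⁅X, Y⁆ * Y := by simp [commutatorElement_def]
  have h2 : Y * Z * Y⁻¹ = ⁅Y, Z⁆ * Z := by simp [commutatorElement_def]
  set c := ⁅X, Y⁆ with hc
  set d := ⁅Y, Z⁆ with hd
  have h3 : X * d * X⁻¹ = d * (c * Z * c⁻¹ * Z⁻¹) := by
    have : X * d * X⁻¹ = (X * Y * X⁻¹) * (X * Z * X⁻¹) * (X * Y * X⁻¹)⁻¹ * (X * Z * X⁻¹)⁻¹ := by
      rw [hd, commutatorElement_def]; group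
    rw [this, h1]
    have hz : X * Z * X⁻¹ = Z := by rw [hXZ.eq]; group
    rw [hz]
    have : c * Y * Z * (c * Y)⁻¹ * Z⁻¹ = c * (Y * Z * Y⁻¹) * c⁻¹ * Z⁻¹ := by group
    rw [this, h2]
    have : c * (d * Z) * c⁻¹ * Z⁻¹ = (c * d) * Z * c⁻¹ * Z⁻¹ := by group
    rw [this, hcd.eq]; group
  have h4 : Commute d (c * Z * c⁻¹ * Z⁻¹) := by
    have a1 : Commute d c := hcd.symm
    exact ((a1.mul_right hdZ).mul_right a1.inv_right).mul_right hdZ.inv_right
  rw [commutatorElement_def X d, h3, h4.eq, commutatorElement_def c Z]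
  group

theorem Commute.commEl {a b c : G} (h1 : Commute a c) (h2 : Commute b c) :
    Commute ⁅a, b⁆ c := by
  rw [commutatorElement_def]
  exact ((h1.mul_left h2).mul_left h1.inv_left).mul_left h2.inv_left

theorem comm_sq {X Y : G} (h2 : X * X = 1) (hc : Commute ⁅X, Y⁆ X) : ⁅X, Y⁆ * ⁅X, Y⁆ = 1 := by
  have h1 : ⁅X * X, Y⁆ = X * ⁅X, Y⁆ * X⁻¹ * ⁅X, Y⁆ := by
    simp only [commutatorElement_def]; group
  rw [h2, commutatorElement_one_left] at h1
  rw [← hc.eq] at h1
  simpa using h1.symm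

variable {X : Type*}

/-- Steinberg relations on letters -/
structure Base (x : Fin 5 → Fin 5 → Option X → G) : Prop where
  sq : ∀ i j a, i ≠ j → x i j a * x i j a = 1
  comm : ∀ i j k l a b, i ≠ j → k ≠ l → j ≠ k → i ≠ l → Commute (x i j a) (x k l b)
  mulr : ∀ i j k a, i ≠ j → j ≠ k → i ≠ k → ⁅x i j a, x j k none⁆ = x i k a
  mull : ∀ i j k a, i ≠ j → j ≠ k → i ≠ k → ⁅x i j none, x j k a⁆ = x i k a

/-- an index different from `i` and `j` -/
def ax (i j : Fin 5) : Fin 5 :=
  if 0 ≠ i ∧ 0 ≠ j then 0 else if 1 ≠ i ∧ 1 ≠ j then 1 else 2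

theorem ax_ne (i j : Fin 5) : i ≠ ax i j ∧ ax i j ≠ j := by
  revert i j; decide

theorem exists_ne4 (i j k l : Fin 5) : ∃ m, i ≠ m ∧ m ≠ j ∧ m ≠ k ∧ m ≠ l := by
  revert i j k l; decide

/-- the element of a word -/
def W (x : Fin 5 → Fin 5 → Option X → G) : List X → Fin 5 → Fin 5 → G
  | [], i, j => x i j none
  | a :: w, i, j => ⁅x i (ax i j) (some a), W x w (ax i j) j⁆

variable {x : Fin 5 → Fin 5 → Option X → G}

structure Lev (x : Fin 5 → Fin 5 → Option X → G) (n : ℕ) : Prop where
  ind : ∀ w : List X, w.length < n → ∀ a i m j, i ≠ m → m ≠ j → i ≠ j →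
    ⁅x i m (some a), W x w m j⁆ = W x (a :: w) i j
  cl : ∀ w : List X, w.length ≤ n → ∀ b i j k l, i ≠ j → k ≠ l → j ≠ k → i ≠ l →
    Commute (W x w i j) (x k l b)
  cc : ∀ w w' : List X, w.length ≤ n → w'.length ≤ n → ∀ i j k l, i ≠ j → k ≠ l → j ≠ k → i ≠ l →
    Commute (W x w i j) (W x w' k l)
  nl : ∀ w : List X, w.length ≤ n → ∀ i m j, i ≠ m → m ≠ j → i ≠ j →
    ⁅x i m none, W x w m j⁆ = W x w i j

theorem Base.lev (h : Base x) (n : ℕ) : Lev x n := by
  induction n with
  | zero =>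
    refine ⟨fun w hw => by simp at hw, ?_, ?_, ?_⟩
    · intro w hw b i j k l h1 h2 h3 h4
      obtain rfl : w = [] := by simpa using hw
      exact h.comm _ _ _ _ _ _ h1 h2 h3 h4
    · intro w w' hw hw' i j k l h1 h2 h3 h4
      obtain rfl : w = [] := by simpa using hw
      obtain rfl : w' = [] := by simpa using hw'
      exact h.comm _ _ _ _ _ _ h1 h2 h3 h4
    · intro w hw i m j h1 h2 h3
      obtain rfl : w = [] := by simpa using hw
      exact h.mull _ _ _ _ h1 h2 h3
  | succ n ih =>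
    -- independence of the middle index
    have ind : ∀ w : List X, w.length < n + 1 → ∀ a i m j, i ≠ m → m ≠ j → i ≠ j →
        ⁅x i m (some a), W x w m j⁆ = W x (a :: w) i j := by
      intro w hw a i m j h1 h2 h3
      have hw' : w.length ≤ n := by omega
      obtain ⟨g1, g2⟩ := ax_ne i j
      change _ = ⁅x i (ax i j) (some a), W x w (ax i j) j⁆
      set m0 := ax i j with hm0
      rcases eq_or_ne m m0 with rfl | hm
      · rfl
      have e1 : ⁅x i m0 (some a), x m0 m none⁆ = x i m (some a) := h.mulr _ _ _ _ g1 hm.symm h1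
      have e2 : ⁅x m0 m none, W x w m j⁆ = W x w m0 j := ih.nl w hw' _ _ _ hm.symm h2 g2
      have := comm_assoc (X := x i m0 (some a)) (Y := x m0 m none) (Z := W x w m j)
        (ih.cl w hw' _ _ _ _ _ h2 g1 (h3.symm) hm).symm
        (by rw [e1, e2]; exact (ih.cl w hw' _ _ _ _ _ g2 h1 h3.symm hm.symm).symm)
        (by rw [e2]; exact ih.cc w w hw' hw' _ _ _ _ g2 h2 h2.symm g2)
      rw [e1, e2] at this
      exact this.symm
    have cl : ∀ w : List X, w.length ≤ n + 1 → ∀ b i j k l, i ≠ j → k ≠ l → j ≠ k → i ≠ l →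
        Commute (W x w i j) (x k l b) := by
      intro w hw b i j k l h1 h2 h3 h4
      match w, hw with
      | [], _ => exact h.comm _ _ _ _ _ _ h1 h2 h3 h4
      | a :: w, hw =>
        simp only [List.length_cons] at hw
        obtain ⟨m, m1, m2, m3, m4⟩ := exists_ne4 i j k l
        rw [← ind w (by omega) a i m j m1 m2 h1]
        exact Commute.commEl (h.comm _ _ _ _ _ _ m1 h2 m3 h4)
          (ih.cl w (by omega) _ _ _ _ _ m2 h2 h3 m4)
    have cc : ∀ w w' : List X, w.length ≤ n + 1 → w'.length ≤ n + 1 → ∀ i j k l, i ≠ j → k ≠ l →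
        j ≠ k → i ≠ l → Commute (W x w i j) (W x w' k l) := by
      intro w
      induction w with
      | nil =>
        intro w' _ hw' i j k l h1 h2 h3 h4
        exact (cl w' hw' none k l i j h2 h1 h4.symm h3.symm).symm
      | cons a w ihw =>
        intro w' hw hw' i j k l h1 h2 h3 h4
        simp only [List.length_cons] at hw
        obtain ⟨m, m1, m2, m3, m4⟩ := exists_ne4 i j k l
        rw [← ind w (by omega) a i m j m1 m2 h1]
        exact Commute.commEl (cl w' hw' _ k l i m h2 m1 h4.symm m3.symm).symm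
          (ihw w' (by omega) hw' m j k l m2 h2 h3 m4)
    have nl : ∀ w : List X, w.length ≤ n + 1 → ∀ i m j, i ≠ m → m ≠ j → i ≠ j →
        ⁅x i m none, W x w m j⁆ = W x w i j := by
      intro w hw i m j h1 h2 h3
      match w, hw with
      | [], _ => exact h.mull _ _ _ _ h1 h2 h3
      | a :: w, hw =>
        have hw1 : w.length ≤ n := by simpa using hw
        obtain ⟨l, l1, l2, l3, -⟩ := exists_ne4 i m j j
        have e0 : ⁅x m l (some a), W x w l j⁆ = W x (a :: w) m j :=
          ind w (by omega) a m l j l2.symm l3 h2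
        have e1 : ⁅x i m none, x m l (some a)⁆ = x i l (some a) := h.mull _ _ _ _ h1 l2.symm l1
        have := comm_assoc (X := x i m none) (Y := x m l (some a)) (Z := W x w l j)
          (ih.cl w hw1 _ _ _ _ _ l3 h1 h3.symm l2).symm
          (by rw [e1, e0]; exact (cl (a :: w) hw _ _ _ _ _ h2 l1 h3.symm l2.symm).symm)
          (by rw [e0]; exact cc (a :: w) w hw (by omega) _ _ _ _ h2 l3 l3.symm h2)
        rw [e1, e0] at this
        rw [this]
        exact ind w (by omega) a i l j l1 l3 h3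
    exact ⟨ind, cl, cc, nl⟩

theorem Base.W_comm (h : Base x) (w w' : List X) {i j k l : Fin 5} (h1 : i ≠ j) (h2 : k ≠ l)
    (h3 : j ≠ k) (h4 : i ≠ l) : Commute (W x w i j) (W x w' k l) :=
  (h.lev (max w.length w'.length)).cc w w' (le_max_left _ _) (le_max_right _ _) i j k l h1 h2 h3 h4

theorem Base.W_cons (h : Base x) (a : X) (w : List X) {i m j : Fin 5} (h1 : i ≠ m) (h2 : m ≠ j)
    (h3 : i ≠ j) : ⁅x i m (some a), W x w m j⁆ = W x (a :: w) i j :=
  (h.lev (w.length + 1)).ind w (by omega) a i m j h1 h2 h3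

theorem Base.W_single (h : Base x) (a : X) {i j : Fin 5} (h1 : i ≠ j) :
    W x [a] i j = x i j (some a) := by
  obtain ⟨g1, g2⟩ := ax_ne i j
  rw [← h.W_cons a [] g1 g2 h1]
  exact h.mulr _ _ _ _ g1 g2 h1

theorem Base.W_mul (h : Base x) (w w' : List X) {i j k : Fin 5} (h1 : i ≠ j) (h2 : j ≠ k)
    (h3 : i ≠ k) : ⁅W x w i j, W x w' j k⁆ = W x (w ++ w') i k := by
  induction w generalizing i j k with
  | nil => exact (h.lev w'.length).nl w' le_rfl i j k h1 h2 h3
  | cons a w ih =>
    obtain ⟨m, m1, m2, m3, -⟩ := exists_ne4 i j k k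
    have e0 : ⁅x i m (some a), W x w m j⁆ = W x (a :: w) i j := h.W_cons a w m1 m2 h1
    have e1 : ⁅W x w m j, W x w' j k⁆ = W x (w ++ w') m k := ih m2 h2 m3
    have := comm_assoc (X := x i m (some a)) (Y := W x w m j) (Z := W x w' j k)
      (by rw [← h.W_single a m1]; exact h.W_comm _ _ m1 h2 m2 h3)
      (by rw [e0, e1]; exact h.W_comm _ _ h1 m3 m2.symm h3)
      (by rw [e1]; exact h.W_comm _ _ m3 h2 h2.symm m3)
    rw [e0, e1] at this
    rw [← this]
    exact h.W_cons a (w ++ w') m1 m3 h3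

theorem Base.W_sq (h : Base x) (w : List X) {i j : Fin 5} (h1 : i ≠ j) :
    W x w i j * W x w i j = 1 := by
  cases w with
  | nil => exact h.sq i j none h1
  | cons a w =>
    obtain ⟨g1, g2⟩ := ax_ne i j
    rw [← h.W_cons a w g1 g2 h1]
    refine comm_sq (h.sq _ _ _ g1) ?_
    rw [h.W_cons a w g1 g2 h1, ← h.W_single a g1]
    exact h.W_comm _ _ h1 g1 h1.symm g1

/-- `W` is natural in the group -/
theorem map_W {H : Type*} [Group H] (f : G →* H) (w : List X) (i j : Fin 5) :
    f (W x w i j) = W (fun i j a => f (x i j a)) w i j := by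
  induction w generalizing i j with
  | nil => rfl
  | cons a w ih => simp only [W]; rw [map_commutatorElement, ih]

end Crest.Agent.R185.Univ
private theorem rz_8c1ee76e51 : type_of% @_root_.Crest.Agent.R185.Univ.W.eq_def := @_root_.Crest.Agent.R185.Univ.W.eq_def -- L74
private theorem rz_9313b493f8 : type_of% @_root_.Crest.Agent.R185.Univ.W.eq_1 := @_root_.Crest.Agent.R185.Univ.W.eq_1 -- L74
end

-- ▼ part R185/U2
section

/-!
# R185 / UNIV (2): the coordinate ring of a Steinberg family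

From letters satisfying the Steinberg relations in `G` we get a ring `Crd x` (characteristic 2,
spanned by words) and a Steinberg family indexed by this ring.
-/

set_option autoImplicit false

namespace Crest.Agent.R185.Univ

open scoped commutatorElement

variable {G : Type*} [Group G] {X : Type*} {x : Fin 5 → Fin 5 → Option X → G}

/-- polynomials over `F_2` in non-commuting letters: formal sums of words -/
abbrev Poly (X : Type*) := List (List X)

/-- product of polynomials -/
def pmul (p q : Poly X) : Poly X := p.flatMap (fun w => q.map (w ++ ·))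

theorem pmul_nil_left (q : Poly X) : pmul [] q = [] := rfl

theorem pmul_nil_right (p : Poly X) : pmul p [] = [] := by
  induction p with
  | nil => rfl
  | cons w p ih => simp [pmul]

theorem pmul_cons (w : List X) (p q : Poly X) : pmul (w :: p) q = q.map (w ++ ·) ++ pmul p q := rfl

theorem pmul_append (p p' q : Poly X) : pmul (p ++ p') q = pmul p q ++ pmul p' q := by
  simp [pmul]

theorem pmul_map (w : List X) (p q : Poly X) :
    pmul (p.map (w ++ ·)) q = (pmul p q).map (w ++ ·) := by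
  induction p with
  | nil => rfl
  | cons v p ih => rw [List.map_cons, pmul_cons, pmul_cons, ih, List.map_append]; simp

theorem pmul_assoc (p q r : Poly X) : pmul (pmul p q) r = pmul p (pmul q r) := by
  induction p with
  | nil => rfl
  | cons w p ih => rw [pmul_cons, pmul_append, pmul_map, ih, pmul_cons]

theorem one_pmul (p : Poly X) : pmul [[]] p = p := by simp [pmul]

theorem pmul_one (p : Poly X) : pmul p [[]] = p := by
  induction p with
  | nil => rfl
  | cons w p ih => rw [pmul_cons, ih]; simp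

/-- the element of a polynomial -/
def psi (x : Fin 5 → Fin 5 → Option X → G) (i j : Fin 5) (p : Poly X) : G :=
  (p.map (fun w => W x w i j)).prod

@[simp] theorem psi_nil (i j : Fin 5) : psi x i j [] = 1 := rfl

theorem psi_cons (i j : Fin 5) (w : List X) (p : Poly X) :
    psi x i j (w :: p) = W x w i j * psi x i j p := by simp [psi]

theorem psi_append (i j : Fin 5) (p q : Poly X) :
    psi x i j (p ++ q) = psi x i j p * psi x i j q := by simp [psi]

theorem Base.W_psi (h : Base x) (w : List X) (q : Poly X) {i j k l : Fin 5} (h1 : i ≠ j)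
    (h2 : k ≠ l) (h3 : j ≠ k) (h4 : i ≠ l) : Commute (W x w i j) (psi x k l q) := by
  induction q with
  | nil => exact Commute.one_right _
  | cons v q ih => rw [psi_cons]; exact (h.W_comm _ _ h1 h2 h3 h4).mul_right ih

theorem Base.psi_comm (h : Base x) (p q : Poly X) {i j k l : Fin 5} (h1 : i ≠ j)
    (h2 : k ≠ l) (h3 : j ≠ k) (h4 : i ≠ l) : Commute (psi x i j p) (psi x k l q) := by
  induction p with
  | nil => exact Commute.one_left _
  | cons v p ih => rw [psi_cons]; exact (h.W_psi _ _ h1 h2 h3 h4).mul_left ih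

theorem comm_mul_right' {a b c : G} (h : Commute b ⁅a, c⁆) : ⁅a, b * c⁆ = ⁅a, b⁆ * ⁅a, c⁆ := by
  have : ⁅a, b * c⁆ = ⁅a, b⁆ * (b * ⁅a, c⁆ * b⁻¹) := by
    simp only [commutatorElement_def]; group
  rw [this, h.eq]; group

theorem comm_mul_left' {a b c : G} (h : Commute a ⁅b, c⁆) (h' : Commute ⁅b, c⁆ ⁅a, c⁆) :
    ⁅a * b, c⁆ = ⁅a, c⁆ * ⁅b, c⁆ := by
  have : ⁅a * b, c⁆ = (a * ⁅b, c⁆ * a⁻¹) * ⁅a, c⁆ := by
    simp only [commutatorElement_def]; group
  rw [this, h.eq, mul_inv_cancel_right, h'.eq]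

theorem Base.psi_W_mul (h : Base x) (w : List X) (q : Poly X) {i j k : Fin 5} (h1 : i ≠ j)
    (h2 : j ≠ k) (h3 : i ≠ k) : ⁅W x w i j, psi x j k q⁆ = psi x i k (q.map (w ++ ·)) := by
  induction q with
  | nil => simp
  | cons v q ih =>
    rw [psi_cons, List.map_cons, psi_cons, comm_mul_right', ih, h.W_mul _ _ h1 h2 h3]
    rw [ih]
    exact h.W_psi _ _ h2 h3 h3.symm h2

theorem Base.psi_mul (h : Base x) (p q : Poly X) {i j k : Fin 5} (h1 : i ≠ j)
    (h2 : j ≠ k) (h3 : i ≠ k) : ⁅psi x i j p, psi x j k q⁆ = psi x i k (pmul p q) := by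
  induction p with
  | nil => simp [pmul_nil_left]
  | cons v p ih =>
    rw [psi_cons, pmul_cons, psi_append, ← h.psi_W_mul _ _ h1 h2 h3, ← ih]
    refine comm_mul_left' ?_ ?_
    · rw [ih]; exact h.W_psi _ _ h1 h3 h1.symm h3
    · rw [ih, h.psi_W_mul _ _ h1 h2 h3]; exact h.psi_comm _ _ h3 h3 h3.symm h3

theorem Base.psi_sq (h : Base x) (p : Poly X) {i j : Fin 5} (h1 : i ≠ j) :
    psi x i j p * psi x i j p = 1 := by
  induction p with
  | nil => simp
  | cons v p ih =>
    rw [psi_cons]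
    have hc := (h.W_psi v p h1 h1 h1.symm h1).eq
    calc W x v i j * psi x i j p * (W x v i j * psi x i j p)
        = (W x v i j * psi x i j p) * (psi x i j p * W x v i j) := by rw [hc]
      _ = W x v i j * (psi x i j p * psi x i j p) * W x v i j := by group
      _ = 1 := by rw [ih, mul_one, h.W_sq _ h1]

theorem map_psi {H : Type*} [Group H] (f : G →* H) (i j : Fin 5) (p : Poly X) :
    f (psi x i j p) = psi (fun i j a => f (x i j a)) i j p := by
  induction p with
  | nil => simp
  | cons v p ih => rw [psi_cons, map_mul, ih, map_W, psi_cons]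

/-- equality of polynomials as seen by the family -/
def crdSetoid (x : Fin 5 → Fin 5 → Option X → G) : Setoid (Poly X) where
  r p q := ∀ i j, i ≠ j → psi x i j p = psi x i j q
  iseqv := ⟨fun _ _ _ _ => rfl, fun h i j hij => (h i j hij).symm,
    fun h h' i j hij => (h i j hij).trans (h' i j hij)⟩

/-- The coordinate ring of the family. -/
def Crd (x : Fin 5 → Fin 5 → Option X → G) : Type _ := Quotient (crdSetoid x)

namespace Crd

/-- class of a polynomial -/
def mk (x : Fin 5 → Fin 5 → Option X → G) (p : Poly X) : Crd x := Quotient.mk (crdSetoid x) p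

theorem mk_surj (r : Crd x) : ∃ p, mk x p = r := Quotient.exists_rep r

theorem mk_eq {p q : Poly X} : mk x p = mk x q ↔ ∀ i j, i ≠ j → psi x i j p = psi x i j q :=
  ⟨fun h => Quotient.exact h, fun h => Quotient.sound h⟩

theorem third (i j : Fin 5) : ∃ m, i ≠ m ∧ m ≠ j := ⟨ax i j, ax_ne i j⟩

instance : Zero (Crd x) := ⟨mk x []⟩
instance : One (Crd x) := ⟨mk x [[]]⟩
instance : Neg (Crd x) := ⟨id⟩

/-- addition -/
instance : Add (Crd x) := ⟨Quotient.map₂ (fun p q => p ++ q) (by
    intro p p' hp q q' hq i j hij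
    simp only [psi_append, hp i j hij, hq i j hij])⟩

/-- multiplication -/
def mul (h : Base x) : Crd x → Crd x → Crd x :=
  Quotient.map₂ pmul (by
    intro p p' hp q q' hq i j hij
    obtain ⟨m, h1, h2⟩ := third i j
    rw [← h.psi_mul _ _ h1 h2 hij, ← h.psi_mul _ _ h1 h2 hij, hp i m h1, hq m j h2])

/-- the ring structure -/
@[reducible] def ring (h : Base x) : Ring (Crd x) where
  mul := mul h
  add_assoc a b c := by
    obtain ⟨a, rfl⟩ := mk_surj a; obtain ⟨b, rfl⟩ := mk_surj b; obtain ⟨c, rfl⟩ := mk_surj c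
    exact mk_eq.2 fun i j _ => by simp only [psi_append, mul_assoc]
  zero_add a := by
    obtain ⟨a, rfl⟩ := mk_surj a
    exact mk_eq.2 fun i j _ => by simp
  add_zero a := by
    obtain ⟨a, rfl⟩ := mk_surj a
    exact mk_eq.2 fun i j _ => by simp
  add_comm a b := by
    obtain ⟨a, rfl⟩ := mk_surj a; obtain ⟨b, rfl⟩ := mk_surj b
    exact mk_eq.2 fun i j hij => by
      simp only [psi_append]; exact (h.psi_comm _ _ hij hij hij.symm hij).eq
  nsmul := nsmulRec
  zsmul := zsmulRec
  neg_add_cancel a := by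
    obtain ⟨a, rfl⟩ := mk_surj a
    exact mk_eq.2 fun i j hij => by simp only [psi_append, psi_nil]; exact h.psi_sq _ hij
  left_distrib a b c := by
    obtain ⟨a, rfl⟩ := mk_surj a; obtain ⟨b, rfl⟩ := mk_surj b; obtain ⟨c, rfl⟩ := mk_surj c
    refine mk_eq.2 fun i j hij => ?_
    obtain ⟨m, h1, h2⟩ := third i j
    simp only [psi_append]
    rw [← h.psi_mul _ _ h1 h2 hij, ← h.psi_mul _ _ h1 h2 hij, ← h.psi_mul _ _ h1 h2 hij,
      psi_append]
    refine comm_mul_right' ?_
    rw [h.psi_mul _ _ h1 h2 hij]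
    exact h.psi_comm _ _ h2 hij hij.symm h2
  right_distrib a b c := by
    obtain ⟨a, rfl⟩ := mk_surj a; obtain ⟨b, rfl⟩ := mk_surj b; obtain ⟨c, rfl⟩ := mk_surj c
    exact mk_eq.2 fun i j hij => by simp only [pmul_append, psi_append]
  mul_assoc a b c := by
    obtain ⟨a, rfl⟩ := mk_surj a; obtain ⟨b, rfl⟩ := mk_surj b; obtain ⟨c, rfl⟩ := mk_surj c
    exact mk_eq.2 fun i j hij => by simp only [pmul_assoc]
  one_mul a := by
    obtain ⟨a, rfl⟩ := mk_surj a
    exact mk_eq.2 fun i j hij => by simp only [one_pmul]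
  mul_one a := by
    obtain ⟨a, rfl⟩ := mk_surj a
    exact mk_eq.2 fun i j hij => by simp only [pmul_one]
  zero_mul a := by
    obtain ⟨a, rfl⟩ := mk_surj a
    exact mk_eq.2 fun i j hij => by simp only [pmul_nil_left]
  mul_zero a := by
    obtain ⟨a, rfl⟩ := mk_surj a
    exact mk_eq.2 fun i j hij => by simp only [pmul_nil_right]

end Crd

/-- Steinberg family over a ring of characteristic 2 -/
structure Stein {R : Type*} [Ring R] (x : Fin 5 → Fin 5 → R → G) : Prop where
  two : ∀ r : R, r + r = 0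
  add : ∀ i j r s, i ≠ j → x i j (r + s) = x i j r * x i j s
  comm : ∀ i j k l r s, i ≠ j → k ≠ l → j ≠ k → i ≠ l → Commute (x i j r) (x k l s)
  mul : ∀ i j k r s, i ≠ j → j ≠ k → i ≠ k → ⁅x i j r, x j k s⁆ = x i k (r * s)

/-- the Steinberg family of the coordinate ring -/
noncomputable def Crd.st (x : Fin 5 → Fin 5 → Option X → G) (i j : Fin 5) (r : Crd x) : G :=
  if h : i = j then 1 else
    Quotient.lift (s := crdSetoid x) (psi x i j)
      (fun _ _ (hpq : ∀ i j, i ≠ j → psi x i j _ = psi x i j _) => hpq i j h) r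

theorem Crd.st_mk {i j : Fin 5} (h : i ≠ j) (p : Poly X) :
    Crd.st x i j (Crd.mk x p) = psi x i j p := by
  rw [Crd.st, dif_neg h]; rfl

theorem Crd.stein (h : Base x) :
    letI := Crd.ring h
    Stein (Crd.st x) := by
  let := Crd.ring h
  refine ⟨?_, ?_, ?_, ?_⟩
  · intro a
    exact neg_add_cancel (G := Crd x) a
  · intro i j r s hij
    obtain ⟨r, rfl⟩ := Crd.mk_surj r; obtain ⟨s, rfl⟩ := Crd.mk_surj s
    change Crd.st x i j (Crd.mk x (r ++ s)) = _
    rw [Crd.st_mk hij, Crd.st_mk hij, Crd.st_mk hij, psi_append]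
  · intro i j k l r s h1 h2 h3 h4
    obtain ⟨r, rfl⟩ := Crd.mk_surj r; obtain ⟨s, rfl⟩ := Crd.mk_surj s
    rw [Crd.st_mk h1, Crd.st_mk h2]
    exact h.psi_comm _ _ h1 h2 h3 h4
  · intro i j k r s h1 h2 h3
    obtain ⟨r, rfl⟩ := Crd.mk_surj r; obtain ⟨s, rfl⟩ := Crd.mk_surj s
    rw [Crd.st_mk h1, Crd.st_mk h2]
    change _ = Crd.st x i k (Crd.mk x (pmul r s))
    rw [Crd.st_mk h3]
    exact h.psi_mul _ _ h1 h2 h3

/-- evaluation of a polynomial in a ring -/
def evalP {S : Type*} [Semiring S] (v : X → S) (p : Poly X) : S :=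
  (p.map (fun w => (w.map v).prod)).sum

section eval

variable {S : Type*} [Semiring S] (v : X → S)

@[simp] theorem evalP_nil : evalP v ([] : Poly X) = 0 := rfl

theorem evalP_cons (w : List X) (p : Poly X) :
    evalP v (w :: p) = (w.map v).prod + evalP v p := by simp [evalP]

theorem evalP_append (p q : Poly X) : evalP v (p ++ q) = evalP v p + evalP v q := by
  simp [evalP]

theorem evalP_map (w : List X) (q : Poly X) :
    evalP v (q.map (w ++ ·)) = (w.map v).prod * evalP v q := by
  induction q with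
  | nil => simp
  | cons u q ih => rw [List.map_cons, evalP_cons, evalP_cons, ih, mul_add]; simp

theorem evalP_pmul (p q : Poly X) : evalP v (pmul p q) = evalP v p * evalP v q := by
  induction p with
  | nil => simp [pmul_nil_left]
  | cons w p ih => rw [pmul_cons, evalP_append, ih, evalP_map, evalP_cons, add_mul]


end eval

/-- generators of the coordinate ring -/
def Crd.gen (x : Fin 5 → Fin 5 → Option X → G) (a : X) : Crd x := Crd.mk x [[a]]

theorem Crd.evalP_gen (h : Base x) (p : Poly X) :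
    letI := Crd.ring h
    evalP (Crd.gen x) p = Crd.mk x p := by
  let := Crd.ring h
  have hw : ∀ w : List X, (w.map (Crd.gen x)).prod = Crd.mk x [w] := by
    intro w
    induction w with
    | nil => rfl
    | cons a w ih =>
      rw [List.map_cons, List.prod_cons, ih]
      rfl
  induction p with
  | nil => rfl
  | cons w p ih => rw [evalP_cons, ih, hw]; rfl


end Crest.Agent.R185.Univ
end

-- ▼ part R185/U3

/-!
# R185 / UNIV (3): from commuting corner units to a homomorphism into the Steinberg group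
-/

set_option autoImplicit false

namespace Crest.Agent.R185.Univ

open scoped commutatorElement
open Matrix

variable {G : Type*} [Group G] {R : Type*} [Ring R] {x : Fin 5 → Fin 5 → R → G}

namespace Stein

variable (S : Stein x)
include S

theorem zero {i j : Fin 5} (h : i ≠ j) : x i j 0 = 1 := by
  have := S.add i j 0 0 h
  simpa using this

theorem sq (r : R) {i j : Fin 5} (h : i ≠ j) : x i j r * x i j r = 1 := by
  rw [← S.add i j r r h, S.two, S.zero h]

theorem inv (r : R) {i j : Fin 5} (h : i ≠ j) : (x i j r)⁻¹ = x i j r :=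
  inv_eq_of_mul_eq_one_left (S.sq r h)

theorem neg (r : R) : -r = r := by
  have := S.two r
  exact (eq_neg_of_add_eq_zero_left this).symm

/-- column action -/
theorem colA {i j m : Fin 5} (hij : i ≠ j) (hi : m ≠ i) (hj : m ≠ j) (s a b : R) :
    x i j s * (x i m a * x j m b) * (x i j s)⁻¹ = x i m (a + s * b) * x j m b := by
  have h1 := (S.comm i j i m s a hij hi.symm hij.symm hi.symm).eq
  have h2 : x i j s * x j m b * (x i j s)⁻¹ = x i m (s * b) * x j m b := by
    rw [← S.mul i j m s b hij hj.symm hi.symm, commutatorElement_def]; group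
  calc x i j s * (x i m a * x j m b) * (x i j s)⁻¹
      = (x i j s * x i m a) * (x i j s)⁻¹ * (x i j s * x j m b * (x i j s)⁻¹) := by group
    _ = x i m a * (x i m (s * b) * x j m b) := by rw [h1, h2]; group
    _ = _ := by rw [S.add i m _ _ hi.symm]; group

theorem colB {i j m : Fin 5} (hij : i ≠ j) (hi : m ≠ i) (hj : m ≠ j) (s a b : R) :
    x j i s * (x i m a * x j m b) * (x j i s)⁻¹ = x i m a * x j m (b + s * a) := by
  rw [(S.comm i m j m a b hi.symm hj.symm hj hi.symm).eq, S.colA hij.symm hj hi,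
    (S.comm i m j m a _ hi.symm hj.symm hj hi.symm).eq]

theorem rowA {i j m : Fin 5} (hij : i ≠ j) (hi : m ≠ i) (hj : m ≠ j) (s a b : R) :
    x i j s * (x m i a * x m j b) * (x i j s)⁻¹ = x m i a * x m j (b + a * s) := by
  have h1 := (S.comm i j m j s b hij hj hj.symm hij).eq
  have h2 : x i j s * x m i a * (x i j s)⁻¹ = x m j (a * s) * x m i a := by
    have h3 := S.mul m i j a s hi hij hj
    have h4 : ⁅x i j s, x m i a⁆ = x m j (a * s) := by
      rw [← commutatorElement_inv, h3, S.inv _ hj]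
    rw [← h4, commutatorElement_def]; group
  have h5 := (S.comm m i m j a (a * s) hi hj hi.symm hj).eq
  calc x i j s * (x m i a * x m j b) * (x i j s)⁻¹
      = (x i j s * x m i a * (x i j s)⁻¹) * ((x i j s * x m j b) * (x i j s)⁻¹) := by group
    _ = (x m i a * x m j (a * s)) * x m j b := by rw [h1, h2, h5]; group
    _ = _ := by rw [add_comm b, S.add m j _ _ hj]; group

theorem rowB {i j m : Fin 5} (hij : i ≠ j) (hi : m ≠ i) (hj : m ≠ j) (s a b : R) :
    x j i s * (x m i a * x m j b) * (x j i s)⁻¹ = x m i (a + b * s) * x m j b := by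
  rw [(S.comm m i m j a b hi hj hi.symm hj).eq, S.rowA hij.symm hj hi,
    (S.comm m i m j _ b hi hj hi.symm hj).eq]

end Stein

/-- `GL_2 R` -/
abbrev GL2 (R : Type*) [Ring R] := (Matrix (Fin 2) (Fin 2) R)ˣ

/-- `g` acts by conjugation on the columns `i,j` and rows `i,j` through the matrix `M` -/
structure Act (x : Fin 5 → Fin 5 → R → G) (i j : Fin 5) (g : G) (M : GL2 R) : Prop where
  col : ∀ m, m ≠ i → m ≠ j → ∀ a b, g * (x i m a * x j m b) * g⁻¹ =
    x i m (M.1 0 0 * a + M.1 0 1 * b) * x j m (M.1 1 0 * a + M.1 1 1 * b)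
  row : ∀ m, m ≠ i → m ≠ j → ∀ a b, g * (x m i a * x m j b) * g⁻¹ =
    x m i (a * M.2 0 0 + b * M.2 1 0) * x m j (a * M.2 0 1 + b * M.2 1 1)

namespace Act

variable {i j : Fin 5} {g h : G} {M N : GL2 R}

theorem one : Act x i j (1 : G) (1 : GL2 R) := by
  constructor
  · intro m _ _ a b; simp
  · intro m _ _ a b; simp

theorem mul (A : Act x i j g M) (B : Act x i j h N) : Act x i j (g * h) (M * N) := by
  constructor
  · intro m hi hj a b
    have : g * h * (x i m a * x j m b) * (g * h)⁻¹ =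
      g * (h * (x i m a * x j m b) * h⁻¹) * g⁻¹ := by group
    rw [this, B.col m hi hj, A.col m hi hj]
    congr 2 <;> simp [Matrix.mul_apply, Fin.sum_univ_two] <;> noncomm_ring
  · intro m hi hj a b
    have : g * h * (x m i a * x m j b) * (g * h)⁻¹ =
      g * (h * (x m i a * x m j b) * h⁻¹) * g⁻¹ := by group
    rw [this, B.row m hi hj, A.row m hi hj]
    congr 2 <;> simp [Matrix.mul_apply, Fin.sum_univ_two] <;> noncomm_ring

theorem inv (A : Act x i j g M) : Act x i j g⁻¹ M⁻¹ := by
  have e1 : ∀ p q, M.1 p 0 * M.2 0 q + M.1 p 1 * M.2 1 q = (1 : Matrix (Fin 2) (Fin 2) R) p q := by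
    intro p q
    have := congrFun (congrFun M.3 p) q
    rwa [Matrix.mul_apply, Fin.sum_univ_two] at this
  have e2 : ∀ p q, M.2 p 0 * M.1 0 q + M.2 p 1 * M.1 1 q = (1 : Matrix (Fin 2) (Fin 2) R) p q := by
    intro p q
    have := congrFun (congrFun M.4 p) q
    rwa [Matrix.mul_apply, Fin.sum_univ_two] at this
  constructor
  · intro m hi hj a b
    have h1 := A.col m hi hj (M.2 0 0 * a + M.2 0 1 * b) (M.2 1 0 * a + M.2 1 1 * b)
    have h2 : M.1 0 0 * (M.2 0 0 * a + M.2 0 1 * b) + M.1 0 1 * (M.2 1 0 * a + M.2 1 1 * b) = a := by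
      calc _ = (M.1 0 0 * M.2 0 0 + M.1 0 1 * M.2 1 0) * a +
            (M.1 0 0 * M.2 0 1 + M.1 0 1 * M.2 1 1) * b := by noncomm_ring
        _ = a := by rw [e1, e1]; simp
    have h3 : M.1 1 0 * (M.2 0 0 * a + M.2 0 1 * b) + M.1 1 1 * (M.2 1 0 * a + M.2 1 1 * b) = b := by
      calc _ = (M.1 1 0 * M.2 0 0 + M.1 1 1 * M.2 1 0) * a +
            (M.1 1 0 * M.2 0 1 + M.1 1 1 * M.2 1 1) * b := by noncomm_ring
        _ = b := by rw [e1, e1]; simp
    rw [h2, h3] at h1
    change _ = x i m (M.2 0 0 * a + M.2 0 1 * b) * x j m (M.2 1 0 * a + M.2 1 1 * b)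
    rw [← h1]; group
  · intro m hi hj a b
    have h1 := A.row m hi hj (a * M.1 0 0 + b * M.1 1 0) (a * M.1 0 1 + b * M.1 1 1)
    have h2 : (a * M.1 0 0 + b * M.1 1 0) * M.2 0 0 + (a * M.1 0 1 + b * M.1 1 1) * M.2 1 0 = a := by
      calc _ = a * (M.1 0 0 * M.2 0 0 + M.1 0 1 * M.2 1 0) +
            b * (M.1 1 0 * M.2 0 0 + M.1 1 1 * M.2 1 0) := by noncomm_ring
        _ = a := by rw [e1, e1]; simp
    have h3 : (a * M.1 0 0 + b * M.1 1 0) * M.2 0 1 + (a * M.1 0 1 + b * M.1 1 1) * M.2 1 1 = b := by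
      calc _ = a * (M.1 0 0 * M.2 0 1 + M.1 0 1 * M.2 1 1) +
            b * (M.1 1 0 * M.2 0 1 + M.1 1 1 * M.2 1 1) := by noncomm_ring
        _ = b := by rw [e1, e1]; simp
    rw [h2, h3] at h1
    change _ = x m i (a * M.1 0 0 + b * M.1 1 0) * x m j (a * M.1 0 1 + b * M.1 1 1)
    rw [← h1]; group

end Act

/-- generation -/
def Gen (x : Fin 5 → Fin 5 → R → G) : Prop :=
  Subgroup.closure {g | ∃ i j r, i ≠ j ∧ g = x i j r} = ⊤

theorem Act.central (S : Stein x) (hg : Gen x) {i j : Fin 5} (hij : i ≠ j) {g : G}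
    (A : Act x i j g 1) (h : G) : Commute g h := by
  have e1 : (1 : GL2 R).1 = 1 := rfl
  have e2 : (1 : GL2 R).2 = 1 := rfl
  have c1 : ∀ m, m ≠ i → m ≠ j → ∀ a, Commute g (x i m a) := by
    intro m hi hj a
    have := A.col m hi hj a 0
    simp only [e1, one_apply_eq, one_mul, mul_zero, add_zero, S.zero hj.symm, mul_one,
      ne_eq, one_ne_zero, not_false_eq_true, one_apply_ne, zero_mul] at this
    exact mul_inv_eq_iff_eq_mul.1 this
  have c2 : ∀ m, m ≠ i → m ≠ j → ∀ a, Commute g (x j m a) := by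
    intro m hi hj a
    have := A.col m hi hj 0 a
    simp only [e1, one_apply_eq, one_mul, mul_zero, zero_add, S.zero hi.symm, mul_one,
      ne_eq, zero_ne_one, not_false_eq_true, one_apply_ne, zero_mul] at this
    exact mul_inv_eq_iff_eq_mul.1 this
  have c3 : ∀ m, m ≠ i → m ≠ j → ∀ a, Commute g (x m i a) := by
    intro m hi hj a
    have := A.row m hi hj a 0
    simp only [e2, one_apply_eq, one_mul, mul_zero, add_zero, S.zero hj, mul_one,
      ne_eq, zero_ne_one, not_false_eq_true, one_apply_ne, zero_mul] at this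
    exact mul_inv_eq_iff_eq_mul.1 this
  have c4 : ∀ m, m ≠ i → m ≠ j → ∀ a, Commute g (x m j a) := by
    intro m hi hj a
    have := A.row m hi hj 0 a
    simp only [e2, one_apply_eq, one_mul, mul_zero, zero_add, S.zero hi, mul_one,
      ne_eq, one_ne_zero, not_false_eq_true, one_apply_ne, zero_mul] at this
    exact mul_inv_eq_iff_eq_mul.1 this
  have key : ∀ k l r, k ≠ l → Commute g (x k l r) := by
    intro k l r hkl
    obtain ⟨m, m1, m2, m3, m4⟩ := exists_ne4 i j k l
    by_cases hk : k = i ∨ k = j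
    · by_cases hl : l = i ∨ l = j
      · rw [← mul_one r, ← S.mul k m l r 1 m3.symm m4 hkl]
        refine (Commute.commEl (Commute.symm ?_) (Commute.symm ?_)).symm
        · rcases hk with rfl | rfl
          · exact c1 m m1.symm m2 _
          · exact c2 m m1.symm m2 _
        · rcases hl with rfl | rfl
          · exact c3 m m1.symm m2 _
          · exact c4 m m1.symm m2 _
      · push Not at hl
        rcases hk with rfl | rfl
        · exact c1 l hl.1 hl.2 _
        · exact c2 l hl.1 hl.2 _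
    · push Not at hk
      by_cases hl : l = i ∨ l = j
      · rcases hl with rfl | rfl
        · exact c3 k hk.1 hk.2 _
        · exact c4 k hk.1 hk.2 _
      · push Not at hl
        rw [← mul_one r, ← S.mul k i l r 1 hk.1 hl.1.symm hkl]
        exact (Commute.commEl (c3 k hk.1 hk.2 _).symm (c1 l hl.1 hl.2 _).symm).symm
  have : h ∈ Subgroup.closure {g | ∃ i j r, i ≠ j ∧ g = x i j r} := by rw [hg]; trivial
  induction this using Subgroup.closure_induction with
  | mem y hy => obtain ⟨k, l, r, hkl, rfl⟩ := hy; exact key k l r hkl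
  | one => exact Commute.one_right _
  | mul a b _ _ ha hb => exact ha.mul_right hb
  | inv a _ ha => exact ha.inv_right

section char2

variable (R) in
/-- every element is its own opposite -/
class Ch2 : Prop where
  two : ∀ r : R, r + r = 0

variable [Ch2 R]

theorem two_self (r : R) : r + r = 0 := Ch2.two r
theorem neg_self (r : R) : -r = r := (eq_neg_of_add_eq_zero_left (Ch2.two r)).symm
theorem z2 (r : R) : (2 : ℤ) • r = 0 := by rw [two_zsmul, Ch2.two]
theorem z3 (r : R) : (3 : ℤ) • r = r := by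
  rw [show (3 : ℤ) = 2 + 1 by norm_num, add_zsmul, z2, zero_add, one_zsmul]
theorem z4 (r : R) : (4 : ℤ) • r = 0 := by
  rw [show (4 : ℤ) = 2 + 2 by norm_num, add_zsmul, z2, add_zero]
theorem z5 (r : R) : (5 : ℤ) • r = r := by
  rw [show (5 : ℤ) = 4 + 1 by norm_num, add_zsmul, z4, zero_add, one_zsmul]
theorem z6 (r : R) : (6 : ℤ) • r = 0 := by
  rw [show (6 : ℤ) = 4 + 2 by norm_num, add_zsmul, z4, z2, add_zero]
theorem zm (r : R) : (-1 : ℤ) • r = r := by rw [neg_zsmul, one_zsmul, neg_self]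
theorem zev (n : ℤ) (h : n % 2 = 0) (r : R) : n • r = 0 := by
  obtain ⟨m, rfl⟩ := Int.dvd_of_emod_eq_zero h
  rw [mul_zsmul', z2, smul_zero]
theorem zod (n : ℤ) (h : n % 2 = 1) (r : R) : n • r = r := by
  have : n = (n - 1) + 1 := by ring
  rw [this, add_zsmul, zev (n - 1) (by omega), zero_add, one_zsmul]

end char2

/-- collect equal terms and cancel them in pairs -/
macro "ch2" : tactic =>
  `(tactic| (abel_nf; try simp only [z2, z3, z4, z5, z6, zm, zev, zod, Int.reduceMod, smul_zero,
      add_zero, zero_add]))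


/-- elementary matrices -/
def E12 (s : R) : GL2 R :=
  ⟨!![1, s; 0, 1], !![1, -s; 0, 1], by ext i j; fin_cases i <;> fin_cases j <;> simp,
    by ext i j; fin_cases i <;> fin_cases j <;> simp⟩

/-- elementary matrices -/
def E21 (s : R) : GL2 R :=
  ⟨!![1, 0; s, 1], !![1, 0; -s, 1], by ext i j; fin_cases i <;> fin_cases j <;> simp,
    by ext i j; fin_cases i <;> fin_cases j <;> simp⟩

theorem Act.e12 (S : Stein x) {i j : Fin 5} (hij : i ≠ j) (s : R) : Act x i j (x i j s) (E12 s) := by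
  constructor
  · intro m hi hj a b
    rw [S.colA hij hi hj]; simp [E12]
  · intro m hi hj a b
    rw [S.rowA hij hi hj]; simp [E12, S.neg, add_comm]

theorem Act.e21 (S : Stein x) {i j : Fin 5} (hij : i ≠ j) (s : R) : Act x i j (x j i s) (E21 s) := by
  constructor
  · intro m hi hj a b
    rw [S.colB hij hi hj]; simp [E21, add_comm]
  · intro m hi hj a b
    rw [S.rowB hij hi hj]; simp [E21, S.neg]

/-- `w`-elements -/
def wel (x : Fin 5 → Fin 5 → R → G) (i j : Fin 5) (s s' : R) : G :=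
  x i j s * x j i s' * x i j s

/-- `w`-matrices -/
def wm (s s' : R) : GL2 R := E12 s * E21 s' * E12 s

theorem Act.w (S : Stein x) {i j : Fin 5} (hij : i ≠ j) (s s' : R) :
    Act x i j (wel x i j s s') (wm s s') :=
  ((Act.e12 S hij s).mul (Act.e21 S hij s')).mul (Act.e12 S hij s)

/-- `s,s'` are quasi-inverse with `s' s = p` and `s s' = q` -/
structure PI (p q s s' : R) : Prop where
  h1 : s * s' = q
  h2 : s' * s = p
  h3 : q * s = s
  h4 : p * s' = s'

theorem PI.h3' {p q s s' : R} (h : PI p q s s') : s * p = s := by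
  rw [← h.h2, ← mul_assoc, h.h1, h.h3]

theorem PI.h4' {p q s s' : R} (h : PI p q s s') : s' * q = s' := by
  rw [← h.h1, ← mul_assoc, h.h2, h.h4]

theorem PI.qq {p q s s' : R} (h : PI p q s s') : q * q = q := by
  nth_rw 2 [← h.h1]; rw [← mul_assoc, h.h3, h.h1]

theorem PI.pp {p q s s' : R} (h : PI p q s s') : p * p = p := by
  nth_rw 2 [← h.h2]; rw [← mul_assoc, h.h4, h.h2]

theorem wm_val [Ch2 R] {p q s s' : R} (h : PI p q s s') :
    (wm s s').1 = !![1 + q, s; s', 1 + p] := by
  have e1 : (wm s s').1 = !![1, s; 0, 1] * !![1, 0; s', 1] * !![1, s; 0, 1] := rfl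
  rw [e1]
  ext i j
  fin_cases i <;> fin_cases j <;> simp [Matrix.mul_apply, Fin.sum_univ_two, h.h1, h.h2, add_mul, h.h3]
  · ch2
  · ch2

theorem wm_inv [Ch2 R] {p q s s' : R} (h : PI p q s s') :
    (wm s s').2 = !![1 + q, s; s', 1 + p] := by
  have e1 : (wm s s').2 = !![1, -s; 0, 1] * (!![1, 0; -s', 1] * !![1, -s; 0, 1]) := rfl
  rw [e1, neg_self, neg_self]
  ext i j
  fin_cases i <;> fin_cases j <;> simp [Matrix.mul_apply, Fin.sum_univ_two, h.h1, h.h2, mul_add,
    h.h3']
  · ch2
  · ch2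

theorem wm_mul [Ch2 R] {p q s s' t t' : R} (h : PI p q s s') (h' : PI p q t t') :
    (wm s s' * wm t t').1 = !![1 + q + s * t', 0; 0, 1 + p + s' * t] := by
  have e1 : (wm s s' * wm t t').1 = (wm s s').1 * (wm t t').1 := rfl
  rw [e1, wm_val h, wm_val h']
  ext i j
  fin_cases i <;> fin_cases j <;> simp [Matrix.mul_apply, Fin.sum_univ_two, mul_add, add_mul,
    h.qq, h.h3', h.h4', h'.h3, h'.h4, h.pp]
  all_goals ch2

end Crest.Agent.R185.Univ
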