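import Crest.Agent.R185.Wit1

/-!
# R185, block WIT, part 2: the group `M` of an affine rule system

`M S` is generated by the translations `mx v` (`v : S.V`) and the letters `my l`, with
`my l * mx (mulB l v) = mx v * my l`.  It acts on `Om S` (`act`) and retracts onto the free group on
the letters (`ret`).  The orbit map at the base point `star` is injective (`eq_of_act_star`).
-/

set_option autoImplicit false

namespace Crest.Agent.R185.Wit

variable (S : Sys)

/-- the ambient group -/
abbrev Amb : Type := Equiv.Perm (Om S) × FreeGroup S.Lam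

variable {S}

def gx (v : S.V) : Amb S := (tperm v, 1)
def gy (l : S.Lam) : Amb S := (lperm l, FreeGroup.of l)

variable (S) in
/-- the group of the affine rule system -/
def M : Subgroup (Amb S) := Subgroup.closure (Set.range (gx (S := S)) ∪ Set.range (gy (S := S)))

def mx (v : S.V) : M S := ⟨gx v, Subgroup.subset_closure (Or.inl ⟨v, rfl⟩)⟩
def my (l : S.Lam) : M S := ⟨gy l, Subgroup.subset_closure (Or.inr ⟨l, rfl⟩)⟩

theorem mx_add (v w : S.V) : mx (v + w) = mx v * mx (S := S) w := by
  apply Subtype.ext
  simp only [mx, Subgroup.coe_mul]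
  simp [gx, tperm_add]

theorem mx_zero : mx (S := S) 0 = 1 := by
  apply Subtype.ext
  simp [mx, gx, tperm_zero]

theorem mx_neg (v : S.V) : mx (-v) = (mx (S := S) v)⁻¹ := by
  rw [eq_inv_iff_mul_eq_one, ← mx_add, neg_add_cancel, mx_zero]

theorem my_mx (l : S.Lam) (v : S.V) : my l * mx (mulB l v) = mx v * my (S := S) l := by
  apply Subtype.ext
  simp only [mx, my, Subgroup.coe_mul]
  simp [gx, gy, lperm_tperm]

variable (S) in
/-- the action of `M` on `Om` -/
def act : M S →* Equiv.Perm (Om S) := (MonoidHom.fst _ _).comp (M S).subtype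

variable (S) in
/-- the retraction onto the free group on the letters -/
def ret : M S →* FreeGroup S.Lam := (MonoidHom.snd _ _).comp (M S).subtype

@[simp] theorem act_mx (v : S.V) : act S (mx v) = tperm v := rfl
@[simp] theorem act_my (l : S.Lam) : act S (my l) = lperm l := rfl
@[simp] theorem ret_mx (v : S.V) : ret S (mx v) = 1 := rfl
@[simp] theorem ret_my (l : S.Lam) : ret S (my l) = FreeGroup.of l := rfl

/-- induction principle: left multiplication by generators -/
theorem M_induction {p : M S → Prop} (one : p 1)
    (x : ∀ v m, p m → p (mx v * m)) (y : ∀ l m, p m → p (my l * m))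
    (y' : ∀ l m, p m → p ((my l)⁻¹ * m)) (m : M S) : p m := by
  have key : ∀ (g : Amb S) (hg : g ∈ M S), p ⟨g, hg⟩ := by
    intro g hg
    induction hg using Subgroup.closure_induction_left with
    | one => exact one
    | mul_left a ha b hb ih =>
      rcases ha with ⟨v, rfl⟩ | ⟨l, rfl⟩
      · exact x v ⟨b, hb⟩ ih
      · exact y l ⟨b, hb⟩ ih
    | inv_mul_cancel a ha b hb ih =>
      rcases ha with ⟨v, rfl⟩ | ⟨l, rfl⟩
      · have := x (-v) ⟨b, hb⟩ ih
        rw [mx_neg] at this
        exact this
      · exact y' l ⟨b, hb⟩ ih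
  exact key m.1 m.2

/-- bottom state of a term -/
def bot : Tm S → Option S.Q
  | .base q => q
  | .fwd _ _ s => bot s
  | .bwd _ s => bot s

/-- length of a term -/
def len : Tm S → ℕ
  | .base _ => 0
  | .fwd _ _ s => len s + 1
  | .bwd _ s => len s + 1

theorem bot_fs {l : S.Lam} {e : S.V} {s : Tm S} (h : bot s = none) : bot (fs l e s) = none := by
  cases s with
  | base q =>
    simp only [bot] at h
    subst h
    simp [fs, bot]
  | fwd l' e' s' => exact h
  | bwd l' s' =>
    simp only [bot] at h
    simp only [fs]
    split_ifs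
    · exact h
    · exact h

theorem bot_bs {l : S.Lam} {s : Tm S} (h : bot s = none) : bot (bs l s).2 = none := by
  cases s with
  | base q =>
    simp only [bot] at h
    subst h
    simp [bs, bot]
  | fwd l' e' s' =>
    simp only [bot] at h
    simp only [bs]
    split_ifs
    · exact h
    · exact h
  | bwd l' s' => exact h

section nf

variable {G : Type*} [Group G] (x : S.V → G) (y : S.Lam → G)

/-- value of a term in a group -/
def nfT : Tm S → G
  | .base _ => 1
  | .fwd l e s => y l * x e * nfT s
  | .bwd l s => (y l)⁻¹ * nfT s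

/-- value of a point in a group -/
def nf (p : Om S) : G := x p.1 * nfT x y p.2.1

variable (hx : ∀ v w, x (v + w) = x v * x w) (hxy : ∀ l v, y l * x (mulB l v) = x v * y l)

include hx in
theorem x_zero : x 0 = 1 := by
  have := hx 0 0
  rw [add_zero] at this
  exact left_eq_mul.mp this

include hx in
theorem nfT_fs {l : S.Lam} {e : S.V} {s : Tm S} (h : bot s = none) :
    nfT x y (fs l e s) = y l * x e * nfT x y s := by
  cases s with
  | base q =>
    simp only [bot] at h
    subst h
    simp [fs, nfT]
  | fwd l' e' s' => rfl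
  | bwd l' s' =>
    simp only [fs]
    split_ifs with h'
    · obtain ⟨rfl, rfl⟩ := h'
      simp [nfT, x_zero x hx]
    · rfl

include hx hxy in
theorem nf_lperm (l : S.Lam) (p : Om S) (h : bot p.2.1 = none) :
    nf x y (lperm l p) = y l * nf x y p := by
  simp only [nf, lperm_apply]
  rw [nfT_fs x y hx h]
  conv_rhs => rw [← mulB_quo_add_res l p.1, hx]
  rw [← mul_assoc, ← mul_assoc, ← hxy l (quo l p.1)]
  simp only [mul_assoc]

include hx in
theorem nf_tperm (v : S.V) (p : Om S) : nf x y (tperm v p) = x v * nf x y p := by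
  simp only [nf, tperm_apply, hx, mul_assoc]

end nf

theorem bot_lperm {l : S.Lam} {p : Om S} (h : bot p.2.1 = none) : bot (lperm l p).2.1 = none :=
  bot_fs h

theorem bot_lperm_inv {l : S.Lam} {p : Om S} (h : bot p.2.1 = none) :
    bot ((lperm l)⁻¹ p).2.1 = none := bot_bs h

/-- the base point for the word problem -/
def star : Om S := (0, ⟨.base none, trivial⟩)

theorem bot_act_star (m : M S) : bot (act S m star).2.1 = none := by
  induction m using M_induction with
  | one => simp [star, bot]
  | x v m ih => 
    rw [map_mul, Equiv.Perm.mul_apply, act_mx]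
    exact ih
  | y l m ih => 
    rw [map_mul, Equiv.Perm.mul_apply, act_my]
    exact bot_lperm ih
  | y' l m ih =>
    rw [map_mul, map_inv, Equiv.Perm.mul_apply, act_my]
    exact bot_lperm_inv ih

/-- every element is the value of its normal form; more generally for homomorphisms -/
theorem nf_act_star {G : Type*} [Group G] (f : M S →* G) (m : M S) :
    nf (fun v => f (mx v)) (fun l => f (my l)) (act S m star) = f m := by
  have hx : ∀ v w : S.V, f (mx (v + w)) = f (mx v) * f (mx w) := fun v w => by
    rw [mx_add, map_mul]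
  have hxy : ∀ (l : S.Lam) (v : S.V), f (my l) * f (mx (mulB l v)) = f (mx v) * f (my l) :=
    fun l v => by rw [← map_mul, my_mx, map_mul]
  induction m using M_induction with
  | one => 
    simp only [map_one, Equiv.Perm.one_apply, nf, star, nfT, mul_one]
    rw [mx_zero, map_one]
  | x v m ih => 
    rw [map_mul, map_mul, Equiv.Perm.mul_apply, act_mx, nf_tperm _ _ hx, ih]
  | y l m ih => 
    rw [map_mul, map_mul, Equiv.Perm.mul_apply, act_my, nf_lperm _ _ hx hxy _ _ (bot_act_star m), ih]
  | y' l m ih =>
    have h1 : lperm l ((lperm l)⁻¹ (act S m star)) = act S m star :=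
      Equiv.apply_symm_apply (lperm l) _
    have h2 := nf_lperm (fun v => f (mx v)) (fun l => f (my l)) hx hxy l
      ((lperm l)⁻¹ (act S m star)) (bot_lperm_inv (bot_act_star m))
    rw [h1, ih] at h2
    rw [map_mul, map_mul, map_inv, map_inv, Equiv.Perm.mul_apply, act_my, h2, inv_mul_cancel_left]

theorem eq_of_act_star {m m' : M S} (h : act S m star = act S m' star) : m = m' := by
  have h1 := nf_act_star (MonoidHom.id (M S)) m
  have h2 := nf_act_star (MonoidHom.id (M S)) m'
  rw [h] at h1
  exact h1.symm.trans h2

instance : DecidableEq (M S) := fun m m' =>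
  decidable_of_iff (act S m star = act S m' star) ⟨eq_of_act_star, fun h => by rw [h]⟩

/-- homomorphisms out of `M` -/
noncomputable def liftM {G : Type*} [Group G] (x : S.V → G) (y : S.Lam → G)
    (hx : ∀ v w, x (v + w) = x v * x w) (hxy : ∀ l v, y l * x (mulB l v) = x v * y l) :
    M S →* G := by
  have key : ∀ m m' : M S, nf x y (act S (m * m') star) =
      nf x y (act S m star) * nf x y (act S m' star) := by
    intro m m'
    induction m using M_induction with
    | one => simp [nf, star, nfT, x_zero x hx]
    | x v m ih =>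
      rw [mul_assoc, map_mul, Equiv.Perm.mul_apply, act_mx, nf_tperm x y hx, ih, ← mul_assoc,
        ← nf_tperm x y hx, ← act_mx, ← Equiv.Perm.mul_apply, ← map_mul]
    | y l m ih =>
      rw [mul_assoc, map_mul, Equiv.Perm.mul_apply, act_my,
        nf_lperm x y hx hxy _ _ (bot_act_star _), ih, ← mul_assoc,
        ← nf_lperm x y hx hxy _ _ (bot_act_star _), ← act_my, ← Equiv.Perm.mul_apply, ← map_mul]
    | y' l m ih =>
      have inv : ∀ p : Om S, bot p.2.1 = none →
          nf x y ((lperm l)⁻¹ p) = (y l)⁻¹ * nf x y p := by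
        intro p hp
        have h2 := nf_lperm x y hx hxy l ((lperm l)⁻¹ p) (bot_lperm_inv hp)
        rw [show lperm l ((lperm l)⁻¹ p) = p from Equiv.apply_symm_apply (lperm l) _] at h2
        rw [h2, inv_mul_cancel_left]
      rw [mul_assoc, map_mul, map_inv, Equiv.Perm.mul_apply, act_my,
        inv _ (bot_act_star _), ih, ← mul_assoc,
        ← inv _ (bot_act_star _), ← act_my, ← map_inv, ← Equiv.Perm.mul_apply, ← map_mul]
  exact MonoidHom.mk' (fun m => nf x y (act S m star)) key


theorem liftM_my {G : Type*} [Group G] (x : S.V → G) (y : S.Lam → G)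
    (hx : ∀ v w, x (v + w) = x v * x w) (hxy : ∀ l v, y l * x (mulB l v) = x v * y l)
    (l : S.Lam) :
    liftM x y hx hxy (my l) = y l := by
  change nf x y (act S (my l) star) = y l
  rw [act_my, nf_lperm x y hx hxy l star rfl]
  simp [nf, star, nfT, x_zero x hx]

end Crest.Agent.R185.Wit
private theorem rz_f7b90452ee : type_of% @_root_.Crest.Agent.R185.Wit.bot.eq_def := @_root_.Crest.Agent.R185.Wit.bot.eq_def -- L83
private theorem rz_534ee79804 : type_of% @_root_.Crest.Agent.R185.Wit.bot.eq_1 := @_root_.Crest.Agent.R185.Wit.bot.eq_1 -- L83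
private theorem rz_9a3ee292dd : type_of% @_root_.Crest.Agent.R185.Wit.len.eq_def := @_root_.Crest.Agent.R185.Wit.len.eq_def -- L89
private theorem rz_e94efd86fd : type_of% @_root_.Crest.Agent.R185.Wit.len.eq_1 := @_root_.Crest.Agent.R185.Wit.len.eq_1 -- L89
private theorem rz_9e3d7e1850 : type_of% @_root_.Crest.Agent.R185.Wit.nfT.eq_def := @_root_.Crest.Agent.R185.Wit.nfT.eq_def -- L127
private theorem rz_44c612ca37 : type_of% @_root_.Crest.Agent.R185.Wit.nfT.eq_1 := @_root_.Crest.Agent.R185.Wit.nfT.eq_1 -- L127
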