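import Crest.Agent.R185.Wit2
import Mathlib.Logic.Relation

/-!
# R185, block WIT, part 3: input letters, rules, accepted words, and (STAR)
-/

set_option autoImplicit false

namespace Crest.Agent.R185.Wit

/-- an affine rule system with rules `R`, (inverses of) input letters `A`, archive coordinate `I` -/
structure WS (R A : Type) [DecidableEq R] [DecidableEq A] where
  Q : Type
  [decQ : DecidableEq Q]
  k : ℕ
  I : Fin k
  b : ℤ
  hb : 2 ≤ b
  B : R ⊕ A → Fin k → ℤ
  Bpos : ∀ l j, 0 < B l j
  BI : ∀ l, B l I ≤ b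
  BA : ∀ x, B (.inr x) I = b
  a : R ⊕ A → Fin k → ℤ
  a_nonneg : ∀ l j, 0 ≤ a l j
  a_lt : ∀ l j, a l j < B l j
  aI_pos : ∀ x, 1 ≤ a (.inr x) I
  aI_inj : ∀ x y, a (.inr x) I = a (.inr y) I → x = y
  srcR : R → Q
  tgtR : R → Q
  qin : Q
  qh : Q
  /-- the program text (on the stacks of the start configuration) -/
  tx : Fin k → ℤ
  tx_I : tx I = 0

attribute [instance] WS.decQ

variable {R A : Type} [DecidableEq R] [DecidableEq A]

/-- the underlying affine rule system -/
@[reducible] def WS.toSys (W : WS R A) : Sys :=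
  { Q := W.Q
    Lam := R ⊕ A
    k := W.k
    B := W.B
    Bpos := W.Bpos
    a := W.a
    a_nonneg := W.a_nonneg
    a_lt := W.a_lt
    src := Sum.elim W.srcR (fun _ => W.qin)
    tgt := Sum.elim W.tgtR (fun _ => W.qin) }

variable (W : WS R A)

/-- the free group of input letters inside `M` -/
def ip : FreeGroup A →* M W.toSys := FreeGroup.lift fun x => (my (S := W.toSys) (.inr x))⁻¹

/-- the free group of rules inside `M` -/
def iR : FreeGroup R →* M W.toSys := FreeGroup.lift fun r => my (S := W.toSys) (.inl r)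

/-- retraction onto the input letters -/
def rA : M W.toSys →* FreeGroup A :=
  (FreeGroup.lift (Sum.elim (fun _ => 1) fun x => (FreeGroup.of x)⁻¹)).comp (ret W.toSys)

/-- retraction onto the rules -/
def rR : M W.toSys →* FreeGroup R :=
  (FreeGroup.lift (Sum.elim (fun r => FreeGroup.of r) fun _ => 1)).comp (ret W.toSys)

@[simp] theorem ip_of (x : A) : ip W (FreeGroup.of x) = (my (S := W.toSys) (.inr x))⁻¹ := by
  simp [ip]

@[simp] theorem iR_of (r : R) : iR W (FreeGroup.of r) = my (S := W.toSys) (.inl r) := by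
  simp [iR]

@[simp] theorem rA_mx (v : W.toSys.V) : rA W (mx v) = 1 := by
  rw [rA, MonoidHom.comp_apply, ret_mx, map_one]
@[simp] theorem rR_mx (v : W.toSys.V) : rR W (mx v) = 1 := by
  rw [rR, MonoidHom.comp_apply, ret_mx, map_one]
@[simp] theorem rA_inl (r : R) : rA W (my (S := W.toSys) (.inl r)) = 1 := by
  change FreeGroup.lift _ (ret W.toSys (my (S := W.toSys) (.inl r))) = 1
  rw [ret_my, FreeGroup.lift_apply_of, Sum.elim_inl]
@[simp] theorem rA_inr (x : A) : rA W (my (S := W.toSys) (.inr x)) = (FreeGroup.of x)⁻¹ := by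
  change FreeGroup.lift _ (ret W.toSys (my (S := W.toSys) (.inr x))) = _
  rw [ret_my, FreeGroup.lift_apply_of, Sum.elim_inr]
@[simp] theorem rR_inl (r : R) : rR W (my (S := W.toSys) (.inl r)) = FreeGroup.of r := by
  change FreeGroup.lift _ (ret W.toSys (my (S := W.toSys) (.inl r))) = _
  rw [ret_my, FreeGroup.lift_apply_of, Sum.elim_inl]
@[simp] theorem rR_inr (x : A) : rR W (my (S := W.toSys) (.inr x)) = 1 := by
  change FreeGroup.lift _ (ret W.toSys (my (S := W.toSys) (.inr x))) = _
  rw [ret_my, FreeGroup.lift_apply_of, Sum.elim_inr]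

@[simp] theorem rA_ip (g : FreeGroup A) : rA W (ip W g) = g := by
  have : (rA W).comp (ip W) = MonoidHom.id _ := by
    ext x; simp
  exact DFunLike.congr_fun this g

@[simp] theorem rR_ip (g : FreeGroup A) : rR W (ip W g) = 1 := by
  have : (rR W).comp (ip W) = 1 := by
    ext x; simp
  exact DFunLike.congr_fun this g

@[simp] theorem rR_iR (g : FreeGroup R) : rR W (iR W g) = g := by
  have : (rR W).comp (iR W) = MonoidHom.id _ := by
    ext x; simp
  exact DFunLike.congr_fun this g

@[simp] theorem rA_iR (g : FreeGroup R) : rA W (iR W g) = 1 := by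
  have : (rA W).comp (iR W) = 1 := by
    ext x; simp
  exact DFunLike.congr_fun this g

/-- start configurations -/
def st (g : FreeGroup A) : Om W.toSys := act W.toSys (ip W g) (cfg (S := W.toSys) W.qin W.tx)

/-- the halting configuration -/
def hl : Om W.toSys := cfg (S := W.toSys) W.qh 0

/-- the rule orbit of the halting configuration -/
def Ch : Set (Om W.toSys) := {ω | ∃ p, ω = act W.toSys (iR W p) (hl W)}

theorem st_mul (g h : FreeGroup A) : st W (g * h) = act W.toSys (ip W g) (st W h) := by
  simp [st]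

/-- one rule step between real configurations -/
inductive Rs : W.Q × W.toSys.V → W.Q × W.toSys.V → Prop
  | mk (r : R) (c : W.toSys.V) :
      Rs (W.srcR r, mulB (S := W.toSys) (.inl r) c + W.a (.inl r)) (W.tgtR r, c)

/-- connectedness by rule steps -/
def Cn : W.Q × W.toSys.V → W.Q × W.toSys.V → Prop := Relation.EqvGen (Rs W)

/-- the code of a list of input letters -/
def code : List A → W.toSys.V
  | [] => W.tx
  | x :: L => mulB (S := W.toSys) (.inr x) (code L) + W.a (.inr x)

/-- acceptance of a list of input letters -/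
def Acc (L : List A) : Prop := Cn W (W.qin, code W L) (W.qh, 0)

/-- the component of a rejected input does not touch the archive -/
def Archive : Prop := ∀ L : List A, ¬ Acc W L → ∀ d, Cn W (W.qin, code W L) d → d.2 W.I = code W L W.I

/-! ### roots -/

variable {W}

/-- strip a term: the real configuration a point hangs at -/
def root : W.toSys.V → Tm W.toSys → Option W.Q × W.toSys.V
  | c, .base q => (q, c)
  | c, .fwd l e s => root (mulB l c + e) s
  | c, .bwd l s => root (quo l c) s

/-- number of letters of the term up to the topmost input letter -/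
def abot : Tm W.toSys → ℕ
  | .base _ => 0
  | .fwd (.inl _) _ s => abot s
  | .fwd (.inr _) _ s => len s + 1
  | .bwd (.inl _) s => abot s
  | .bwd (.inr _) s => len s + 1

/-- the step relation on roots -/
def Rs' (c d : Option W.Q × W.toSys.V) : Prop :=
  ∃ r : R, c = (some (W.srcR r), mulB (S := W.toSys) (.inl r) d.2 + W.a (.inl r)) ∧
    d.1 = some (W.tgtR r)

theorem abot_le (s : Tm W.toSys) : abot s ≤ len s := by
  induction s with
  | base q => simp [abot]
  | fwd l e s ih =>
    rcases l with l | l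
    · simp only [abot, len]; omega
    · simp only [abot, len]; omega
  | bwd l s ih =>
    rcases l with l | l
    · simp only [abot, len]; omega
    · simp only [abot, len]; omega

theorem abot_fs (r : R) (e : W.toSys.V) (s : Tm W.toSys) :
    abot (fs (S := W.toSys) (.inl r) e s) = abot s := by
  cases s with
  | base q =>
    simp only [fs]
    split_ifs <;> rfl
  | fwd l' e' s' => rfl
  | bwd l' s' =>
    simp only [fs]
    split_ifs with h
    · obtain ⟨rfl, -⟩ := h
      rfl
    · rfl

theorem root_fs_ne (r : R) (c : W.toSys.V) (s : Tm W.toSys) (h : abot s ≠ 0) :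
    root (quo (S := W.toSys) (.inl r) c)
      (fs (S := W.toSys) (.inl r) (res (S := W.toSys) (.inl r) c) s) = root c s := by
  cases s with
  | base q => exact absurd rfl h
  | fwd l' e' s' =>
    simp only [fs]
    rw [root, mulB_quo_add_res]
  | bwd l' s' =>
    simp only [fs]
    split_ifs with h
    · obtain ⟨rfl, -⟩ := h
      rw [root]
    · rw [root, mulB_quo_add_res]

theorem root_fs (r : R) (c : W.toSys.V) (s : Tm W.toSys) :
    root (quo (S := W.toSys) (.inl r) c)
      (fs (S := W.toSys) (.inl r) (res (S := W.toSys) (.inl r) c) s) = root c s ∨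
    Rs' (root c s) (root (quo (S := W.toSys) (.inl r) c)
      (fs (S := W.toSys) (.inl r) (res (S := W.toSys) (.inl r) c) s)) := by
  cases s with
  | base q =>
    simp only [fs]
    split_ifs with h
    · right
      obtain ⟨rfl, h2⟩ := h
      refine ⟨r, ?_, rfl⟩
      simp only [root]
      refine Prod.ext rfl ?_
      have h3 := mulB_quo_add_res (S := W.toSys) (.inl r) c
      rw [h2] at h3
      exact h3.symm
    · left
      change (q, mulB (S := W.toSys) (Sum.inl r) (quo (S := W.toSys) (Sum.inl r) c) +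
        res (S := W.toSys) (Sum.inl r) c) = (q, c)
      rw [mulB_quo_add_res]
  | fwd l' e' s' =>
    left
    simp only [fs]
    rw [root, mulB_quo_add_res]
  | bwd l' s' =>
    left
    simp only [fs]
    split_ifs with h
    · obtain ⟨rfl, -⟩ := h
      rw [root]
    · rw [root, mulB_quo_add_res]

/-- abbreviations on points -/
def rt (p : Om W.toSys) : Option W.Q × W.toSys.V := root p.1 p.2.1
def ab (p : Om W.toSys) : ℕ := abot p.2.1

theorem ab_lperm (r : R) (p : Om W.toSys) : ab (lperm (S := W.toSys) (.inl r) p) = ab p :=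
  abot_fs r _ _

theorem rt_lperm_ne (r : R) (p : Om W.toSys) (h : ab p ≠ 0) :
    rt (lperm (S := W.toSys) (.inl r) p) = rt p :=
  root_fs_ne r _ _ h

theorem rt_lperm (r : R) (p : Om W.toSys) :
    rt (lperm (S := W.toSys) (.inl r) p) = rt p ∨
      Rs' (rt p) (rt (lperm (S := W.toSys) (.inl r) p)) :=
  root_fs r _ _

/-- induction along rule words -/
theorem iR_induction {P : Om W.toSys → Om W.toSys → Prop} (refl : ∀ ω, P ω ω)
    (step : ∀ (r : R) ω ω', P ω ω' → P ω (lperm (S := W.toSys) (.inl r) ω'))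
    (step' : ∀ (r : R) ω ω', P ω (lperm (S := W.toSys) (.inl r) ω') → P ω ω')
    (p : FreeGroup R) (ω : Om W.toSys) : P ω (act W.toSys (iR W p) ω) := by
  have key : ∀ L : List (R × Bool), P ω (act W.toSys (iR W (FreeGroup.mk L)) ω) := by
    intro L
    induction L with
    | nil =>
      have : (FreeGroup.mk [] : FreeGroup R) = 1 := rfl
      rw [this]
      simpa using refl ω
    | cons x L ih =>
      obtain ⟨r, e⟩ := x
      have h1 : (FreeGroup.mk ((r, e) :: L) : FreeGroup R) =
          FreeGroup.mk [(r, e)] * FreeGroup.mk L := by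
        rw [FreeGroup.mul_mk]; rfl
      rw [h1, map_mul, map_mul, Equiv.Perm.mul_apply]
      cases e with
      | true =>
        have h2 : (FreeGroup.mk [(r, true)] : FreeGroup R) = FreeGroup.of r := rfl
        rw [h2, iR_of, act_my]
        exact step r _ _ ih
      | false =>
        have h2 : (FreeGroup.mk [(r, false)] : FreeGroup R) = (FreeGroup.of r)⁻¹ := rfl
        rw [h2, map_inv, iR_of, map_inv, act_my]
        apply step' r
        rw [show lperm (S := W.toSys) (Sum.inl r) ((lperm (S := W.toSys) (Sum.inl r))⁻¹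
          (act W.toSys (iR W (FreeGroup.mk L)) ω)) = act W.toSys (iR W (FreeGroup.mk L)) ω from
          Equiv.apply_symm_apply _ _]
        exact ih
  have := key p.toWord
  rwa [FreeGroup.mk_toWord] at this

theorem ab_iR (p : FreeGroup R) (ω : Om W.toSys) : ab (act W.toSys (iR W p) ω) = ab ω := by
  refine iR_induction (P := fun ω ω' => ab ω' = ab ω) (fun _ => rfl) ?_ ?_ p ω
  · intro r ω ω' h; rw [ab_lperm, h]
  · intro r ω ω' h; rw [← h, ab_lperm]

theorem rt_iR_ne (p : FreeGroup R) (ω : Om W.toSys) (h0 : ab ω ≠ 0) :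
    rt (act W.toSys (iR W p) ω) = rt ω := by
  have := iR_induction (W := W) (P := fun ω ω' => ab ω' = ab ω ∧ (ab ω ≠ 0 → rt ω' = rt ω))
    (fun _ => ⟨rfl, fun _ => rfl⟩) ?_ ?_ p ω
  · exact this.2 h0
  · rintro r ω ω' ⟨h, h'⟩
    refine ⟨by rw [ab_lperm, h], fun h1 => ?_⟩
    rw [rt_lperm_ne _ _ (by rw [h]; exact h1), h' h1]
  · rintro r ω ω' ⟨h, h'⟩
    rw [ab_lperm] at h
    refine ⟨h, fun h1 => ?_⟩
    rw [← h' h1, rt_lperm_ne _ _ (by rw [h]; exact h1)]

theorem rt_iR (p : FreeGroup R) (ω : Om W.toSys) :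
    Relation.EqvGen Rs' (rt ω) (rt (act W.toSys (iR W p) ω)) := by
  refine iR_induction (P := fun ω ω' => Relation.EqvGen Rs' (rt ω) (rt ω'))
    (fun _ => .refl _) ?_ ?_ p ω
  · intro r ω ω' h
    rcases rt_lperm r ω' with h1 | h1
    · rw [h1]; exact h
    · exact h.trans _ _ _ (.rel _ _ h1)
  · intro r ω ω' h
    rcases rt_lperm r ω' with h1 | h1
    · rw [h1] at h; exact h
    · exact h.trans _ _ _ (.symm _ _ (.rel _ _ h1))

theorem eqvGen_Rs' {c d : Option W.Q × W.toSys.V} (h : Relation.EqvGen Rs' c d) :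
    c = d ∨ ∃ c' d', c = (some c'.1, c'.2) ∧ d = (some d'.1, d'.2) ∧ Cn W c' d' := by
  induction h with
  | rel x y h =>
    right
    obtain ⟨r, h1, h2⟩ := h
    refine ⟨_, (W.tgtR r, y.2), h1, Prod.ext h2 rfl, .rel _ _ (.mk r y.2)⟩
  | refl x => exact Or.inl rfl
  | symm x y h ih =>
    rcases ih with ih | ⟨c', d', h1, h2, h3⟩
    · exact Or.inl ih.symm
    · exact Or.inr ⟨d', c', h2, h1, .symm _ _ h3⟩
  | trans x y z h1 h2 ih1 ih2 =>
    rcases ih1 with ih1 | ⟨c', d', h1, h2, h3⟩
    · rw [ih1]; exact ih2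
    · rcases ih2 with ih2 | ⟨c'', d'', h4, h5, h6⟩
      · rw [← ih2]; exact Or.inr ⟨c', d', h1, h2, h3⟩
      · right
        refine ⟨c', d'', h1, h5, h3.trans _ _ _ ?_⟩
        rw [h2] at h4
        have h7 : d' = c'' := by
          have h8 := congrArg Prod.fst h4
          have h9 := congrArg Prod.snd h4
          exact Prod.ext (by simpa using h8) h9
        rw [h7]; exact h6

/-- rule connections are realised by rule words -/
theorem exists_iR_of_Cn {c d : W.Q × W.toSys.V} (h : Cn W c d) :
    ∃ p, cfg (S := W.toSys) d.1 d.2 = act W.toSys (iR W p) (cfg (S := W.toSys) c.1 c.2) := by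
  induction h with
  | rel x y h =>
    obtain ⟨r, c⟩ := h
    refine ⟨FreeGroup.of r, ?_⟩
    rw [iR_of, act_my]
    exact (lperm_cfg (S := W.toSys) (.inl r) c).symm
  | refl x => exact ⟨1, by simp⟩
  | symm x y h ih =>
    obtain ⟨p, hp⟩ := ih
    refine ⟨p⁻¹, ?_⟩
    rw [hp, map_inv, map_inv]
    exact (Equiv.symm_apply_apply _ _).symm
  | trans x y z h1 h2 ih1 ih2 =>
    obtain ⟨p, hp⟩ := ih1
    obtain ⟨p', hp'⟩ := ih2
    refine ⟨p' * p, ?_⟩
    rw [hp', hp, map_mul, map_mul, Equiv.Perm.mul_apply]

end Crest.Agent.R185.Wit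
private theorem rz_f8531360bc : type_of% @_root_.Crest.Agent.R185.Wit.abot.eq_def := @_root_.Crest.Agent.R185.Wit.abot.eq_def -- L155
private theorem rz_5ecf68dac9 : type_of% @_root_.Crest.Agent.R185.Wit.abot.eq_1 := @_root_.Crest.Agent.R185.Wit.abot.eq_1 -- L155
private theorem rz_db15d9821b : type_of% @_root_.Crest.Agent.R185.Wit.code.eq_def := @_root_.Crest.Agent.R185.Wit.code.eq_def -- L134
private theorem rz_d8d2609724 : type_of% @_root_.Crest.Agent.R185.Wit.code.eq_1 := @_root_.Crest.Agent.R185.Wit.code.eq_1 -- L134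
private theorem rz_872f22daa0 : type_of% @_root_.Crest.Agent.R185.Wit.root.eq_def := @_root_.Crest.Agent.R185.Wit.root.eq_def -- L149
private theorem rz_a0c19f6b9f : type_of% @_root_.Crest.Agent.R185.Wit.root.eq_1 := @_root_.Crest.Agent.R185.Wit.root.eq_1 -- L149
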