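import Mathlib
import Crest.Agent.R185.Tor1

-- ▼ part R185/Wu1
section

/-!
# R185 / W(U) (1): the natural rook gadget (helper681)

Matrices `I → J → Option Y`; `rowM i w` (row `i` is `w`, the other rows are the near-unanimous value
of `w`) and `colM j z`.  `act i j x` applies `x : Y → Y` at the place `(i, j)` of the row-`i` and the
column-`j` matrices and is the identity elsewhere.  Actions at places in the same row or column
commute, and the product over a row (column) preserves the constant matrices.
-/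

set_option autoImplicit false

namespace Crest.Agent.R185.Wu

variable {Y I J : Type}

/-- `w` is constant equal to `y` except perhaps at one place -/
def NU (w : J → Y) (y : Y) : Prop := ∃ j, ∀ l, l ≠ j → w l = y

open Classical in
/-- the near-unanimous value -/
noncomputable def cen (w : J → Y) : Option Y := if h : ∃ y, NU w y then some h.choose else none

/-- at least three elements -/
def Three (J : Type) : Prop := ∀ a b : J, ∃ c, c ≠ a ∧ c ≠ b

theorem cen_eq (hJ : Three J) {w : J → Y} {y : Y} (h : NU w y) : cen w = some y := by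
  have h' : ∃ y, NU w y := ⟨y, h⟩
  unfold cen
  rw [dif_pos h']
  obtain ⟨j, hj⟩ := h
  obtain ⟨j', hj'⟩ := h'.choose_spec
  obtain ⟨c, h1, h2⟩ := hJ j j'
  rw [← hj c h1, hj' c h2]

open Classical in
/-- row matrices -/
noncomputable def rowM (i : I) (w : J → Y) : I → J → Option Y :=
  fun k l => if k = i then some (w l) else cen w

open Classical in
/-- column matrices -/
noncomputable def colM (j : J) (z : I → Y) : I → J → Option Y :=
  fun k l => if l = j then some (z k) else cen z

/-- constant matrices -/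
def con (I J : Type) {Y : Type} (y : Y) : I → J → Option Y := fun _ _ => some y

theorem rowM_self (i : I) (w : J → Y) (l : J) : rowM i w i l = some (w l) := by simp [rowM]

theorem rowM_ne {i k : I} (h : k ≠ i) (w : J → Y) (l : J) : rowM i w k l = cen w := by
  simp [rowM, h]

theorem colM_self (j : J) (z : I → Y) (k : I) : colM j z k j = some (z k) := by simp [colM]

theorem colM_ne {j l : J} (h : l ≠ j) (z : I → Y) (k : I) : colM j z k l = cen z := by
  simp [colM, h]

theorem rowM_inj {i : I} {w w' : J → Y} (h : rowM i w = rowM i w') : w = w' := by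
  funext l
  have := congrFun (congrFun h i) l
  rw [rowM_self, rowM_self] at this
  exact Option.some.inj this

theorem colM_inj {j : J} {z z' : I → Y} (h : colM j z = colM j z') : z = z' := by
  funext k
  have := congrFun (congrFun h k) j
  rw [colM_self, colM_self] at this
  exact Option.some.inj this

/-- transposition -/
def tr (M : I → J → Option Y) : J → I → Option Y := fun l k => M k l


theorem tr_rowM (i : I) (w : J → Y) : tr (rowM i w) = colM i w := rfl

theorem tr_colM (j : J) (z : I → Y) : tr (colM j z) = rowM j z := rfl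

theorem row_col (hI : Three I) (hJ : Three J) {i : I} {j : J} {w : J → Y} {z : I → Y}
    (h : rowM i w = colM j z) :
    ∃ y, (∀ l, l ≠ j → w l = y) ∧ (∀ k, k ≠ i → z k = y) ∧ w j = z i := by
  obtain ⟨k0, hk0, -⟩ := hI i i
  obtain ⟨l0, hl0, -⟩ := hJ j j
  have h1 : ∀ k, k ≠ i → cen w = some (z k) := by
    intro k hk
    have := congrFun (congrFun h k) j
    rwa [rowM_ne hk, colM_self] at this
  have h2 : ∀ l, l ≠ j → some (w l) = cen z := by
    intro l hl
    have := congrFun (congrFun h i) l
    rwa [rowM_self, colM_ne hl] at this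
  have h3 : cen w = cen z := by
    have := congrFun (congrFun h k0) l0
    rwa [rowM_ne hk0, colM_ne hl0] at this
  refine ⟨z k0, ?_, ?_, ?_⟩
  · intro l hl
    have := h2 l hl
    rw [← h3, h1 k0 hk0] at this
    exact Option.some.inj this
  · intro k hk
    have := h1 k hk
    rw [h1 k0 hk0] at this
    exact (Option.some.inj this).symm
  · have := congrFun (congrFun h i) j
    rw [rowM_self, colM_self] at this
    exact Option.some.inj this

theorem row_col_of (hI : Three I) (hJ : Three J) {i : I} {j : J} {w : J → Y} {z : I → Y} {y : Y}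
    (h1 : ∀ l, l ≠ j → w l = y) (h2 : ∀ k, k ≠ i → z k = y) (h3 : w j = z i) :
    rowM i w = colM j z := by
  have e1 : cen w = some y := cen_eq hJ ⟨j, h1⟩
  have e2 : cen z = some y := cen_eq hI ⟨i, h2⟩
  funext k l
  by_cases hk : k = i <;> by_cases hl : l = j
  · subst hk hl; rw [rowM_self, colM_self, h3]
  · subst hk; rw [rowM_self, colM_ne hl, h1 l hl, e2]
  · subst hl; rw [rowM_ne hk, colM_self, h2 k hk, e1]
  · rw [rowM_ne hk, colM_ne hl, e1, e2]

theorem row_row (hJ : Three J) (l0 : J) {i k : I} (hik : i ≠ k) {w w' : J → Y}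
    (h : rowM i w = rowM k w') : ∃ y, w = (fun _ => y) ∧ w' = fun _ => y := by
  have h1 : ∀ l, some (w l) = cen w' := by
    intro l
    have := congrFun (congrFun h i) l
    rwa [rowM_self, rowM_ne hik] at this
  have h2 : ∀ l, cen w = some (w' l) := by
    intro l
    have := congrFun (congrFun h k) l
    rwa [rowM_self, rowM_ne hik.symm] at this
  have h3 : ∀ l, w l = w l0 := by
    intro l
    have := h1 l
    rw [← h1 l0] at this
    exact Option.some.inj this
  have h4 : cen w = some (w l0) := cen_eq hJ ⟨l0, fun l _ => h3 l⟩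
  refine ⟨w l0, funext h3, ?_⟩
  funext l
  have := h2 l
  rw [h4] at this
  exact (Option.some.inj this).symm

theorem rowM_const (hJ : Three J) (l0 : J) (i : I) (y : Y) : rowM i (fun _ : J => y) = con I J y := by
  have h4 : cen (fun _ : J => y) = some y := cen_eq hJ ⟨l0, fun l _ => rfl⟩
  funext k l
  by_cases hk : k = i
  · subst hk; rw [rowM_self]; rfl
  · rw [rowM_ne hk, h4]; rfl

theorem colM_const (hI : Three I) (k0 : I) (j : J) (y : Y) : colM j (fun _ : I => y) = con I J y := by
  have := rowM_const hI k0 j y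
  have h2 := congrArg tr this
  exact h2

open Classical in
/-- the partial action at the place `(i, j)` -/
noncomputable def act (i : I) (j : J) (x : Y → Y) (M : I → J → Option Y) : I → J → Option Y :=
  if h : ∃ w, rowM i w = M then rowM i (Function.update h.choose j (x (h.choose j)))
  else if h : ∃ z, colM j z = M then colM j (Function.update h.choose i (x (h.choose i)))
  else M

theorem act_row (i : I) (j : J) (x : Y → Y) [DecidableEq J] (w : J → Y) :
    act i j x (rowM i w) = rowM i (Function.update w j (x (w j))) := by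
  have h : ∃ w', rowM i w' = rowM i w := ⟨w, rfl⟩
  unfold act
  rw [dif_pos h]
  have := rowM_inj h.choose_spec
  rw [this]
  congr!

theorem update_compat (hI : Three I) (hJ : Three J) {i : I} {j : J} [DecidableEq I] [DecidableEq J]
    {w : J → Y} {z : I → Y} (h : rowM i w = colM j z) (x : Y) :
    rowM i (Function.update w j x) = colM j (Function.update z i x) := by
  obtain ⟨y, h1, h2, h3⟩ := row_col hI hJ h
  refine row_col_of hI hJ (y := y) ?_ ?_ ?_
  · intro l hl; rw [Function.update_of_ne hl]; exact h1 l hl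
  · intro k hk; rw [Function.update_of_ne hk]; exact h2 k hk
  · rw [Function.update_self, Function.update_self]

theorem act_col (hI : Three I) (hJ : Three J) (i : I) (j : J) (x : Y → Y) [DecidableEq I]
    (z : I → Y) : act i j x (colM j z) = colM j (Function.update z i (x (z i))) := by
  classical
  by_cases h : ∃ w', rowM i w' = colM j z
  · obtain ⟨w, hw⟩ := h
    rw [← hw, act_row, update_compat hI hJ hw]
    obtain ⟨y, -, -, h3⟩ := row_col hI hJ hw
    rw [h3]
  · unfold act
    rw [dif_neg h]
    have h' : ∃ z', colM j z' = colM j z := ⟨z, rfl⟩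
    rw [dif_pos h']
    have := colM_inj h'.choose_spec
    rw [this]
    congr!

theorem act_else {i : I} {j : J} (x : Y → Y) {M : I → J → Option Y}
    (h1 : ∀ w, rowM i w ≠ M) (h2 : ∀ z, colM j z ≠ M) : act i j x M = M := by
  unfold act
  rw [dif_neg (by rintro ⟨w, hw⟩; exact h1 w hw), dif_neg (by rintro ⟨w, hw⟩; exact h2 w hw)]

theorem cases3 (i : I) (j : J) (M : I → J → Option Y) :
    (∃ w, rowM i w = M) ∨ (∃ z, colM j z = M) ∨
      ((∀ w, rowM i w ≠ M) ∧ ∀ z, colM j z ≠ M) := by
  by_cases h1 : ∃ w, rowM i w = M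
  · exact Or.inl h1
  by_cases h2 : ∃ z, colM j z = M
  · exact Or.inr (Or.inl h2)
  push Not at h1 h2
  exact Or.inr (Or.inr ⟨h1, h2⟩)

theorem act_comp (hI : Three I) (hJ : Three J) (i : I) (j : J) (x x' : Y → Y)
    (M : I → J → Option Y) : act i j x (act i j x' M) = act i j (x ∘ x') M := by
  classical
  rcases cases3 i j M with ⟨w, rfl⟩ | ⟨z, rfl⟩ | ⟨h1, h2⟩
  · rw [act_row, act_row, act_row, Function.update_self, Function.update_idem]; rfl
  · rw [act_col hI hJ, act_col hI hJ, act_col hI hJ, Function.update_self, Function.update_idem]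
    rfl
  · rw [act_else x' h1 h2, act_else x h1 h2, act_else _ h1 h2]

theorem act_id (hI : Three I) (hJ : Three J) (i : I) (j : J) (M : I → J → Option Y) :
    act i j id M = M := by
  classical
  rcases cases3 i j M with ⟨w, rfl⟩ | ⟨z, rfl⟩ | ⟨h1, h2⟩
  · rw [act_row]; simp
  · rw [act_col hI hJ]; simp
  · rw [act_else _ h1 h2]

theorem act_tr (hI : Three I) (hJ : Three J) (i : I) (j : J) (x : Y → Y)
    (M : I → J → Option Y) : act j i x (tr M) = tr (act i j x M) := by
  classical
  rcases cases3 i j M with ⟨w, rfl⟩ | ⟨z, rfl⟩ | ⟨h1, h2⟩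
  · rw [tr_rowM, act_col hJ hI, act_row, tr_rowM]
  · rw [tr_colM, act_row, act_col hI hJ, tr_colM]
  · rw [act_else x h1 h2, act_else x (i := j) (j := i) (M := tr M)]
    · intro w hw
      exact h2 w (congrArg tr hw)
    · intro z hz
      exact h1 z (congrArg tr hz)

/-- actions at two places of one row commute -/
theorem act_comm_row (hI : Three I) (hJ : Three J) (i : I) {j l : J} (hjl : j ≠ l)
    (x x' : Y → Y) (M : I → J → Option Y) :
    act i j x (act i l x' M) = act i l x' (act i j x M) := by
  classical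
  have hout : ∀ (j l : J), j ≠ l → ∀ (x x' : Y → Y) (z : I → Y), (∀ w, rowM i w ≠ colM j z) →
      act i l x' (colM j z) = colM j z := by
    intro j l hjl x x' z hz
    refine act_else x' hz ?_
    intro z' hz'
    obtain ⟨y, h1, h2⟩ := row_row hI i (i := l) (k := j) (Ne.symm hjl)
      (w := z') (w' := z) (congrArg tr hz')
    rw [h2, colM_const hI i j y] at hz
    exact hz _ (rowM_const hJ j i y)
  have main : ∀ (j l : J), j ≠ l → ∀ (x x' : Y → Y) (z : I → Y), (∀ w, rowM i w ≠ colM j z) →
      act i j x (act i l x' (colM j z)) = act i l x' (act i j x (colM j z)) := by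
    intro j l hjl x x' z hz
    rw [hout j l hjl x x' z hz, act_col hI hJ, hout j l hjl x x']
    intro w hw
    have h5 := update_compat hI hJ hw (z i)
    rw [Function.update_idem, Function.update_eq_self] at h5
    exact hz _ h5
  by_cases h : ∃ w, rowM i w = M
  · obtain ⟨w, rfl⟩ := h
    rw [act_row, act_row, act_row, act_row, Function.update_of_ne hjl,
      Function.update_of_ne (Ne.symm hjl), Function.update_comm hjl]
  · push Not at h
    by_cases hj : ∃ z, colM j z = M
    · obtain ⟨z, rfl⟩ := hj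
      exact main j l hjl x x' z h
    by_cases hl : ∃ z, colM l z = M
    · obtain ⟨z, rfl⟩ := hl
      exact (main l j (Ne.symm hjl) x' x z h).symm
    push Not at hj hl
    rw [act_else x' h hl, act_else x h hj, act_else x' h hl]

/-- actions at two places of one column commute -/
theorem act_comm_col (hI : Three I) (hJ : Three J) {i k : I} (j : J) (hik : i ≠ k)
    (x x' : Y → Y) (M : I → J → Option Y) :
    act i j x (act k j x' M) = act k j x' (act i j x M) := by
  have := act_comm_row hJ hI j hik x x' (tr M)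
  rw [act_tr hI hJ, act_tr hI hJ, act_tr hI hJ, act_tr hI hJ] at this
  exact congrArg tr this

end Crest.Agent.R185.Wu
end

-- ▼ part R185/Wu2

/-!
# R185 / W(U) (2): the rook certificate and its faithful permutation model
-/

set_option autoImplicit false

namespace Crest.Agent.R185.Wu

/-- product of two commuting homomorphisms -/
def mulHom {U K : Type} [Group U] [Group K] (f g : U →* K) (h : ∀ a b, Commute (f a) (g b)) :
    U →* K where
  toFun a := f a * g a
  map_one' := by simp
  map_mul' a b := by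
    rw [map_mul, map_mul, mul_assoc, mul_assoc, ← mul_assoc (f b), ← mul_assoc (g a),
      (h b a).eq]

@[simp] theorem mulHom_apply {U K : Type} [Group U] [Group K] (f g : U →* K)
    (h : ∀ a b, Commute (f a) (g b)) (a : U) : mulHom f g h a = f a * g a := rfl

/-- the rook certificate for `β`: `v i j` commute along rows and columns, the row products and the
column products commute with `β`, and `s` conjugates every row and column product `ρ` to `ρ β` -/
structure Rook (U K : Type) [Group U] [Group K] where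
  v : Fin 3 → Fin 4 → U →* K
  β : U →* K
  s : K
  row : ∀ i j l, j ≠ l → ∀ a b, Commute (v i j a) (v i l b)
  col : ∀ i k j, i ≠ k → ∀ a b, Commute (v i j a) (v k j b)
  rβ : ∀ i a b, Commute (v i 0 a * v i 1 a * v i 2 a * v i 3 a) (β b)
  cβ : ∀ j a b, Commute (v 0 j a * v 1 j a * v 2 j a) (β b)
  sr : ∀ i a, s * (v i 0 a * v i 1 a * v i 2 a * v i 3 a) * s⁻¹ =
    v i 0 a * v i 1 a * v i 2 a * v i 3 a * β a
  sc : ∀ j a, s * (v 0 j a * v 1 j a * v 2 j a) * s⁻¹ = v 0 j a * v 1 j a * v 2 j a * β a

/-! ### the permutation model -/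

/-- matrices -/
abbrev Mat (U : Type) : Type := Fin 3 → Fin 4 → Option U

theorem three3 : Three (Fin 3) := by unfold Three; decide

theorem three4 : Three (Fin 4) := by unfold Three; decide

section model

variable {U : Type} [Group U]

/-- the action at `(i, j)` on matrices -/
noncomputable def vP (i : Fin 3) (j : Fin 4) : U →* Equiv.Perm (Mat U) where
  toFun u :=
    { toFun := act i j (fun y => u * y)
      invFun := act i j (fun y => u⁻¹ * y)
      left_inv := by
        intro M
        rw [act_comp three3 three4]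
        have : ((fun y => u⁻¹ * y) ∘ fun y => u * y) = id := by funext y; simp
        rw [this, act_id three3 three4]
      right_inv := by
        intro M
        rw [act_comp three3 three4]
        have : ((fun y => u * y) ∘ fun y => u⁻¹ * y) = id := by funext y; simp
        rw [this, act_id three3 three4] }
  map_one' := by
    ext1 M
    have : (fun y : U => 1 * y) = id := by funext y; simp
    change act i j (fun y : U => 1 * y) M = M
    rw [this, act_id three3 three4]
  map_mul' a b := by
    ext1 M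
    change act i j (fun y : U => a * b * y) M =
      act i j (fun y : U => a * y) (act i j (fun y : U => b * y) M)
    rw [act_comp three3 three4]
    congr 1
    funext y
    simp [mul_assoc]

theorem vP_apply (i : Fin 3) (j : Fin 4) (u : U) (M : Mat U) :
    vP i j u M = act i j (fun y => u * y) M := rfl

theorem vP_row (i : Fin 3) (j : Fin 4) (u : U) (w : Fin 4 → U) :
    vP i j u (rowM i w) = rowM i (Function.update w j (u * w j)) := by
  rw [vP_apply, act_row]

theorem vP_col (i : Fin 3) (j : Fin 4) (u : U) (z : Fin 3 → U) :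
    vP i j u (colM j z) = colM j (Function.update z i (u * z i)) := by
  rw [vP_apply, act_col three3 three4]

theorem vP_comm_row (i : Fin 3) (j l : Fin 4) (h : j ≠ l) (a b : U) :
    Commute (vP i j a) (vP i l b) := by
  ext1 M
  exact act_comm_row three3 three4 i h _ _ M

theorem vP_comm_col (i k : Fin 3) (j : Fin 4) (h : i ≠ k) (a b : U) :
    Commute (vP i j a) (vP k j b) := by
  ext1 M
  exact act_comm_col three3 three4 j h _ _ M

/-- constant matrices -/
abbrev cM (y : U) : Mat U := con (Fin 3) (Fin 4) y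

theorem rP_cM (i : Fin 3) (u y : U) :
    (vP i 0 u * vP i 1 u * vP i 2 u * vP i 3 u) (cM y) = cM (u * y) := by
  unfold cM
  rw [← rowM_const three4 0 i y, ← rowM_const three4 0 i (u * y)]
  simp only [Equiv.Perm.mul_apply, vP_row]
  congr 1
  funext l
  fin_cases l <;> simp [Function.update]

theorem cP_cM (j : Fin 4) (u y : U) :
    (vP 0 j u * vP 1 j u * vP 2 j u) (cM y) = cM (u * y) := by
  unfold cM
  rw [← colM_const three3 0 j y, ← colM_const three3 0 j (u * y)]
  simp only [Equiv.Perm.mul_apply, vP_col]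
  congr 1
  funext l
  fin_cases l <;> simp [Function.update]

/-- the model space -/
abbrev MX (U : Type) : Type := (ℕ × Mat U) ⊕ (ℕ × U)

/-- extend a permutation of matrices -/
def up : Equiv.Perm (Mat U) →* Equiv.Perm (MX U) where
  toFun e := Equiv.sumCongr (Equiv.prodCongr (Equiv.refl ℕ) e) (Equiv.refl _)
  map_one' := by ext1 x; rcases x with ⟨n, M⟩ | ⟨n, y⟩ <;> rfl
  map_mul' a b := by ext1 x; rcases x with ⟨n, M⟩ | ⟨n, y⟩ <;> rfl

@[simp] theorem up_inl (e : Equiv.Perm (Mat U)) (n : ℕ) (M : Mat U) :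
    up e (Sum.inl (n, M)) = Sum.inl (n, e M) := rfl

@[simp] theorem up_inr (e : Equiv.Perm (Mat U)) (n : ℕ) (y : U) :
    up e (Sum.inr (n, y)) = Sum.inr (n, y) := rfl

/-- `β` on points -/
def bf (u : U) : MX U → MX U
  | Sum.inl x => Sum.inl x
  | Sum.inr (0, y) => Sum.inr (0, u * y)
  | Sum.inr (n + 1, y) => Sum.inr (n + 1, y)

/-- `β` -/
def bP : U →* Equiv.Perm (MX U) where
  toFun u :=
    { toFun := bf u
      invFun := bf u⁻¹
      left_inv := by rintro (⟨n, M⟩ | ⟨n | n, y⟩) <;> simp [bf]
      right_inv := by rintro (⟨n, M⟩ | ⟨n | n, y⟩) <;> simp [bf] }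
  map_one' := by ext1 x; rcases x with ⟨n, M⟩ | ⟨n | n, y⟩ <;> simp [bf]
  map_mul' a b := by ext1 x; rcases x with ⟨n, M⟩ | ⟨n | n, y⟩ <;> simp [bf, mul_assoc]

@[simp] theorem bP_inl (u : U) (x : ℕ × Mat U) : bP u (Sum.inl x) = Sum.inl x := rfl

@[simp] theorem bP_zero (u y : U) : bP u (Sum.inr (0, y)) = Sum.inr (0, u * y) := rfl

@[simp] theorem bP_succ (u y : U) (n : ℕ) :
    bP u (Sum.inr (n + 1, y)) = Sum.inr (n + 1, y) := rfl

theorem bP_inj : Function.Injective (bP : U →* Equiv.Perm (MX U)) := by
  intro a b h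
  have := congrArg (fun e : Equiv.Perm (MX U) => e (Sum.inr (0, 1))) h
  simpa using this

theorem up_comm_bP (e : Equiv.Perm (Mat U)) (u : U) : Commute (up e) (bP u) := by
  ext1 x
  rcases x with ⟨n, M⟩ | ⟨n | n, y⟩ <;> rfl

theorem cM_inj {y y' : U} (h : cM y = cM y') : y = y' :=
  Option.some.inj (congrFun (congrFun h 0) 0)

open Classical in
/-- the shift -/
noncomputable def sf : MX U → MX U
  | Sum.inl (0, M) => if h : ∃ y, cM y = M then Sum.inr (0, h.choose) else Sum.inl (0, M)
  | Sum.inl (n + 1, M) => if ∃ y, cM y = M then Sum.inl (n, M) else Sum.inl (n + 1, M)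
  | Sum.inr (n, y) => Sum.inr (n + 1, y)

open Classical in
/-- the inverse shift -/
noncomputable def sg : MX U → MX U
  | Sum.inl (n, M) => if ∃ y, cM y = M then Sum.inl (n + 1, M) else Sum.inl (n, M)
  | Sum.inr (0, y) => Sum.inl (0, cM y)
  | Sum.inr (n + 1, y) => Sum.inr (n, y)

theorem sf_zero (y : U) : sf (Sum.inl (0, cM y)) = Sum.inr (0, y) := by
  have h : ∃ y', cM y' = cM y := ⟨y, rfl⟩
  unfold sf
  simp only
  rw [dif_pos h, cM_inj h.choose_spec]

theorem sf_succ (n : ℕ) (y : U) : sf (Sum.inl (n + 1, cM y)) = Sum.inl (n, cM y) := by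
  have h : ∃ y', cM y' = cM y := ⟨y, rfl⟩
  unfold sf
  simp only
  rw [if_pos h]

theorem sf_else (n : ℕ) (M : Mat U) (h : ∀ y, cM y ≠ M) : sf (Sum.inl (n, M)) = Sum.inl (n, M) := by
  have h' : ¬ ∃ y, cM y = M := by rintro ⟨y, hy⟩; exact h y hy
  rcases n with _ | n
  · unfold sf; simp only; rw [dif_neg h']
  · unfold sf; simp only; rw [if_neg h']

theorem sf_inr (n : ℕ) (y : U) : sf (Sum.inr (n, y)) = Sum.inr (n + 1, y) := rfl

theorem sg_con (n : ℕ) (y : U) : sg (Sum.inl (n, cM y)) = Sum.inl (n + 1, cM y) := by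
  have h : ∃ y', cM y' = cM y := ⟨y, rfl⟩
  unfold sg
  simp only
  rw [if_pos h]

theorem sg_else (n : ℕ) (M : Mat U) (h : ∀ y, cM y ≠ M) : sg (Sum.inl (n, M)) = Sum.inl (n, M) := by
  have h' : ¬ ∃ y, cM y = M := by rintro ⟨y, hy⟩; exact h y hy
  unfold sg; simp only; rw [if_neg h']

theorem sg_zero (y : U) : sg (Sum.inr (0, y)) = Sum.inl (0, cM y) := rfl

theorem sg_succ (n : ℕ) (y : U) : sg (Sum.inr (n + 1, y)) = Sum.inr (n, y) := rfl

theorem MX_cases (x : MX U) :
    (∃ y, x = Sum.inl (0, cM y)) ∨ (∃ n y, x = Sum.inl (n + 1, cM y)) ∨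
    (∃ n M, (∀ y, cM y ≠ M) ∧ x = Sum.inl (n, M)) ∨ (∃ y, x = Sum.inr (0, y)) ∨
    (∃ n y, x = Sum.inr (n + 1, y)) := by
  rcases x with ⟨n, M⟩ | ⟨n | n, y⟩
  · by_cases h : ∃ y, cM y = M
    · obtain ⟨y, rfl⟩ := h
      rcases n with _ | n
      · exact Or.inl ⟨y, rfl⟩
      · exact Or.inr (Or.inl ⟨n, y, rfl⟩)
    · push Not at h
      exact Or.inr (Or.inr (Or.inl ⟨n, M, h, rfl⟩))
  · exact Or.inr (Or.inr (Or.inr (Or.inl ⟨y, rfl⟩)))
  · exact Or.inr (Or.inr (Or.inr (Or.inr ⟨n, y, rfl⟩)))

/-- the shift permutation -/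
noncomputable def sP : Equiv.Perm (MX U) where
  toFun := sf
  invFun := sg
  left_inv := by
    intro x
    rcases MX_cases x with ⟨y, rfl⟩ | ⟨n, y, rfl⟩ | ⟨n, M, h, rfl⟩ | ⟨y, rfl⟩ | ⟨n, y, rfl⟩
    · rw [sf_zero, sg_zero]
    · rw [sf_succ, sg_con]
    · rw [sf_else n M h, sg_else n M h]
    · rw [sf_inr, sg_succ]
    · rw [sf_inr, sg_succ]
  right_inv := by
    intro x
    rcases MX_cases x with ⟨y, rfl⟩ | ⟨n, y, rfl⟩ | ⟨n, M, h, rfl⟩ | ⟨y, rfl⟩ | ⟨n, y, rfl⟩
    · rw [sg_con, sf_succ]
    · rw [sg_con, sf_succ]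
    · rw [sg_else n M h, sf_else n M h]
    · rw [sg_zero, sf_zero]
    · rw [sg_succ, sf_inr]

theorem sP_apply (x : MX U) : sP x = sf x := rfl

/-- the key relation -/
theorem sP_conj (e : Equiv.Perm (Mat U)) (u : U) (he : ∀ y, e (cM y) = cM (u * y)) :
    sP * up e * sP⁻¹ = up e * bP u := by
  rw [mul_inv_eq_iff_eq_mul]
  ext1 x
  simp only [Equiv.Perm.mul_apply, sP_apply]
  rcases MX_cases x with ⟨y, rfl⟩ | ⟨n, y, rfl⟩ | ⟨n, M, h, rfl⟩ | ⟨y, rfl⟩ | ⟨n, y, rfl⟩
  · rw [up_inl, he, sf_zero, sf_zero, bP_zero, up_inr]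
  · rw [up_inl, he, sf_succ, sf_succ, bP_inl, up_inl, he]
  · have h2 : ∀ y, cM y ≠ e M := by
      intro y hy
      apply h (u⁻¹ * y)
      apply e.injective
      rw [he, mul_inv_cancel_left, hy]
    rw [up_inl, sf_else n _ h2, sf_else n M h, bP_inl, up_inl]
  · rw [up_inr, sf_inr, bP_succ, up_inr]
  · rw [up_inr, sf_inr, bP_succ, up_inr]

/-- the model -/
noncomputable def model (U : Type) [Group U] : Rook U (Equiv.Perm (MX U)) where
  v i j := up.comp (vP i j)
  β := bP
  s := sP
  row i j l h a b := (vP_comm_row i j l h a b).map up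
  col i k j h a b := (vP_comm_col i k j h a b).map up
  rβ i a b := by
    have : up (vP i 0 a) * up (vP i 1 a) * up (vP i 2 a) * up (vP i 3 a) =
        up (vP i 0 a * vP i 1 a * vP i 2 a * vP i 3 a) := by simp only [map_mul]
    change Commute (up (vP i 0 a) * up (vP i 1 a) * up (vP i 2 a) * up (vP i 3 a)) _
    rw [this]
    exact up_comm_bP _ _
  cβ j a b := by
    have : up (vP 0 j a) * up (vP 1 j a) * up (vP 2 j a) =
        up (vP 0 j a * vP 1 j a * vP 2 j a) := by simp only [map_mul]
    change Commute (up (vP 0 j a) * up (vP 1 j a) * up (vP 2 j a)) _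
    rw [this]
    exact up_comm_bP _ _
  sr i a := by
    have : up (vP i 0 a) * up (vP i 1 a) * up (vP i 2 a) * up (vP i 3 a) =
        up (vP i 0 a * vP i 1 a * vP i 2 a * vP i 3 a) := by simp only [map_mul]
    change sP * (up (vP i 0 a) * up (vP i 1 a) * up (vP i 2 a) * up (vP i 3 a)) * sP⁻¹ =
      up (vP i 0 a) * up (vP i 1 a) * up (vP i 2 a) * up (vP i 3 a) * bP a
    rw [this]
    exact sP_conj _ a (rP_cM i a)
  sc j a := by
    have : up (vP 0 j a) * up (vP 1 j a) * up (vP 2 j a) =
        up (vP 0 j a * vP 1 j a * vP 2 j a) := by simp only [map_mul]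
    change sP * (up (vP 0 j a) * up (vP 1 j a) * up (vP 2 j a)) * sP⁻¹ =
      up (vP 0 j a) * up (vP 1 j a) * up (vP 2 j a) * bP a
    rw [this]
    exact sP_conj _ a (cP_cM j a)

end model

end Crest.Agent.R185.Wu
private theorem rz_9d79f011eb : type_of% @_root_.Crest.Agent.R185.Wu.bf.eq_1 := @_root_.Crest.Agent.R185.Wu.bf.eq_1 -- L138
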