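import Crest.Agent.R185.Wu2

/-!
# R185 / W(U) (3): the finitely presented group `W(U)`
-/

set_option autoImplicit false

namespace Crest.Agent.R185.Wu

open Monoid

/-- free powers of finitely presented groups -/
theorem exists_power_fin (U : Type) [Group U] (hU : Group.IsFinitelyPresented U) (n : ℕ) :
    ∃ (P : Type) (_ : Group P) (inc : Fin n → U →* P), Group.IsFinitelyPresented P ∧
      ∀ (K : Type) [Group K] (f : Fin n → U →* K), ∃ g : P →* K, ∀ i a, g (inc i a) = f i a := by
  induction n with
  | zero =>
    refine ⟨FreeGroup Empty, inferInstance, fun i => i.elim0, inferInstance, ?_⟩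
    intro K _ f
    exact ⟨1, fun i => i.elim0⟩
  | succ n ih =>
    obtain ⟨P, hP, inc, hfp, hl⟩ := ih
    refine ⟨Coprod P U, inferInstance,
      Fin.lastCases Coprod.inr (fun i => Coprod.inl.comp (inc i)), inferInstance, ?_⟩
    intro K _ f
    obtain ⟨g, hg⟩ := hl K (fun i => f i.castSucc)
    refine ⟨Coprod.lift g (f (Fin.last n)), ?_⟩
    intro i a
    refine Fin.lastCases ?_ (fun i => ?_) i
    · beta_reduce
      rw [Fin.lastCases_last, Coprod.lift_apply_inr]
    · beta_reduce
      rw [Fin.lastCases_castSucc]
      change Coprod.lift g (f (Fin.last n)) (Coprod.inl (inc i a)) = _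
      rw [Coprod.lift_apply_inl, hg]

/-- free powers of finitely presented groups -/
theorem exists_power (U : Type) [Group U] (hU : Group.IsFinitelyPresented U) (ι : Type)
    [Finite ι] :
    ∃ (P : Type) (_ : Group P) (inc : ι → U →* P), Group.IsFinitelyPresented P ∧
      ∀ (K : Type) [Group K] (f : ι → U →* K), ∃ g : P →* K, ∀ i a, g (inc i a) = f i a := by
  obtain ⟨n, ⟨e⟩⟩ := Finite.exists_equiv_fin ι
  obtain ⟨P, hP, inc, hfp, hl⟩ := exists_power_fin U hU n
  refine ⟨P, hP, fun i => inc (e i), hfp, ?_⟩
  intro K _ f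
  obtain ⟨g, hg⟩ := hl K (fun i => f (e.symm i))
  exact ⟨g, fun i a => by rw [hg, e.symm_apply_apply]⟩

section

variable {U P : Type} [Group U] [Group P] (inc : Option (Fin 3 × Fin 4) → U →* P) (S : Set U)

/-- the big free product -/
abbrev C (P : Type) [Group P] : Type := Coprod P (Multiplicative ℤ)

/-- letters -/
def A (i : Fin 3) (j : Fin 4) : U →* C P := Coprod.inl.comp (inc (some (i, j)))

/-- the letter `β` -/
def B : U →* C P := Coprod.inl.comp (inc none)

/-- the letter `s` -/
def T (P : Type) [Group P] : C P := Coprod.inr (Multiplicative.ofAdd (1 : ℤ))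

/-- row product -/
def rr (i : Fin 3) (a : U) : C P := A inc i 0 a * A inc i 1 a * A inc i 2 a * A inc i 3 a

/-- column product -/
def cc (j : Fin 4) (a : U) : C P := A inc 0 j a * A inc 1 j a * A inc 2 j a

open scoped commutatorElement

/-- index type of the relators -/
abbrev Ix (S : Set U) : Type :=
  (Fin 3 × Fin 4 × Fin 4 × S × S) ⊕ (Fin 3 × Fin 3 × Fin 4 × S × S) ⊕ (Fin 3 × S × S) ⊕
    (Fin 4 × S × S) ⊕ (Fin 3 × S) ⊕ (Fin 4 × S)

/-- relators -/
def relf : Ix S → C P
  | .inl (i, j, l, a, b) => if j = l then 1 else ⁅A inc i j a, A inc i l b⁆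
  | .inr (.inl (i, k, j, a, b)) => if i = k then 1 else ⁅A inc i j a, A inc k j b⁆
  | .inr (.inr (.inl (i, a, b))) => ⁅rr inc i a, B inc b⁆
  | .inr (.inr (.inr (.inl (j, a, b)))) => ⁅cc inc j a, B inc b⁆
  | .inr (.inr (.inr (.inr (.inl (i, a))))) =>
      T P * rr inc i a * (T P)⁻¹ * (rr inc i a * B inc a)⁻¹
  | .inr (.inr (.inr (.inr (.inr (j, a))))) =>
      T P * cc inc j a * (T P)⁻¹ * (cc inc j a * B inc a)⁻¹

/-- the group `W(U)` -/
abbrev WG : Type := C P ⧸ Subgroup.normalClosure (Set.range (relf inc S))

/-- projection -/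
def q : C P →* WG inc S := QuotientGroup.mk' (Subgroup.normalClosure (Set.range (relf inc S)))

theorem q_rel (x : Ix S) : q inc S (relf inc S x) = 1 := by
  rw [← MonoidHom.mem_ker]
  unfold q
  rw [QuotientGroup.ker_mk']
  exact Subgroup.subset_normalClosure ⟨x, rfl⟩

variable {S} (hS : Subgroup.closure S = ⊤)
include hS

theorem w_row (i : Fin 3) (j l : Fin 4) (h : j ≠ l) (a b : U) :
    Commute ((q inc S).comp (A inc i j) a) ((q inc S).comp (A inc i l) b) := by
  revert a b
  apply Tor.hom_comm hS
  intro a ha b hb
  have := q_rel inc S (.inl (i, j, l, ⟨a, ha⟩, ⟨b, hb⟩))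
  simp only [relf] at this
  rw [if_neg h, map_commutatorElement] at this
  exact commutatorElement_eq_one_iff_commute.mp this

theorem w_col (i k : Fin 3) (j : Fin 4) (h : i ≠ k) (a b : U) :
    Commute ((q inc S).comp (A inc i j) a) ((q inc S).comp (A inc k j) b) := by
  revert a b
  apply Tor.hom_comm hS
  intro a ha b hb
  have := q_rel inc S (.inr (.inl (i, k, j, ⟨a, ha⟩, ⟨b, hb⟩)))
  simp only [relf] at this
  rw [if_neg h, map_commutatorElement] at this
  exact commutatorElement_eq_one_iff_commute.mp this

end

/-- row homomorphism -/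
def rowHom {U K : Type} [Group U] [Group K] (v : Fin 3 → Fin 4 → U →* K)
    (row : ∀ i j l, j ≠ l → ∀ a b, Commute (v i j a) (v i l b)) (i : Fin 3) : U →* K :=
  mulHom (mulHom (mulHom (v i 0) (v i 1) (row i 0 1 (by decide))) (v i 2)
    (fun a b => (row i 0 2 (by decide) a b).mul_left (row i 1 2 (by decide) a b))) (v i 3)
    (fun a b => ((row i 0 3 (by decide) a b).mul_left (row i 1 3 (by decide) a b)).mul_left
      (row i 2 3 (by decide) a b))

/-- column homomorphism -/
def colHom {U K : Type} [Group U] [Group K] (v : Fin 3 → Fin 4 → U →* K)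
    (col : ∀ i k j, i ≠ k → ∀ a b, Commute (v i j a) (v k j b)) (j : Fin 4) : U →* K :=
  mulHom (mulHom (v 0 j) (v 1 j) (col 0 1 j (by decide))) (v 2 j)
    (fun a b => (col 0 2 j (by decide) a b).mul_left (col 1 2 j (by decide) a b))

theorem rowHom_apply {U K : Type} [Group U] [Group K] (v : Fin 3 → Fin 4 → U →* K)
    (row : ∀ i j l, j ≠ l → ∀ a b, Commute (v i j a) (v i l b)) (i : Fin 3) (a : U) :
    rowHom v row i a = v i 0 a * v i 1 a * v i 2 a * v i 3 a := rfl

theorem colHom_apply {U K : Type} [Group U] [Group K] (v : Fin 3 → Fin 4 → U →* K)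
    (col : ∀ i k j, i ≠ k → ∀ a b, Commute (v i j a) (v k j b)) (j : Fin 4) (a : U) :
    colHom v col j a = v 0 j a * v 1 j a * v 2 j a := rfl

section

variable {U P : Type} [Group U] [Group P] (inc : Option (Fin 3 × Fin 4) → U →* P) {S : Set U}
  (hS : Subgroup.closure S = ⊤)

/-- `v i j` in `W(U)` -/
def wv (i : Fin 3) (j : Fin 4) : U →* WG inc S := (q inc S).comp (A inc i j)

/-- `β` in `W(U)` -/
def wb : U →* WG inc S := (q inc S).comp (B inc)

open scoped commutatorElement

include hS in
theorem w_rβ (i : Fin 3) (a b : U) :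
    Commute (rowHom (wv inc (S := S)) (w_row inc hS) i a) (wb inc (S := S) b) := by
  revert a b
  apply Tor.hom_comm hS
  intro a ha b hb
  have := q_rel inc S (.inr (.inr (.inl (i, ⟨a, ha⟩, ⟨b, hb⟩))))
  simp only [relf] at this
  rw [map_commutatorElement, commutatorElement_eq_one_iff_commute] at this
  rw [rowHom_apply]
  simp only [rr, map_mul] at this
  exact this

include hS in
theorem w_cβ (j : Fin 4) (a b : U) :
    Commute (colHom (wv inc (S := S)) (w_col inc hS) j a) (wb inc (S := S) b) := by
  revert a b
  apply Tor.hom_comm hS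
  intro a ha b hb
  have := q_rel inc S (.inr (.inr (.inr (.inl (j, ⟨a, ha⟩, ⟨b, hb⟩)))))
  simp only [relf] at this
  rw [map_commutatorElement, commutatorElement_eq_one_iff_commute] at this
  rw [colHom_apply]
  simp only [cc, map_mul] at this
  exact this

/-- the certificate in `W(U)` -/
def wRook : Rook U (WG inc S) where
  v := wv inc
  β := wb inc
  s := q inc S (T P)
  row := w_row inc hS
  col := w_col inc hS
  rβ := w_rβ inc hS
  cβ := w_cβ inc hS
  sr := by
    intro i a
    have := Tor.hom_eq hS
      (f := (MulAut.conj (q inc S (T P))).toMonoidHom.comp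
        (rowHom (wv inc (S := S)) (w_row inc hS) i))
      (g := mulHom (rowHom (wv inc (S := S)) (w_row inc hS) i) (wb inc) (w_rβ inc hS i)) (by
        intro a ha
        have := q_rel inc S (.inr (.inr (.inr (.inr (.inl (i, ⟨a, ha⟩))))))
        simp only [relf] at this
        rw [map_mul, map_inv, mul_inv_eq_one, map_mul, map_mul, map_mul, map_inv] at this
        exact this) a
    exact this
  sc := by
    intro j a
    have := Tor.hom_eq hS
      (f := (MulAut.conj (q inc S (T P))).toMonoidHom.comp
        (colHom (wv inc (S := S)) (w_col inc hS) j))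
      (g := mulHom (colHom (wv inc (S := S)) (w_col inc hS) j) (wb inc) (w_cβ inc hS j)) (by
        intro a ha
        have := q_rel inc S (.inr (.inr (.inr (.inr (.inr (j, ⟨a, ha⟩))))))
        simp only [relf] at this
        rw [map_mul, map_inv, mul_inv_eq_one, map_mul, map_mul, map_mul, map_inv] at this
        exact this) a
    exact this

theorem wRook_β : (wRook inc hS).β = wb inc := rfl

end

/-- **The group `W(U)`.**  Every finitely presented group `U` embeds in a finitely presented group
with a rook certificate. -/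
theorem exists_W (U : Type) [Group U] (hU : Group.IsFinitelyPresented U) :
    ∃ (K : Type) (_ : Group K) (R : Rook U K), Group.IsFinitelyPresented K ∧
      Function.Injective R.β := by
  obtain ⟨S, hSf, hS⟩ := Tor.exists_gen U hU
  obtain ⟨P, hP, inc, hfp, hl⟩ := exists_power U hU (Option (Fin 3 × Fin 4))
  have : Finite S := hSf
  refine ⟨WG inc S, inferInstance, wRook inc hS, ?_, ?_⟩
  · have : Group.IsFinitelyPresented (C P) := inferInstance
    exact Group.IsFinitelyPresented.quotient _ ⟨_, Set.finite_range _, rfl⟩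
  · let R := model U
    obtain ⟨g, hg⟩ := hl (Equiv.Perm (MX U)) (fun x => x.elim R.β (fun ij => R.v ij.1 ij.2))
    let L : C P →* Equiv.Perm (MX U) := Coprod.lift g (zpowersHom _ R.s)
    have hA : ∀ i j a, L (A inc i j a) = R.v i j a := by
      intro i j a
      change Coprod.lift g _ (Coprod.inl (inc (some (i, j)) a)) = _
      rw [Coprod.lift_apply_inl, hg]; rfl
    have hB : ∀ a, L (B inc a) = R.β a := by
      intro a
      change Coprod.lift g _ (Coprod.inl (inc none a)) = _
      rw [Coprod.lift_apply_inl, hg]; rfl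
    have hT : L (T P) = R.s := by
      change Coprod.lift g (zpowersHom _ R.s) (Coprod.inr (Multiplicative.ofAdd (1 : ℤ))) = _
      rw [Coprod.lift_apply_inr, zpowersHom_apply]; simp
    have hle : Subgroup.normalClosure (Set.range (relf inc S)) ≤ L.ker := by
      apply Subgroup.normalClosure_le_normal
      rintro _ ⟨x, rfl⟩
      change _ ∈ MonoidHom.ker _
      rw [MonoidHom.mem_ker]
      rcases x with ⟨i, j, l, a, b⟩ | ⟨i, k, j, a, b⟩ | ⟨i, a, b⟩ | ⟨j, a, b⟩ | ⟨i, a⟩ | ⟨j, a⟩
      · simp only [relf]
        split_ifs with h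
        · exact map_one _
        · rw [map_commutatorElement, commutatorElement_eq_one_iff_commute, hA, hA]
          exact R.row i j l h a b
      · simp only [relf]
        split_ifs with h
        · exact map_one _
        · rw [map_commutatorElement, commutatorElement_eq_one_iff_commute, hA, hA]
          exact R.col i k j h a b
      · simp only [relf]
        rw [map_commutatorElement, commutatorElement_eq_one_iff_commute]
        simp only [rr, map_mul, hA, hB]
        exact R.rβ i a b
      · simp only [relf]
        rw [map_commutatorElement, commutatorElement_eq_one_iff_commute]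
        simp only [cc, map_mul, hA, hB]
        exact R.cβ j a b
      · simp only [relf]
        rw [map_mul, map_inv, mul_inv_eq_one]
        simp only [rr, map_mul, hA, hB, map_inv, hT]
        exact R.sr i a
      · simp only [relf]
        rw [map_mul, map_inv, mul_inv_eq_one]
        simp only [cc, map_mul, hA, hB, map_inv, hT]
        exact R.sc j a
    intro a b hab
    rw [wRook_β] at hab
    apply bP_inj
    let F := QuotientGroup.lift (Subgroup.normalClosure (Set.range (relf inc S))) L
      (fun y hy => hle hy)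
    have hF : ∀ a, F (wb inc a) = R.β a := by
      intro a
      change QuotientGroup.lift _ L _ (QuotientGroup.mk' _ (B inc a)) = _
      rw [QuotientGroup.mk'_apply, QuotientGroup.lift_mk, hB]
    change R.β a = R.β b
    rw [← hF, ← hF, hab]

end Crest.Agent.R185.Wu
private theorem rz_ace70e27e4 : type_of% @_root_.Crest.Agent.R185.Wu.relf.eq_1 := @_root_.Crest.Agent.R185.Wu.relf.eq_1 -- L80
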